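import Vale.Agent.P297.H600.QTwin
import Vale.Agent.P297.Gen.H878.Global
import Mathlib.FieldTheory.IsAlgClosed.Classification

/-!
Stable relations in an algebraically closed field of larger transcendence degree.
-/

set_option linter.unusedSectionVars false
set_option linter.style.haveILetI false

open CategoryTheory AlgebraicGeometry IntermediateField Polynomial

namespace Vale.Agent.P297.H600

open Vale.Agent.P297 Vale.Agent.P297.H839 Vale.Agent.P297.H109 Vale.Agent.P297.H729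

section

variable {K T A Ω : Type} [Field K] [Algebra ℂ K] [Field T] [Algebra ℂ T] [Field A] [Algebra ℂ A]
  [Field Ω] [Algebra ℂ Ω]

/-- push forward of cycles of embeddings along an embedding of fields -/
noncomputable def push (j : A →ₐ[ℂ] Ω) : ((K →ₐ[ℂ] A) →₀ ℤ) →+ ((K →ₐ[ℂ] Ω) →₀ ℤ) :=
  Finsupp.mapDomain.addMonoidHom (fun φ : K →ₐ[ℂ] A => j.comp φ)

theorem push_apply (j : A →ₐ[ℂ] Ω) (v : (K →ₐ[ℂ] A) →₀ ℤ) :
    push j v = Finsupp.mapDomain (fun φ : K →ₐ[ℂ] A => j.comp φ) v := rfl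

theorem push_single (j : A →ₐ[ℂ] Ω) (φ : K →ₐ[ℂ] A) (n : ℤ) :
    push j (Finsupp.single φ n) = Finsupp.single (j.comp φ) n := by
  rw [push_apply, Finsupp.mapDomain_single]

theorem push_act (j : A →ₐ[ℂ] Ω) (g : A →ₐ[ℂ] A) (v : (K →ₐ[ℂ] A) →₀ ℤ) :
    push j (act g v) = push (j.comp g) v := by
  rw [push_apply, push_apply, act_apply, ← Finsupp.mapDomain_comp]
  rfl

theorem act_push (j : A →ₐ[ℂ] Ω) (g : Ω →ₐ[ℂ] Ω) (v : (K →ₐ[ℂ] A) →₀ ℤ) :
    act g (push j v) = push (g.comp j) v := by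
  rw [push_apply, push_apply, act_apply, ← Finsupp.mapDomain_comp]
  rfl

/-- two extensions of a homomorphism have the same image -/
theorem mem_range_big [IsAlgClosed A] (φ₀ : T →ₐ[ℂ] A)
    (h : ∀ y : A, IsAlgebraic φ₀.fieldRange y)
    (ψ ψ' : A →ₐ[ℂ] Ω) (hψ : ψ.comp φ₀ = ψ'.comp φ₀) (y : A) : ψ' y ∈ ψ.fieldRange := by
  obtain ⟨p, hp0, hp⟩ := exists_poly φ₀ h y
  have hp0' : p.map φ₀.toRingHom ≠ 0 := by
    rw [Ne, Polynomial.map_eq_zero]
    exact hp0
  have hs := IsAlgClosed.splits (p.map φ₀.toRingHom)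
  have h1 : (p.map φ₀.toRingHom).map ψ.toRingHom = (p.map φ₀.toRingHom).map ψ'.toRingHom := by
    rw [Polynomial.map_map, Polynomial.map_map]
    congr 1
    exact congrArg AlgHom.toRingHom hψ
  have h2 : ψ' y ∈ (((p.map φ₀.toRingHom).map ψ.toRingHom).roots) := by
    rw [Polynomial.mem_roots (by rw [Ne, Polynomial.map_eq_zero]; exact hp0'), IsRoot.def, h1]
    have h3 := congrArg ψ' hp
    rw [map_zero] at h3
    rw [← h3]
    exact Polynomial.eval_map_apply ψ'.toRingHom y
  rw [hs.roots_map] at h2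
  obtain ⟨z, -, hz⟩ := Multiset.mem_map.1 h2
  exact ⟨z, hz⟩

/-- two extensions of a homomorphism differ by an automorphism -/
theorem extension_unique_big [IsAlgClosed A] (φ₀ : T →ₐ[ℂ] A)
    (h : ∀ y : A, IsAlgebraic φ₀.fieldRange y)
    (ψ ψ' : A →ₐ[ℂ] Ω) (hψ : ψ.comp φ₀ = ψ'.comp φ₀) :
    ∃ g : A ≃ₐ[ℂ] A, (∀ a : T, g (φ₀ a) = φ₀ a) ∧ ψ' = ψ.comp g.toAlgHom := by
  have h1 : ψ'.fieldRange = ψ.fieldRange := by
    apply le_antisymm
    · rintro _ ⟨y, rfl⟩
      exact mem_range_big φ₀ h ψ ψ' hψ y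
    · rintro _ ⟨y, rfl⟩
      exact mem_range_big φ₀ h ψ' ψ hψ.symm y
  let e := AlgEquiv.ofInjectiveField ψ
  let e' := AlgEquiv.ofInjectiveField ψ'
  let c := IntermediateField.equivOfEq h1
  let g : A ≃ₐ[ℂ] A := (e'.trans c).trans e.symm
  have hg : ∀ y, ψ (g y) = ψ' y := by
    intro y
    exact congrArg Subtype.val (e.apply_symm_apply (c (e' y)))
  refine ⟨g, fun a => ?_, AlgHom.ext fun y => (hg y).symm⟩
  apply ψ.toRingHom.injective
  change ψ (g (φ₀ a)) = ψ (φ₀ a)
  rw [hg]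
  exact (DFunLike.congr_fun hψ a).symm

/-- **Transfer by a correspondence**, with values in a larger field. -/
theorem transfer_big [IsAlgClosed A] [IsAlgClosed Ω] (j : A →ₐ[ℂ] Ω) (φ₀ : T →ₐ[ℂ] A)
    (h : ∀ y : A, IsAlgebraic φ₀.fieldRange y) (r : ℤ)
    (hr : Finsupp.single (j.comp φ₀) r ∈ stableRelations T Ω) (v : (K →ₐ[ℂ] A) →₀ ℤ)
    (hv : ∀ g : A ≃ₐ[ℂ] A, (∀ a : T, g (φ₀ a) = φ₀ a) → act g.toAlgHom v = v) :
    r • push j v ∈ stableRelations K Ω := by
  classical
  choose ext hext using fun φ : T →ₐ[ℂ] Ω => exists_extension φ₀ h φ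
  -- independence of the extension
  have hind : ∀ ψ : A →ₐ[ℂ] Ω, push ψ v = push (ext (ψ.comp φ₀)) v := by
    intro ψ
    obtain ⟨g, hg, hgψ⟩ := extension_unique_big φ₀ h (ext (ψ.comp φ₀)) ψ (hext _)
    rw [hgψ, ← push_act, hv g hg]
    congr 2
    rw [← hgψ]
  let Z : ((T →ₐ[ℂ] Ω) →₀ ℤ) →+ ((K →ₐ[ℂ] Ω) →₀ ℤ) :=
    Finsupp.liftAddHom (fun φ => (zmultiplesHom _) (push (ext φ) v))
  have hZ1 : ∀ φ n, Z (Finsupp.single φ n) = n • push (ext φ) v := by
    intro φ n
    change Finsupp.liftAddHom (fun φ => (zmultiplesHom _) (push (ext φ) v)) (Finsupp.single φ n) = _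
    rw [Finsupp.liftAddHom_apply_single]
    rfl
  have hZact : ∀ (g : Ω ≃ₐ[ℂ] Ω) (u : (T →ₐ[ℂ] Ω) →₀ ℤ),
      Z (act g.toAlgHom u) = act g.toAlgHom (Z u) := by
    intro g u
    induction u using Finsupp.induction_linear with
    | zero => rw [map_zero, map_zero, map_zero]
    | add u w hu hw => rw [map_add, map_add, map_add, map_add, hu, hw]
    | single φ n =>
      rw [act_single, hZ1, hZ1, map_zsmul, act_push]
      congr 1
      rw [hind (g.toAlgHom.comp (ext φ))]
      congr 2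
      rw [AlgHom.comp_assoc, hext]
  have hZmem : ∀ u ∈ stableRelations T Ω, Z u ∈ stableRelations K Ω := by
    intro u hu
    unfold stableRelations at hu
    induction hu using AddSubgroup.closure_induction with
    | mem u hu =>
      obtain ⟨L, hLr, hLa, hu⟩ := hu
      refine stable_of_fixed L hLr hLa _ fun g hg => ?_
      rw [← hZact]
      congr 1
      exact hu g hg
    | zero =>
      rw [map_zero]
      exact AddSubgroup.zero_mem _
    | add v w _ _ h1 h2 =>
      rw [map_add]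
      exact AddSubgroup.add_mem _ h1 h2
    | neg v _ h1 =>
      rw [map_neg]
      exact AddSubgroup.neg_mem _ h1
  have h1 := hZmem _ hr
  rw [hZ1, ← hind] at h1
  exact h1

/-- automorphisms extend to a larger algebraically closed field -/
theorem exists_aut_extension [IsAlgClosed Ω] (j : A →ₐ[ℂ] Ω) (g : A ≃ₐ[ℂ] A) :
    ∃ g' : Ω ≃ₐ[ℂ] Ω, g'.toAlgHom.comp j = j.comp g.toAlgHom := by
  letI : Algebra A Ω := j.toRingHom.toAlgebra
  haveI : IsScalarTower ℂ A Ω := IsScalarTower.of_algebraMap_eq fun c => (j.commutes c).symm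
  obtain ⟨s, hs⟩ := exists_isTranscendenceBasis A Ω
  letI := IsAlgClosed.isAlgClosure_of_transcendence_basis _ hs
  let e : Algebra.adjoin A (Set.range ((↑) : s → Ω)) ≃+*
      Algebra.adjoin A (Set.range ((↑) : s → Ω)) :=
    (hs.1.aevalEquiv.symm.toRingEquiv.trans
      (MvPolynomial.mapEquiv s g.toRingEquiv)).trans hs.1.aevalEquiv.toRingEquiv
  have he : ∀ a : A, e (algebraMap A _ a) = algebraMap A _ (g a) := by
    intro a
    change hs.1.aevalEquiv (MvPolynomial.mapEquiv s g.toRingEquiv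
      (hs.1.aevalEquiv.symm (algebraMap A _ a))) = _
    rw [AlgEquiv.commutes]
    have h1 : MvPolynomial.mapEquiv s g.toRingEquiv (algebraMap A (MvPolynomial s A) a) =
        algebraMap A (MvPolynomial s A) (g a) := by
      rw [MvPolynomial.algebraMap_eq]
      exact MvPolynomial.map_C _ _
    rw [h1, AlgEquiv.commutes]
  let g₁ : Ω ≃+* Ω := IsAlgClosure.equivOfEquiv Ω Ω e
  have hg₁ : ∀ a : A, g₁ (j a) = j (g a) := by
    intro a
    have h1 := IsAlgClosure.equivOfEquiv_algebraMap Ω Ω e (algebraMap A _ a)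
    rw [he] at h1
    exact h1
  refine ⟨AlgEquiv.ofRingEquiv (f := g₁) fun c => ?_, AlgHom.ext fun a => hg₁ a⟩
  have h1 := hg₁ (algebraMap ℂ A c)
  rw [j.commutes, g.commutes, j.commutes] at h1
  exact h1

/-- stable relations stay stable in a larger field of finite transcendence degree -/
theorem push_stable [IsAlgClosed A] [IsAlgClosed Ω] [Algebra A Ω] [IsScalarTower ℂ A Ω]
    {k : ℕ} (t : Fin k → Ω) (ht : IsTranscendenceBasis A t) {v : (K →ₐ[ℂ] A) →₀ ℤ}
    (hv : v ∈ stableRelations K A) :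
    push (IsScalarTower.toAlgHom ℂ A Ω) v ∈ stableRelations K Ω := by
  unfold stableRelations at hv
  induction hv using AddSubgroup.closure_induction with
  | mem v hv =>
    obtain ⟨L, ⟨d, x, hx, hLx⟩, hLa, hv⟩ := hv
    have hxb : IsTranscendenceBasis ℂ x := by
      rw [isTranscendenceBasis_iff_algebraicIndependent_isAlgebraic]
      refine ⟨hx, ?_⟩
      rw [← IntermediateField.isAlgebraic_adjoin_iff_top, ← hLx]
      exact hLa
    have hb := hxb.sumElim_comp ht
    let e : Fin (k + d) ≃ Fin k ⊕ Fin d := finSumFinEquiv.symm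
    let y : Fin (k + d) → Ω := Sum.elim t (algebraMap A Ω ∘ x) ∘ e
    have hy : AlgebraicIndependent ℂ y := hb.1.comp e e.injective
    have hyr : Set.range y = Set.range (Sum.elim t (algebraMap A Ω ∘ x)) := by
      exact e.surjective.range_comp _
    refine stable_of_fixed (IntermediateField.adjoin ℂ (Set.range y)) ⟨k + d, y, hy, rfl⟩ ?_ _ ?_
    · rw [hyr]
      exact hb.isAlgebraic_field
    · intro g hg
      have hgL : ∀ a ∈ L, g (algebraMap A Ω a) = algebraMap A Ω a := by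
        intro a ha
        apply hg
        have h1 : L.map (IsScalarTower.toAlgHom ℂ A Ω) ≤ IntermediateField.adjoin ℂ (Set.range y) := by
          rw [hLx, IntermediateField.adjoin_map]
          apply IntermediateField.adjoin.mono
          rw [hyr]
          rintro _ ⟨_, ⟨i, rfl⟩, rfl⟩
          exact ⟨Sum.inr i, rfl⟩
        exact h1 ⟨a, ha, rfl⟩
      obtain ⟨g₀, hg₀, hg₀'⟩ := extension_unique_big (Ω := Ω) L.val
        (by
          rw [IntermediateField.fieldRange_val]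
          exact fun y => hLa.isAlgebraic y)
        (IsScalarTower.toAlgHom ℂ A Ω) (g.toAlgHom.comp (IsScalarTower.toAlgHom ℂ A Ω))
        (AlgHom.ext fun a => (hgL a a.2).symm)
      rw [act_push, hg₀', ← push_act]
      congr 1
      exact hv g₀ fun x hx => hg₀ ⟨x, hx⟩
  | zero =>
    rw [map_zero]
    exact AddSubgroup.zero_mem _
  | add v w _ _ h1 h2 =>
    rw [map_add]
    exact AddSubgroup.add_mem _ h1 h2
  | neg v _ h1 =>
    rw [map_neg]
    exact AddSubgroup.neg_mem _ h1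

/-- relations in the larger field are preserved by automorphisms of the small field -/
theorem push_act_mem [IsAlgClosed Ω] (j : A →ₐ[ℂ] Ω) (g : A ≃ₐ[ℂ] A) {v : (K →ₐ[ℂ] A) →₀ ℤ}
    (hv : push j v ∈ stableRelations K Ω) : push j (act g.toAlgHom v) ∈ stableRelations K Ω := by
  obtain ⟨g', hg'⟩ := exists_aut_extension j g
  rw [push_act, ← hg', ← act_push]
  exact act_mem g' hv

variable {F : IntermediateField ℂ A} {m : K →ₐ[ℂ] A} {θ : A}

/-- **Twin principle, stable form, larger field.** -/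
theorem quartic_stable_big [IsAlgClosed A] [IsAlgClosed Ω] [Algebra A Ω] [IsScalarTower ℂ A Ω]
    {k : ℕ} (t : Fin k → Ω) (ht : IsTranscendenceBasis A t)
    (hF : Algebra.IsAlgebraic F A) (p n ζ : A)
    (hp : p ∈ F) (hn : n ∈ F) (hθ : θ ^ 4 - 2 * p * θ ^ 2 + n = 0)
    (hζ : (2 * ζ ^ 2 - p) ^ 2 = n) (hsq : ∀ a ∈ F, a ^ 2 ≠ n)
    (hm : m.fieldRange = F ⊔ IntermediateField.adjoin ℂ {θ}) (r : ℤ) (φ₀ : T →ₐ[ℂ] A)
    (hT : φ₀.fieldRange = F ⊔ IntermediateField.adjoin ℂ {ζ})
    (h1 : Finsupp.single ((IsScalarTower.toAlgHom ℂ A Ω).comp φ₀) r ∈ stableRelations T Ω)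
    (h2 : IsRational (F ⊔ IntermediateField.adjoin ℂ {θ ^ 2})) :
    Finsupp.single ((IsScalarTower.toAlgHom ℂ A Ω).comp m) (2 * r) ∈ stableRelations K Ω := by
  haveI : CharZero A := charZero_of_injective_algebraMap (algebraMap ℂ A).injective
  set J := IsScalarTower.toAlgHom ℂ A Ω with hJ
  have hn0 : n ≠ 0 := fun h => hsq 0 F.zero_mem (by rw [h]; ring)
  have hθ0 : θ ≠ 0 := by
    rintro rfl
    apply hn0
    linear_combination hθ
  set g₀ : A := 2 * ζ ^ 2 - p with hg₀
  have hgF : g₀ ∉ F := fun h => hsq g₀ h hζ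
  have hg0 : g₀ ≠ 0 := by
    intro h
    apply hn0
    rw [← hζ, h]
    ring
  have hgθ : (g₀ / θ) ^ 2 = 2 * p - θ ^ 2 := by
    rw [div_pow, hζ, div_eq_iff (pow_ne_zero 2 hθ0)]
    linear_combination hθ
  have hgθ' : θ * (g₀ / θ) = g₀ := mul_div_cancel₀ _ hθ0
  have two : Finsupp.single (J.comp m) (2 * r) =
      (2 * r) • push J (Finsupp.single m (1 : ℤ)) := by
    rw [push_single, Finsupp.smul_single, smul_eq_mul, mul_one]
  -- the rational quotient
  have hE1 : F ≤ F ⊔ IntermediateField.adjoin ℂ {θ ^ 2} := le_sup_left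
  rcases pair_fixed hm (F ⊔ IntermediateField.adjoin ℂ {θ ^ 2}) (isAlgebraic_mono hE1 hF) hE1 (-θ)
    (by rw [add_neg_cancel]; exact zero_mem _)
    (by
      have h3 : θ * -θ = -(θ ^ 2) := by ring
      rw [h3]
      exact neg_mem (mem_sup_adjoin F _)) with k1 | ⟨j₁, hj₁, hjθ₁, k1⟩
  · rw [two]
    exact AddSubgroup.zsmul_mem _ (push_stable t ht
      (stable_of_fixed _ h2 (isAlgebraic_mono hE1 hF) _ k1)) _
  have R1' := stable_of_fixed _ h2 (isAlgebraic_mono hE1 hF) _ k1
  have R1 := push_stable t ht R1'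
  -- the twin
  have hE2 : F ≤ F ⊔ IntermediateField.adjoin ℂ {ζ} := le_sup_left
  have hζm : ζ ∈ F ⊔ IntermediateField.adjoin ℂ {ζ} := mem_sup_adjoin F ζ
  have hgm : g₀ ∈ F ⊔ IntermediateField.adjoin ℂ {ζ} := by
    rw [hg₀]
    exact sub_mem (mul_mem (ofNat_mem _ 2) (pow_mem hζm 2)) (hE2 hp)
  have hzζ : θ + g₀ / θ = 2 * ζ ∨ θ + g₀ / θ = -(2 * ζ) := by
    apply sq_eq_sq_iff_eq_or_eq_neg.1
    have h3 : (θ + g₀ / θ) ^ 2 = θ ^ 2 + (g₀ / θ) ^ 2 + 2 * (θ * (g₀ / θ)) := by ring
    rw [h3, hgθ, hgθ', hg₀]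
    ring
  have halg2 : ∀ y : A, IsAlgebraic φ₀.fieldRange y := by
    rw [hT]
    exact fun y => (isAlgebraic_mono hE2 hF).isAlgebraic y
  have hfix2 : ∀ g : A ≃ₐ[ℂ] A, (∀ a : T, g (φ₀ a) = φ₀ a) →
      Fixes (F ⊔ IntermediateField.adjoin ℂ {ζ}) g := by
    intro g hg x hx
    rw [← hT] at hx
    obtain ⟨a, rfl⟩ := hx
    exact hg a
  rcases pair_fixed hm (F ⊔ IntermediateField.adjoin ℂ {ζ}) (isAlgebraic_mono hE2 hF) hE2 (g₀ / θ)
    (by
      rcases hzζ with h | h
      · rw [h]; exact mul_mem (ofNat_mem _ 2) hζm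
      · rw [h]; exact neg_mem (mul_mem (ofNat_mem _ 2) hζm))
    (by rw [hgθ']; exact hgm) with k2 | ⟨j₂, hj₂, hjθ₂, k2⟩
  · have R2 := transfer_big J φ₀ halg2 r h1 _ (fun g hg => k2 g (hfix2 g hg))
    rw [two, mul_smul]
    exact AddSubgroup.zsmul_mem _ R2 _
  have R2 := transfer_big J φ₀ halg2 r h1 _ (fun g hg => k2 g (hfix2 g hg))
  -- the conjugate twin
  obtain ⟨γ, hγ, hγg⟩ := exists_conj F hF g₀ (-g₀) (by rw [add_neg_cancel]; exact zero_mem _)
    (by
      have h3 : g₀ * -g₀ = -n := by rw [← hζ]; ring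
      rw [h3]
      exact neg_mem hn) hgF
  have R3 := push_stable t ht (act_mem j₂ R1')
  rw [← map_zsmul] at R2
  have R4 := push_act_mem J γ R2
  rw [map_add, act_single, act_single, map_add] at R3
  rw [map_zsmul, map_add, act_single, act_single, map_zsmul, map_add] at R4
  rw [map_zsmul, map_add] at R2
  rw [map_add] at R1
  have e1 := IsEmb.self (F := F) (m := m) (θ := θ)
  have e2 := e1.act (hj₁.mono hE1)
  rw [hjθ₁] at e2
  have e3 := e1.act (hj₂.mono hE2)
  rw [hjθ₂] at e3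
  have e4 := e2.act (hj₂.mono hE2)
  rw [map_neg, hjθ₂] at e4
  have f1 := e1.act hγ
  have f2 := e3.act hγ
  rw [map_div₀, hγg] at f2
  have hroot : (γ θ ^ 2 - θ ^ 2) * (γ θ ^ 2 - (g₀ / θ) ^ 2) = 0 := by
    have h3 := congrArg γ hθ
    simp only [map_add, map_sub, map_mul, map_pow, map_ofNat, map_zero, hγ p hp, hγ n hn] at h3
    rw [hgθ]
    linear_combination h3 - hθ
  have final : ∀ a b c d : (K →ₐ[ℂ] Ω) →₀ ℤ, a + b ∈ stableRelations K Ω →
      r • (a + c) ∈ stableRelations K Ω → c + d ∈ stableRelations K Ω →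
      (r • (a + d) ∈ stableRelations K Ω ∨ r • (b + c) ∈ stableRelations K Ω) →
      (2 * r) • a ∈ stableRelations K Ω := by
    intro a b c d hab hac hcd h
    rcases h with h | h
    · have h3 : (2 * r) • a = r • (a + c) + r • (a + d) - r • (c + d) := by
        rw [mul_smul, two_smul]
        simp only [smul_add]
        abel
      rw [h3]
      exact sub_mem (add_mem hac h) (AddSubgroup.zsmul_mem _ hcd _)
    · have h3 : (2 * r) • a = r • (a + c) - r • (b + c) + r • (a + b) := by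
        rw [mul_smul, two_smul]
        simp only [smul_add]
        abel
      rw [h3]
      exact add_mem (sub_mem hac h) (AddSubgroup.zsmul_mem _ hab _)
  rw [two]
  refine final _ _ _ _ R1 R2 R3 ?_
  rcases mul_eq_zero.1 hroot with h | h
  · rcases sq_eq_sq_iff_eq_or_eq_neg.1 (sub_eq_zero.1 h) with h5 | h5
    · rw [h5] at f1 f2
      have h6 : -g₀ / θ = -(g₀ / θ) := neg_div _ _
      rw [h6] at f2
      rw [f1.uniq hm e1, f2.uniq hm e4] at R4
      exact Or.inl R4
    · rw [h5] at f1 f2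
      have h6 : -g₀ / -θ = g₀ / θ := neg_div_neg_eq _ _
      rw [h6] at f2
      rw [f1.uniq hm e2, f2.uniq hm e3] at R4
      exact Or.inr R4
  · rcases sq_eq_sq_iff_eq_or_eq_neg.1 (sub_eq_zero.1 h) with h5 | h5
    · rw [h5] at f1 f2
      have h6 : -g₀ / (g₀ / θ) = -θ := by
        field_simp
      rw [h6] at f2
      rw [f1.uniq hm e3, f2.uniq hm e2, add_comm] at R4
      exact Or.inr R4
    · rw [h5] at f1 f2
      have h6 : -g₀ / -(g₀ / θ) = θ := by
        field_simp
      rw [h6] at f2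
      rw [f1.uniq hm e4, f2.uniq hm e1, add_comm] at R4
      exact Or.inl R4

/-- **Criterion** for an algebraically closed field that need not be algebraic over `K`. -/
theorem criterion_big [IsAlgClosed Ω] (m : K →ₐ[ℂ] Ω) (n : ℤ)
    (hn : Finsupp.single m n ∈ stableRelations K Ω)
    {S : Scheme.{0}} [IsIntegral S] (f : S ⟶ Spec (.of ℂ)) [IsProper f]
    (hS : IsFunctionFieldOf f K) (x y : ClosedPt S) :
    n • (Finsupp.single x (1 : ℤ) - Finsupp.single y 1) ∈ Rat f := by
  obtain ⟨U, hU, hne, hi⟩ := exists_chart f hS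
  letI := chartAlg f hU
  haveI := chart_finiteType f hU
  obtain ⟨i, hi, hfrac⟩ := hi
  have hm : Function.Injective m := m.toRingHom.injective
  refine Gen.global_of_good' f hU n (Rat f) le_rfl (m.comp i) (hm.comp hi) ?_ x y
  have h1 := good_of_stable (f := f) (j := hU.fromSpec) (hj := chart_hj f hU) hn i
  rw [Finsupp.mapDomain_single] at h1
  exact h1

end

section

/-- the algebraic closure of the field of rational functions in `k` variables -/
abbrev BigField (A : Type) [Field A] (k : ℕ) : Type :=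
  AlgebraicClosure (FractionRing (MvPolynomial (Fin k) A))

/-- the variables -/
noncomputable def bigVar (A : Type) [Field A] (k : ℕ) (i : Fin k) : BigField A k :=
  algebraMap (MvPolynomial (Fin k) A) (BigField A k) (MvPolynomial.X i)

theorem bigVar_basis (A : Type) [Field A] (k : ℕ) : IsTranscendenceBasis A (bigVar A k) := by
  have h1 := IsTranscendenceBasis.mvPolynomial (Fin k) A
  haveI : Algebra.IsAlgebraic (MvPolynomial (Fin k) A) (FractionRing (MvPolynomial (Fin k) A)) :=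
    IsLocalization.isAlgebraic _ (nonZeroDivisors (MvPolynomial (Fin k) A))
  haveI : Algebra.IsAlgebraic (MvPolynomial (Fin k) A) (BigField A k) :=
    Algebra.IsAlgebraic.trans _ (FractionRing (MvPolynomial (Fin k) A)) (BigField A k)
  haveI : FaithfulSMul (MvPolynomial (Fin k) A) (BigField A k) := by
    rw [faithfulSMul_iff_algebraMap_injective,
      IsScalarTower.algebraMap_eq (MvPolynomial (Fin k) A)
        (FractionRing (MvPolynomial (Fin k) A)) (BigField A k)]
    exact (algebraMap (FractionRing (MvPolynomial (Fin k) A)) (BigField A k)).injective.comp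
      (IsFractionRing.injective (MvPolynomial (Fin k) A) _)
  exact h1.algebraMap_comp

end

end Vale.Agent.P297.H600
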