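import Vale.Agent.P297.H109.Conic
import Vale.Agent.P297.H109.TwinDefs
import Mathlib.FieldTheory.IsAlgClosed.AlgebraicClosure

/-!
Twins of a quartic extension `K = L(θ)`, `θ⁴ - 2 p θ² + n = 0`: if `L(θ²)` is rational and the
field `L(ζ)`, `(2 ζ² - p)² = n`, is rational, then all points on all proper models of `K` are
rationally equivalent.
-/

set_option linter.unusedSectionVars false
set_option linter.style.haveILetI false

open CategoryTheory AlgebraicGeometry IntermediateField Polynomial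

namespace Vale.Agent.P297.H600

open Vale.Agent.P297 Vale.Agent.P297.H839 Vale.Agent.P297.H109

/-- transport of the property along an isomorphism -/
theorem pointsEquivalent_of_equiv {K K' : Type} [Field K] [Algebra ℂ K] [Field K'] [Algebra ℂ K']
    (e : K ≃ₐ[ℂ] K') (h : PointsEquivalent K') : PointsEquivalent K := by
  rintro S _ f _ ⟨g, hg⟩ x y
  refine h S f ⟨g.trans e.toRingEquiv, fun a => ?_⟩ x y
  change e (g _) = _
  rw [hg a]
  exact e.commutes a

/-- the image of a rational field is rational -/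
theorem isRational_map {N E : Type} [Field N] [Algebra ℂ N] [Field E] [Algebra ℂ E]
    (m : E →ₐ[ℂ] N) (F : IntermediateField ℂ E) (h : IsRational F) : IsRational (F.map m) := by
  obtain ⟨d, x, hx, rfl⟩ := h
  refine ⟨d, m ∘ x, hx.map' m.toRingHom.injective, ?_⟩
  rw [IntermediateField.adjoin_map, ← Set.range_comp]

theorem mem_sup_adjoin {N : Type} [Field N] [Algebra ℂ N] (F : IntermediateField ℂ N) (y : N) :
    y ∈ F ⊔ IntermediateField.adjoin ℂ {y} :=
  (le_sup_right : IntermediateField.adjoin ℂ {y} ≤ _) (IntermediateField.mem_adjoin_simple_self ℂ _)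

theorem sup_adjoin_le {N : Type} [Field N] [Algebra ℂ N] {F G : IntermediateField ℂ N} {y : N}
    (hF : F ≤ G) (hy : y ∈ G) : F ⊔ IntermediateField.adjoin ℂ {y} ≤ G := by
  refine sup_le hF ?_
  rw [IntermediateField.adjoin_le_iff]
  rintro _ rfl
  exact hy

/-- the involution of a quadratic extension, with its fixed field -/
theorem exists_quad_involution {N : Type} [Field N] [Algebra ℂ N] (F : IntermediateField ℂ N)
    (g : N) (hg : g ^ 2 ∈ F) (hgF : g ∉ F) (B : IntermediateField ℂ N)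
    (hB : (F ⊔ IntermediateField.adjoin ℂ {g} : IntermediateField ℂ N) = B) (hFB : F ≤ B)
    (hgB : g ∈ B) :
    ∃ σ : B ≃ₐ[ℂ] B,
      (∀ c, σ (σ c) = c) ∧ (∀ a (ha : a ∈ F), (σ ⟨a, hFB ha⟩ : N) = a) ∧
      (σ ⟨g, hgB⟩ : N) = -g ∧
      (IntermediateField.fixedField (Subgroup.zpowers σ)).map B.val = F := by
  let F' : IntermediateField ℂ B := F.comap B.val
  let y : B := ⟨g, hgB⟩
  have hmap : F'.map B.val = F := by
    ext a
    constructor
    · rintro ⟨c, hc, rfl⟩
      exact hc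
    · intro ha
      exact ⟨⟨a, hFB ha⟩, ha, rfl⟩
  have hy : y ^ 2 ∈ F' := hg
  have hyF : y ∉ F' := hgF
  have htop : F' ⊔ IntermediateField.adjoin ℂ {y} = ⊤ := by
    apply IntermediateField.map_injective B.val
    rw [IntermediateField.map_sup, hmap, map_adjoin_single B.val y g rfl, hB,
      ← AlgHom.fieldRange_eq_map, IntermediateField.fieldRange_val]
  have htop' := adjoin_union_singleton F' y htop
  have hspan := exists_quad F' y hy _ (by
      rintro a (ha | ha)
      · exact Or.inl ha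
      · exact Or.inr ha) htop'
  obtain ⟨σ, hσF, hσy, hσσ, hfix⟩ := exists_quad_aut F' y hy hyF hspan
  refine ⟨σ, hσσ, fun a ha => ?_, ?_, ?_⟩
  · rw [hσF ⟨a, hFB ha⟩ ha]
  · have h1 : σ ⟨g, hgB⟩ = -y := hσy
    rw [h1]
    rfl
  · have h1 : IntermediateField.fixedField (Subgroup.zpowers σ) = F' := by
      apply le_antisymm
      · intro a ha
        exact hfix a (fixed_of_mem ha)
      · intro a ha
        exact mem_fixed (hσF a ha)
    rw [h1, hmap]

/-- **Quartic twins**: both fields inside one field `N`. -/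
theorem quartic_twin_aux {N K : Type} [Field N] [Algebra ℂ N] [Field K] [Algebra ℂ K]
    (F : IntermediateField ℂ N) (p n θ ζ : N) (hp : p ∈ F) (hn : n ∈ F)
    (hθ : θ ^ 4 - 2 * p * θ ^ 2 + n = 0) (hζ : (2 * ζ ^ 2 - p) ^ 2 = n)
    (hsq : ∀ a ∈ F, a ^ 2 ≠ n) (m : K →ₐ[ℂ] N)
    (hm : m.fieldRange = F ⊔ IntermediateField.adjoin ℂ {θ})
    (h1 : IsRational (F ⊔ IntermediateField.adjoin ℂ {ζ}))
    (h2 : IsRational (F ⊔ IntermediateField.adjoin ℂ {θ ^ 2})) : PointsEquivalent K := by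
  haveI : CharZero N := charZero_of_injective_algebraMap (algebraMap ℂ N).injective
  have hn0 : n ≠ 0 := fun h => hsq 0 F.zero_mem (by rw [h]; ring)
  have hθ0 : θ ≠ 0 := by
    rintro rfl
    apply hn0
    linear_combination hθ
  set g : N := 2 * ζ ^ 2 - p with hg
  have hgF : g ∉ F := fun h => hsq g h hζ
  have hg2 : g ^ 2 ∈ F := by rw [hζ]; exact hn
  obtain ⟨B, hB⟩ : ∃ B : IntermediateField ℂ N, F ⊔ IntermediateField.adjoin ℂ {g} = B := ⟨_, rfl⟩
  have hFB : F ≤ B := by rw [← hB]; exact le_sup_left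
  have hgB : g ∈ B := by rw [← hB]; exact mem_sup_adjoin F g
  obtain ⟨σ, hσσ, hσF, hσg, hfix⟩ := exists_quad_involution F g hg2 hgF B hB hFB hgB
  set z : N := (θ + g / θ) / 2 with hz
  set w : N := (θ - g / θ) / 2 with hw
  have hgθ : (g / θ) ^ 2 = 2 * p - θ ^ 2 := by
    rw [div_pow, hζ, div_eq_iff (pow_ne_zero 2 hθ0)]
    linear_combination hθ
  have hgθ' : θ * (g / θ) = g := mul_div_cancel₀ _ hθ0
  have hz2 : z ^ 2 = (p + g) / 2 := by
    have h3 : z ^ 2 = (θ ^ 2 + (g / θ) ^ 2 + 2 * (θ * (g / θ))) / 4 := by rw [hz]; ring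
    rw [h3, hgθ, hgθ']
    ring
  have hw2 : w ^ 2 = (p - g) / 2 := by
    have h3 : w ^ 2 = (θ ^ 2 + (g / θ) ^ 2 - 2 * (θ * (g / θ))) / 4 := by rw [hw]; ring
    rw [h3, hgθ, hgθ']
    ring
  have hzw : z * w = (θ ^ 2 - p) / 2 := by
    have h3 : z * w = (θ ^ 2 - (g / θ) ^ 2) / 4 := by rw [hz, hw]; ring
    rw [h3, hgθ]
    ring
  have hzw' : z + w = θ := by rw [hz, hw]; ring
  have hzζ : z = ζ ∨ z = -ζ := by
    apply sq_eq_sq_iff_eq_or_eq_neg.1
    rw [hz2, hg]
    ring
  have hbB : (p + g) / 2 ∈ B := div_mem (add_mem (hFB hp) hgB) (ofNat_mem B 2)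
  have hσb : (σ ⟨(p + g) / 2, hbB⟩ : N) = (p - g) / 2 := by
    have h3 : (⟨(p + g) / 2, hbB⟩ : B) = (⟨p, hFB hp⟩ + ⟨g, hgB⟩) / 2 := by
      apply Subtype.ext
      push_cast
      rfl
    have h5 : (((σ ⟨p, hFB hp⟩ + σ ⟨g, hgB⟩) / 2 : B) : N) =
        ((σ ⟨p, hFB hp⟩ : N) + (σ ⟨g, hgB⟩ : N)) / 2 := by
      push_cast
      rfl
    rw [h3, map_div₀, map_add, map_ofNat, h5, hσF p hp, hσg]
    ring
  have hBr : B.val.fieldRange = B := IntermediateField.fieldRange_val B
  have hK : m.fieldRange = (IntermediateField.fixedField (Subgroup.zpowers σ)).map B.val ⊔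
      IntermediateField.adjoin ℂ {z + w} := by
    rw [hm, hfix, hzw']
  let e : K ≃ₐ[ℂ] m.fieldRange := AlgEquiv.ofInjectiveField m
  refine pointsEquivalent_of_equiv e ?_
  intro S _ f _ hS x y
  rw [hK] at hS
  refine twins B.val σ hσσ ⟨(p + g) / 2, hbB⟩ z w hz2 ?_ ?_ ?_ f hS x y
  · rw [hw2]
    exact hσb.symm
  · have h3 : B.val.fieldRange ⊔ IntermediateField.adjoin ℂ {z} =
        F ⊔ IntermediateField.adjoin ℂ {ζ} := by
      rw [hBr]
      have hFle : F ≤ F ⊔ IntermediateField.adjoin ℂ {ζ} := le_sup_left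
      have hζm : ζ ∈ F ⊔ IntermediateField.adjoin ℂ {ζ} := mem_sup_adjoin F ζ
      apply le_antisymm
      · rw [← hB]
        refine sup_adjoin_le (sup_adjoin_le hFle ?_) ?_
        · rw [hg]
          exact sub_mem (mul_mem (ofNat_mem _ 2) (pow_mem hζm 2)) (hFle hp)
        · rcases hzζ with h | h
          · rw [h]; exact hζm
          · rw [h]; exact neg_mem hζm
      · refine sup_adjoin_le (hFB.trans le_sup_left) ?_
        rcases hzζ with h | h
        · rw [← h]; exact mem_sup_adjoin B z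
        · have h4 : ζ = -z := by rw [h, neg_neg]
          rw [h4]; exact neg_mem (mem_sup_adjoin B z)
    rw [h3]
    exact h1
  · rw [hfix]
    have h3 : F ⊔ IntermediateField.adjoin ℂ {z * w} =
        F ⊔ IntermediateField.adjoin ℂ {θ ^ 2} := by
      have hFle : F ≤ F ⊔ IntermediateField.adjoin ℂ {θ ^ 2} := le_sup_left
      have hFle' : F ≤ F ⊔ IntermediateField.adjoin ℂ {z * w} := le_sup_left
      apply le_antisymm
      · refine sup_adjoin_le hFle ?_
        rw [hzw]
        exact div_mem (sub_mem (mem_sup_adjoin F _) (hFle hp)) (ofNat_mem _ 2)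
      · refine sup_adjoin_le hFle' ?_
        have h4 : θ ^ 2 = 2 * (z * w) + p := by rw [hzw]; ring
        rw [h4]
        exact add_mem (mul_mem (ofNat_mem _ 2) (mem_sup_adjoin F _)) (hFle' hp)
    rw [h3]
    exact h2

/-- **Quartic twins**, with the twin field in another field `T`. -/
theorem quartic_twin {K T : Type} [Field K] [Algebra ℂ K] [Field T] [Algebra ℂ T]
    (L : IntermediateField ℂ K) (p n : L) (θ : K) (φ : L →ₐ[ℂ] T) (ζ : T)
    (hθ : θ ^ 4 - 2 * p * θ ^ 2 + n = 0) (htop : L ⊔ IntermediateField.adjoin ℂ {θ} = ⊤)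
    (hζ : (2 * ζ ^ 2 - φ p) ^ 2 = φ n) (hsq : ∀ a : L, a ^ 2 ≠ n)
    (h1 : IsRational (φ.fieldRange ⊔ IntermediateField.adjoin ℂ {ζ}))
    (h2 : IsRational (L ⊔ IntermediateField.adjoin ℂ {θ ^ 2})) : PointsEquivalent K := by
  let Ω := AlgebraicClosure T
  let j : T →ₐ[ℂ] Ω := IsScalarTower.toAlgHom ℂ T Ω
  let ψ : L →ₐ[ℂ] Ω := j.comp φ
  letI : Algebra L Ω := ψ.toRingHom.toAlgebra
  haveI : IsScalarTower ℂ L Ω := IsScalarTower.of_algebraMap_eq fun c => (ψ.commutes c).symm
  have halg : Algebra.IsAlgebraic L K := by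
    refine ⟨fun y => ?_⟩
    refine isAlgebraic_of_gens L ((L : Set K) ∪ {θ}) (adjoin_union_singleton L θ htop) ?_ y
    rintro a (ha | ha)
    · exact isAlgebraic_mem _ _ ha
    · rw [Set.mem_singleton_iff.1 ha]
      refine ⟨X ^ 4 - Polynomial.C (2 * p) * X ^ 2 + Polynomial.C n, ?_, ?_⟩
      · apply Monic.ne_zero
        monicity!
      · simp only [map_add, map_sub, map_pow, aeval_X, map_mul, aeval_C]
        rw [← hθ]
        rfl
  let m₀ : K →ₐ[L] Ω := IsAlgClosed.lift
  let m : K →ₐ[ℂ] Ω := m₀.restrictScalars ℂ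
  have hm : ∀ a : L, m a = ψ a := fun a => m₀.commutes a
  have hmap : L.map m = ψ.fieldRange := by
    ext a
    constructor
    · rintro ⟨c, hc, rfl⟩
      exact ⟨⟨c, hc⟩, (hm ⟨c, hc⟩).symm⟩
    · rintro ⟨c, rfl⟩
      exact ⟨c, c.2, hm c⟩
  have hrange : m.fieldRange = ψ.fieldRange ⊔ IntermediateField.adjoin ℂ {m θ} := by
    rw [AlgHom.fieldRange_eq_map, ← htop, IntermediateField.map_sup, hmap,
      map_adjoin_single m θ (m θ) rfl]
  have hψinj : Function.Injective ψ := ψ.toRingHom.injective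
  refine quartic_twin_aux ψ.fieldRange (ψ p) (ψ n) (m θ) (j ζ) ⟨p, rfl⟩ ⟨n, rfl⟩ ?_ ?_ ?_ m
    hrange ?_ ?_
  · rw [← hm, ← hm]
    have h3 := congrArg m hθ
    simpa only [map_add, map_sub, map_mul, map_pow, map_ofNat, map_zero] using h3
  · have h3 := congrArg j hζ
    rw [map_pow, map_sub, map_mul, map_pow, map_ofNat] at h3
    exact h3
  · rintro _ ⟨a, rfl⟩ h
    apply hsq a
    apply hψinj
    rw [map_pow]
    exact h
  · have h3 : ψ.fieldRange ⊔ IntermediateField.adjoin ℂ {j ζ} =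
        (φ.fieldRange ⊔ IntermediateField.adjoin ℂ {ζ}).map j := by
      rw [IntermediateField.map_sup, map_adjoin_single j ζ (j ζ) rfl, AlgHom.fieldRange_eq_map,
        AlgHom.fieldRange_eq_map, IntermediateField.map_map]
    rw [h3]
    exact isRational_map j _ h1
  · have h3 : ψ.fieldRange ⊔ IntermediateField.adjoin ℂ {m θ ^ 2} =
        (L ⊔ IntermediateField.adjoin ℂ {θ ^ 2}).map m := by
      rw [IntermediateField.map_sup, hmap, map_adjoin_single m (θ ^ 2) (m θ ^ 2) (map_pow m θ 2)]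
    rw [h3]
    exact isRational_map m _ h2

/-- the homomorphism of a purely transcendental field given by the images of the generators -/
theorem exists_hom_of_indep {K T : Type} [Field K] [Algebra ℂ K] [Field T] [Algebra ℂ T]
    {k : ℕ} (x : Fin k → K) (hx : AlgebraicIndependent ℂ x) (x' : Fin k → T)
    (hx' : AlgebraicIndependent ℂ x') :
    ∃ φ : IntermediateField.adjoin ℂ (Set.range x) →ₐ[ℂ] T,
      (∀ i, φ ⟨x i, IntermediateField.subset_adjoin _ _ ⟨i, rfl⟩⟩ = x' i) ∧
      φ.fieldRange = IntermediateField.adjoin ℂ (Set.range x') := by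
  let e := hx.aevalEquivField
  let e' := hx'.aevalEquivField
  let ρ : IntermediateField.adjoin ℂ (Set.range x) ≃ₐ[ℂ] IntermediateField.adjoin ℂ (Set.range x') :=
    e.symm.trans e'
  refine ⟨(IntermediateField.adjoin ℂ (Set.range x')).val.comp ρ.toAlgHom, fun i => ?_, ?_⟩
  · have h0 : e (algebraMap (MvPolynomial (Fin k) ℂ) (FractionRing (MvPolynomial (Fin k) ℂ))
        (MvPolynomial.X i)) = ⟨x i, IntermediateField.subset_adjoin _ _ ⟨i, rfl⟩⟩ := by
      apply Subtype.ext
      change ((hx.aevalEquivField _ : IntermediateField.adjoin ℂ (Set.range x)) : K) = x i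
      rw [AlgebraicIndependent.aevalEquivField_algebraMap_apply_coe, MvPolynomial.aeval_X]
    change ((e' (e.symm _) : IntermediateField.adjoin ℂ (Set.range x')) : T) = x' i
    rw [← h0, AlgEquiv.symm_apply_apply]
    change ((hx'.aevalEquivField _ : IntermediateField.adjoin ℂ (Set.range x')) : T) = x' i
    rw [AlgebraicIndependent.aevalEquivField_algebraMap_apply_coe, MvPolynomial.aeval_X]
  · ext a
    constructor
    · rintro ⟨c, rfl⟩
      exact (ρ c).2
    · intro ha
      refine ⟨ρ.symm ⟨a, ha⟩, ?_⟩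
      change ((ρ (ρ.symm ⟨a, ha⟩) : IntermediateField.adjoin ℂ (Set.range x')) : T) = a
      rw [AlgEquiv.apply_symm_apply]

end Vale.Agent.P297.H600
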