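import Vale.Agent.P297.H729.Stable
import Vale.Agent.P297.H600.Quartic

/-!
Operations on stable relations: automorphisms of the algebraically closed field, and
correspondences.
-/

set_option linter.unusedSectionVars false
set_option linter.style.haveILetI false

open CategoryTheory AlgebraicGeometry IntermediateField Polynomial

namespace Vale.Agent.P297.H600

open Vale.Agent.P297 Vale.Agent.P297.H839 Vale.Agent.P297.H109 Vale.Agent.P297.H729

section

variable {K T Ω : Type} [Field K] [Algebra ℂ K] [Field T] [Algebra ℂ T] [Field Ω] [Algebra ℂ Ω]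

/-- the action of endomorphisms on cycles of embeddings -/
noncomputable def act (g : Ω →ₐ[ℂ] Ω) : ((K →ₐ[ℂ] Ω) →₀ ℤ) →+ ((K →ₐ[ℂ] Ω) →₀ ℤ) :=
  Finsupp.mapDomain.addMonoidHom (fun φ : K →ₐ[ℂ] Ω => g.comp φ)

theorem act_apply (g : Ω →ₐ[ℂ] Ω) (v : (K →ₐ[ℂ] Ω) →₀ ℤ) :
    act g v = Finsupp.mapDomain (fun φ : K →ₐ[ℂ] Ω => g.comp φ) v := rfl

theorem act_single (g : Ω →ₐ[ℂ] Ω) (φ : K →ₐ[ℂ] Ω) (n : ℤ) :
    act g (Finsupp.single φ n) = Finsupp.single (g.comp φ) n := by
  rw [act_apply, Finsupp.mapDomain_single]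

theorem act_act (g h : Ω →ₐ[ℂ] Ω) (v : (K →ₐ[ℂ] Ω) →₀ ℤ) :
    act g (act h v) = act (g.comp h) v := by
  rw [act_apply, act_apply, act_apply, ← Finsupp.mapDomain_comp]
  rfl

theorem stable_of_fixed (L : IntermediateField ℂ Ω) (hL : IsRational L)
    (hLa : Algebra.IsAlgebraic L Ω) (v : (K →ₐ[ℂ] Ω) →₀ ℤ)
    (hv : ∀ g : Ω ≃ₐ[ℂ] Ω, (∀ x ∈ L, g x = x) → act g.toAlgHom v = v) :
    v ∈ stableRelations K Ω :=
  AddSubgroup.subset_closure ⟨L, hL, hLa, hv⟩

/-- stable relations are stable under automorphisms -/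
theorem act_mem (g : Ω ≃ₐ[ℂ] Ω) {v : (K →ₐ[ℂ] Ω) →₀ ℤ} (hv : v ∈ stableRelations K Ω) :
    act g.toAlgHom v ∈ stableRelations K Ω := by
  unfold stableRelations at hv
  induction hv using AddSubgroup.closure_induction with
  | mem v hv =>
    obtain ⟨L, hLr, hLa, hv⟩ := hv
    refine stable_of_fixed (L.map g.toAlgHom) (isRational_map _ _ hLr) ?_ _ ?_
    · refine ⟨fun y => ?_⟩
      obtain ⟨p, hp0, hp⟩ := hLa.isAlgebraic (g.symm y)
      have hmem : ∀ i, g ((p.coeff i : L) : Ω) ∈ L.map g.toAlgHom := fun i => ⟨_, (p.coeff i).2, rfl⟩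
      let e : L →+* (L.map g.toAlgHom : IntermediateField ℂ Ω) :=
        ((g.toAlgHom.comp L.val).codRestrict (L.map g.toAlgHom).toSubalgebra
          (fun a => ⟨a, a.2, rfl⟩)).toRingHom
      refine ⟨p.map e, ?_, ?_⟩
      · rw [Ne, Polynomial.map_eq_zero]
        exact hp0
      · have h1 : aeval y (p.map e) = g (aeval (g.symm y) p) := by
          rw [Polynomial.aeval_def, Polynomial.eval₂_map, Polynomial.aeval_def,
            Polynomial.eval₂_eq_sum_range, Polynomial.eval₂_eq_sum_range, map_sum]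
          refine Finset.sum_congr rfl fun i _ => ?_
          rw [map_mul, map_pow, AlgEquiv.apply_symm_apply]
          rfl
        rw [h1, hp, map_zero]
    · intro h hh
      have h1 := hv ((g.trans h).trans g.symm) (by
        intro x hx
        change g.symm (h (g x)) = x
        rw [hh (g x) ⟨x, hx, rfl⟩, AlgEquiv.symm_apply_apply])
      rw [act_act]
      have h2 : h.toAlgHom.comp g.toAlgHom =
          g.toAlgHom.comp ((g.trans h).trans g.symm).toAlgHom := by
        apply AlgHom.ext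
        intro x
        change h (g x) = g (g.symm (h (g x)))
        rw [AlgEquiv.apply_symm_apply]
      rw [h2, ← act_act]
      congr 1
  | zero =>
    rw [map_zero]
    exact AddSubgroup.zero_mem _
  | add v w _ _ h1 h2 =>
    rw [map_add]
    exact AddSubgroup.add_mem _ h1 h2
  | neg v _ h1 =>
    rw [map_neg]
    exact AddSubgroup.neg_mem _ h1

/-- extension of homomorphisms to an algebraic extension -/
theorem exists_extension {A E : Type} [Field A] [Algebra ℂ A] [Field E] [Algebra ℂ E]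
    [IsAlgClosed E] (φ₀ : T →ₐ[ℂ] A) (h : ∀ y : A, IsAlgebraic φ₀.fieldRange y) (φ : T →ₐ[ℂ] E) :
    ∃ ψ : A →ₐ[ℂ] E, ψ.comp φ₀ = φ := by
  letI : Algebra T A := φ₀.toRingHom.toAlgebra
  haveI : IsScalarTower ℂ T A := IsScalarTower.of_algebraMap_eq fun c => (φ₀.commutes c).symm
  letI : Algebra T E := φ.toRingHom.toAlgebra
  haveI : IsScalarTower ℂ T E := IsScalarTower.of_algebraMap_eq fun c => (φ.commutes c).symm
  haveI : Algebra.IsAlgebraic T A := by
    refine ⟨fun y => ?_⟩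
    obtain ⟨p, hp0, hp⟩ := h y
    let e : T ≃ₐ[ℂ] φ₀.fieldRange := AlgEquiv.ofInjectiveField φ₀
    refine ⟨p.map e.symm.toRingEquiv.toRingHom, ?_, ?_⟩
    · rw [Ne, Polynomial.map_eq_zero]
      exact hp0
    · rw [Polynomial.aeval_def, Polynomial.eval₂_map]
      have h2 : (algebraMap T A).comp e.symm.toRingEquiv.toRingHom =
          algebraMap φ₀.fieldRange A := by
        apply RingHom.ext
        intro a
        change φ₀ (e.symm a) = a
        have h3 : φ₀ (e.symm a) = (e (e.symm a) : A) := rfl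
        rw [h3, AlgEquiv.apply_symm_apply]
      rw [h2]
      exact hp
  let ψ₀ : A →ₐ[T] E := IsAlgClosed.lift
  refine ⟨ψ₀.restrictScalars ℂ, AlgHom.ext fun a => ?_⟩
  exact ψ₀.commutes a

/-- polynomial over the subfield -/
theorem exists_poly (φ₀ : T →ₐ[ℂ] Ω) (h : ∀ y : Ω, IsAlgebraic φ₀.fieldRange y) (y : Ω) :
    ∃ p : T[X], p ≠ 0 ∧ (p.map φ₀.toRingHom).eval y = 0 := by
  obtain ⟨p, hp0, hp⟩ := h y
  let e : T ≃ₐ[ℂ] φ₀.fieldRange := AlgEquiv.ofInjectiveField φ₀
  refine ⟨p.map e.symm.toRingEquiv.toRingHom, ?_, ?_⟩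
  · rw [Ne, Polynomial.map_eq_zero]
    exact hp0
  · rw [Polynomial.map_map, Polynomial.eval_map]
    have h2 : φ₀.toRingHom.comp e.symm.toRingEquiv.toRingHom =
        algebraMap φ₀.fieldRange Ω := by
      apply RingHom.ext
      intro a
      change φ₀ (e.symm a) = a
      have h3 : φ₀ (e.symm a) = (e (e.symm a) : Ω) := rfl
      rw [h3, AlgEquiv.apply_symm_apply]
    rw [h2]
    exact hp

/-- two extensions of a homomorphism have the same image -/
theorem mem_range_extension [IsAlgClosed Ω] (φ₀ : T →ₐ[ℂ] Ω)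
    (h : ∀ y : Ω, IsAlgebraic φ₀.fieldRange y)
    (ψ ψ' : Ω →ₐ[ℂ] Ω) (hψ : ψ.comp φ₀ = ψ'.comp φ₀) (y : Ω) : ψ' y ∈ ψ.fieldRange := by
  obtain ⟨p, hp0, hp⟩ := exists_poly φ₀ h y
  have hp0' : p.map φ₀.toRingHom ≠ 0 := by
    rw [Ne, Polynomial.map_eq_zero]
    exact hp0
  have hs := IsAlgClosed.splits (p.map φ₀.toRingHom)
  have h1 : (p.map φ₀.toRingHom).map ψ.toRingHom = (p.map φ₀.toRingHom).map ψ'.toRingHom := by
    rw [Polynomial.map_map, Polynomial.map_map]
    congr 1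
    exact congrArg AlgHom.toRingHom hψ
  have h2 : ψ' y ∈ (((p.map φ₀.toRingHom).map ψ.toRingHom).roots) := by
    rw [Polynomial.mem_roots (by rw [Ne, Polynomial.map_eq_zero]; exact hp0'), IsRoot.def, h1]
    have h3 := congrArg ψ' hp
    rw [map_zero] at h3
    rw [← h3]
    exact Polynomial.eval_map_apply ψ'.toRingHom y
  rw [hs.roots_map] at h2
  obtain ⟨z, -, hz⟩ := Multiset.mem_map.1 h2
  exact ⟨z, hz⟩

/-- two extensions of a homomorphism differ by an automorphism -/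
theorem extension_unique [IsAlgClosed Ω] (φ₀ : T →ₐ[ℂ] Ω)
    (h : ∀ y : Ω, IsAlgebraic φ₀.fieldRange y)
    (ψ ψ' : Ω →ₐ[ℂ] Ω) (hψ : ψ.comp φ₀ = ψ'.comp φ₀) :
    ∃ g : Ω ≃ₐ[ℂ] Ω, (∀ a : T, g (φ₀ a) = φ₀ a) ∧ ψ' = ψ.comp g.toAlgHom := by
  have h1 : ψ'.fieldRange = ψ.fieldRange := by
    apply le_antisymm
    · rintro _ ⟨y, rfl⟩
      exact mem_range_extension φ₀ h ψ ψ' hψ y
    · rintro _ ⟨y, rfl⟩
      exact mem_range_extension φ₀ h ψ' ψ hψ.symm y
  let e := AlgEquiv.ofInjectiveField ψ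
  let e' := AlgEquiv.ofInjectiveField ψ'
  let c := IntermediateField.equivOfEq h1
  let g : Ω ≃ₐ[ℂ] Ω := (e'.trans c).trans e.symm
  have hg : ∀ y, ψ (g y) = ψ' y := by
    intro y
    exact congrArg Subtype.val (e.apply_symm_apply (c (e' y)))
  refine ⟨g, fun a => ?_, AlgHom.ext fun y => (hg y).symm⟩
  apply ψ.toRingHom.injective
  change ψ (g (φ₀ a)) = ψ (φ₀ a)
  rw [hg]
  exact (DFunLike.congr_fun hψ a).symm

/-- **Transfer by a correspondence.** A cycle of embeddings `K → Ω` that is invariant under all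
automorphisms over `φ₀(T)` is a combination of stable relations if `φ₀` is. -/
theorem transfer_stable [IsAlgClosed Ω] (φ₀ : T →ₐ[ℂ] Ω)
    (h : ∀ y : Ω, IsAlgebraic φ₀.fieldRange y) (r : ℤ)
    (hr : Finsupp.single φ₀ r ∈ stableRelations T Ω) (v : (K →ₐ[ℂ] Ω) →₀ ℤ)
    (hv : ∀ g : Ω ≃ₐ[ℂ] Ω, (∀ a : T, g (φ₀ a) = φ₀ a) → act g.toAlgHom v = v) :
    r • v ∈ stableRelations K Ω := by
  classical
  choose ext hext using fun φ : T →ₐ[ℂ] Ω => exists_extension φ₀ h φ
  -- independence of the extension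
  have hind : ∀ ψ : Ω →ₐ[ℂ] Ω, act ψ v = act (ext (ψ.comp φ₀)) v := by
    intro ψ
    obtain ⟨g, hg, hgψ⟩ := extension_unique φ₀ h (ext (ψ.comp φ₀)) ψ (hext _)
    rw [hgψ, ← act_act, hv g hg]
    congr 2
    rw [← hgψ]
  let Z : ((T →ₐ[ℂ] Ω) →₀ ℤ) →+ ((K →ₐ[ℂ] Ω) →₀ ℤ) :=
    Finsupp.liftAddHom (fun φ => (zmultiplesHom _) (act (ext φ) v))
  have hZ1 : ∀ φ n, Z (Finsupp.single φ n) = n • act (ext φ) v := by
    intro φ n
    change Finsupp.liftAddHom (fun φ => (zmultiplesHom _) (act (ext φ) v)) (Finsupp.single φ n) = _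
    rw [Finsupp.liftAddHom_apply_single]
    rfl
  have hZact : ∀ (g : Ω ≃ₐ[ℂ] Ω) (u : (T →ₐ[ℂ] Ω) →₀ ℤ),
      Z (act g.toAlgHom u) = act g.toAlgHom (Z u) := by
    intro g u
    induction u using Finsupp.induction_linear with
    | zero => rw [map_zero, map_zero, map_zero]
    | add u w hu hw => rw [map_add, map_add, map_add, map_add, hu, hw]
    | single φ n =>
      rw [act_single, hZ1, hZ1, map_zsmul, act_act]
      congr 1
      rw [hind (g.toAlgHom.comp (ext φ))]
      congr 2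
      rw [AlgHom.comp_assoc, hext]
  have hZmem : ∀ u ∈ stableRelations T Ω, Z u ∈ stableRelations K Ω := by
    intro u hu
    unfold stableRelations at hu
    induction hu using AddSubgroup.closure_induction with
    | mem u hu =>
      obtain ⟨L, hLr, hLa, hu⟩ := hu
      refine stable_of_fixed L hLr hLa _ fun g hg => ?_
      rw [← hZact]
      congr 1
      exact hu g hg
    | zero =>
      rw [map_zero]
      exact AddSubgroup.zero_mem _
    | add v w _ _ h1 h2 =>
      rw [map_add]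
      exact AddSubgroup.add_mem _ h1 h2
    | neg v _ h1 =>
      rw [map_neg]
      exact AddSubgroup.neg_mem _ h1
  have h1 := hZmem _ hr
  rw [hZ1] at h1
  have h2 := hind (AlgHom.id ℂ Ω)
  have h3 : act (AlgHom.id ℂ Ω) v = v := by
    rw [act_apply]
    exact Finsupp.mapDomain_id
  rw [AlgHom.id_comp, h3] at h2
  rwa [← h2] at h1

end

end Vale.Agent.P297.H600
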