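import Vale.Agent.P297.H600.JOne
import Vale.Agent.P297.H160.Rat4
import Vale.Agent.P297.H424.G4.Iface

/-!
The twist of the family of quartics, and the stable sums.
-/

set_option linter.unusedSectionVars false

open IntermediateField Polynomial WeierstrassCurve WeierstrassCurve.Affine

namespace Vale.Agent.P297.G4.J

open Vale.Agent.P297 Vale.Agent.P297.Gen Vale.Agent.P297.Z3 Vale.Agent.P297.H839
open Vale.Agent.P297.H600 Vale.Agent.P297.H160 Vale.Agent.P297.H729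

section

variable {R S : Type} [CommRing R] [CommRing S] (σ : R →+* S)

theorem map_ID (m : Fin 11 → R) (x y : R) : σ (ID m x y) = ID (fun i => σ (m i)) (σ x) (σ y) := by
  simp only [ID, gD, gI, gA, gB, gC, gE, map_add, map_sub, map_mul, map_pow, map_ofNat]

theorem map_JD (m : Fin 11 → R) (x y : R) : σ (JD m x y) = JD (fun i => σ (m i)) (σ x) (σ y) := by
  simp only [JD, gJ, gD, gI, gA, gB, gC, gE, map_add, map_sub, map_mul, map_pow, map_ofNat]

theorem map_dq (D : Fin 5 → Fin 3 → R) (l : R) (i : Fin 5) :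
    σ (dq D l i) = dq (fun i j => σ (D i j)) (σ l) i := by
  simp only [dq, map_add, map_mul, map_pow]

end

section

variable {N : Type} [Field N] [Algebra ℂ N]

/-- the invariants of the rational quartic over every field -/
theorem dq_inv {m : Fin 11 → ℂ} {D : Fin 5 → Fin 3 → ℂ}
    (hD : ∀ l : ℂ, qI (dq D l) = ID m l 1 ∧ qJ (dq D l) = JD m l 1) (l : N) :
    qI (dq (fun i j => algebraMap ℂ N (D i j)) l) = ID (am N m) l 1 ∧
      qJ (dq (fun i j => algebraMap ℂ N (D i j)) l) = JD (am N m) l 1 := by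
  have h1 : qI (dq (fun i j => (C (D i j) : ℂ[X])) X) = ID (fun i => (C (m i) : ℂ[X])) X 1 := by
    apply Polynomial.funext
    intro t
    have e1 := map_qI (evalRingHom t) (dq (fun i j => (C (D i j) : ℂ[X])) X)
    have e2 := map_ID (evalRingHom t) (fun i => (C (m i) : ℂ[X])) X 1
    simp only [map_dq, coe_evalRingHom, eval_C, eval_X, eval_one] at e1 e2
    rw [e1, e2]
    exact (hD t).1
  have h2 : qJ (dq (fun i j => (C (D i j) : ℂ[X])) X) = JD (fun i => (C (m i) : ℂ[X])) X 1 := by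
    apply Polynomial.funext
    intro t
    have e1 := map_qJ (evalRingHom t) (dq (fun i j => (C (D i j) : ℂ[X])) X)
    have e2 := map_JD (evalRingHom t) (fun i => (C (m i) : ℂ[X])) X 1
    simp only [map_dq, coe_evalRingHom, eval_C, eval_X, eval_one] at e1 e2
    rw [e1, e2]
    exact (hD t).2
  have h3 := congrArg (aeval l : ℂ[X] →ₐ[ℂ] N).toRingHom h1
  have h4 := congrArg (aeval l : ℂ[X] →ₐ[ℂ] N).toRingHom h2
  rw [map_qI, map_ID] at h3
  rw [map_qJ, map_JD] at h4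
  simp only [map_dq, AlgHom.toRingHom_eq_coe, RingHom.coe_coe, aeval_C, aeval_X, map_one] at h3 h4
  exact ⟨h3, h4⟩

theorem lv_mem {M : IntermediateField ℂ N} {s : N} (hs : s ∈ M) : lv s ∈ M :=
  div_mem (pow_mem (add_mem (one_mem M) hs) 2) hs

theorem am_mem (M : IntermediateField ℂ N) (m : Fin 11 → ℂ) (i : Fin 11) : am N m i ∈ M :=
  M.algebraMap_mem _

theorem fc_mem {M : IntermediateField ℂ N} (m : Fin 11 → ℂ) {l : N} (hl : l ∈ M) (i : Fin 5) :
    fc (am N m) l i ∈ M := by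
  have ha := am_mem M m
  have h0 : fB0 (am N m) l ∈ M := by
    unfold fB0
    exact sub_mem (mul_mem (mul_mem hl (sub_mem (ofNat_mem _ 4) hl)) (ha _))
      (mul_mem hl (pow_mem (ha _) 2))
  have h1 : fB1 (am N m) l ∈ M := by
    unfold fB1
    exact add_mem (mul_mem (mul_mem hl (sub_mem (ofNat_mem _ 4) hl)) (ha _))
      (mul_mem hl (mul_mem (ha _) (ha _)))
  have h2 : fB2 (am N m) l ∈ M := by
    unfold fB2
    exact sub_mem (mul_mem (sub_mem (ofNat_mem _ 4) hl) (ha _)) (pow_mem (ha _) 2)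
  have hE : fE (am N m) l ∈ M := by
    unfold fE
    exact neg_mem (mul_mem (mul_mem (mul_mem (ofNat_mem _ 4) (ha _))
      (pow_mem (sub_mem (ofNat_mem _ 4) hl) 2)) hl)
  fin_cases i
  · exact add_mem (pow_mem h0 2) (mul_mem hE (mul_mem (ha _) (pow_mem hl 2)))
  · exact add_mem (mul_mem (mul_mem (ofNat_mem _ 2) h0) h1) (mul_mem hE (mul_mem (ha _) hl))
  · exact add_mem (add_mem (pow_mem h1 2) (mul_mem (mul_mem (ofNat_mem _ 2) h0) h2))
      (mul_mem hE (mul_mem (ha _) hl))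
  · exact add_mem (mul_mem (mul_mem (ofNat_mem _ 2) h1) h2) (mul_mem hE (ha _))
  · exact add_mem (pow_mem h2 2) (mul_mem hE (ha _))

theorem dq_mem {M : IntermediateField ℂ N} (D : Fin 5 → Fin 3 → ℂ) {l : N} (hl : l ∈ M)
    (i : Fin 5) : dq (fun i j => algebraMap ℂ N (D i j)) l i ∈ M := by
  unfold dq
  exact add_mem (add_mem (M.algebraMap_mem _) (mul_mem (M.algebraMap_mem _) hl))
    (mul_mem (M.algebraMap_mem _) (pow_mem hl 2))

variable [IsAlgClosed N] [DecidableEq N] [CharZero N]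

/-- The family of quartics and its twist. -/
theorem twist_of {m : Fin 11 → ℂ} {D : Fin 5 → Fin 3 → ℂ}
    (hD : ∀ l : ℂ, qI (dq D l) = ID m l 1 ∧ qJ (dq D l) = JD m l 1) {s : N}
    (hs : Transcendental ℂ s)
    (hc : 4 * qI (fc (am N m) (lv s)) ^ 3 ≠ qJ (fc (am N m) (lv s)) ^ 2) :
    Twist s (fc (am N m) (lv s)) (dq (fun i j => algebraMap ℂ N (D i j)) (lv s)) := by
  have hs0 : s ≠ 0 := by
    rintro rfl
    exact hs isAlgebraic_zero
  have hl : ∀ g : N ≃ₐ[ℂ] N, g s = s ∨ g s = s⁻¹ → g (lv s) = lv s := by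
    intro g hg
    have h1 := map_lv g.toAlgHom s
    change g (lv s) = lv (g s) at h1
    rw [h1]
    rcases hg with h | h
    · rw [h]
    · rw [h, lv_inv hs0]
  have hδ : lv s * (lv s - 4) = (s - s⁻¹) ^ 2 := by
    unfold lv
    field_simp
    ring
  obtain ⟨h1, h2⟩ := dq_inv hD (lv s)
  refine ⟨hs, fc_mem m (lv_mem (subset_cl0 _ rfl)), dq_mem D (lv_mem (subset_cl0 _ rfl)), ?_, ?_,
    hc, ?_, ?_⟩
  · intro g hg i
    have h3 := map_fc g.toAlgHom m (lv s) i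
    change g (fc (am N m) (lv s) i) = fc (am N m) (g (lv s)) i at h3
    rw [h3, hl g hg]
  · intro g hg i
    have h3 := map_dq (rh g) (fun i j => algebraMap ℂ N (D i j)) (lv s) i
    change g _ = dq (fun i j => g (algebraMap ℂ N (D i j))) (g (lv s)) i at h3
    rw [h3, hl g hg]
    simp only [AlgEquiv.commutes]
  · rw [qI_fc, h1, hδ]
    ring
  · rw [qJ_fc, h2, hδ]
    ring

variable {s : N} {c d : Fin 5 → N}

theorem s_mem_of_lv {M : IntermediateField ℂ N} (hM : Closed M) (hs0 : s ≠ 0) (h : lv s ∈ M) :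
    s ∈ M := by
  apply hM
  let p : M[X] := X ^ 2 + C (2 - ⟨lv s, h⟩) * X + C 1
  refine ⟨p, ?_, ?_⟩
  · intro h0
    have h1 := congrArg (fun q => q.coeff 2) h0
    simp only [p, coeff_add, coeff_X_pow, coeff_C_mul, coeff_X, coeff_C, coeff_zero] at h1
    norm_num at h1
  · simp only [p, map_add, map_mul, map_pow, map_one, map_sub, aeval_C, aeval_X]
    change s ^ 2 + (algebraMap M N 2 - lv s) * s + 1 = 0
    have h1 : lv s * s = (1 + s) ^ 2 := by
      unfold lv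
      exact div_mul_cancel₀ _ hs0
    have h2 : algebraMap M N 2 = 2 := map_ofNat _ 2
    rw [h2]
    linear_combination -h1

/-- **(J2)** the fixed field is rational, and everything is algebraic over it -/
theorem jtwo (h4 : Algebra.trdeg ℂ N = 4) {D : Fin 5 → Fin 3 → ℂ}
    (hj : ∀ α β : ℂ, (α ≠ 0 ∨ β ≠ 0) →
      C α * qI (dq (fun i j => (C (D i j) : ℂ[X])) X) ^ 3 ≠
        C β * qJ (dq (fun i j => (C (D i j) : ℂ[X])) X) ^ 2) (hs : Transcendental ℂ s)
    {x y t₁ t₂ : N} (hx : x ∉ cl0 {s}) (ht₁ : t₁ ∉ clo (cl0 {s}) {x})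
    (ht₂ : t₂ ∉ clo (clo (cl0 {s}) {x}) {t₁})
    (hy : y ^ 2 = qv (dq (fun i j => algebraMap ℂ N (D i j)) (lv s)) x) :
    IsRational (IntermediateField.adjoin ℂ ({lv s, x, y, t₁, t₂} : Set N)) ∧
      Algebra.IsAlgebraic (IntermediateField.adjoin ℂ ({lv s, x, y, t₁, t₂} : Set N)) N := by
  have hs0 : s ≠ 0 := by
    rintro rfl
    exact hs isAlgebraic_zero
  have key : ∀ M : IntermediateField ℂ N, Closed M → lv s ∈ M → x ∈ M → t₁ ∈ M → t₂ ∈ M →
      ∀ z, z ∈ M := fun M hM m0 m1 m2 m3 z =>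
    full h4 hs hx ht₁ ht₂ hM (s_mem_of_lv hM hs0 m0) m1 m2 m3 z
  refine ⟨quart_rational D hj (ind_of_all h4 ?_) hy, ⟨fun z => mem_cl0.1 ?_⟩⟩
  · refine key _ (closed_cl0 _) (subset_cl0 _ ⟨1, rfl⟩) (subset_cl0 _ ⟨0, rfl⟩)
      (subset_cl0 _ ⟨2, rfl⟩) (subset_cl0 _ ⟨3, rfl⟩)
  · exact key _ (closed_cl0 _) (subset_cl0 _ (by simp)) (subset_cl0 _ (by simp))
      (subset_cl0 _ (by simp)) (subset_cl0 _ (by simp)) z

/-- the roots of a quartic that is not constant -/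
theorem exists_root (hd : 4 * qI d ^ 3 ≠ qJ d ^ 2) : ∃ ε, qv d ε = 0 := by
  obtain ⟨p, hp⟩ : ∃ p : N[X], p = C (d 0) + C (d 1) * X + C (d 2) * X ^ 2 + C (d 3) * X ^ 3 +
      C (d 4) * X ^ 4 := ⟨_, rfl⟩
  have hdeg : p.degree ≠ 0 := by
    intro h0
    apply hd
    have h1 : p.natDegree = 0 := natDegree_eq_of_degree_eq_some h0
    have hcoeff : ∀ n, 0 < n → p.coeff n = 0 := fun n hn =>
      coeff_eq_zero_of_natDegree_lt (by omega)
    rw [hp] at hcoeff
    have c1 := hcoeff 1 (by norm_num)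
    have c2 := hcoeff 2 (by norm_num)
    have c3 := hcoeff 3 (by norm_num)
    have c4 := hcoeff 4 (by norm_num)
    simp only [coeff_add, coeff_C_mul, coeff_X_pow, coeff_X, coeff_C] at c1 c2 c3 c4
    norm_num at c1 c2 c3 c4
    unfold qI qJ
    rw [c1, c2, c3, c4]
    ring
  obtain ⟨ε, hε⟩ := IsAlgClosed.exists_root p hdeg
  refine ⟨ε, ?_⟩
  rw [IsRoot, hp] at hε
  simp only [eval_add, eval_mul, eval_C, eval_X, eval_pow] at hε
  exact hε

theorem lv_fix (hs0 : s ≠ 0) (g : N ≃ₐ[ℂ] N) (h : g (lv s) = lv s) : g s = s ∨ g s = s⁻¹ := by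
  have h1 := map_lv g.toAlgHom s
  change g (lv s) = lv (g s) at h1
  rw [h] at h1
  have hg0 : g s ≠ 0 := (map_ne_zero_iff g g.injective).2 hs0
  unfold lv at h1
  rw [div_eq_div_iff hs0 hg0] at h1
  have h2 : (g s - s) * (s * g s - 1) = 0 := by linear_combination -h1
  rcases mul_eq_zero.1 h2 with h3 | h3
  · exact Or.inl (sub_eq_zero.1 h3)
  · exact Or.inr (eq_inv_of_mul_eq_one_right (sub_eq_zero.1 h3))

/-- **(J3)** -/
theorem jthree {K : Type} [Field K] [Algebra ℂ K] (h4 : Algebra.trdeg ℂ N = 4)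
    {D : Fin 5 → Fin 3 → ℂ}
    (hj : ∀ α β : ℂ, (α ≠ 0 ∨ β ≠ 0) →
      C α * qI (dq (fun i j => (C (D i j) : ℂ[X])) X) ^ 3 ≠
        C β * qJ (dq (fun i j => (C (D i j) : ℂ[X])) X) ^ 2)
    (H : Twist s c (dq (fun i j => algebraMap ℂ N (D i j)) (lv s)))
    (nsum : N → (Wq c).Point → ((K →ₐ[ℂ] N) →₀ ℤ))
    (hact : ∀ (g : N ≃ₐ[ℂ] N) (hg : g s = s ∨ g s = s⁻¹) (e : N), (e = s ∨ e = s⁻¹) →
      ∀ P, ¬ InF (cl0 {s}) P → act g.toAlgHom (nsum e P) =
        nsum (g e) (gfun (rh g) (fix_ab (rh g) (H.fixc g hg)) P))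
    (hadd : ∀ (e : N) (P T : (Wq c).Point), (2 : ℕ) • T = 0 → nsum e (P + T) = nsum e P)
    {P : (Wq c).Point} (hP : ¬ InF (cl0 {s}) P) :
    nsum s P + nsum s⁻¹ (-P) ∈ stableRelations K N := by
  have hκ := closed_cl0 ({s} : Set N)
  have hdd := H.discd
  have hs0 := H.s_ne
  obtain ⟨had, hbd⟩ := H.qId_mem
  obtain ⟨ε, hε⟩ := exists_root hdd
  have hεm := H.root_mem hε
  have hP' := H.tp_notMem le_rfl hP
  have hfin : Fin' _ ε (H.tp P) := fin_of_notMem hκ H.memd had hbd hεm hP'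
  have hXm : aX _ ε (H.tp P) ∉ cl0 {s} := fun h0 =>
    hP' (inF_of_aX hκ H.memd had hbd hdd hε hεm hfin h0)
  obtain ⟨t₁, ht₁⟩ := exists_notMem1 h4 s (aX _ ε (H.tp P))
  obtain ⟨t₂, ht₂⟩ := exists_notMem2 h4 s (aX _ ε (H.tp P)) t₁
  obtain ⟨hrat, halg⟩ := jtwo h4 hj H.tr hXm ht₁ ht₂ (hfin.eqn hε)
  have hnP : ¬ InF (cl0 {s}) (-P) := by
    intro h
    apply hP
    have h1 := h.neg
    rwa [neg_neg] at h1
  refine stable_of_fixed _ hrat halg _ fun g hg => ?_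
  have hgl : g (lv s) = lv s := hg _ (IntermediateField.subset_adjoin _ _ (by simp))
  have hgs := lv_fix hs0 g hgl
  have hgX := hg _ (IntermediateField.subset_adjoin ℂ
    ({lv s, aX _ ε (H.tp P), aY _ ε (H.tp P), t₁, t₂} : Set N)
    (show aX _ ε (H.tp P) ∈ _ by simp))
  have hgY := hg _ (IntermediateField.subset_adjoin ℂ
    ({lv s, aX _ ε (H.tp P), aY _ ε (H.tp P), t₁, t₂} : Set N)
    (show aY _ ε (H.tp P) ∈ _ by simp))
  obtain ⟨T, hT, hcase⟩ := H.jone hε hP g hgs hgX hgY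
  have hT' : (2 : ℕ) • -T = 0 := by rw [smul_neg, hT, neg_zero]
  rw [map_add, hact g hgs s (Or.inl rfl) P hP, hact g hgs s⁻¹ (Or.inr rfl) (-P) hnP, gfun_neg]
  rcases hcase with ⟨h1, h2⟩ | ⟨h1, h2⟩
  · rw [map_inv₀, h1, h2, hadd _ _ _ hT, neg_add, hadd _ _ _ hT']
  · rw [map_inv₀, h1, h2, inv_inv, hadd _ _ _ hT, neg_add, neg_neg, hadd _ _ _ hT', add_comm]

end

end Vale.Agent.P297.G4.J
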