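import Vale.Agent.P297.H600.Dbl
import Vale.Agent.P297.H600.JThree
import Vale.Agent.P297.H160.Rat4
import Vale.Agent.P297.H424.G4.TSide

/-!
The surfaces whose quartics have a multiple root for every value of the parameter.
-/

set_option linter.unusedSectionVars false
set_option linter.style.haveILetI false

open IntermediateField Polynomial

namespace Vale.Agent.P297.G4.J

open Vale.Agent.P297 Vale.Agent.P297.Gen Vale.Agent.P297.H839 Vale.Agent.P297.H600
open Vale.Agent.P297.H729 Vale.Agent.P297.Z3 Vale.Agent.P297.H109 Vale.Agent.P297.H160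

section

variable {R S : Type} [CommRing R] [CommRing S]

/-- the first condition for a square -/
def sU (c : Fin 5 → R) : R := c 3 ^ 3 - 4 * c 4 * c 3 * c 2 + 8 * c 4 ^ 2 * c 1

/-- the second condition for a square -/
def sV (c : Fin 5 → R) : R := (4 * c 4 * c 2 - c 3 ^ 2) ^ 2 - 64 * c 4 ^ 3 * c 0

/-- the reversed second condition for a square -/
def sW (c : Fin 5 → R) : R := (4 * c 0 * c 2 - c 1 ^ 2) ^ 2 - 64 * c 0 ^ 3 * c 4

theorem map_sU (σ : R →+* S) (c : Fin 5 → R) : σ (sU c) = sU (fun i => σ (c i)) := by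
  simp only [sU, map_add, map_sub, map_mul, map_pow, map_ofNat]

theorem map_sV (σ : R →+* S) (c : Fin 5 → R) : σ (sV c) = sV (fun i => σ (c i)) := by
  simp only [sV, map_sub, map_mul, map_pow, map_ofNat]

theorem map_sW (σ : R →+* S) (c : Fin 5 → R) : σ (sW c) = sW (fun i => σ (c i)) := by
  simp only [sW, map_sub, map_mul, map_pow, map_ofNat]

theorem map_fcr (σ : R →+* S) (m : Fin 11 → R) (l : R) (i : Fin 5) :
    σ (fc m l i) = fc (fun j => σ (m j)) (σ l) i := by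
  fin_cases i <;>
  simp [fc, fB0, fB1, fB2, fE, map_add, map_sub, map_mul, map_pow, map_ofNat, map_neg]

end

section

variable {k : Type} [Field k] [CharZero k]

/-- The factorisation. -/
theorem exists_factor {c : Fin 5 → k} (h4 : c 4 ≠ 0) (hd : 4 * qI c ^ 3 = qJ c ^ 2)
    (hs : ¬ (sU c = 0 ∧ sV c = 0)) : ∃ x g₁ g₀ : k, g₁ ^ 2 - 4 * g₀ ≠ 0 ∧
      c 3 = c 4 * (g₁ - 2 * x) ∧ c 2 = c 4 * (g₀ - 2 * x * g₁ + x ^ 2) ∧
      c 1 = c 4 * (x ^ 2 * g₁ - 2 * x * g₀) ∧ c 0 = c 4 * (x ^ 2 * g₀) := by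
  obtain ⟨h, hh⟩ : ∃ h, c 3 = 4 * c 4 * h := ⟨c 3 / (4 * c 4), by field_simp⟩
  obtain ⟨a, ha⟩ : ∃ a, c 2 = c 4 * (6 * h ^ 2 + a) := ⟨c 2 / c 4 - 6 * h ^ 2, by
    field_simp
    ring⟩
  obtain ⟨b, hb⟩ : ∃ b, c 1 = c 4 * (4 * h ^ 3 + 2 * a * h + b) :=
    ⟨c 1 / c 4 - (4 * h ^ 3 + 2 * a * h), by
      field_simp
      ring⟩
  obtain ⟨d, hdd⟩ : ∃ d, c 0 = c 4 * (h ^ 4 + a * h ^ 2 + b * h + d) :=
    ⟨c 0 / c 4 - (h ^ 4 + a * h ^ 2 + b * h), by
      field_simp
      ring⟩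
  have hI : qI c = c 4 ^ 2 * (12 * d + a ^ 2) := by
    unfold qI
    rw [hh, ha, hb, hdd]
    ring
  have hJ : qJ c = c 4 ^ 3 * (72 * a * d - 27 * b ^ 2 - 2 * a ^ 3) := by
    unfold qJ
    rw [hh, ha, hb, hdd]
    ring
  have hd' : 4 * (12 * d + a ^ 2) ^ 3 = (72 * a * d - 27 * b ^ 2 - 2 * a ^ 3) ^ 2 := by
    apply mul_left_cancel₀ (pow_ne_zero 6 h4)
    rw [hI, hJ] at hd
    linear_combination hd
  obtain ⟨z, q, e1, e2, e3, e4⟩ := exists_dbl hd' (by
    rintro ⟨hb0, hd0⟩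
    apply hs
    constructor
    · unfold sU
      rw [hh, ha, hb, hb0]
      ring
    · unfold sV
      rw [hh, ha, hdd, hb0]
      linear_combination 16 * c 4 ^ 4 * hd0)
  refine ⟨z - h, 2 * (h + z), h ^ 2 + 2 * z * h + q, ?_, ?_, ?_, ?_, ?_⟩
  · intro h0
    apply e4
    have h5 : (4 : k) ≠ 0 := by norm_num
    apply mul_left_cancel₀ h5
    linear_combination -h0
  · rw [hh]
    ring
  · rw [ha, e1]
    ring
  · rw [hb, e1, e2]
    ring
  · rw [hdd, e1, e2, e3]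
    ring

end

/-- If the two conditions hold for all values of a pencil then all members are squares. -/
theorem sq_of {c : Fin 5 → ℂ} (hU : sU c = 0) (hV : sV c = 0) (hW : sW c = 0) :
    ∃ r₀ r₁ r₂ : ℂ, ∀ x : ℂ, qv c x = (r₀ + r₁ * x + r₂ * x ^ 2) ^ 2 := by
  have hsqrt : ∀ z : ℂ, ∃ r : ℂ, r ^ 2 = z := fun z =>
    IsAlgClosed.exists_pow_nat_eq z (by norm_num)
  by_cases h4 : c 4 = 0
  · unfold sU at hU
    unfold sW at hW
    rw [h4] at hU hW
    have h3 : c 3 = 0 := by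
      have h5 : c 3 ^ 3 = 0 := by linear_combination hU
      exact pow_eq_zero_iff (by norm_num) |>.1 h5
    have h2 : 4 * c 0 * c 2 - c 1 ^ 2 = 0 := by
      have h5 : (4 * c 0 * c 2 - c 1 ^ 2) ^ 2 = 0 := by linear_combination hW
      exact pow_eq_zero_iff two_ne_zero |>.1 h5
    by_cases h6 : c 2 = 0
    · have h1 : c 1 = 0 := by
        have h5 : c 1 ^ 2 = 0 := by rw [h6] at h2; linear_combination -h2
        exact pow_eq_zero_iff two_ne_zero |>.1 h5
      obtain ⟨r, hr⟩ := hsqrt (c 0)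
      refine ⟨r, 0, 0, fun x => ?_⟩
      unfold qv
      rw [h4, h3, h6, h1]
      linear_combination -hr
    · obtain ⟨r, hr⟩ := hsqrt (c 2)
      have hr0 : r ≠ 0 := by
        rintro rfl
        apply h6
        rw [← hr]
        ring
      refine ⟨c 1 / (2 * r), r, 0, fun x => ?_⟩
      unfold qv
      rw [h4, h3]
      field_simp
      rw [hr]
      linear_combination h2
  · obtain ⟨r, hr⟩ := hsqrt (c 4)
    have hr0 : r ≠ 0 := by
      rintro rfl
      apply h4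
      rw [← hr]
      ring
    unfold sU at hU
    unfold sV at hV
    -- `f = c₄ (x² + p x + q)²`, `p = c₃ / (2 c₄)`, `q = (4 c₄ c₂ - c₃²) / (8 c₄²)`
    refine ⟨r * ((4 * c 4 * c 2 - c 3 ^ 2) / (8 * c 4 ^ 2)), r * (c 3 / (2 * c 4)), r,
      fun x => ?_⟩
    have h5 : (r * ((4 * c 4 * c 2 - c 3 ^ 2) / (8 * c 4 ^ 2)) + r * (c 3 / (2 * c 4)) * x +
        r * x ^ 2) ^ 2 = c 4 * ((4 * c 4 * c 2 - c 3 ^ 2) / (8 * c 4 ^ 2) +
          c 3 / (2 * c 4) * x + x ^ 2) ^ 2 := by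
      rw [← hr]
      ring
    rw [h5]
    unfold qv
    field_simp
    linear_combination (-4) * hV + 32 * c 4 * x * hU

section

variable {N : Type} [Field N] [Algebra ℂ N]

/-- a pencil: the conditions at a transcendental element -/
theorem all_zero {F : (Fin 5 → ℂ[X]) → ℂ[X]} {G : (Fin 5 → N) → N} {H : (Fin 5 → ℂ) → ℂ}
    (hG : ∀ c : Fin 5 → ℂ[X], ∀ l : N, aeval l (F c) = G fun i => aeval l (c i))
    (hH : ∀ c : Fin 5 → ℂ[X], ∀ l : ℂ, eval l (F c) = H fun i => eval l (c i))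
    (m : Fin 11 → ℂ) {l : N} (hl : Transcendental ℂ l) (h : G (fc (am N m) l) = 0) (r : ℂ) :
    H (fc m r) = 0 := by
  have h1 : (fun i => aeval l (fc (fun j => (C (m j) : ℂ[X])) X i)) = fc (am N m) l := by
    funext i
    have h2 := map_fcr (aeval l : ℂ[X] →ₐ[ℂ] N).toRingHom (fun j => (C (m j) : ℂ[X])) X i
    simp only [AlgHom.toRingHom_eq_coe, RingHom.coe_coe, aeval_C, aeval_X] at h2
    exact h2
  have h2 : F (fc (fun j => (C (m j) : ℂ[X])) X) = 0 := by
    have h3 := hG (fc (fun j => (C (m j) : ℂ[X])) X) l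
    rw [h1, h] at h3
    by_contra h4
    exact hl ⟨_, h4, h3⟩
  have h3 := hH (fc (fun j => (C (m j) : ℂ[X])) X) r
  rw [h2, eval_zero] at h3
  have h4 : (fun i => eval r (fc (fun j => (C (m j) : ℂ[X])) X i)) = fc m r := by
    funext i
    have h5 := map_fcr (evalRingHom r) (fun j => (C (m j) : ℂ[X])) X i
    simp only [coe_evalRingHom, eval_C, eval_X] at h5
    exact h5
  rw [h4] at h3
  exact h3.symm

theorem not_sq {m : Fin 11 → ℂ} (hsq : ∃ l : ℂ, ∀ r₀ r₁ r₂ : ℂ, ∃ x : ℂ,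
    qv (fc m l) x ≠ (r₀ + r₁ * x + r₂ * x ^ 2) ^ 2) {l : N} (hl : Transcendental ℂ l)
    (h4 : fc (am N m) l 4 ≠ 0) :
    ¬ (sU (fc (am N m) l) = 0 ∧ sV (fc (am N m) l) = 0) := by
  rintro ⟨hU, hV⟩
  have hW : sW (fc (am N m) l) = 0 := by
    obtain ⟨c, hc⟩ : ∃ c, c = fc (am N m) l := ⟨_, rfl⟩
    rw [← hc] at hU hV h4 ⊢
    haveI : CharZero N := charZero_of_injective_algebraMap (algebraMap ℂ N).injective
    unfold sU at hU
    unfold sV at hV
    obtain ⟨p, hp⟩ : ∃ p, c 3 = 2 * c 4 * p := ⟨c 3 / (2 * c 4), by field_simp⟩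
    obtain ⟨q, hq⟩ : ∃ q, c 2 = c 4 * (p ^ 2 + 2 * q) := ⟨(c 2 / c 4 - p ^ 2) / 2, by
      field_simp
      ring⟩
    have h1 : c 1 = 2 * c 4 * p * q := by
      have h5 : (8 : N) * c 4 ^ 2 ≠ 0 := mul_ne_zero (by norm_num) (pow_ne_zero 2 h4)
      apply mul_left_cancel₀ h5
      rw [hp, hq] at hU
      linear_combination hU
    have h0 : c 0 = c 4 * q ^ 2 := by
      have h5 : (64 : N) * c 4 ^ 3 ≠ 0 := mul_ne_zero (by norm_num) (pow_ne_zero 3 h4)
      apply mul_left_cancel₀ h5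
      rw [hp, hq] at hV
      linear_combination -hV
    unfold sW
    rw [h1, h0, hq]
    ring
  obtain ⟨r, hr⟩ := hsq
  have h1 : ∀ c : Fin 5 → ℂ[X], ∀ l : N, aeval l (sU c) = sU fun i => aeval l (c i) :=
    fun c l => map_sU (aeval l : ℂ[X] →ₐ[ℂ] N).toRingHom c
  have h2 : ∀ c : Fin 5 → ℂ[X], ∀ l : N, aeval l (sV c) = sV fun i => aeval l (c i) :=
    fun c l => map_sV (aeval l : ℂ[X] →ₐ[ℂ] N).toRingHom c
  have h3 : ∀ c : Fin 5 → ℂ[X], ∀ l : N, aeval l (sW c) = sW fun i => aeval l (c i) :=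
    fun c l => map_sW (aeval l : ℂ[X] →ₐ[ℂ] N).toRingHom c
  obtain ⟨r₀, r₁, r₂, hall⟩ := sq_of
    (all_zero h1 (fun c l => map_sU (evalRingHom l) c) m hl hU r)
    (all_zero h2 (fun c l => map_sV (evalRingHom l) c) m hl hV r)
    (all_zero h3 (fun c l => map_sW (evalRingHom l) c) m hl hW r)
  obtain ⟨x, hx⟩ := hr r₀ r₁ r₂
  exact hx (hall x)

/-- the leading coefficient -/
theorem lead_ne {m : Fin 11 → ℂ} (m1 : m 1 ≠ 0) (m2 : m 2 ≠ 0) {l : N}
    (hl : Transcendental ℂ l) : fc (am N m) l 4 ≠ 0 := by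
  intro h0
  have key : ∀ r : ℂ, fc m r 4 = 0 := fun r => all_zero (F := fun c => c 4) (G := fun c => c 4)
    (H := fun c => c 4) (fun _ _ => rfl) (fun _ _ => rfl) m hl h0 r
  have k4 := key 4
  have k0 := key 0
  have k1 := key 1
  change fB2 m 4 ^ 2 + fE m 4 * m 2 = 0 at k4
  change fB2 m 0 ^ 2 + fE m 0 * m 2 = 0 at k0
  change fB2 m 1 ^ 2 + fE m 1 * m 2 = 0 at k1
  simp only [fB2, fE] at k0 k1 k4
  have e9 : m 9 = 0 := by
    have h1 : m 9 ^ 4 = 0 := by linear_combination k4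
    exact pow_eq_zero_iff (by norm_num) |>.1 h1
  rw [e9] at k0 k1
  have e6 : m 6 = 0 := by
    have h1 : m 6 ^ 2 = 0 := by linear_combination k0 / 16
    exact pow_eq_zero_iff (by norm_num) |>.1 h1
  rw [e6] at k1
  apply mul_ne_zero m1 m2
  linear_combination (-1 / 36) * k1

/-- the coordinates of a conic fibration, with two more variables, generate a rational field -/
theorem conic_rational {l x y t₁ t₂ : N} (hind : AlgebraicIndependent ℂ ![x, l, t₁, t₂])
    (hcon : IsConicType (IntermediateField.adjoin ℂ {x, l}) y) :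
    IsRational (IntermediateField.adjoin ℂ {l, x, y, t₁, t₂}) := by
  obtain ⟨u, τ, huτ⟩ := conic_gens hcon
  have hsub : ∀ a ∈ ({l, x, y, t₁, t₂} : Set N), a ∈ IntermediateField.adjoin ℂ {l, x, y, t₁, t₂} :=
    fun a ha => IntermediateField.subset_adjoin _ _ ha
  have hle1 : IntermediateField.adjoin ℂ {x, l} ⊔ IntermediateField.adjoin ℂ {y} ≤
      IntermediateField.adjoin ℂ {l, x, y, t₁, t₂} := by
    refine sup_le ?_ ?_
    · rw [IntermediateField.adjoin_le_iff]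
      rintro a (ha | ha)
      · rw [ha]; exact hsub _ (by simp)
      · rw [Set.mem_singleton_iff.1 ha]; exact hsub _ (by simp)
    · rw [IntermediateField.adjoin_le_iff]
      rintro a ha
      rw [Set.mem_singleton_iff.1 ha]
      exact hsub _ (by simp)
  have hle2 : IntermediateField.adjoin ℂ {x, l} ⊔ IntermediateField.adjoin ℂ {y} ≤
      IntermediateField.adjoin ℂ {u, τ, t₁, t₂} := by
    rw [huτ]
    apply IntermediateField.adjoin.mono
    rintro a (ha | ha)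
    · rw [ha]; simp
    · rw [Set.mem_singleton_iff.1 ha]; simp
  have hEq : IntermediateField.adjoin ℂ {l, x, y, t₁, t₂} =
      IntermediateField.adjoin ℂ (Set.range ![u, τ, t₁, t₂]) := by
    rw [range_quad]
    apply le_antisymm
    · rw [IntermediateField.adjoin_le_iff]
      rintro a (ha | ha | ha | ha | ha)
      · rw [ha]
        exact hle2 ((le_sup_left : IntermediateField.adjoin ℂ {x, l} ≤ _)
          (IntermediateField.subset_adjoin _ _ (by simp)))
      · rw [ha]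
        exact hle2 ((le_sup_left : IntermediateField.adjoin ℂ {x, l} ≤ _)
          (IntermediateField.subset_adjoin _ _ (by simp)))
      · rw [ha]
        exact hle2 ((le_sup_right : IntermediateField.adjoin ℂ {y} ≤ _)
          (IntermediateField.mem_adjoin_simple_self ℂ _))
      · rw [ha]
        exact IntermediateField.subset_adjoin _ _ (by simp)
      · rw [Set.mem_singleton_iff.1 ha]
        exact IntermediateField.subset_adjoin _ _ (by simp)
    · rw [IntermediateField.adjoin_le_iff]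
      have h1 : IntermediateField.adjoin ℂ {u, τ} ≤
          IntermediateField.adjoin ℂ {l, x, y, t₁, t₂} := by
        rw [← huτ]
        exact hle1
      rintro a (ha | ha | ha | ha)
      · rw [ha]
        exact h1 (IntermediateField.subset_adjoin _ _ (by simp))
      · rw [ha]
        exact h1 (IntermediateField.subset_adjoin _ _ (by simp))
      · rw [ha]
        exact hsub _ (by simp)
      · rw [Set.mem_singleton_iff.1 ha]
        exact hsub _ (by simp)
  refine isRational_of_gens hind _ _ hEq ?_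
  intro i
  fin_cases i
  · exact isAlgebraic_mem _ _ (hsub _ (by simp))
  · exact isAlgebraic_mem _ _ (hsub _ (by simp))
  · exact isAlgebraic_mem _ _ (hsub _ (by simp))
  · exact isAlgebraic_mem _ _ (hsub _ (by simp))

/-- the fibration is a fibration in conics -/
theorem conic_of_double {s X Y : N} (hind : AlgebraicIndependent ℂ ![s, X]) {c : Fin 5 → N}
    (hc : ∀ i, c i ∈ ℂ⟮s⟯) (h4 : c 4 ≠ 0) (hd : 4 * qI c ^ 3 = qJ c ^ 2)
    (hs : ¬ (sU c = 0 ∧ sV c = 0)) (hY : Y ^ 2 = qv c X) :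
    IsConicType (IntermediateField.adjoin ℂ {s, X}) Y := by
  haveI : CharZero ℂ⟮s⟯ := charZero_of_injective_algebraMap (algebraMap ℂ ℂ⟮s⟯).injective
  let c' : Fin 5 → ℂ⟮s⟯ := fun i => ⟨c i, hc i⟩
  have hval : ∀ i, ((c' i : ℂ⟮s⟯) : N) = c i := fun _ => rfl
  have hqI : ((qI c' : ℂ⟮s⟯) : N) = qI c := J.map_qI ℂ⟮s⟯.val.toRingHom c'
  have hqJ : ((qJ c' : ℂ⟮s⟯) : N) = qJ c := J.map_qJ ℂ⟮s⟯.val.toRingHom c'
  have hsU : ((sU c' : ℂ⟮s⟯) : N) = sU c := map_sU ℂ⟮s⟯.val.toRingHom c'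
  have hsV : ((sV c' : ℂ⟮s⟯) : N) = sV c := map_sV ℂ⟮s⟯.val.toRingHom c'
  obtain ⟨x, g₁, g₀, hg, e3, e2, e1, e0⟩ := exists_factor (c := c')
    (fun h => h4 (congrArg Subtype.val h))
    (Subtype.ext (by
      push_cast
      rw [hqI, hqJ]
      exact hd))
    (by
      rintro ⟨h1, h2⟩
      exact hs ⟨by rw [← hsU, h1]; rfl, by rw [← hsV, h2]; rfl⟩)
  have f3 : c 3 = c 4 * ((g₁ : N) - 2 * x) := by
    have h1 := congrArg (algebraMap ℂ⟮s⟯ N) e3
    simp only [map_mul, map_sub, map_ofNat] at h1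
    exact h1
  have f2 : c 2 = c 4 * ((g₀ : N) - 2 * x * g₁ + (x : N) ^ 2) := by
    have h1 := congrArg (algebraMap ℂ⟮s⟯ N) e2
    simp only [map_mul, map_sub, map_add, map_pow, map_ofNat] at h1
    exact h1
  have f1 : c 1 = c 4 * ((x : N) ^ 2 * g₁ - 2 * x * g₀) := by
    have h1 := congrArg (algebraMap ℂ⟮s⟯ N) e1
    simp only [map_mul, map_sub, map_pow, map_ofNat] at h1
    exact h1
  have f0 : c 0 = c 4 * ((x : N) ^ 2 * g₀) := by
    have h1 := congrArg (algebraMap ℂ⟮s⟯ N) e0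
    simp only [map_mul, map_pow] at h1
    exact h1
  have hXs : X ∉ ℂ⟮s⟯ := by
    intro h
    have h1 : Transcendental (IntermediateField.adjoin ℂ ({s} : Set N)) X := by
      have h2 := hind.transcendental_adjoin (s := {0}) (i := 1) (by simp)
      rw [Set.image_singleton] at h2
      exact (IntermediateField.transcendental_adjoin_iff).2 h2
    exact h1 (isAlgebraic_mem _ _ h)
  have hXx : X - (x : N) ≠ 0 := fun h => hXs (by rw [sub_eq_zero.1 h]; exact x.2)
  have hsF : ℂ⟮s⟯ ≤ IntermediateField.adjoin ℂ {s, X} := by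
    rw [IntermediateField.adjoin_simple_le_iff]
    exact IntermediateField.subset_adjoin _ _ (by simp)
  have hXF : X ∈ IntermediateField.adjoin ℂ {s, X} :=
    IntermediateField.subset_adjoin _ _ (by simp)
  refine ⟨s, X, c 4, c 4 * g₁, c 4 * g₀, (X - x)⁻¹, hind, rfl, hc 4, mul_mem (hc 4) g₁.2,
    mul_mem (hc 4) g₀.2, ?_, inv_mem (sub_mem hXF (hsF x.2)), inv_ne_zero hXx, ?_⟩
  · intro h0
    apply hg
    apply (algebraMap ℂ⟮s⟯ N).injective
    simp only [map_mul, map_sub, map_pow, map_ofNat, map_zero]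
    apply mul_left_cancel₀ (pow_ne_zero 2 h4)
    change c 4 ^ 2 * ((g₁ : N) ^ 2 - 4 * (g₀ : N)) = _
    linear_combination h0
  · rw [mul_pow, hY]
    have h5 : qv c X = (X - x) ^ 2 * (c 4 * X ^ 2 + c 4 * g₁ * X + c 4 * g₀) := by
      unfold qv
      rw [f3, f2, f1, f0]
      ring
    rw [h5, ← mul_assoc, ← mul_pow, inv_mul_cancel₀ hXx, one_pow, one_mul]

/-- the vanishing of the discriminant over every field -/
theorem disc_at {m : Fin 11 → ℂ} (h0 : ∀ l : ℂ, 4 * ID m l 1 ^ 3 = JD m l 1 ^ 2) (l : N) :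
    4 * ID (am N m) l 1 ^ 3 = JD (am N m) l 1 ^ 2 := by
  have h5 : 4 * ID (fun i => (C (m i) : ℂ[X])) X 1 ^ 3 =
      JD (fun i => (C (m i) : ℂ[X])) X 1 ^ 2 := by
    apply Polynomial.funext
    intro r
    have e1 := map_ID (evalRingHom r) (fun i => (C (m i) : ℂ[X])) X 1
    have e2 := map_JD (evalRingHom r) (fun i => (C (m i) : ℂ[X])) X 1
    simp only [coe_evalRingHom, eval_C, eval_X, eval_one] at e1 e2
    rw [eval_mul, eval_pow, eval_pow, e1, e2, eval_ofNat]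
    exact h0 r
  have h6 := congrArg (aeval l : ℂ[X] →ₐ[ℂ] N) h5
  have e1 := map_ID (aeval l : ℂ[X] →ₐ[ℂ] N).toRingHom (fun i => (C (m i) : ℂ[X])) X 1
  have e2 := map_JD (aeval l : ℂ[X] →ₐ[ℂ] N).toRingHom (fun i => (C (m i) : ℂ[X])) X 1
  simp only [AlgHom.toRingHom_eq_coe, RingHom.coe_coe, aeval_C, aeval_X, map_one] at e1 e2
  rw [map_mul, map_pow, map_pow, map_ofNat, e1, e2] at h6
  exact h6

/-- **(2c)** -/
theorem bs_stable {K : Type} [Field K] [Algebra ℂ K] [IsAlgClosed N] {m : Fin 11 → ℂ}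
    (m1 : m 1 ≠ 0) (m2 : m 2 ≠ 0)
    (h0 : ∀ l : ℂ, 4 * ID m l 1 ^ 3 = JD m l 1 ^ 2)
    (hsq : ∃ l : ℂ, ∀ r₀ r₁ r₂ : ℂ, ∃ x : ℂ, qv (fc m l) x ≠ (r₀ + r₁ * x + r₂ * x ^ 2) ^ 2)
    (h4 : Algebra.trdeg ℂ N = 4) (B : N → N → N → ((K →ₐ[ℂ] N) →₀ ℤ))
    (hB : ∀ (g : N ≃ₐ[ℂ] N) (e X Y : N), act g.toAlgHom (B e X Y) = B (g e) (g X) (g Y))
    {s X Y : N} (hg : Gen m s X Y) : B s X Y ∈ stableRelations K N := by
  have hs : Transcendental ℂ s := hg.ind.transcendental 0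
  have hl : Transcendental ℂ (lv s) := G4.lv_tr hs
  have hX : X ∉ cl0 ({s} : Set N) := by
    have h1 : (![s, X] : Fin 2 → N) 1 ∉ cl0 ((![s, X] : Fin 2 → N) '' {0}) := by
      rw [mem_cl0]
      exact (IntermediateField.transcendental_adjoin_iff).2
        (hg.ind.transcendental_adjoin (by simp))
    rw [Set.image_singleton] at h1
    exact h1
  obtain ⟨t₁, ht₁⟩ := exists_notMem1 h4 s X
  obtain ⟨t₂, ht₂⟩ := exists_notMem2 h4 s X t₁
  have hind := ind_chain hs hX ht₁ ht₂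
  have hall := all_of_ind h4 hind
  have hsl : lv s ∈ ℂ⟮s⟯ := J.lv_mem (IntermediateField.mem_adjoin_simple_self ℂ s)
  have hc : ∀ i, fc (am N m) (lv s) i ∈ ℂ⟮s⟯ := fun i => fc_mem m hsl i
  have hlead := lead_ne m1 m2 hl
  have hI : 4 * qI (fc (am N m) (lv s)) ^ 3 = qJ (fc (am N m) (lv s)) ^ 2 := by
    have h6 := disc_at (N := N) h0 (lv s)
    rw [qI_fc, qJ_fc]
    linear_combination (lv s * (lv s - 4)) ^ 6 * h6
  have hcon : IsConicType (IntermediateField.adjoin ℂ {s, X}) Y :=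
    conic_of_double hg.ind hc hlead hI (not_sq hsq hl hlead) hg.eq
  have hrat := conic_rational (l := X) (x := s) (t₁ := t₁) (t₂ := t₂) hind hcon
  refine stable_of_fixed _ hrat ⟨fun z => ?_⟩ _ fun g hgL => ?_
  · rw [← mem_cl0]
    refine cl0_le (closed_cl0 _) ?_ (hall z)
    rintro _ ⟨i, rfl⟩
    apply subset_cl0
    fin_cases i <;> simp
  · have k1 := hgL s (IntermediateField.subset_adjoin _ _ (by simp))
    have k2 := hgL X (IntermediateField.subset_adjoin _ _ (by simp))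
    have k3 := hgL Y (IntermediateField.subset_adjoin _ _ (by simp))
    rw [hB, k1, k2, k3]

end

end Vale.Agent.P297.G4.J
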