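import Vale.Agent.P297.H600.ZUDeg

/-!
The invariants of the quartics are not degenerate, under explicit conditions on the parameters.
-/

open Polynomial

namespace Vale.Agent.P297.ZU

open Vale.Agent.P297.G4

section

variable {c1 c2 α β g ε : ℂ}

theorem uEX_ne (h3 : β = -(ε * α) → c1 ≠ 0) : uEX c1 c2 α β g ε ≠ 0 := by
  intro h0
  have hE : ∀ l : ℂ, ((4 * c2 ^ 2 - 4 * g ^ 2) * ((1 - ε) * l + 4 * ε) ^ 2 +
      l * (l - 4) * c1 ^ 2 + (α * l + β * (l - 4)) ^ 2) ^ 2 -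
      4 * (l * (l - 4)) * c1 ^ 2 * (α * l + β * (l - 4)) ^ 2 = 0 := by
    intro l
    rw [← eval_uEX, h0, eval_zero]
  have e0 : β ^ 2 = -4 * (c2 ^ 2 - g ^ 2) * ε ^ 2 := by
    have h1 : (β ^ 2 + 4 * (c2 ^ 2 - g ^ 2) * ε ^ 2) ^ 2 = 0 := by
      linear_combination (hE 0) / 256
    linear_combination pow_eq_zero_iff two_ne_zero |>.1 h1
  have e4 : α ^ 2 = -4 * (c2 ^ 2 - g ^ 2) := by
    have h1 : (α ^ 2 + 4 * (c2 ^ 2 - g ^ 2)) ^ 2 = 0 := by
      linear_combination (hE 4) / 256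
    linear_combination pow_eq_zero_iff two_ne_zero |>.1 h1
  have e5 : (β - ε * α) * (β + ε * α) = 0 := by linear_combination e0 - ε ^ 2 * e4
  have hf : ∀ l : ℂ, l * (l - 4) ≠ 0 → l * (l - 4) * (c1 ^ 2 + 2 * α * (β + ε * α)) ^ 2 -
      4 * c1 ^ 2 * (α * l + β * (l - 4)) ^ 2 = 0 := by
    intro l hl
    apply (mul_eq_zero.1 ?_).resolve_left hl
    have h1 : (4 * c2 ^ 2 - 4 * g ^ 2) * ((1 - ε) * l + 4 * ε) ^ 2 +
        l * (l - 4) * c1 ^ 2 + (α * l + β * (l - 4)) ^ 2 =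
        l * (l - 4) * (c1 ^ 2 + 2 * α * (β + ε * α)) := by
      linear_combination ((1 - ε) * l + 4 * ε) ^ 2 * e4 + (l - 4) ^ 2 * e5
    have h2 := hE l
    rw [h1] at h2
    linear_combination h2
  have f1 := hf 1 (by norm_num)
  have f2 := hf 2 (by norm_num)
  have f3 := hf 3 (by norm_num)
  have g0 : (c1 * β) ^ 2 = 0 := by linear_combination (-3 * f1 + 3 * f2 - f3) / 64
  have g4 : (c1 * α) ^ 2 = 0 := by linear_combination (-f1 + 3 * f2 - 3 * f3) / 64
  have g0' := mul_eq_zero.1 (pow_eq_zero_iff two_ne_zero |>.1 g0)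
  have g4' := mul_eq_zero.1 (pow_eq_zero_iff two_ne_zero |>.1 g4)
  by_cases hc : c1 = 0
  · have hb : β ≠ -(ε * α) := fun h => h3 h hc
    have h1 : (α * (β + ε * α)) ^ 2 = 0 := by
      rw [hc] at f1
      linear_combination -f1 / 12
    have h2 : α = 0 := by
      rcases mul_eq_zero.1 (pow_eq_zero_iff two_ne_zero |>.1 h1) with h | h
      · exact h
      · exact absurd (eq_neg_of_add_eq_zero_left h) hb
    have h4 : β ^ 2 = 0 := by
      rw [h2] at e4
      linear_combination e0 - ε ^ 2 * e4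
    apply hb
    rw [h2, pow_eq_zero_iff two_ne_zero |>.1 h4]
    ring
  · have ha := g4'.resolve_left hc
    have hb := g0'.resolve_left hc
    rw [ha, hb] at f1
    have h1 : c1 ^ 4 = 0 := by linear_combination -f1 / 3
    exact hc (pow_eq_zero_iff (by norm_num) |>.1 h1)

theorem uRX_ne (h0 : c1 ≠ 0 ∨ c2 ≠ 0) (h2 : c2 ≠ 0 ∨ g ≠ 0) (h3 : β = -(ε * α) → c1 ≠ 0)
    (hA : α ≠ 0 ∨ β ≠ 0 ∨ g ≠ 0)
    (h4 : β = ε * α → ¬ (α ^ 2 = 4 * g ^ 2 ∧ c1 ^ 2 = 16 * ε * c2 ^ 2)) :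
    uRX c1 c2 α β g ε ≠ 0 := by
  intro hR
  have hE : ∀ l : ℂ, c1 ^ 2 * g ^ 2 * (l * (l - 4)) - c2 ^ 2 * (α * l + β * (l - 4)) ^ 2 +
      4 * c2 ^ 2 * g ^ 2 * ((1 - ε) * l + 4 * ε) ^ 2 = 0 := by
    intro l
    rw [← eval_uRX, hR, eval_zero]
  by_cases hc2 : c2 = 0
  · have hg := h2.resolve_left (fun h => h hc2)
    have hc1 := h0.resolve_right (fun h => h hc2)
    have h5 := hE 1
    rw [hc2] at h5
    have h6 : (c1 * g) ^ 2 = 0 := by linear_combination -h5 / 3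
    rcases mul_eq_zero.1 (pow_eq_zero_iff two_ne_zero |>.1 h6) with h | h
    · exact hc1 h
    · exact hg h
  · have hc22 := pow_ne_zero 2 hc2
    have k0 : β ^ 2 = 4 * g ^ 2 * ε ^ 2 := by
      have h5 : c2 ^ 2 * (β ^ 2 - 4 * g ^ 2 * ε ^ 2) = 0 := by linear_combination -(hE 0) / 16
      exact sub_eq_zero.1 ((mul_eq_zero.1 h5).resolve_left hc22)
    have k4 : α ^ 2 = 4 * g ^ 2 := by
      have h5 : c2 ^ 2 * (α ^ 2 - 4 * g ^ 2) = 0 := by linear_combination -(hE 4) / 16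
      exact sub_eq_zero.1 ((mul_eq_zero.1 h5).resolve_left hc22)
    have k2 : c1 ^ 2 * g ^ 2 = 2 * c2 ^ 2 * α * (β + ε * α) := by
      linear_combination -(hE 2) / 4 - c2 ^ 2 * (1 + 2 * ε) * k4 - c2 ^ 2 * k0
    have k5 : (β - ε * α) * (β + ε * α) = 0 := by linear_combination k0 - ε ^ 2 * k4
    have hzero : g = 0 → False := by
      intro hg
      rw [hg] at k0 k4
      have ha : α = 0 := pow_eq_zero_iff two_ne_zero |>.1 (by linear_combination k4)
      have hb : β = 0 := pow_eq_zero_iff two_ne_zero |>.1 (by linear_combination k0)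
      rcases hA with h | h | h
      · exact h ha
      · exact h hb
      · exact h hg
    rcases mul_eq_zero.1 k5 with h5 | h5
    · have hb : β = ε * α := sub_eq_zero.1 h5
      refine h4 hb ⟨k4, ?_⟩
      have h6 : (c1 ^ 2 - 16 * ε * c2 ^ 2) * g ^ 2 = 0 := by
        rw [hb] at k2
        linear_combination k2 + 4 * ε * c2 ^ 2 * k4
      rcases mul_eq_zero.1 h6 with h7 | h7
      · exact sub_eq_zero.1 h7
      · exact absurd (pow_eq_zero_iff two_ne_zero |>.1 h7) hzero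
    · have hb : β = -(ε * α) := eq_neg_of_add_eq_zero_left h5
      have hc1 := h3 hb
      rw [h5, mul_zero] at k2
      have h6 : (c1 * g) ^ 2 = 0 := by linear_combination k2
      exact hzero ((mul_eq_zero.1 (pow_eq_zero_iff two_ne_zero |>.1 h6)).resolve_left hc1)

theorem uhdisc (hE : uEX c1 c2 α β g ε ≠ 0) (hR : uRX c1 c2 α β g ε ≠ 0) :
    4 * upX c1 c2 α β g ε ^ 3 ≠ uqX c1 c2 α β g ε ^ 2 := by
  intro h0
  have h1 := disc_uPX c1 c2 α β g ε
  rw [h0, sub_self] at h1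
  have h2 := mul_eq_zero.1 h1.symm
  rcases h2 with h2 | h2
  · rw [C_eq_zero] at h2
    norm_num at h2
  · rcases mul_eq_zero.1 h2 with h3 | h3
    · exact hE h3
    · have h4 := pow_eq_zero_iff two_ne_zero |>.1 h3
      rcases mul_eq_zero.1 h4 with h5 | h5
      · exact uD_ne ε (pow_eq_zero_iff two_ne_zero |>.1 h5)
      · exact hR h5

/-- the last step: the conditions at the zero of `(1 - ε) l + 4 ε` -/
theorem hnt_aux (h3 : β = -(ε * α) → c1 ≠ 0 ∧ ε ≠ 0)
    (h4 : β = ε * α → ¬ (c1 ^ 2 = 4 * ε * α ^ 2 ∧ c2 ^ 2 = g ^ 2))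
    (e1 : ε * c1 ^ 2 = (α * ε + β) ^ 2)
    (e2 : ε * (c1 ^ 2 * g ^ 2) = c2 ^ 2 * (α * ε + β) ^ 2)
    (e3 : c2 ^ 2 = g ^ 2 → c1 ^ 2 * (ε + 1) = 2 * (α * ε + β) * (α + β))
    (e4 : c2 ^ 2 = g ^ 2 → (ε - 1) * (α * ε - β) = 0 → β = ε * α) : False := by
  have ha : α * ε + β ≠ 0 := by
    intro h0
    have hb : β = -(ε * α) := by linear_combination h0
    obtain ⟨hc, hε⟩ := h3 hb
    rw [h0] at e1
    have h5 : ε * c1 ^ 2 = 0 := by linear_combination e1
    rcases mul_eq_zero.1 h5 with h | h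
    · exact hε h
    · exact hc (pow_eq_zero_iff two_ne_zero |>.1 h)
  have ha2 := pow_ne_zero 2 ha
  have hcg : c2 ^ 2 = g ^ 2 := by
    have h5 : (α * ε + β) ^ 2 * (g ^ 2 - c2 ^ 2) = 0 := by linear_combination e2 - g ^ 2 * e1
    exact (sub_eq_zero.1 ((mul_eq_zero.1 h5).resolve_left ha2)).symm
  have h6 := e3 hcg
  have h7 : (α * ε + β) * ((ε - 1) * (α * ε - β)) = 0 := by
    linear_combination ε * h6 - (ε + 1) * e1
  have hb := e4 hcg ((mul_eq_zero.1 h7).resolve_left ha)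
  refine h4 hb ⟨?_, hcg⟩
  have hε : ε ≠ 0 := by
    rintro rfl
    apply ha
    rw [hb]
    ring
  apply mul_left_cancel₀ hε
  rw [e1, hb]
  ring

theorem uhnt (h2 : c2 ≠ 0 ∨ g ≠ 0) (h3 : β = -(ε * α) → c1 ≠ 0 ∧ ε ≠ 0)
    (h4 : β = ε * α → ¬ (c1 ^ 2 = 4 * ε * α ^ 2 ∧ c2 ^ 2 = g ^ 2))
    (hE : uEX c1 c2 α β g ε ≠ 0) (hR : uRX c1 c2 α β g ε ≠ 0) (A B u v : ℂ) :
    ¬ (upX c1 c2 α β g ε = C A * (C u * X + C v) ^ 4 ∧
      uqX c1 c2 α β g ε = C B * (C u * X + C v) ^ 6) := by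
  rintro ⟨h5, h6⟩
  have hD := disc_uPX c1 c2 α β g ε
  have h7 : 4 * upX c1 c2 α β g ε ^ 3 - uqX c1 c2 α β g ε ^ 2 =
      C (4 * A ^ 3 - B ^ 2) * (C u * X + C v) ^ 12 := by
    rw [h5, h6]
    simp only [C_sub, C_mul, C_pow]
    rw [show (C 4 : ℂ[X]) = 4 from map_ofNat C 4]
    ring
  rw [h7] at hD
  have hDn := uD_ne ε
  have hprod : uD ε ^ 2 * uRX c1 c2 α β g ε ≠ 0 := mul_ne_zero (pow_ne_zero 2 hDn) hR
  have hdeg : (C 1769472 * (uEX c1 c2 α β g ε * (uD ε ^ 2 * uRX c1 c2 α β g ε) ^ 2)).natDegree =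
      (uEX c1 c2 α β g ε).natDegree + 2 * (2 * (uD ε).natDegree +
        (uRX c1 c2 α β g ε).natDegree) := by
    rw [natDegree_C_mul (by norm_num), natDegree_mul hE (pow_ne_zero 2 hprod), natDegree_pow,
      natDegree_mul (pow_ne_zero 2 hDn) hR, natDegree_pow]
  rw [← hD] at hdeg
  have hE4 := natDegree_uEX c1 c2 α β g ε
  have hR2 := natDegree_uRX c1 c2 α β g ε
  have hRn : C (4 * A ^ 3 - B ^ 2) * (C u * X + C v) ^ 12 ≠ 0 := by
    rw [hD]
    exact mul_ne_zero (by rw [Ne, C_eq_zero]; norm_num) (mul_ne_zero hE (pow_ne_zero 2 hprod))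
  have hAB : 4 * A ^ 3 - B ^ 2 ≠ 0 := by
    intro h8
    apply hRn
    rw [h8, C_0, zero_mul]
  by_cases hε : ε = 1
  · -- then everything is constant
    have hD0 : (uD ε).natDegree = 0 := by
      unfold uD
      rw [hε, sub_self, C_0, zero_mul, zero_add, natDegree_C]
    have hu : u = 0 := by
      by_contra hu
      rw [natDegree_C_mul hAB, natDegree_pow, natDegree_linear hu] at hdeg
      omega
    have h9 : (C (4 * A ^ 3 - B ^ 2) * (C u * X + C v) ^ 12).natDegree = 0 := by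
      have h10 : C (4 * A ^ 3 - B ^ 2) * (C u * X + C v) ^ 12 =
          C ((4 * A ^ 3 - B ^ 2) * v ^ 12) := by
        rw [hu]
        simp only [C_mul, C_pow, C_0, zero_mul, zero_add]
      rw [h10, natDegree_C]
    rw [h9] at hdeg
    have hdE : (uEX c1 c2 α β g ε).natDegree = 0 := by omega
    have hdR : (uRX c1 c2 α β g ε).natDegree = 0 := by omega
    obtain ⟨x0, hx0⟩ := natDegree_eq_zero.1 hdE
    obtain ⟨y0, hy0⟩ := natDegree_eq_zero.1 hdR
    have hEl : ∀ l : ℂ, x0 = ((4 * c2 ^ 2 - 4 * g ^ 2) * ((1 - ε) * l + 4 * ε) ^ 2 +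
        l * (l - 4) * c1 ^ 2 + (α * l + β * (l - 4)) ^ 2) ^ 2 -
        4 * (l * (l - 4)) * c1 ^ 2 * (α * l + β * (l - 4)) ^ 2 := by
      intro l
      rw [← eval_uEX, ← hx0, eval_C]
    have hRl : ∀ l : ℂ, y0 = c1 ^ 2 * g ^ 2 * (l * (l - 4)) -
        c2 ^ 2 * (α * l + β * (l - 4)) ^ 2 +
        4 * c2 ^ 2 * g ^ 2 * ((1 - ε) * l + 4 * ε) ^ 2 := by
      intro l
      rw [← eval_uRX, ← hy0, eval_C]
    have a0 := hEl 0
    have a1 := hEl 1
    have a2 := hEl 2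
    have a3 := hEl 3
    have a4 := hEl 4
    have b0 := hRl 0
    have b1 := hRl 1
    have b2 := hRl 2
    rw [hε] at a0 a1 a2 a3 a4 b0 b1 b2
    have c3 : (c1 ^ 2 - (α + β) ^ 2) ^ 2 = 0 := by
      linear_combination -(a0 - 4 * a1 + 6 * a2 - 4 * a3 + a4) / 24
    have c4 := pow_eq_zero_iff two_ne_zero |>.1 c3
    have d2 : c1 ^ 2 * g ^ 2 - c2 ^ 2 * (α + β) ^ 2 = 0 := by
      linear_combination -(b0 - 2 * b1 + b2) / 2
    have d1 : c2 ^ 2 * ((α + β) * (α - β)) = 0 := by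
      linear_combination -(b0 - b1) / 4 + d2 / 4 - d2
    have hab : α + β ≠ 0 := by
      intro h0
      have hb : β = -(ε * α) := by
        rw [hε]
        linear_combination h0
      rw [h0] at c4
      exact (h3 hb).1 (pow_eq_zero_iff two_ne_zero |>.1 (by linear_combination c4))
    have hc2 : c2 ≠ 0 := by
      intro h0
      rw [h0] at d2
      have hg := h2.resolve_left (fun h => h h0)
      have h11 : (c1 * g) ^ 2 = 0 := by linear_combination d2
      have hc1 := (mul_eq_zero.1 (pow_eq_zero_iff two_ne_zero |>.1 h11)).resolve_right hg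
      rw [hc1] at c4
      exact hab (pow_eq_zero_iff two_ne_zero |>.1 (by linear_combination -c4))
    have hba : α - β = 0 := (mul_eq_zero.1 ((mul_eq_zero.1 d1).resolve_left
      (pow_ne_zero 2 hc2))).resolve_left hab
    have hb : β = ε * α := by
      rw [hε]
      linear_combination -hba
    refine h4 hb ⟨?_, ?_⟩
    · rw [hε]
      linear_combination c4 - (3 * α + β) * hba
    · have ha : α + β ≠ 0 := hab
      apply mul_right_cancel₀ (pow_ne_zero 2 ha)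
      linear_combination g ^ 2 * c4 - d2
  · have hε1 : ε - 1 ≠ 0 := sub_ne_zero.2 hε
    have hε1' : 1 - ε ≠ 0 := sub_ne_zero.2 (Ne.symm hε)
    have hD1 : (uD ε).natDegree = 1 := natDegree_linear hε1'
    have hu : u ≠ 0 := by
      rintro rfl
      have h9 : (C (4 * A ^ 3 - B ^ 2) * (C 0 * X + C v) ^ 12 : ℂ[X]).natDegree = 0 := by
        have h10 : (C (4 * A ^ 3 - B ^ 2) * (C 0 * X + C v) ^ 12 : ℂ[X]) =
            C ((4 * A ^ 3 - B ^ 2) * v ^ 12) := by
          simp only [C_mul, C_pow, C_0, zero_mul, zero_add]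
        rw [h10, natDegree_C]
      rw [h9, hD1] at hdeg
      omega
    rw [natDegree_C_mul hAB, natDegree_pow, natDegree_linear hu, hD1] at hdeg
    have hdE : (uEX c1 c2 α β g ε).natDegree = 4 := by omega
    have hdR : (uRX c1 c2 α β g ε).natDegree = 2 := by omega
    obtain ⟨z, hz⟩ : ∃ z : ℂ, z = 4 * ε / (ε - 1) := ⟨_, rfl⟩
    have hz1 : z * (ε - 1) = 4 * ε := by rw [hz, div_mul_cancel₀ _ hε1]
    -- every zero of a factor is `z`
    have hev : ∀ w : ℂ, (uD ε).eval w = 0 ∨ (uEX c1 c2 α β g ε).eval w = 0 ∨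
        (uRX c1 c2 α β g ε).eval w = 0 → u * w + v = 0 := by
      intro w hw
      have h9 := congrArg (fun f : ℂ[X] => f.eval w) hD
      simp only [eval_mul, eval_C, eval_pow, eval_add, eval_X] at h9
      have h10 : (4 * A ^ 3 - B ^ 2) * (u * w + v) ^ 12 = 0 := by
        rw [h9]
        rcases hw with hw | hw | hw <;> rw [hw] <;> ring
      exact pow_eq_zero_iff (by norm_num) |>.1 ((mul_eq_zero.1 h10).resolve_left hAB)
    have hzD : (uD ε).eval z = 0 := by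
      unfold uD
      simp only [eval_add, eval_mul, eval_C, eval_X]
      linear_combination -hz1
    have hz0 := hev z (Or.inl hzD)
    have huniq : ∀ w : ℂ, (uD ε).eval w = 0 ∨ (uEX c1 c2 α β g ε).eval w = 0 ∨
        (uRX c1 c2 α β g ε).eval w = 0 → w = z := by
      intro w hw
      have h9 := hev w hw
      apply mul_left_cancel₀ hu
      linear_combination h9 - hz0
    have hEz : (uEX c1 c2 α β g ε).eval z = 0 := by
      obtain ⟨w, hw⟩ := IsAlgClosed.exists_root (uEX c1 c2 α β g ε) (by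
        rw [degree_eq_natDegree hE, hdE]
        norm_num)
      rw [← huniq w (Or.inr (Or.inl hw))]
      exact hw
    have hRz : (uRX c1 c2 α β g ε).eval z = 0 := by
      obtain ⟨w, hw⟩ := IsAlgClosed.exists_root (uRX c1 c2 α β g ε) (by
        rw [degree_eq_natDegree hR, hdR]
        norm_num)
      rw [← huniq w (Or.inr (Or.inr hw))]
      exact hw
    obtain ⟨r2, hr2⟩ : ∃ r2, r2 = c1 ^ 2 * g ^ 2 - c2 ^ 2 * (α + β) ^ 2 +
      4 * c2 ^ 2 * g ^ 2 * (1 - ε) ^ 2 := ⟨_, rfl⟩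
    obtain ⟨r1, hr1⟩ : ∃ r1, r1 = -4 * c1 ^ 2 * g ^ 2 + 8 * c2 ^ 2 * (α + β) * β +
        32 * c2 ^ 2 * g ^ 2 * (1 - ε) * ε := ⟨_, rfl⟩
    obtain ⟨r0, hr0⟩ : ∃ r0, r0 = -16 * c2 ^ 2 * β ^ 2 + 64 * c2 ^ 2 * g ^ 2 * ε ^ 2 := ⟨_, rfl⟩
    have hRe := uRX_eq c1 c2 α β g ε
    rw [← hr2, ← hr1, ← hr0] at hRe
    have hr20 : r2 ≠ 0 := by
      intro h0
      rw [hRe, h0, C_0, zero_mul, zero_add] at hdR
      have := natDegree_linear_le (a := r1) (b := r0)
      omega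
    have hRw : ∀ w : ℂ, (uRX c1 c2 α β g ε).eval w = r2 * w ^ 2 + r1 * w + r0 := by
      intro w
      rw [hRe]
      simp only [eval_add, eval_mul, eval_C, eval_X, eval_pow]
    have hr : r1 + 2 * r2 * z = 0 := by
      have h9 : (uRX c1 c2 α β g ε).eval (-r1 / r2 - z) = 0 := by
        rw [hRw]
        have h10 := hRz
        rw [hRw] at h10
        field_simp
        linear_combination r2 * h10
      have h11 := huniq _ (Or.inr (Or.inr h9))
      have h12 : -r1 / r2 = 2 * z := by linear_combination h11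
      rw [div_eq_iff hr20] at h12
      linear_combination -h12
    have hL : z * (z - 4) * (ε - 1) ^ 2 = 16 * ε := by
      linear_combination (z * (ε - 1) + 4) * hz1
    have hA0 : (α * z + β * (z - 4)) * (ε - 1) = 4 * (α * ε + β) := by
      linear_combination (α + β) * hz1
    rw [eval_uEX] at hEz
    rw [eval_uRX] at hRz
    have hD' : (1 - ε) * z + 4 * ε = 0 := by linear_combination -hz1
    rw [hD'] at hEz hRz
    have hE2 : (z * (z - 4) * c1 ^ 2 - (α * z + β * (z - 4)) ^ 2) ^ 2 = 0 := by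
      linear_combination hEz
    have hE3 := pow_eq_zero_iff two_ne_zero |>.1 hE2
    refine hnt_aux h3 h4 ?_ ?_ ?_ ?_
    · linear_combination (ε - 1) ^ 2 * hE3 / 16 - c1 ^ 2 * hL / 16 +
        ((α * z + β * (z - 4)) * (ε - 1) + 4 * (α * ε + β)) * hA0 / 16
    · linear_combination (ε - 1) ^ 2 * hRz / 16 - c1 ^ 2 * g ^ 2 * hL / 16 +
        c2 ^ 2 * ((α * z + β * (z - 4)) * (ε - 1) + 4 * (α * ε + β)) * hA0 / 16
    · intro hcg
      have hg : g ^ 2 ≠ 0 := by
        rcases h2 with h | h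
        · rw [← hcg]
          exact pow_ne_zero 2 h
        · exact pow_ne_zero 2 h
      apply mul_left_cancel₀ hg
      have h9 : (ε - 1) * r1 + 8 * ε * r2 = 0 := by
        linear_combination (ε - 1) * hr - 2 * r2 * hz1
      rw [hr1, hr2, hcg] at h9
      linear_combination h9 / 4
    · intro _ h9
      have h10 := (mul_eq_zero.1 h9).resolve_left hε1
      linear_combination -h10

end

end Vale.Agent.P297.ZU
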