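import Vale.Agent.P297.H600.ZUA
import Vale.Agent.P297.H600.ZUCond

/-!
The quotient by the involution: sixteen times the sum of a point and its image under the involution
is a relation.
-/

set_option linter.unusedSectionVars false

open IntermediateField Polynomial

namespace Vale.Agent.P297.ZU

open Vale.Agent.P297 Vale.Agent.P297.H839 Vale.Agent.P297.H600 Vale.Agent.P297.H729
open Vale.Agent.P297.Gen Vale.Agent.P297.H72 Vale.Agent.P297.G4
open Vale.Agent.P297.Z42 (Cd quad_mem sq_mem quad_zero cd_cl0 cd_clo all2 ind2 notMem_cl0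
  notMem_cl0' cl0_empty_le notMem_empty not_both mul_ne)
open Vale.Agent.P297.Z42 (zA zQ1 zQ2 zW zP zp zq zE zR qv_zP qI_zP qJ_zP)

section

variable {N : Type} [Field N] [Algebra ℂ N]

theorem transc [IsAlgClosed N] {μ : N} (hμ : μ ∉ cl0 (∅ : Set N)) : Transcendental ℂ μ := by
  intro h
  apply hμ
  rw [mem_cl0]
  exact h.tower_top _

/-- The coordinates of a point of the quotient. -/
structure Over (x y q r s σ X Y : N) : Prop where
  hs : σ * (1 + q) = 1 - q
  hX : X * ((x + y) * q) = x - y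
  hY : Y * ((1 - q ^ 2) ^ 2 * (x + y) ^ 2) = 64 * (x * y) * (r * s)

theorem Over.map {x y q r s σ X Y : N} (h : Over x y q r s σ X Y) (g : N ≃ₐ[ℂ] N) :
    Over (g x) (g y) (g q) (g r) (g s) (g σ) (g X) (g Y) := by
  refine ⟨?_, ?_, ?_⟩
  · have h1 := congrArg g h.hs
    simpa only [map_mul, map_sub, map_add, map_one] using h1
  · have h1 := congrArg g h.hX
    simpa only [map_mul, map_sub, map_add, map_one] using h1
  · have h1 := congrArg g h.hY
    simpa only [map_mul, map_pow, map_add, map_sub, map_one, map_ofNat] using h1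

theorem Over.neg_s {x y q r s σ X Y : N} (h : Over x y q r s σ X Y) :
    Over x y q r (-s) σ X (-Y) :=
  ⟨h.hs, h.hX, by rw [mul_neg, mul_neg, neg_mul, h.hY]⟩

theorem over_mk {x y q r s : N} (h1 : 1 + q ≠ 0) (h2 : 1 - q ^ 2 ≠ 0) (h3 : q ≠ 0)
    (hxy : x + y ≠ 0) :
    Over x y q r s ((1 - q) / (1 + q)) ((x - y) / ((x + y) * q))
      (64 * (x * y) * (r * s) / ((1 - q ^ 2) ^ 2 * (x + y) ^ 2)) :=
  ⟨div_mul_cancel₀ _ h1, div_mul_cancel₀ _ (mul_ne_zero hxy h3),
    div_mul_cancel₀ _ (mul_ne_zero (pow_ne_zero 2 h2) (pow_ne_zero 2 hxy))⟩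

end

section

variable {K E N : Type} [Field K] [Algebra ℂ K] [Field E] [Algebra ℂ E] [Field N] [Algebra ℂ N]
  {p : Fin 9 → ℂ} {e : Fin 6 → E} {ι : K →ₐ[ℂ] E}

/-- a point and its image under the involution -/
noncomputable def PS (e : Fin 6 → E) (ι : K →ₐ[ℂ] E) (x y q r s v : N) : (K →ₐ[ℂ] N) →₀ ℤ :=
  ptK e ι ![x, y, q, r, s, v] + ptK e ι ![x, y, q, r, s, -v]

theorem PS_neg_v (x y q r s v : N) : PS e ι x y q r s (-v) = PS e ι x y q r s v := by
  unfold PS
  rw [neg_neg, add_comm]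

theorem act_PS (h : IsE p e) (g : N ≃ₐ[ℂ] N) (x y q r s v : N) :
    act g.toAlgHom (PS e ι x y q r s v) = PS e ι (g x) (g y) (g q) (g r) (g s) (g v) := by
  unfold PS
  rw [map_add, act_ptK h, act_ptK h]
  congr 2
  · funext i
    fin_cases i <;> rfl
  · funext i
    fin_cases i
    · rfl
    · rfl
    · rfl
    · rfl
    · rfl
    · exact map_neg g v

variable [IsAlgClosed N]

theorem q_ne {x q : N} (h : AlgebraicIndependent ℂ ![x, q]) :
    q ≠ 0 ∧ 1 + q ≠ 0 ∧ 1 - q ≠ 0 ∧ 1 - q ^ 2 ≠ 0 := by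
  have h0 := (ind_ne h).2
  have h1 : 1 + q ≠ 0 := by
    intro h2
    apply (notMem_empty h).2
    have h3 : q = -1 := by linear_combination h2
    rw [h3]
    exact neg_mem (one_mem _)
  have h2 : 1 - q ≠ 0 := by
    intro h2
    apply (notMem_empty h).2
    have h3 : q = 1 := by linear_combination -h2
    rw [h3]
    exact one_mem _
  refine ⟨h0, h1, h2, ?_⟩
  have h3 : 1 - q ^ 2 = (1 - q) * (1 + q) := by ring
  rw [h3]
  exact mul_ne_zero h2 h1

theorem sum_ne {x y q : N} (h : AlgebraicIndependent ℂ ![x, q])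
    (hxy : x * y = 1 - amp N p 8 * q ^ 2) : x + y ≠ 0 := by
  intro h0
  apply notMem_cl0' h
  have mq : q ∈ cl0 ({q} : Set N) := subset_cl0 _ rfl
  refine sq_mem (cd_cl0 _) ?_
  have h1 : x ^ 2 = -(1 - amp N p 8 * q ^ 2) := by
    rw [← hxy]
    linear_combination x * h0
  rw [h1]
  exact neg_mem (sub_mem (one_mem _) (mul_mem (amp_mem _ 8) (pow_mem mq 2)))

theorem PS_neg_rs (h : IsE p e) (hs : Sym e ι) {x y q r s v : N}
    (hG : GP p ![x, y, q, r, s, v]) : PS e ι x y q (-r) (-s) v = PS e ι x y q r s v := by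
  unfold PS
  have h1 := hs.pz h hG
  have h2 := hs.pz h (gp_neg_v hG)
  rw [neg_neg] at h2
  rw [h2, h1, add_comm]

theorem PS_neg_xy (h : IsE p e) (hs : Sym e ι) {x y q r s v : N}
    (hG : GP p ![x, y, q, r, s, v]) : PS e ι (-x) (-y) q r s v = PS e ι x y q r s v := by
  unfold PS
  have h1 := hs.pb h (gp_neg_rs hG)
  have h2 := hs.pb h (gp_neg_rs (gp_neg_v hG))
  rw [neg_neg, neg_neg] at h1
  rw [neg_neg, neg_neg] at h2
  rw [h1, h2]
  exact PS_neg_rs h hs hG

theorem PS_same (cm : p 0 * p 3 - p 1 * p 2 ≠ 0) (h : IsE p e) (hs : Sym e ι)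
    {x y q r s v r' s' v' : N} (hG : GP p ![x, y, q, r, s, v])
    (hG' : GP p ![x, y, q, r', s', v']) (hrs : r' * s' = r * s) :
    PS e ι x y q r' s' v' = PS e ι x y q r s v := by
  obtain ⟨hr, hs0⟩ := rs_ne cm hG
  have a1 : r ^ 2 = eT (amp N p) x y q + eA (amp N p) x y q := hG.on.er
  have a2 : r' ^ 2 = eT (amp N p) x y q + eA (amp N p) x y q := hG'.on.er
  have b1 : v ^ 2 = eM (amp N p) x y q + 2 * amp N p 4 * (r * s) := hG.on.ev
  have b2 : v' ^ 2 = eM (amp N p) x y q + 2 * amp N p 4 * (r' * s') := hG'.on.ev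
  have hv : PS e ι x y q r s v' = PS e ι x y q r s v ∧ GP p ![x, y, q, r, s, v'] := by
    have h1 : (v' - v) * (v' + v) = 0 := by linear_combination b2 - b1 + 2 * amp N p 4 * hrs
    rcases mul_eq_zero.1 h1 with h3 | h3
    · rw [sub_eq_zero.1 h3]
      exact ⟨rfl, hG⟩
    · rw [eq_neg_of_add_eq_zero_left h3]
      exact ⟨PS_neg_v _ _ _ _ _ _, gp_neg_v hG⟩
  have h2 : (r' - r) * (r' + r) = 0 := by linear_combination a2 - a1
  rcases mul_eq_zero.1 h2 with h3 | h3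
  · have h4 : r' = r := sub_eq_zero.1 h3
    have h5 : s' = s := by
      apply mul_left_cancel₀ hr
      rw [← h4] at hrs ⊢
      exact hrs
    rw [h4, h5]
    exact hv.1
  · have h4 : r' = -r := eq_neg_of_add_eq_zero_left h3
    have h5 : s' = -s := by
      apply mul_left_cancel₀ hr
      rw [h4] at hrs
      linear_combination -hrs
    rw [h4, h5, PS_neg_rs h hs hv.2]
    exact hv.1

theorem over_unique (cm : p 0 * p 3 - p 1 * p 2 ≠ 0) (h : IsE p e) (hs : Sym e ι)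
    {x y q r s v x' y' q' r' s' v' σ X Y : N}
    (hG : GP p ![x, y, q, r, s, v]) (hG' : GP p ![x', y', q', r', s', v'])
    (hO : Over x y q r s σ X Y) (hO' : Over x' y' q' r' s' σ X Y) :
    PS e ι x' y' q' r' s' v' = PS e ι x y q r s v := by
  have : CharZero N := charZero_of_injective_algebraMap (algebraMap ℂ N).injective
  obtain ⟨k0, k1, k2, k3⟩ := q_ne (gp_ind hG)
  have e0 : x * y = 1 - amp N p 8 * q ^ 2 := hG.on.eq
  have e0' : x' * y' = 1 - amp N p 8 * q' ^ 2 := hG'.on.eq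
  have k4 := sum_ne (gp_ind hG) e0
  have hx := (ind_ne (gp_ind hG)).1
  have hy := (ind_y (gp_ind hG) e0).1
  have hσ : 1 + σ ≠ 0 := by
    intro h0
    have h1 : (2 : N) = 0 := by linear_combination (1 + q) * h0 - hO.hs
    exact two_ne_zero h1
  have hq : q' = q := by
    apply mul_left_cancel₀ hσ
    linear_combination hO'.hs - hO.hs
  subst hq
  have h1 : (x - y) * (x' + y') = (x' - y') * (x + y) := by
    linear_combination (x + y) * hO'.hX - (x' + y') * hO.hX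
  have h2 : y * x' = x * y' := by linear_combination (-1 / 2) * h1
  have h3 : x' * y' = x * y := by rw [e0, e0']
  have h4 : (x' - x) * (x' + x) = 0 := by
    apply mul_left_cancel₀ hy
    linear_combination x' * h2 + x * h3
  have hrs : ∀ (x₁ y₁ r₁ s₁ : N), (x₁ + y₁) ^ 2 = (x + y) ^ 2 → x₁ * y₁ = x * y →
      Over x₁ y₁ q' r₁ s₁ σ X Y → r₁ * s₁ = r * s := by
    intro x₁ y₁ r₁ s₁ h5 h5' h6
    have h7 := h6.hY
    rw [h5, h5', hO.hY] at h7
    have h8 : (64 : N) * (x * y) ≠ 0 := mul_ne_zero (by norm_num) (mul_ne_zero hx hy)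
    exact (mul_left_cancel₀ h8 h7).symm
  rcases mul_eq_zero.1 h4 with h5 | h5
  · have h6 : x' = x := sub_eq_zero.1 h5
    have h7 : y' = y := by
      apply mul_left_cancel₀ hx
      rw [← h2, h6, mul_comm]
    subst h6
    subst h7
    exact PS_same cm h hs hG hG' (hrs _ _ _ _ rfl rfl hO')
  · have h6 : x' = -x := eq_neg_of_add_eq_zero_left h5
    have h7 : y' = -y := by
      apply mul_left_cancel₀ hx
      rw [← h2, h6]
      ring
    subst h6
    subst h7
    have hG2 : GP p ![x, y, q', r', s', v'] := by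
      have h8 := gp_neg_xy hG'
      rw [neg_neg, neg_neg] at h8
      exact h8
    rw [PS_neg_xy h hs hG2]
    exact PS_same cm h hs hG hG2 (hrs _ _ _ _ (by ring) (by ring) hO')

open Classical in
/-- the cycle attached to a point of the quotient -/
noncomputable def BB (p : Fin 9 → ℂ) (e : Fin 6 → E) (ι : K →ₐ[ℂ] E) (σ X Y : N) :
    (K →ₐ[ℂ] N) →₀ ℤ :=
  if h : ∃ ξ : Fin 6 → N, GP p ξ ∧ Over (ξ 0) (ξ 1) (ξ 2) (ξ 3) (ξ 4) σ X Y then
    PS e ι (Classical.choose h 0) (Classical.choose h 1) (Classical.choose h 2)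
      (Classical.choose h 3) (Classical.choose h 4) (Classical.choose h 5) else 0

theorem BB_eq (cm : p 0 * p 3 - p 1 * p 2 ≠ 0) (h : IsE p e) (hs : Sym e ι)
    {x y q r s v σ X Y : N} (hG : GP p ![x, y, q, r, s, v]) (hO : Over x y q r s σ X Y) :
    BB p e ι σ X Y = PS e ι x y q r s v := by
  have h0 : ∃ ξ : Fin 6 → N, GP p ξ ∧ Over (ξ 0) (ξ 1) (ξ 2) (ξ 3) (ξ 4) σ X Y :=
    ⟨![x, y, q, r, s, v], hG, hO⟩
  unfold BB
  rw [dif_pos h0]
  obtain ⟨h1, h2⟩ := Classical.choose_spec h0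
  exact over_unique cm h hs hG (gp_mk h1.ind h1.on) hO h2

theorem BB_zero {σ X Y : N}
    (h0 : ¬ ∃ ξ : Fin 6 → N, GP p ξ ∧ Over (ξ 0) (ξ 1) (ξ 2) (ξ 3) (ξ 4) σ X Y) :
    BB p e ι σ X Y = 0 := by
  unfold BB
  rw [dif_neg h0]

theorem act_BB (cm : p 0 * p 3 - p 1 * p 2 ≠ 0) (h : IsE p e) (hs : Sym e ι) (g : N ≃ₐ[ℂ] N)
    (σ X Y : N) : act g.toAlgHom (BB p e ι σ X Y) = BB p e ι (g σ) (g X) (g Y) := by
  by_cases h0 : ∃ ξ : Fin 6 → N, GP p ξ ∧ Over (ξ 0) (ξ 1) (ξ 2) (ξ 3) (ξ 4) σ X Y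
  · obtain ⟨ξ, h1, h2⟩ := h0
    rw [BB_eq cm h hs (gp_mk h1.ind h1.on) h2, act_PS h]
    have h3 := h1.map g.toAlgHom
    exact (BB_eq cm h hs (gp_mk h3.ind h3.on) (h2.map g)).symm
  · rw [BB_zero h0, map_zero, BB_zero]
    rintro ⟨ξ, h1, h2⟩
    apply h0
    refine ⟨fun i => g.symm (ξ i), h1.map g.symm.toAlgHom, ?_⟩
    have h3 := h2.map g.symm
    rw [AlgEquiv.symm_apply_apply, AlgEquiv.symm_apply_apply, AlgEquiv.symm_apply_apply] at h3
    exact h3

/-- the element of order four -/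
theorem BB_inv (cm : p 0 * p 3 - p 1 * p 2 ≠ 0) (h : IsE p e) (hs : Sym e ι)
    {x y q r s v σ X Y : N} (hG : GP p ![x, y, q, r, s, v]) (hO : Over x y q r s σ X Y) :
    BB p e ι σ⁻¹ X (-Y) = BB p e ι σ X Y := by
  obtain ⟨k0, k1, k2, k3⟩ := q_ne (gp_ind hG)
  have hI := I_sq (N := N)
  have g1 := gp_a hG
  have p1 := hs.pa h hG
  have p2 := hs.pa h (gp_neg_v hG)
  rw [mul_neg] at p2
  generalize algebraMap ℂ N Complex.I = I at *
  have hσ : σ ≠ 0 := by
    rintro rfl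
    apply k2
    rw [← hO.hs, zero_mul]
  have hO' : Over y x (-q) (I * s) (I * r) σ⁻¹ X (-Y) := by
    refine ⟨?_, ?_, ?_⟩
    · field_simp
      linear_combination -hO.hs
    · linear_combination -hO.hX
    · have h3 : I * s * (I * r) = -(r * s) := by
        have h4 : I * s * (I * r) = I ^ 2 * (r * s) := by ring
        rw [h4, hI]
        ring
      rw [h3]
      linear_combination -hO.hY
  rw [BB_eq cm h hs g1 hO', BB_eq cm h hs hG hO]
  unfold PS
  rw [p1, p2]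

/-- the rational base -/
theorem BB_sum (cm : p 0 * p 3 - p 1 * p 2 ≠ 0) (h : IsE p e) (hs : Sym e ι)
    {x y q r s v σ X Y t₁ t₂ : N} (hG : GP p ![x, y, q, r, s, v]) (hO : Over x y q r s σ X Y)
    (hind : AlgebraicIndependent ℂ ![x, q, t₁, t₂])
    (halg : Algebra.IsAlgebraic (IntermediateField.adjoin ℂ (Set.range ![x, q, t₁, t₂])) N) :
    BB p e ι σ X Y + BB p e ι σ X (-Y) ∈ stableRelations K N := by
  have : CharZero N := charZero_of_injective_algebraMap (algebraMap ℂ N).injective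
  obtain ⟨k0, k1, k2, k3⟩ := q_ne (gp_ind hG)
  have e0 : x * y = 1 - amp N p 8 * q ^ 2 := hG.on.eq
  have k4 := sum_ne (gp_ind hG) e0
  have hx := (ind_ne (gp_ind hG)).1
  refine stable_of_fixed _ ⟨4, ![x, q, t₁, t₂], hind, rfl⟩ halg _ fun g hg => ?_
  have hgx : g x = x := hg _ (IntermediateField.subset_adjoin _ _ ⟨0, rfl⟩)
  have hgq : g q = q := hg _ (IntermediateField.subset_adjoin _ _ ⟨1, rfl⟩)
  have h3 := (hG.map g.toAlgHom).on
  have hgy : g y = y := by
    have h5 : g x * g y = 1 - amp N p 8 * (g q) ^ 2 := h3.eq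
    rw [hgx, hgq, ← e0] at h5
    exact mul_left_cancel₀ hx h5
  have hm := hO.map g
  rw [hgx, hgy, hgq] at hm
  have hgσ : g σ = σ := by
    apply mul_right_cancel₀ k1
    rw [hm.hs, hO.hs]
  rw [hgσ] at hm
  have hgX : g X = X := by
    apply mul_right_cancel₀ (mul_ne_zero k4 k0)
    rw [hm.hX, hO.hX]
  have hgY : g Y = Y ∨ g Y = -Y := by
    have h1 := hm.hY
    have h2 : (1 - q ^ 2) ^ 2 * (x + y) ^ 2 ≠ 0 :=
      mul_ne_zero (pow_ne_zero 2 k3) (pow_ne_zero 2 k4)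
    have e1 : (g r) ^ 2 = eT (amp N p) (g x) (g y) (g q) + eA (amp N p) (g x) (g y) (g q) := h3.er
    have e2 : (g s) ^ 2 = eT (amp N p) (g x) (g y) (g q) - eA (amp N p) (g x) (g y) (g q) := h3.es
    have e3 : r ^ 2 = eT (amp N p) x y q + eA (amp N p) x y q := hG.on.er
    have e4 : s ^ 2 = eT (amp N p) x y q - eA (amp N p) x y q := hG.on.es
    rw [hgx, hgy, hgq, ← e3] at e1
    rw [hgx, hgy, hgq, ← e4] at e2
    have e5 : (g r * g s - r * s) * (g r * g s + r * s) = 0 := by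
      linear_combination (g s) ^ 2 * e1 + r ^ 2 * e2
    rcases mul_eq_zero.1 e5 with h4 | h4
    · left
      apply mul_right_cancel₀ h2
      rw [h1, hO.hY, sub_eq_zero.1 h4]
    · right
      apply mul_right_cancel₀ h2
      rw [h1, neg_mul, hO.hY, eq_neg_of_add_eq_zero_left h4]
      ring
  rw [map_add, act_BB cm h hs, act_BB cm h hs, map_neg, hgσ, hgX]
  rcases hgY with h4 | h4
  · rw [h4]
  · rw [h4, neg_neg, add_comm]

end

section

variable {N : Type} [Field N] [Algebra ℂ N] {p : Fin 9 → ℂ}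

/-- The conditions for the second part. -/
structure ParB (p : Fin 9 → ℂ) : Prop where
  E : uEX (p 0) (p 1) (p 5) (p 6) (p 7) (p 8) ≠ 0
  R : uRX (p 0) (p 1) (p 5) (p 6) (p 7) (p 8) ≠ 0
  cg : p 1 ≠ 0 ∨ p 7 ≠ 0
  g3 : p 6 = -(p 8 * p 5) → p 0 ≠ 0 ∧ p 8 ≠ 0
  g4 : p 6 = p 8 * p 5 → ¬ (p 0 ^ 2 = 4 * p 8 * p 5 ^ 2 ∧ p 1 ^ 2 = p 7 ^ 2)

theorem aeval_uPX (l : N) (i : Fin 5) :
    aeval l (uPX (p 0) (p 1) (p 5) (p 6) (p 7) (p 8) i) =
      zP (amp N p 0) (amp N p 1 * ((1 - amp N p 8) * l + 4 * amp N p 8))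
        (amp N p 5 + amp N p 6) (2 * amp N p 5 - 2 * amp N p 6)
        (amp N p 7 * ((1 - amp N p 8) * l + 4 * amp N p 8)) l i := by
  unfold uPX uD
  fin_cases i
  · change aeval l ((X : ℂ[X]) ^ 2 * zQ1 _ _ _ _ X) = _
    unfold zQ1 zA
    simp only [map_mul, map_sub, map_add, map_pow, aeval_X, aeval_C, map_ofNat, map_one]
    rfl
  · change aeval l (8 * C (p 0) * (C (p 1) * (C (1 - p 8) * X + C (4 * p 8))) *
      ((X : ℂ[X]) ^ 2 * (X - 4))) = _
    simp only [map_mul, map_sub, map_add, map_pow, aeval_X, aeval_C, map_ofNat, map_one]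
    rfl
  · change aeval l ((X : ℂ[X]) * (X - 4) * zW _ _ _ _ _ X) = _
    unfold zW zA
    simp only [map_mul, map_sub, map_add, map_pow, aeval_X, aeval_C, map_ofNat, map_one]
    rfl
  · change aeval l (-(8 * C (p 0) * (C (p 1) * (C (1 - p 8) * X + C (4 * p 8))) *
      ((X : ℂ[X]) * (X - 4) ^ 2))) = _
    simp only [map_neg, map_mul, map_sub, map_add, map_pow, aeval_X, aeval_C, map_ofNat, map_one]
    rfl
  · change aeval l (((X : ℂ[X]) - 4) ^ 2 * zQ2 _ _ _ _ X) = _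
    unfold zQ2 zA
    simp only [map_mul, map_sub, map_add, map_pow, aeval_X, aeval_C, map_ofNat, map_one]
    rfl

theorem Over.eqn [IsAlgClosed N] {x y q r s v σ X Y : N} (hG : GP p ![x, y, q, r, s, v])
    (hO : Over x y q r s σ X Y) :
    Y ^ 2 = qv (fun i => aeval (lv σ) (uPX (p 0) (p 1) (p 5) (p 6) (p 7) (p 8) i)) X := by
  have : CharZero N := charZero_of_injective_algebraMap (algebraMap ℂ N).injective
  have h0 : (fun i => aeval (lv σ) (uPX (p 0) (p 1) (p 5) (p 6) (p 7) (p 8) i)) =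
      zP (amp N p 0) (amp N p 1 * ((1 - amp N p 8) * lv σ + 4 * amp N p 8))
        (amp N p 5 + amp N p 6) (2 * amp N p 5 - 2 * amp N p 6)
        (amp N p 7 * ((1 - amp N p 8) * lv σ + 4 * amp N p 8)) (lv σ) := by
    funext i
    exact aeval_uPX _ i
  rw [h0, qv_zP]
  obtain ⟨k0, k1, k2, k3⟩ := q_ne (gp_ind hG)
  have e0 : x * y = 1 - amp N p 8 * q ^ 2 := hG.on.eq
  have k4 := sum_ne (gp_ind hG) e0
  have e1 : r ^ 2 = eT (amp N p) x y q + eA (amp N p) x y q := hG.on.er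
  have e2 : s ^ 2 = eT (amp N p) x y q - eA (amp N p) x y q := hG.on.es
  have hσ : σ ≠ 0 := by
    rintro rfl
    apply k2
    rw [← hO.hs, zero_mul]
  have hl : lv σ * (1 - q ^ 2) = 4 := by
    have h1 : σ = (1 - q) / (1 + q) := by
      rw [eq_div_iff k1]
      exact hO.hs
    unfold lv
    rw [h1]
    field_simp
    ring
  generalize lv σ = l at hl
  have hU : (1 - amp N p 8) * l + 4 * amp N p 8 = l * (x * y) := by
    rw [e0]
    linear_combination -(amp N p 8) * hl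
  have hA : zA (amp N p 5 + amp N p 6) (2 * amp N p 5 - 2 * amp N p 6) l =
      l * (amp N p 5 + amp N p 6 * q ^ 2) := by
    unfold zA
    linear_combination (amp N p 6) * hl
  have hl4 : l - 4 = l * q ^ 2 := by linear_combination hl
  have hS : (x + y) ^ 2 ≠ 0 := pow_ne_zero 2 k4
  have hYS : Y * (x + y) ^ 2 = 4 * (x * y) * (r * s) * l ^ 2 := by
    apply mul_left_cancel₀ (show (16 : N) ≠ 0 by norm_num)
    linear_combination l ^ 2 * hO.hY - Y * (x + y) ^ 2 * (l * (1 - q ^ 2) + 4) * hl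
  have hm : (x + y) ^ 2 * (l - (l - 4) * X ^ 2) = 4 * l * (x * y) := by
    rw [hl4]
    linear_combination -l * (X * ((x + y) * q) + (x - y)) * hO.hX
  have hp' : (x + y) ^ 2 * (l + (l - 4) * X ^ 2) = 2 * l * (x ^ 2 + y ^ 2) := by
    rw [hl4]
    linear_combination l * (X * ((x + y) * q) + (x - y)) * hO.hX
  apply mul_left_cancel₀ (pow_ne_zero 2 hS)
  have e3 : ((x + y) ^ 2) ^ 2 * Y ^ 2 = (4 * (x * y) * l ^ 2) ^ 2 * (r ^ 2 * s ^ 2) := by
    linear_combination (Y * (x + y) ^ 2 + 4 * (x * y) * (r * s) * l ^ 2) * hYS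
  rw [e3, e1, e2, hU, hA]
  have e4 : q * ((x + y) ^ 2 * (amp N p 0 * (l - (l - 4) * X ^ 2) +
      4 * (amp N p 1 * (l * (x * y))) * X)) = 4 * (x * y) * l * eT (amp N p) x y q := by
    unfold eT
    linear_combination q * amp N p 0 * hm + 4 * amp N p 1 * l * (x * y) * (x + y) * hO.hX
  have e5 : (x + y) ^ 2 * (l * (amp N p 5 + amp N p 6 * q ^ 2) * (l - (l - 4) * X ^ 2) +
      2 * (amp N p 7 * (l * (x * y))) * (l + (l - 4) * X ^ 2)) =
      4 * (x * y) * l ^ 2 * eA (amp N p) x y q := by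
    unfold eA
    linear_combination l * (amp N p 5 + amp N p 6 * q ^ 2) * hm +
      2 * amp N p 7 * (l * (x * y)) * hp'
  have e6 : l * (l - 4) = (l * q) ^ 2 := by
    rw [hl4]
    ring
  have e7 : ((x + y) ^ 2) ^ 2 * ((l * q) ^ 2 * (amp N p 0 * (l - (l - 4) * X ^ 2) +
      4 * (amp N p 1 * (l * (x * y))) * X) ^ 2 -
      (l * (amp N p 5 + amp N p 6 * q ^ 2) * (l - (l - 4) * X ^ 2) +
      2 * (amp N p 7 * (l * (x * y))) * (l + (l - 4) * X ^ 2)) ^ 2) =
      (l * (q * ((x + y) ^ 2 * (amp N p 0 * (l - (l - 4) * X ^ 2) +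
      4 * (amp N p 1 * (l * (x * y))) * X)))) ^ 2 -
      ((x + y) ^ 2 * (l * (amp N p 5 + amp N p 6 * q ^ 2) * (l - (l - 4) * X ^ 2) +
      2 * (amp N p 7 * (l * (x * y))) * (l + (l - 4) * X ^ 2))) ^ 2 := by ring
  rw [e6, e7, e4, e5]
  ring

theorem Over.X_notMem [IsAlgClosed N] {x y q r s v σ X Y : N} (hG : GP p ![x, y, q, r, s, v])
    (hO : Over x y q r s σ X Y) : X ∉ cl0 ({σ} : Set N) := by
  have : CharZero N := charZero_of_injective_algebraMap (algebraMap ℂ N).injective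
  intro hX
  obtain ⟨k0, k1, k2, k3⟩ := q_ne (gp_ind hG)
  have e0 : x * y = 1 - amp N p 8 * q ^ 2 := hG.on.eq
  have hy := (ind_y (gp_ind hG) e0).1
  have mσ : σ ∈ cl0 ({σ} : Set N) := subset_cl0 _ rfl
  have hσ : 1 + σ ≠ 0 := by
    intro h0
    have h1 : (2 : N) = 0 := by linear_combination (1 + q) * h0 - hO.hs
    exact two_ne_zero h1
  have mq : q ∈ cl0 ({σ} : Set N) := by
    have h1 : q = (1 - σ) / (1 + σ) := by
      rw [eq_div_iff hσ]
      linear_combination hO.hs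
    rw [h1]
    exact div_mem (sub_mem (one_mem _) mσ) (add_mem (one_mem _) mσ)
  have mX : q * X ∈ cl0 ({σ} : Set N) := mul_mem mq hX
  have h1 : x * (1 - q * X) = y * (1 + q * X) := by linear_combination -hO.hX
  have h2 : 1 - q * X ≠ 0 := by
    intro h0
    have h3 : y * 2 = 0 := by linear_combination (x + y) * h0 - h1
    rcases mul_eq_zero.1 h3 with h4 | h4
    · exact hy h4
    · exact two_ne_zero h4
  have mx : x ∈ cl0 ({σ} : Set N) := by
    refine sq_mem (cd_cl0 _) ?_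
    have h3 : x ^ 2 = (1 - amp N p 8 * q ^ 2) * (1 + q * X) / (1 - q * X) := by
      rw [eq_div_iff h2, ← e0]
      linear_combination x * h1
    rw [h3]
    exact div_mem (mul_mem (sub_mem (one_mem _) (mul_mem (amp_mem _ 8) (pow_mem mq 2)))
      (add_mem (one_mem _) mX)) (sub_mem (one_mem _) mX)
  exact not_both (gp_ind hG) mx mq

theorem Over.s_tr [IsAlgClosed N] {x y q r s v σ X Y : N} (hG : GP p ![x, y, q, r, s, v])
    (hO : Over x y q r s σ X Y) : Transcendental ℂ σ := by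
  have : CharZero N := charZero_of_injective_algebraMap (algebraMap ℂ N).injective
  apply transc
  intro mσ
  have hσ : 1 + σ ≠ 0 := by
    intro h0
    have h1 : (2 : N) = 0 := by linear_combination (1 + q) * h0 - hO.hs
    exact two_ne_zero h1
  apply (notMem_empty (gp_ind hG)).2
  have h1 : q = (1 - σ) / (1 + σ) := by
    rw [eq_div_iff hσ]
    linear_combination hO.hs
  rw [h1]
  exact div_mem (sub_mem (one_mem _) mσ) (add_mem (one_mem _) mσ)

end

section

variable {K E N : Type} [Field K] [Algebra ℂ K] [Field E] [Algebra ℂ E] [Field N] [Algebra ℂ N]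
  {p : Fin 9 → ℂ} {e : Fin 6 → E} {ι : K →ₐ[ℂ] E} [IsAlgClosed N]

/-- **The quotient by the involution.** -/
theorem partB (cm : p 0 * p 3 - p 1 * p 2 ≠ 0) (hq : ParB p) (h : IsE p e) (hs : Sym e ι)
    (h4 : Algebra.trdeg ℂ N = 4) {x y q r s v t₁ t₂ : N} (hG : GP p ![x, y, q, r, s, v])
    (hind : AlgebraicIndependent ℂ ![x, q, t₁, t₂])
    (halg : Algebra.IsAlgebraic (IntermediateField.adjoin ℂ (Set.range ![x, q, t₁, t₂])) N) :
    (16 : ℤ) • (ptK e ι ![x, y, q, r, s, v] + ptK e ι ![x, y, q, r, s, -v]) ∈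
      stableRelations K N := by
  have : CharZero N := charZero_of_injective_algebraMap (algebraMap ℂ N).injective
  obtain ⟨k0, k1, k2, k3⟩ := q_ne (gp_ind hG)
  have e0 : x * y = 1 - amp N p 8 * q ^ 2 := hG.on.eq
  have k4 := sum_ne (gp_ind hG) e0
  have hO := over_mk (r := r) (s := s) k1 k3 k0 k4
  set σ := (1 - q) / (1 + q) with hσ
  set X' := (x - y) / ((x + y) * q) with hX'
  set Y' := 64 * (x * y) * (r * s) / ((1 - q ^ 2) ^ 2 * (x + y) ^ 2) with hY'
  have f1 := H637.tside_family (P := uPX (p 0) (p 1) (p 5) (p 6) (p 7) (p 8))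
    (p := upX (p 0) (p 1) (p 5) (p 6) (p 7) (p 8)) (q := uqX (p 0) (p 1) (p 5) (p 6) (p 7) (p 8))
    h4 (natDegree_upX _ _ _ _ _ _) (natDegree_uqX _ _ _ _ _ _) (uhdisc hq.E hq.R)
    (uhnt hq.cg hq.g3 hq.g4 hq.E hq.R) (qI_zP _ _ _ _ _ _) (qJ_zP _ _ _ _ _ _)
    (H637.star_of_equi (B := BB p e ι) (fun g σ X Y => act_BB cm h hs g σ X Y))
    (hO.s_tr hG) (hO.X_notMem hG) (hO.eqn hG)
  -- the other point
  obtain ⟨w, hw⟩ := IsAlgClosed.exists_pow_nat_eq
    (eM (amp N p) x y q + 2 * amp N p 4 * (r * -s)) (n := 2) (by norm_num)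
  have hG2 : GP p ![x, y, q, r, -s, w] := by
    refine gp_mk (gp_ind hG) ⟨e0, hG.on.er, ?_, hw⟩
    rw [neg_sq]
    exact hG.on.es
  have f2 := BB_inv cm h hs hG2 hO.neg_s
  rw [neg_neg] at f2
  rw [f2] at f1
  have f3 := BB_sum cm h hs hG hO hind halg
  have f4 := AddSubgroup.add_mem _ f1 (AddSubgroup.zsmul_mem _ f3 8)
  rw [BB_eq cm h hs hG hO] at f4
  have e1 : (8 : ℤ) • (PS e ι x y q r s v - BB p e ι σ X' (-Y')) +
      (8 : ℤ) • (PS e ι x y q r s v + BB p e ι σ X' (-Y')) =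
      (16 : ℤ) • PS e ι x y q r s v := by
    rw [← smul_add, show (16 : ℤ) = 8 * 2 by norm_num, mul_smul,
      two_smul ℤ (PS e ι x y q r s v)]
    congr 1
    abel
  rw [e1] at f4
  exact f4

end

end Vale.Agent.P297.ZU
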