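import Vale.Agent.P297.H600.ZUGen
import Vale.Agent.P297.H600.ZUB

/-!
The conditions on the parameters, and the general curve `v = μ r + ν s`.
-/

set_option linter.unusedSectionVars false

open IntermediateField Polynomial

namespace Vale.Agent.P297.ZU

open Vale.Agent.P297 Vale.Agent.P297.H839 Vale.Agent.P297.H600 Vale.Agent.P297.H729
open Vale.Agent.P297.Gen Vale.Agent.P297.H72
open Vale.Agent.P297.Z42 (Cd quad_mem sq_mem quad_zero cd_cl0 cd_clo all2 ind2 notMem_cl0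
  notMem_cl0' cl0_empty_le notMem_empty not_both mul_ne)

/-- The conditions on the parameters `(c₁, c₂, m₁, m₂, n, α, β, γ, ε)`. -/
structure Good (p : Fin 9 → ℂ) : Prop where
  cm : p 0 * p 3 ≠ p 1 * p 2
  cg : p 1 ≠ 0 ∨ p 7 ≠ 0
  g3 : p 6 = -(p 8 * p 5) → p 0 ≠ 0 ∧ p 8 ≠ 0
  g4 : p 6 = p 8 * p 5 → ¬ (p 0 ^ 2 = 4 * p 8 * p 5 ^ 2 ∧ p 1 ^ 2 = p 7 ^ 2) ∧
    ¬ (p 5 ^ 2 = 4 * p 7 ^ 2 ∧ p 0 ^ 2 = 16 * p 8 * p 1 ^ 2) ∧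
    ¬ (p 0 ^ 2 - 16 * p 8 * p 1 ^ 2 = 4 * p 8 * (p 5 ^ 2 - 4 * p 7 ^ 2) ∧
      p 0 * p 2 = 16 * p 8 * (p 1 * p 3) ∧
      p 2 ^ 2 - 16 * p 8 * p 3 ^ 2 = -4 * p 4 ^ 2 * (p 0 ^ 2 - 16 * p 8 * p 1 ^ 2))
  g5 : p 4 = 0 → ¬ (p 3 = 0 ∧ p 1 ^ 2 = p 7 ^ 2) ∧
    ¬ (p 7 = 0 ∧ p 6 = -(p 8 * p 5) ∧ p 2 ^ 2 = 16 * p 8 * p 3 ^ 2 ∧
      (p 0 ^ 2 + 16 * p 8 * p 1 ^ 2 + 4 * p 8 * p 5 ^ 2) * p 3 = 2 * p 0 * p 1 * p 2)

section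

variable {N : Type} [Field N] [Algebra ℂ N] {p : Fin 9 → ℂ}

theorem amp_zero {c : ℂ} (h : algebraMap ℂ N c = 0) : c = 0 :=
  (map_eq_zero_iff _ (algebraMap ℂ N).injective).1 h

/-- the discriminant as a function of the square of the parameter -/
theorem nD_eq (P : Fin 9 → N) (μ ν : N) : μ ^ 8 * nD P μ ν =
    ((P 0 * ((μ ^ 2) ^ 2 + (μ * ν) ^ 2) - P 2 * μ ^ 2) ^ 2 -
      16 * P 8 * (P 1 * ((μ ^ 2) ^ 2 + (μ * ν) ^ 2) - P 3 * μ ^ 2) ^ 2 +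
      (16 * P 8 * P 7 ^ 2 - 4 * P 5 * P 6) * ((μ ^ 2) ^ 2 - (μ * ν) ^ 2) ^ 2) ^ 2 +
      64 * (P 6 - P 8 * P 5) ^ 2 * ((μ ^ 2) ^ 2 - (μ * ν) ^ 2) ^ 2 *
      ((P 1 * ((μ ^ 2) ^ 2 + (μ * ν) ^ 2) - P 3 * μ ^ 2) ^ 2 -
      P 7 ^ 2 * ((μ ^ 2) ^ 2 - (μ * ν) ^ 2) ^ 2) := by
  have h0 : μ ^ 2 * k0 P μ ν = ((μ ^ 2) ^ 2 - (μ * ν) ^ 2) * P 5 := by
    unfold k0
    ring
  have h1 : μ ^ 2 * k1 P μ ν = P 0 * ((μ ^ 2) ^ 2 + (μ * ν) ^ 2) - P 2 * μ ^ 2 := by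
    unfold k1
    ring
  have h2 : μ ^ 2 * k2 P μ ν = ((μ ^ 2) ^ 2 - (μ * ν) ^ 2) * P 6 := by
    unfold k2
    ring
  have h3 : μ ^ 2 * l1 P μ ν = (P 1 * ((μ ^ 2) ^ 2 + (μ * ν) ^ 2) - P 3 * μ ^ 2) +
      P 7 * ((μ ^ 2) ^ 2 - (μ * ν) ^ 2) := by
    unfold l1
    ring
  have h4 : μ ^ 2 * l2 P μ ν = -(P 1 * ((μ ^ 2) ^ 2 + (μ * ν) ^ 2) - P 3 * μ ^ 2) +
      P 7 * ((μ ^ 2) ^ 2 - (μ * ν) ^ 2) := by
    unfold l2
    ring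
  generalize P 0 * ((μ ^ 2) ^ 2 + (μ * ν) ^ 2) - P 2 * μ ^ 2 = K at *
  generalize P 1 * ((μ ^ 2) ^ 2 + (μ * ν) ^ 2) - P 3 * μ ^ 2 = S at *
  generalize (μ ^ 2) ^ 2 - (μ * ν) ^ 2 = D at *
  unfold nD
  have h5 : μ ^ 8 * ((k1 P μ ν ^ 2 - 4 * (k0 P μ ν * k2 P μ ν) +
      16 * P 8 * (l1 P μ ν * l2 P μ ν)) ^ 2 -
      64 * (l1 P μ ν * l2 P μ ν) * (k2 P μ ν - P 8 * k0 P μ ν) ^ 2) =
      ((μ ^ 2 * k1 P μ ν) ^ 2 - 4 * ((μ ^ 2 * k0 P μ ν) * (μ ^ 2 * k2 P μ ν)) +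
      16 * P 8 * ((μ ^ 2 * l1 P μ ν) * (μ ^ 2 * l2 P μ ν))) ^ 2 -
      64 * ((μ ^ 2 * l1 P μ ν) * (μ ^ 2 * l2 P μ ν)) *
      (μ ^ 2 * k2 P μ ν - P 8 * (μ ^ 2 * k0 P μ ν)) ^ 2 := by ring
  rw [h5, h0, h1, h2, h3, h4]
  ring

theorem gen_mu [IsAlgClosed N] (hp : Good p) {μ ν : N} (hmn : μ * ν = amp N p 4)
    (hμ : μ ∉ cl0 (∅ : Set N)) :
    l1 (amp N p) μ ν ≠ 0 ∧ l2 (amp N p) μ ν ≠ 0 ∧ nD (amp N p) μ ν ≠ 0 := by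
  have : CharZero N := charZero_of_injective_algebraMap (algebraMap ℂ N).injective
  have hw : μ ^ 2 ∉ cl0 (∅ : Set N) := fun h => hμ (sq_mem (cd_cl0 _) h)
  have hm : ∀ i, amp N p i ∈ cl0 (∅ : Set N) := fun i => amp_mem _ _
  have hn2 : ∀ {c : ℂ}, algebraMap ℂ N c * (algebraMap ℂ N (p 4)) ^ 2 = 0 → c = 0 ∨ p 4 = 0 := by
    intro c h
    rcases mul_eq_zero.1 h with h | h
    · exact Or.inl (amp_zero h)
    · exact Or.inr (amp_zero (pow_eq_zero_iff two_ne_zero |>.1 h))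
  have key : p 3 = 0 → p 1 + p 7 = 0 ∨ p 1 - p 7 = 0 →
      (p 1 + p 7 = 0 ∧ p 1 - p 7 = 0) ∨ p 4 = 0 → False := by
    intro h3 h h'
    rcases h' with ⟨h5, h6⟩ | h5
    · have h7 : p 1 = 0 := by linear_combination (h5 + h6) / 2
      have h8 : p 7 = 0 := by linear_combination (h5 - h6) / 2
      rcases hp.cg with h9 | h9
      · exact h9 h7
      · exact h9 h8
    · refine (hp.g5 h5).1 ⟨h3, ?_⟩
      rcases h with h | h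
      · linear_combination (p 1 - p 7) * h
      · linear_combination (p 1 + p 7) * h
  refine ⟨?_, ?_, ?_⟩
  · intro h0
    obtain ⟨e1, e2, e3⟩ := quad_zero (cd_cl0 _) hw
      (a := amp N p 1 + amp N p 7) (b := -amp N p 3)
      (c := (amp N p 1 - amp N p 7) * amp N p 4 ^ 2)
      (add_mem (hm 1) (hm 7)) (neg_mem (hm 3)) (mul_mem (sub_mem (hm 1) (hm 7)) (pow_mem (hm 4) 2))
      (by
        rw [← hmn]
        unfold l1 at h0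
        linear_combination μ ^ 2 * h0)
    have f1 : p 1 + p 7 = 0 := amp_zero (N := N) (by rw [map_add]; exact e1)
    have f3 : p 3 = 0 := amp_zero (N := N) (neg_eq_zero.1 e2)
    have f4 : p 1 - p 7 = 0 ∨ p 4 = 0 := hn2 (by rw [map_sub]; exact e3)
    refine key f3 (Or.inl f1) ?_
    rcases f4 with f4 | f4
    · exact Or.inl ⟨f1, f4⟩
    · exact Or.inr f4
  · intro h0
    obtain ⟨e1, e2, e3⟩ := quad_zero (cd_cl0 _) hw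
      (a := -(amp N p 1 - amp N p 7)) (b := amp N p 3)
      (c := -((amp N p 1 + amp N p 7) * amp N p 4 ^ 2))
      (neg_mem (sub_mem (hm 1) (hm 7))) (hm 3)
      (neg_mem (mul_mem (add_mem (hm 1) (hm 7)) (pow_mem (hm 4) 2)))
      (by
        rw [← hmn]
        unfold l2 at h0
        linear_combination μ ^ 2 * h0)
    have f1 : p 1 - p 7 = 0 := amp_zero (N := N) (by rw [map_sub]; exact neg_eq_zero.1 e1)
    have f3 : p 3 = 0 := amp_zero (N := N) e2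
    have f4 : p 1 + p 7 = 0 ∨ p 4 = 0 := hn2 (by rw [map_add]; exact neg_eq_zero.1 e3)
    refine key f3 (Or.inr f1) ?_
    rcases f4 with f4 | f4
    · exact Or.inl ⟨f4, f1⟩
    · exact Or.inr f4
  · intro h0
    have h1 := nD_eq (amp N p) μ ν
    rw [h0, mul_zero, hmn] at h1
    obtain ⟨P, hP⟩ : ∃ P : ℂ[X], P =
      ((C (p 0) * (X ^ 2 + C (p 4) ^ 2) - C (p 2) * X) ^ 2 -
      16 * C (p 8) * (C (p 1) * (X ^ 2 + C (p 4) ^ 2) - C (p 3) * X) ^ 2 +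
      (16 * C (p 8) * C (p 7) ^ 2 - 4 * C (p 5) * C (p 6)) * (X ^ 2 - C (p 4) ^ 2) ^ 2) ^ 2 +
      64 * (C (p 6) - C (p 8) * C (p 5)) ^ 2 * (X ^ 2 - C (p 4) ^ 2) ^ 2 *
      ((C (p 1) * (X ^ 2 + C (p 4) ^ 2) - C (p 3) * X) ^ 2 -
      C (p 7) ^ 2 * (X ^ 2 - C (p 4) ^ 2) ^ 2) := ⟨_, rfl⟩
    have h3 : aeval (μ ^ 2) P = 0 := by
      rw [hP]
      simp only [map_sub, map_add, map_mul, map_pow, aeval_C, aeval_X, map_ofNat]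
      exact h1.symm
    have h4 : P = 0 := transcendental_iff.1 (transc hw) P h3
    have h5 : ∀ w : ℂ, ((p 0 * (w ^ 2 + p 4 ^ 2) - p 2 * w) ^ 2 -
        16 * p 8 * (p 1 * (w ^ 2 + p 4 ^ 2) - p 3 * w) ^ 2 +
        (16 * p 8 * p 7 ^ 2 - 4 * p 5 * p 6) * (w ^ 2 - p 4 ^ 2) ^ 2) ^ 2 +
        64 * (p 6 - p 8 * p 5) ^ 2 * (w ^ 2 - p 4 ^ 2) ^ 2 *
        ((p 1 * (w ^ 2 + p 4 ^ 2) - p 3 * w) ^ 2 -
        p 7 ^ 2 * (w ^ 2 - p 4 ^ 2) ^ 2) = 0 := by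
      intro w
      have h6 := congrArg (fun f : ℂ[X] => f.eval w) h4
      rw [hP] at h6
      simpa only [eval_sub, eval_add, eval_mul, eval_pow, eval_C, eval_X, eval_ofNat,
        eval_zero] using h6
    have cm : p 0 * p 3 - p 1 * p 2 ≠ 0 := sub_ne_zero.2 hp.cm
    by_cases hn : p 4 = 0
    · rw [hn] at h5
      exact disc_aux0 cm (fun h => (hp.g3 h).2) (hp.g5 hn).2 h5
    · exact disc_aux cm hn (fun h => (hp.g4 h).2.2) h5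

theorem gen_all [IsAlgClosed N] (hp : Good p) {μ ν : N} (hmn : μ * ν = amp N p 4)
    (h : μ ∉ cl0 (∅ : Set N) ∨ ν ∉ cl0 (∅ : Set N)) :
    l1 (amp N p) μ ν ≠ 0 ∧ l2 (amp N p) μ ν ≠ 0 ∧ nD (amp N p) μ ν ≠ 0 := by
  rcases h with h | h
  · exact gen_mu hp hmn h
  · obtain ⟨e1, e2, e3⟩ := gen_mu hp (by rw [mul_comm]; exact hmn) h
    have s1 : l1 (amp N p) μ ν = -l2 (amp N p) ν μ := by
      unfold l1 l2
      ring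
    have s2 : l2 (amp N p) μ ν = -l1 (amp N p) ν μ := by
      unfold l1 l2
      ring
    refine ⟨?_, ?_, ?_⟩
    · rw [s1]
      exact neg_ne_zero.2 e2
    · rw [s2]
      exact neg_ne_zero.2 e1
    · have s3 : k0 (amp N p) μ ν = -k0 (amp N p) ν μ := by
        unfold k0
        ring
      have s4 : k1 (amp N p) μ ν = k1 (amp N p) ν μ := by
        unfold k1
        ring
      have s5 : k2 (amp N p) μ ν = -k2 (amp N p) ν μ := by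
        unfold k2
        ring
      unfold nD at e3 ⊢
      rw [s1, s2, s3, s4, s5]
      intro h0
      apply e3
      linear_combination h0

end

theorem Good.parB {p : Fin 9 → ℂ} (hp : Good p) (hA : p 5 ≠ 0 ∨ p 6 ≠ 0 ∨ p 7 ≠ 0) :
    ParB p := by
  have c12 : p 0 ≠ 0 ∨ p 1 ≠ 0 := by
    by_contra hcon
    push Not at hcon
    apply hp.cm
    rw [hcon.1, hcon.2]
    ring
  exact ⟨uEX_ne fun h => (hp.g3 h).1, uRX_ne c12 hp.cg (fun h => (hp.g3 h).1) hA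
    fun h => (hp.g4 h).2.1, hp.cg, hp.g3, fun h => (hp.g4 h).1⟩

theorem Good.parA {p : Fin 9 → ℂ} (hp : Good p) (hA : p 5 ≠ 0 ∨ p 6 ≠ 0 ∨ p 7 ≠ 0) :
    ParA p :=
  ⟨sub_ne_zero.2 hp.cm, hA, fun _ _ _ _ _ _ hmn h => gen_all hp hmn h⟩

end Vale.Agent.P297.ZU
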