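import Vale.Agent.P297.H600.ZUMain
import Vale.Agent.P297.H600.ZUGen2

/-!
The automorphisms of the universal cover (uniform model), and the final theorem for the quotient.
-/

set_option linter.unusedSectionVars false

open IntermediateField Polynomial CategoryTheory AlgebraicGeometry

namespace Vale.Agent.P297.ZU

open Vale.Agent.P297 Vale.Agent.P297.H839 Vale.Agent.P297.H600

section

variable {E : Type} [Field E] [Algebra ℂ E] {p : Fin 9 → ℂ} {e : Fin 6 → E}

/-- an endomorphism with given values -/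
theorem IsE.exists_end (h : IsE p e) {ξ : Fin 6 → E} (hξ : GP p ξ) :
    ∃ τ : E →ₐ[ℂ] E, ∀ i, τ (e i) = ξ i := by
  let j : E →ₐ[ℂ] AlgebraicClosure E := IsScalarTower.toAlgHom ℂ E (AlgebraicClosure E)
  obtain ⟨ψ, hψ⟩ := h.exists_emb (hξ.map j)
  have hmem : ∀ z : E, ψ z ∈ j.range := by
    intro z
    have h2 : z ∈ IntermediateField.adjoin ℂ (Set.range e) := by rw [h.top]; trivial
    induction h2 using IntermediateField.adjoin_induction with
    | mem x hx =>
      obtain ⟨i, rfl⟩ := hx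
      exact ⟨ξ i, (hψ i).symm⟩
    | algebraMap r => exact ⟨algebraMap ℂ E r, by rw [AlgHom.commutes]; exact j.commutes r⟩
    | add x y _ _ h1 h2 => rw [map_add]; exact add_mem h1 h2
    | mul x y _ _ h1 h2 => rw [map_mul]; exact mul_mem h1 h2
    | inv x _ h1 =>
      obtain ⟨w, hw⟩ := h1
      exact ⟨w⁻¹, by rw [map_inv₀ ψ, ← hw]; exact map_inv₀ j w⟩
  let τ : E →ₐ[ℂ] E := (AlgEquiv.ofInjectiveField j).symm.toAlgHom.comp (ψ.codRestrict j.range hmem)
  have hτ : ∀ z, j (τ z) = ψ z := by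
    intro z
    have h3 : AlgEquiv.ofInjectiveField j (τ z) = ψ.codRestrict j.range hmem z :=
      (AlgEquiv.ofInjectiveField j).apply_symm_apply _
    exact congrArg Subtype.val h3
  exact ⟨τ, fun i => j.toRingHom.injective ((hτ (e i)).trans (hψ i))⟩

theorem IsE.id_of (h : IsE p e) {τ : E →ₐ[ℂ] E} (hv : ∀ i, τ (e i) = e i) : τ = AlgHom.id ℂ E :=
  h.ext hv

/-- The action of `ℤ/4 × ℤ/2`: `a` has order four, and `b` has order two. -/
structure Acts (e : Fin 6 → E) (a b : E ≃ₐ[ℂ] E) : Prop where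
  a : a (e 0) = e 1 ∧ a (e 1) = e 0 ∧ a (e 2) = -e 2 ∧
    a (e 3) = algebraMap ℂ E Complex.I * e 4 ∧ a (e 4) = algebraMap ℂ E Complex.I * e 3 ∧
    a (e 5) = algebraMap ℂ E Complex.I * e 5
  b : b (e 0) = -e 0 ∧ b (e 1) = -e 1 ∧ b (e 2) = e 2 ∧
    b (e 3) = -e 3 ∧ b (e 4) = -e 4 ∧ b (e 5) = e 5

/-- **The automorphisms exist.** -/
theorem IsE.exists_aut (h : IsE p e) : ∃ a b : E ≃ₐ[ℂ] E, Acts e a b := by
  have hG : GP p ![e 0, e 1, e 2, e 3, e 4, e 5] := gp_mk h.gp.ind h.gp.on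
  obtain ⟨z, hz⟩ := h.exists_end (gp_neg_v (gp_neg_rs hG))
  obtain ⟨b, hb⟩ := h.exists_end (gp_neg_xy (gp_neg_rs hG))
  obtain ⟨a, ha⟩ := h.exists_end (gp_a hG)
  have z0 : z (e 0) = e 0 := hz 0
  have z1 : z (e 1) = e 1 := hz 1
  have z2 : z (e 2) = e 2 := hz 2
  have z3 : z (e 3) = -e 3 := hz 3
  have z4 : z (e 4) = -e 4 := hz 4
  have z5 : z (e 5) = -e 5 := hz 5
  have b0 : b (e 0) = -e 0 := hb 0
  have b1 : b (e 1) = -e 1 := hb 1
  have b2 : b (e 2) = e 2 := hb 2
  have b3 : b (e 3) = -e 3 := hb 3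
  have b4 : b (e 4) = -e 4 := hb 4
  have b5 : b (e 5) = e 5 := hb 5
  have a0 : a (e 0) = e 1 := ha 0
  have a1 : a (e 1) = e 0 := ha 1
  have a2 : a (e 2) = -e 2 := ha 2
  have a3 : a (e 3) = algebraMap ℂ E Complex.I * e 4 := ha 3
  have a4 : a (e 4) = algebraMap ℂ E Complex.I * e 3 := ha 4
  have a5 : a (e 5) = algebraMap ℂ E Complex.I * e 5 := ha 5
  have hI : algebraMap ℂ E Complex.I * algebraMap ℂ E Complex.I = -1 := by
    rw [← map_mul, Complex.I_mul_I, map_neg, map_one]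
  have hI' : a (algebraMap ℂ E Complex.I) = algebraMap ℂ E Complex.I := a.commutes _
  have hzz : z.comp z = AlgHom.id ℂ E := by
    refine h.id_of fun i => ?_
    fin_cases i
    · change z (z (e 0)) = e 0
      rw [z0, z0]
    · change z (z (e 1)) = e 1
      rw [z1, z1]
    · change z (z (e 2)) = e 2
      rw [z2, z2]
    · change z (z (e 3)) = e 3
      rw [z3, map_neg, z3, neg_neg]
    · change z (z (e 4)) = e 4
      rw [z4, map_neg, z4, neg_neg]
    · change z (z (e 5)) = e 5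
      rw [z5, map_neg, z5, neg_neg]
  have hbb : b.comp b = AlgHom.id ℂ E := by
    refine h.id_of fun i => ?_
    fin_cases i
    · change b (b (e 0)) = e 0
      rw [b0, map_neg, b0, neg_neg]
    · change b (b (e 1)) = e 1
      rw [b1, map_neg, b1, neg_neg]
    · change b (b (e 2)) = e 2
      rw [b2, b2]
    · change b (b (e 3)) = e 3
      rw [b3, map_neg, b3, neg_neg]
    · change b (b (e 4)) = e 4
      rw [b4, map_neg, b4, neg_neg]
    · change b (b (e 5)) = e 5
      rw [b5, b5]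
  have haa : a.comp a = z := by
    refine h.ext fun i => ?_
    fin_cases i
    · change a (a (e 0)) = z (e 0)
      rw [a0, a1, z0]
    · change a (a (e 1)) = z (e 1)
      rw [a1, a0, z1]
    · change a (a (e 2)) = z (e 2)
      rw [a2, map_neg, a2, z2, neg_neg]
    · change a (a (e 3)) = z (e 3)
      rw [a3, map_mul, hI', a4, z3]
      linear_combination (e 3) * hI
    · change a (a (e 4)) = z (e 4)
      rw [a4, map_mul, hI', a3, z4]
      linear_combination (e 4) * hI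
    · change a (a (e 5)) = z (e 5)
      rw [a5, map_mul, hI', a5, z5]
      linear_combination (e 5) * hI
  have h4 : a.comp (a.comp z) = AlgHom.id ℂ E := by
    rw [← AlgHom.comp_assoc, haa, hzz]
  have h5 : (a.comp z).comp a = AlgHom.id ℂ E := by
    rw [AlgHom.comp_assoc, ← haa]
    rw [show a.comp ((a.comp a).comp a) = (a.comp a).comp (a.comp a) by
      simp only [AlgHom.comp_assoc], haa, hzz]
  exact ⟨AlgEquiv.ofAlgHom a (a.comp z) h4 h5, AlgEquiv.ofAlgHom b b hbb hbb,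
    ⟨a0, a1, a2, a3, a4, a5⟩, ⟨b0, b1, b2, b3, b4, b5⟩⟩

theorem Acts.sym {K : Type} [Field K] [Algebra ℂ K] {a b : E ≃ₐ[ℂ] E} (h : Acts e a b)
    (ι : K →ₐ[ℂ] IntermediateField.fixedField (Subgroup.closure {a, b})) :
    Sym e ((IntermediateField.fixedField (Subgroup.closure {a, b})).val.comp ι) := by
  have hfix : ∀ g ∈ ({a, b} : Set (E ≃ₐ[ℂ] E)),
      g.toAlgHom.comp ((IntermediateField.fixedField (Subgroup.closure {a, b})).val.comp ι) =
        (IntermediateField.fixedField (Subgroup.closure {a, b})).val.comp ι := by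
    intro g hg
    apply AlgHom.ext
    intro t
    exact (ι t).2 ⟨g, Subgroup.subset_closure hg⟩
  have ha := hfix a (Or.inl rfl)
  obtain ⟨a0, a1, a2, a3, a4, a5⟩ := h.a
  have hI : algebraMap ℂ E Complex.I * algebraMap ℂ E Complex.I = -1 := by
    rw [← map_mul, Complex.I_mul_I, map_neg, map_one]
  have hI' : a (algebraMap ℂ E Complex.I) = algebraMap ℂ E Complex.I := a.commutes _
  refine ⟨⟨a.toAlgHom.comp a.toAlgHom, ?_, ?_, ?_, ?_, ?_, ?_, ?_⟩,
    ⟨b.toAlgHom, hfix b (Or.inr rfl), h.b⟩, ⟨a.toAlgHom, ha, h.a⟩⟩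
  · rw [AlgHom.comp_assoc, ha, ha]
  · change a (a (e 0)) = e 0
    rw [a0, a1]
  · change a (a (e 1)) = e 1
    rw [a1, a0]
  · change a (a (e 2)) = e 2
    rw [a2, map_neg, a2, neg_neg]
  · change a (a (e 3)) = -e 3
    rw [a3, map_mul, hI', a4]
    linear_combination (e 3) * hI
  · change a (a (e 4)) = -e 4
    rw [a4, map_mul, hI', a3]
    linear_combination (e 4) * hI
  · change a (a (e 5)) = -e 5
    rw [a5, map_mul, hI', a5]
    linear_combination (e 5) * hI

/-- `A` is not zero. -/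
theorem IsE.eA_ne (h : IsE p e) (cm : p 0 * p 3 - p 1 * p 2 ≠ 0) :
    p 5 ≠ 0 ∨ p 6 ≠ 0 ∨ p 7 ≠ 0 := by
  by_contra hcon
  push Not at hcon
  obtain ⟨h5, h6, h7⟩ := hcon
  set N := AlgebraicClosure E
  have hc0 : CharZero N := charZero_of_injective_algebraMap (algebraMap ℂ N).injective
  let j : E →ₐ[ℂ] N := IsScalarTower.toAlgHom ℂ E N
  have hG := gp_of_emb h j
  obtain ⟨w, hw⟩ := IsAlgClosed.exists_pow_nat_eq
    (eM (amp N p) (j (e 0)) (j (e 1)) (j (e 2)) - 2 * amp N p 4 * (j (e 3) * j (e 4))) (n := 2)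
    (by norm_num)
  have hG' : GP p ![j (e 0), j (e 1), j (e 2), j (e 3), -j (e 4), w] := by
    refine gp_mk hG.ind ⟨hG.on.eq, hG.on.er, ?_, ?_⟩
    · rw [neg_sq]
      exact hG.on.es
    · rw [hw]
      ring
  obtain ⟨ψ, hψ⟩ := h.exists_emb hG'
  have h2 : ψ (e 3) = j (e 3) := hψ 3
  have h3 : ψ (e 4) = -j (e 4) := hψ 4
  have hA : eA (amp E p) (e 0) (e 1) (e 2) = 0 := by
    unfold eA amp
    rw [h5, h6, h7, map_zero]
    ring
  have h4 : (e 3 - e 4) * (e 3 + e 4) = 0 := by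
    have h8 := h.gp.on.er
    have h9 := h.gp.on.es
    rw [hA] at h8 h9
    linear_combination h8 - h9
  have hs0 : j (e 4) ≠ 0 := (rs_ne cm hG).2
  rcases mul_eq_zero.1 h4 with h8 | h8
  · have h9 : e 3 = e 4 := sub_eq_zero.1 h8
    rw [h9, h3] at h2
    apply hs0
    linear_combination -h2 / 2
  · have h9 : e 3 = -e 4 := eq_neg_of_add_eq_zero_left h8
    rw [h9, map_neg, map_neg, h3] at h2
    apply hs0
    linear_combination h2 / 2

/-- **Bloch's conjecture for the numerical Campedelli surfaces with fundamental group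
`ℤ/4 × ℤ/2`, and for everything that they dominate.** -/
theorem bloch_good (hp : Good p) (h : IsE p e) {a b : E ≃ₐ[ℂ] E} (hA : Acts e a b) {K : Type}
    [Field K] [Algebra ℂ K]
    (ι : K →ₐ[ℂ] IntermediateField.fixedField (Subgroup.closure {a, b})) :
    H839.PointsEquivalent K := by
  have h5 := h.eA_ne (sub_ne_zero.2 hp.cm)
  exact pointsEquivalent (hp.parA h5) (hp.parB h5) h (hA.sym ι)

end

end Vale.Agent.P297.ZU
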