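import Vale.Agent.P297.H600.C8Defs
import Vale.Agent.P297.H600.ZUAut
import Vale.Agent.P297.H777.ZUSmooth

/-!
The equations in polynomial form, for the group `ℤ/4 × ℤ/2`.
-/

set_option linter.unusedSimpArgs false
set_option linter.unusedTactic false
set_option linter.unreachableTactic false

open MvPolynomial

namespace Vale.Agent.P297.C8U

open Vale.Agent.P297 Vale.Agent.P297.H839

/-- The equations for the group `ℤ/4 × ℤ/2`. -/
noncomputable def P42 (p : Fin 9 → ℂ) : Fin 4 → MvPolynomial (Fin 7) ℂ :=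
  ![X 1 * X 2 - X 0 ^ 2 + C (p 8) * X 3 ^ 2,
    C (p 0) * (X 0 * X 3) + C (p 1) * (X 1 ^ 2 - X 2 ^ 2) + (C (p 5) * X 0 ^ 2 +
      C (p 6) * X 3 ^ 2 + C (p 7) * (X 1 ^ 2 + X 2 ^ 2)) - X 4 ^ 2,
    C (p 0) * (X 0 * X 3) + C (p 1) * (X 1 ^ 2 - X 2 ^ 2) - (C (p 5) * X 0 ^ 2 +
      C (p 6) * X 3 ^ 2 + C (p 7) * (X 1 ^ 2 + X 2 ^ 2)) - X 5 ^ 2,
    C (p 2) * (X 0 * X 3) + C (p 3) * (X 1 ^ 2 - X 2 ^ 2) + 2 * (C (p 4) * (X 4 * X 5)) -
      X 6 ^ 2]

theorem F42.eq {p : Fin 9 → ℂ} {F : Fin 4 → MvPolynomial (Fin 7) ℂ} (h : F42 p F) :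
    F = P42 p := by
  funext i
  fin_cases i
  · refine h.e0.trans ?_
    change _ = X 1 * X 2 - X 0 ^ 2 + C (p 8) * X 3 ^ 2
    simp only [q, C_1]
    ring
  · refine h.e1.trans ?_
    change _ = C (p 0) * (X 0 * X 3) + C (p 1) * (X 1 ^ 2 - X 2 ^ 2) + (C (p 5) * X 0 ^ 2 +
      C (p 6) * X 3 ^ 2 + C (p 7) * (X 1 ^ 2 + X 2 ^ 2)) - X 4 ^ 2
    simp only [q, C_1]
    ring
  · refine h.e2.trans ?_
    change _ = C (p 0) * (X 0 * X 3) + C (p 1) * (X 1 ^ 2 - X 2 ^ 2) - (C (p 5) * X 0 ^ 2 +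
      C (p 6) * X 3 ^ 2 + C (p 7) * (X 1 ^ 2 + X 2 ^ 2)) - X 5 ^ 2
    simp only [q, C_1]
    ring
  · refine h.e3.trans ?_
    change _ = C (p 2) * (X 0 * X 3) + C (p 3) * (X 1 ^ 2 - X 2 ^ 2) +
      2 * (C (p 4) * (X 4 * X 5)) - X 6 ^ 2
    simp only [q, C_1, C_mul]
    rw [show (C 2 : MvPolynomial (Fin 7) ℂ) = 2 from map_ofNat C 2]
    ring

theorem aeval_F42 {R : Type} [CommRing R] [Algebra ℂ R] (p : Fin 9 → ℂ) (t : Fin 7 → R) :
    (aeval t (P42 p 0) = t 1 * t 2 - t 0 ^ 2 + algebraMap ℂ R (p 8) * t 3 ^ 2) ∧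
    (aeval t (P42 p 1) = (algebraMap ℂ R (p 0) * (t 0 * t 3) +
      algebraMap ℂ R (p 1) * (t 1 ^ 2 - t 2 ^ 2)) + (algebraMap ℂ R (p 5) * t 0 ^ 2 +
      algebraMap ℂ R (p 6) * t 3 ^ 2 + algebraMap ℂ R (p 7) * (t 1 ^ 2 + t 2 ^ 2)) - t 4 ^ 2) ∧
    (aeval t (P42 p 2) = (algebraMap ℂ R (p 0) * (t 0 * t 3) +
      algebraMap ℂ R (p 1) * (t 1 ^ 2 - t 2 ^ 2)) - (algebraMap ℂ R (p 5) * t 0 ^ 2 +
      algebraMap ℂ R (p 6) * t 3 ^ 2 + algebraMap ℂ R (p 7) * (t 1 ^ 2 + t 2 ^ 2)) - t 5 ^ 2) ∧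
    (aeval t (P42 p 3) = (algebraMap ℂ R (p 2) * (t 0 * t 3) +
      algebraMap ℂ R (p 3) * (t 1 ^ 2 - t 2 ^ 2)) + 2 * (algebraMap ℂ R (p 4) * (t 4 * t 5)) -
      t 6 ^ 2) := by
  refine ⟨?_, ?_, ?_, ?_⟩ <;> simp [P42]

theorem pderiv_two' (j : Fin 7) : pderiv j (2 : MvPolynomial (Fin 7) ℂ) = 0 := by
  rw [show (2 : MvPolynomial (Fin 7) ℂ) = C 2 from (map_ofNat C 2).symm]
  exact pderiv_C

theorem smoothU_of {p : Fin 9 → ℂ} (hs : Smooth (P42 p)) :
    H777.ZU.SmoothU (p 0) (p 1) (p 2) (p 3) (p 4) (p 5) (p 6) (p 7) (p 8) := by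
  intro x y h w r s v e0 e1 e2 e3 hne l1 l2 l3 l4 d1 d2 d3 d4 d5 d6 d7
  have hz : (![h, x, y, w, r, s, v] : Fin 7 → ℂ) ≠ 0 := by
    intro h0
    have h' : ∀ j, (![h, x, y, w, r, s, v] : Fin 7 → ℂ) j = 0 := fun j => congrFun h0 j
    rcases hne with h2 | h2 | h2 | h2 | h2 | h2 | h2
    · exact h2 (h' 1)
    · exact h2 (h' 2)
    · exact h2 (h' 0)
    · exact h2 (h' 3)
    · exact h2 (h' 4)
    · exact h2 (h' 5)
    · exact h2 (h' 6)
  obtain ⟨z0, z1, z2, z3⟩ := aeval_F42 (R := ℂ) p ![h, x, y, w, r, s, v]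
  have hl := hs _ hz (fun i => by
    fin_cases i
    · refine z0.trans ?_
      change x * y - h ^ 2 + p 8 * w ^ 2 = 0
      linear_combination e0
    · refine z1.trans ?_
      change (p 0 * (h * w) + p 1 * (x ^ 2 - y ^ 2)) + (p 5 * h ^ 2 + p 6 * w ^ 2 +
        p 7 * (x ^ 2 + y ^ 2)) - r ^ 2 = 0
      linear_combination -(e1 + e2) / 2
    · refine z2.trans ?_
      change (p 0 * (h * w) + p 1 * (x ^ 2 - y ^ 2)) - (p 5 * h ^ 2 + p 6 * w ^ 2 +
        p 7 * (x ^ 2 + y ^ 2)) - s ^ 2 = 0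
      linear_combination -(e1 - e2) / 2
    · refine z3.trans ?_
      change (p 2 * (h * w) + p 3 * (x ^ 2 - y ^ 2)) + 2 * (p 4 * (r * s)) - v ^ 2 = 0
      linear_combination -e3)
  rw [Fintype.linearIndependent_iff] at hl
  have hg := hl ![l1, -l2 - l3, -l2 + l3, -l4] (by
    funext j
    simp only [Finset.sum_apply, Pi.smul_apply, smul_eq_mul, Pi.zero_apply, Fin.sum_univ_four]
    fin_cases j
    · simp [P42, pderiv_X, pderiv_two']
      linear_combination d3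
    · simp [P42, pderiv_X, pderiv_two']
      linear_combination d1
    · simp [P42, pderiv_X, pderiv_two']
      linear_combination d2
    · simp [P42, pderiv_X, pderiv_two']
      linear_combination d4
    · simp [P42, pderiv_X, pderiv_two']
      linear_combination d5
    · simp [P42, pderiv_X, pderiv_two']
      linear_combination d6
    · simp [P42, pderiv_X, pderiv_two']
      have h9 : l4 * v = 0 := by linear_combination d7 / 2
      exact mul_eq_zero.1 h9)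
  have g0 : l1 = 0 := hg 0
  have g1 : -l2 - l3 = 0 := hg 1
  have g2 : -l2 + l3 = 0 := hg 2
  have g3 : -l4 = 0 := hg 3
  exact ⟨g0, by linear_combination -(g1 + g2) / 2, by linear_combination (g2 - g1) / 2,
    by linear_combination -g3⟩

theorem Good.zu {p : Fin 9 → ℂ} (h : Good p) : ZU.Good p := ⟨h.cm, h.cg, h.g3, h.g4, h.g5⟩

theorem good_of {p : Fin 9 → ℂ} (hs : Smooth (P42 p)) : Good p := by
  obtain ⟨h1, h2, h3, h4, h5⟩ := (smoothU_of hs).good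
  refine ⟨h1, ?_, h3, fun h => ?_, h5⟩
  · by_contra hcon
    push Not at hcon
    exact h2 hcon
  · obtain ⟨a1, a2, a3⟩ := h4 h
    exact ⟨a1, a2, fun h6 => a3 ⟨h6.1, by rw [h6.2.1]; ring, h6.2.2⟩⟩

theorem isE_of {p : Fin 9 → ℂ} {E : Type} [Field E] [Algebra ℂ E] {t : Fin 7 → E}
    (h : IsFF (P42 p) t) (h8 : Module.finrank (IntermediateField.adjoin ℂ {t 1, t 3}) E = 8) :
    ZU.IsE p ![t 1, t 2, t 3, t 4, t 5, t 6] := by
  obtain ⟨z0, z1, z2, z3⟩ := aeval_F42 p t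
  rw [h.zero] at z0 z1 z2 z3
  have hr : Set.range ![t 1, t 3] = {t 1, t 3} := H600.range_pair _ _
  refine ⟨⟨?_, ?_⟩, ?_, ?_⟩
  · change AlgebraicIndependent ℂ ![t 1, t 3]
    have : FiniteDimensional (IntermediateField.adjoin ℂ {t 1, t 3}) E :=
      FiniteDimensional.of_finrank_pos (by rw [h8]; norm_num)
    have ha : Algebra.IsAlgebraic (Algebra.adjoin ℂ (Set.range ![t 1, t 3])) E := by
      rw [hr]
      exact ⟨fun z => IntermediateField.isAlgebraic_adjoin_iff.1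
        (Algebra.IsAlgebraic.isAlgebraic z)⟩
    exact (Algebra.IsAlgebraic.isTranscendenceBasis_of_le_trdeg_of_finite ℂ ![t 1, t 3] (by
      rw [h.trdeg, Cardinal.mk_fin]
      rfl)).1
  · refine ⟨?_, ?_, ?_, ?_⟩
    · change t 1 * t 2 = 1 - algebraMap ℂ E (p 8) * t 3 ^ 2
      rw [h.one] at z0
      linear_combination -z0
    · change t 4 ^ 2 = ZU.eT _ (t 1) (t 2) (t 3) + ZU.eA _ (t 1) (t 2) (t 3)
      unfold ZU.eT ZU.eA
      rw [h.one] at z1
      linear_combination z1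
    · change t 5 ^ 2 = ZU.eT _ (t 1) (t 2) (t 3) - ZU.eA _ (t 1) (t 2) (t 3)
      unfold ZU.eT ZU.eA
      rw [h.one] at z2
      linear_combination z2
    · change t 6 ^ 2 = ZU.eM _ (t 1) (t 2) (t 3) + 2 * algebraMap ℂ E (p 4) * (t 4 * t 5)
      unfold ZU.eM
      rw [h.one] at z3
      linear_combination z3
  · rw [← h.top]
    apply le_antisymm
    · rw [IntermediateField.adjoin_le_iff]
      rintro _ ⟨j, rfl⟩
      fin_cases j
      · exact IntermediateField.subset_adjoin _ _ ⟨1, rfl⟩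
      · exact IntermediateField.subset_adjoin _ _ ⟨2, rfl⟩
      · exact IntermediateField.subset_adjoin _ _ ⟨3, rfl⟩
      · exact IntermediateField.subset_adjoin _ _ ⟨4, rfl⟩
      · exact IntermediateField.subset_adjoin _ _ ⟨5, rfl⟩
      · exact IntermediateField.subset_adjoin _ _ ⟨6, rfl⟩
    · rw [IntermediateField.adjoin_le_iff]
      rintro _ ⟨j, rfl⟩
      fin_cases j
      · change t 0 ∈ _
        rw [h.one]
        exact one_mem _
      · exact IntermediateField.subset_adjoin _ _ ⟨0, rfl⟩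
      · exact IntermediateField.subset_adjoin _ _ ⟨1, rfl⟩
      · exact IntermediateField.subset_adjoin _ _ ⟨2, rfl⟩
      · exact IntermediateField.subset_adjoin _ _ ⟨3, rfl⟩
      · exact IntermediateField.subset_adjoin _ _ ⟨4, rfl⟩
      · exact IntermediateField.subset_adjoin _ _ ⟨5, rfl⟩
  · change Module.finrank (IntermediateField.adjoin ℂ (Set.range ![t 1, t 3])) E = 8
    rw [hr]
    exact h8

end Vale.Agent.P297.C8U
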