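import Vale.Agent.P297.H600.C8Link
import Vale.Agent.P297.H600.C8LinkU
import Vale.Agent.P297.H55.Z8Aut

/-!
Bloch's conjecture for the numerical Campedelli surfaces with fundamental groups `ℤ/8`, `Q₈`,
`ℤ/4 × ℤ/2`.
-/

open MvPolynomial

namespace Vale.Agent.P297.C8U

open Vale.Agent.P297 Vale.Agent.P297.H839

section

variable {E : Type} [Field E] [Algebra ℂ E] {t : Fin 7 → E}
  {F : Fin 4 → MvPolynomial (Fin 7) ℂ}

theorem bloch8 {m : Fin 10 → ℂ} (hF : F8 m F) (hs : Smooth F) (h : IsFF F t) {ε : ℂ}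
    (hε : ε ^ 2 = -Complex.I) :
    ∃ G : E ≃ₐ[ℂ] E,
      Acts t ![1, -1, Complex.I, -Complex.I, -ε, ε, ε] ![0, 1, 2, 3, 5, 4, 6] G ∧
      BlochSub (Subgroup.zpowers G) := by
  rw [hF.eq] at hs h
  have hX := isX_of (aeval_P8 m) h
  obtain ⟨G, hG, hB⟩ := C8.Z8.bloch_exists (smoothX_8 hs) hX hε
  refine ⟨G, ?_, hB⟩
  intro j
  change G (t j) * t 0 = _
  rw [h.one, mul_one]
  fin_cases j
  · change G (t 0) = algebraMap ℂ E 1 * t 0
    rw [h.one, map_one, map_one, one_mul]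
  · change _ = algebraMap ℂ E (-1) * t 1
    rw [map_neg, map_one, neg_one_mul]
    exact hG.a1
  · exact hG.a2
  · change _ = algebraMap ℂ E (-Complex.I) * t 3
    rw [map_neg, neg_mul]
    exact hG.a3
  · change _ = algebraMap ℂ E (-ε) * t 5
    rw [map_neg, neg_mul]
    exact hG.a4
  · exact hG.a5
  · exact hG.a6

theorem blochQ {a : ℂ} {x y z : Fin 3 → ℂ} (hF : FQ a x y z F) (hs : Smooth F)
    (h : IsFF F t) :
    ∃ G₁ G₂ : E ≃ₐ[ℂ] E,
      Acts t ![1, -1, 1, -1, -Complex.I, Complex.I, Complex.I] ![0, 1, 2, 3, 4, 5, 6] G₁ ∧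
      Acts t ![1, -1, 1, -1, -1, 1, -1] ![1, 0, 3, 2, 4, 5, 6] G₂ ∧
      BlochSub (Subgroup.closure {G₁, G₂}) := by
  rw [hF.eq] at hs h
  have hX := isX_of (aeval_PQ a x y z) h
  obtain ⟨G₁, G₂, hG, -⟩ := H10.bloch_Q8_exists (smoothX_Q hs) hX
  have h1 : ∀ G : E ≃ₐ[ℂ] E, G (t 0) = 1 := fun G => by rw [h.one, map_one]
  have hirr := (smoothX_Q hs).irreducible (H10.webQ_symm a x y z) (smoothX_Q hs).noBase
  have hFF := hX.isFF hirr
  have hgen : C8.GenW (H10.webQ a x y z) (C8.cx ![t 0, t 1, t 2, t 3]) :=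
    C8.GenW.of_phi hFF (AlgHom.id ℂ (C8.K1 ![t 0, t 1, t 2, t 3]))
  have t1 : t 1 ≠ 0 := fun h0 => H10.coord_ne hirr hgen 1 (Subtype.ext h0)
  have m1 : ∀ s : E, algebraMap ℂ E (-1) * s = -s := fun s => by
    rw [map_neg, map_one, neg_one_mul]
  have m2 : ∀ s : E, algebraMap ℂ E 1 * s = s := fun s => by rw [map_one, one_mul]
  refine ⟨G₁, G₂, ?_, ?_, fun L _ _ ι => H10.bloch_Q8_le (smoothX_Q hs) hX hG ι⟩
  · intro j
    change G₁ (t j) * t 0 = _
    rw [h.one, mul_one]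
    fin_cases j
    · change G₁ (t 0) = algebraMap ℂ E 1 * t 0
      rw [h1, m2, h.one]
    · change _ = algebraMap ℂ E (-1) * t 1
      rw [m1]
      exact hG.a1
    · change _ = algebraMap ℂ E 1 * t 2
      rw [m2]
      exact hG.a2
    · change _ = algebraMap ℂ E (-1) * t 3
      rw [m1]
      exact hG.a3
    · change _ = algebraMap ℂ E (-Complex.I) * t 4
      rw [map_neg, neg_mul]
      exact hG.a4
    · exact hG.a5
    · exact hG.a6
  · have b1 : G₂ (t 1) = -(t 1)⁻¹ := hG.b1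
    have b2 : G₂ (t 2) = t 3 / t 1 := hG.b2
    have b3 : G₂ (t 3) = -(t 2 / t 1) := hG.b3
    have b4 : G₂ (t 4) = -(t 4 / t 1) := hG.b4
    have b5 : G₂ (t 5) = t 5 / t 1 := hG.b5
    have b6 : G₂ (t 6) = -(t 6 / t 1) := hG.b6
    intro j
    change G₂ (t j) * t 1 = _
    fin_cases j
    · change G₂ (t 0) * t 1 = algebraMap ℂ E 1 * t 1
      rw [h1, m2, one_mul]
    · change G₂ (t 1) * t 1 = algebraMap ℂ E (-1) * t 0
      rw [b1, h.one, m1]
      field_simp
    · change G₂ (t 2) * t 1 = algebraMap ℂ E 1 * t 3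
      rw [b2, m2]
      field_simp
    · change G₂ (t 3) * t 1 = algebraMap ℂ E (-1) * t 2
      rw [b3, m1]
      field_simp
    · change G₂ (t 4) * t 1 = algebraMap ℂ E (-1) * t 4
      rw [b4, m1]
      field_simp
    · change G₂ (t 5) * t 1 = algebraMap ℂ E 1 * t 5
      rw [b5, m2]
      field_simp
    · change G₂ (t 6) * t 1 = algebraMap ℂ E (-1) * t 6
      rw [b6, m1]
      field_simp

theorem bloch42 {p : Fin 9 → ℂ} (hF : F42 p F) (hp : Good p) (h : IsFF F t)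
    (h8 : Module.finrank (IntermediateField.adjoin ℂ {t 1, t 3}) E = 8) :
    ∃ G₁ G₂ : E ≃ₐ[ℂ] E,
      Acts t ![1, 1, 1, -1, Complex.I, Complex.I, Complex.I] ![0, 2, 1, 3, 5, 4, 6] G₁ ∧
      Acts t ![1, -1, -1, 1, -1, -1, 1] ![0, 1, 2, 3, 4, 5, 6] G₂ ∧
      BlochSub (Subgroup.closure {G₁, G₂}) := by
  rw [hF.eq] at h
  have hE := isE_of h h8
  obtain ⟨a, b, hA⟩ := hE.exists_aut
  have h1 : ∀ G : E ≃ₐ[ℂ] E, G (t 0) = 1 := fun G => by rw [h.one, map_one]
  have m1 : ∀ s : E, algebraMap ℂ E (-1) * s = -s := fun s => by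
    rw [map_neg, map_one, neg_one_mul]
  have m2 : ∀ s : E, algebraMap ℂ E 1 * s = s := fun s => by rw [map_one, one_mul]
  refine ⟨a, b, ?_, ?_, fun L _ _ ι => ZU.bloch_good hp.zu hE hA ι⟩
  · obtain ⟨a0, a1, a2, a3, a4, a5⟩ := hA.a
    intro j
    change a (t j) * t 0 = _
    rw [h.one, mul_one]
    fin_cases j
    · change a (t 0) = algebraMap ℂ E 1 * t 0
      rw [h1, m2, h.one]
    · change _ = algebraMap ℂ E 1 * t 2
      rw [m2]
      exact a0
    · change _ = algebraMap ℂ E 1 * t 1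
      rw [m2]
      exact a1
    · change _ = algebraMap ℂ E (-1) * t 3
      rw [m1]
      exact a2
    · exact a3
    · exact a4
    · exact a5
  · obtain ⟨a0, a1, a2, a3, a4, a5⟩ := hA.b
    intro j
    change b (t j) * t 0 = _
    rw [h.one, mul_one]
    fin_cases j
    · change b (t 0) = algebraMap ℂ E 1 * t 0
      rw [h1, m2, h.one]
    · change _ = algebraMap ℂ E (-1) * t 1
      rw [m1]
      exact a0
    · change _ = algebraMap ℂ E (-1) * t 2
      rw [m1]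
      exact a1
    · change _ = algebraMap ℂ E 1 * t 3
      rw [m2]
      exact a2
    · change _ = algebraMap ℂ E (-1) * t 4
      rw [m1]
      exact a3
    · change _ = algebraMap ℂ E (-1) * t 5
      rw [m1]
      exact a4
    · change _ = algebraMap ℂ E 1 * t 6
      rw [m2]
      exact a5

theorem good42 {p : Fin 9 → ℂ} (hF : F42 p F) (hs : Smooth F) : Good p := by
  rw [hF.eq] at hs
  exact good_of hs

end

end Vale.Agent.P297.C8U
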