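import Vale.Agent.P297.H600.C8Defs
import Vale.Agent.P297.H55.Fin8
import Vale.Agent.P297.H10.Q8Aut

/-!
The equations in polynomial form.
-/

set_option linter.unusedSimpArgs false
set_option linter.unusedTactic false
set_option linter.unreachableTactic false

open MvPolynomial

namespace Vale.Agent.P297.C8U

open Vale.Agent.P297 Vale.Agent.P297.H839 Vale.Agent.P297.H10 Vale.Agent.P297.H55.T8

/-- the point of the projective space of dimension six -/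
def pt {R : Type} (o : Fin 4 → R) (v : Fin 3 → R) : Fin 7 → R :=
  ![o 0, o 1, o 2, o 3, v 0, v 1, v 2]

/-- The equations for the group `ℤ/8`. -/
noncomputable def P8 (m : Fin 10 → ℂ) : Fin 4 → MvPolynomial (Fin 7) ℂ :=
  ![C (m 0) * (X 0 * X 3) + C (m 1) * (X 1 * X 2) - (X 4 ^ 2 + X 5 ^ 2 + X 6 ^ 2),
    C (m 2) * X 0 ^ 2 + C (m 3) * X 1 ^ 2 + C (m 4) * (X 2 * X 3) + C (m 7) * X 2 ^ 2 +
      C (m 8) * X 3 ^ 2 + C (m 9) * (X 0 * X 1) - 2 * (X 5 * X 6),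
    C Complex.I * (C (m 2) * X 0 ^ 2 + C (m 3) * X 1 ^ 2 + C (m 4) * (X 2 * X 3) -
      C (m 7) * X 2 ^ 2 - C (m 8) * X 3 ^ 2 - C (m 9) * (X 0 * X 1)) - 2 * (X 4 * X 6),
    C (m 5) * (X 0 * X 2) + C (m 6) * (X 1 * X 3) - 2 * (X 4 * X 5)]

/-- The equations for the group `Q₈`. -/
noncomputable def PQ (a : ℂ) (p q r : Fin 3 → ℂ) : Fin 4 → MvPolynomial (Fin 7) ℂ :=
  ![C a * (2 * (X 0 * X 3 - X 1 * X 2)) - (X 4 ^ 2 + X 5 ^ 2 + X 6 ^ 2),
    2 * (C (p 0) * (X 0 * X 1) + C (q 0) * (X 0 * X 3 + X 1 * X 2) + C (r 0) * (X 2 * X 3)) -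
      2 * (X 5 * X 6),
    C (p 1) * (X 0 ^ 2 + X 1 ^ 2) + 2 * (C (q 1) * (X 0 * X 2 + X 1 * X 3)) +
      C (r 1) * (X 2 ^ 2 + X 3 ^ 2) - 2 * (X 4 * X 6),
    C (p 2) * (X 0 ^ 2 - X 1 ^ 2) + 2 * (C (q 2) * (X 0 * X 2 - X 1 * X 3)) +
      C (r 2) * (X 2 ^ 2 - X 3 ^ 2) - 2 * (X 4 * X 5)]

theorem C_two : (C 2 : MvPolynomial (Fin 7) ℂ) = 2 := map_ofNat C 2

theorem F8.eq {m : Fin 10 → ℂ} {F : Fin 4 → MvPolynomial (Fin 7) ℂ} (h : F8 m F) :
    F = P8 m := by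
  funext i
  fin_cases i
  · refine h.e0.trans ?_
    simp only [q, P8, C_1, Fin.zero_eta, Matrix.cons_val_zero]
    ring
  · refine h.e1.trans ?_
    change _ = C (m 2) * X 0 ^ 2 + C (m 3) * X 1 ^ 2 + C (m 4) * (X 2 * X 3) +
      C (m 7) * X 2 ^ 2 + C (m 8) * X 3 ^ 2 + C (m 9) * (X 0 * X 1) - 2 * (X 5 * X 6)
    simp only [q, C_two]
    ring
  · refine h.e2.trans ?_
    change _ = C Complex.I * (C (m 2) * X 0 ^ 2 + C (m 3) * X 1 ^ 2 + C (m 4) * (X 2 * X 3) -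
      C (m 7) * X 2 ^ 2 - C (m 8) * X 3 ^ 2 - C (m 9) * (X 0 * X 1)) - 2 * (X 4 * X 6)
    simp only [q, C_two]
    ring
  · refine h.e3.trans ?_
    change _ = C (m 5) * (X 0 * X 2) + C (m 6) * (X 1 * X 3) - 2 * (X 4 * X 5)
    simp only [q, C_two]

theorem FQ.eq {a : ℂ} {x y z : Fin 3 → ℂ} {F : Fin 4 → MvPolynomial (Fin 7) ℂ}
    (h : FQ a x y z F) : F = PQ a x y z := by
  funext i
  fin_cases i
  · refine h.e0.trans ?_
    simp only [q, PQ, C_1, C_mul, C_two, Fin.zero_eta, Matrix.cons_val_zero]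
    ring
  · refine h.e1.trans ?_
    change _ = 2 * (C (x 0) * (X 0 * X 1) + C (y 0) * (X 0 * X 3 + X 1 * X 2) +
      C (z 0) * (X 2 * X 3)) - 2 * (X 5 * X 6)
    simp only [q, C_mul, C_two]
    ring
  · refine h.e2.trans ?_
    change _ = C (x 1) * (X 0 ^ 2 + X 1 ^ 2) + 2 * (C (y 1) * (X 0 * X 2 + X 1 * X 3)) +
      C (z 1) * (X 2 ^ 2 + X 3 ^ 2) - 2 * (X 4 * X 6)
    simp only [q, C_mul, C_two]
    ring
  · refine h.e3.trans ?_
    change _ = C (x 2) * (X 0 ^ 2 - X 1 ^ 2) + 2 * (C (y 2) * (X 0 * X 2 - X 1 * X 3)) +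
      C (z 2) * (X 2 ^ 2 - X 3 ^ 2) - 2 * (X 4 * X 5)
    simp only [q, C_mul, C_two]
    ring

theorem aeval_P8 {R : Type} [CommRing R] [Algebra ℂ R] (m : Fin 10 → ℂ) (o : Fin 4 → R)
    (v : Fin 3 → R) (i : Fin 4) :
    aeval (pt o v) (P8 m i) = C8.qq (zweb m) o i - C8.ee v i := by
  have h2 : algebraMap ℂ R 2 = 2 := map_ofNat _ 2
  rw [C8.qq_apply]
  simp only [Fin.sum_univ_four]
  have hh : ∀ c : ℂ, algebraMap ℂ R (c / 2) * 2 = algebraMap ℂ R c := by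
    intro c
    rw [← h2, ← map_mul]
    congr 1
    ring
  fin_cases i
  · simp [P8, zweb, pt, C8.ee, C8.eb]
    linear_combination -(o 0 * o 3) * hh (m 0) - (o 1 * o 2) * hh (m 1)
  · simp [P8, zweb, pt, C8.ee, C8.eb]
    linear_combination -(o 0 * o 1) * hh (m 9) - (o 2 * o 3) * hh (m 4)
  · simp [P8, zweb, pt, C8.ee, C8.eb]
    linear_combination algebraMap ℂ R Complex.I * (o 0 * o 1) * hh (m 9) -
      algebraMap ℂ R Complex.I * (o 2 * o 3) * hh (m 4)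
  · simp [P8, zweb, pt, C8.ee, C8.eb]
    linear_combination -(o 0 * o 2) * hh (m 5) - (o 1 * o 3) * hh (m 6)

theorem pderiv_two (j : Fin 7) : pderiv j (2 : MvPolynomial (Fin 7) ℂ) = 0 := by
  rw [show (2 : MvPolynomial (Fin 7) ℂ) = C 2 from (map_ofNat C 2).symm]
  exact pderiv_C

theorem grad_P8 (m : Fin 10 → ℂ) (o : Fin 4 → ℂ) (v : Fin 3 → ℂ) (i : Fin 4) :
    (∀ j : Fin 4, eval (pt o v) (pderiv (Fin.castAdd 3 j) (P8 m i)) =
      2 * C8.qb (zweb m) o (Pi.single j 1) i) ∧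
    (∀ k : Fin 3, eval (pt o v) (pderiv (Fin.natAdd 4 k) (P8 m i)) =
      -(2 * C8.eb v (Pi.single k 1) i)) := by
  constructor
  · intro j
    rw [C8.qb_apply]
    simp only [Fin.sum_univ_four]
    fin_cases i <;> fin_cases j <;>
      simp [P8, zweb, pt, pderiv_X, pderiv_two] <;> ring
  · intro k
    fin_cases i <;> fin_cases k <;>
      simp [P8, pt, pderiv_X, C8.eb, pderiv_two] <;> ring

theorem aeval_PQ {R : Type} [CommRing R] [Algebra ℂ R] (a : ℂ) (p q r : Fin 3 → ℂ)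
    (o : Fin 4 → R) (v : Fin 3 → R) (i : Fin 4) :
    aeval (pt o v) (PQ a p q r i) = C8.qq (webQ a p q r) o i - C8.ee v i := by
  rw [C8.qq_apply]
  simp only [Fin.sum_univ_four]
  fin_cases i <;>
  · simp [PQ, webQ, pt, C8.ee, C8.eb]
    ring

theorem grad_PQ (a : ℂ) (p q r : Fin 3 → ℂ) (o : Fin 4 → ℂ) (v : Fin 3 → ℂ) (i : Fin 4) :
    (∀ j : Fin 4, eval (pt o v) (pderiv (Fin.castAdd 3 j) (PQ a p q r i)) =
      2 * C8.qb (webQ a p q r) o (Pi.single j 1) i) ∧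
    (∀ k : Fin 3, eval (pt o v) (pderiv (Fin.natAdd 4 k) (PQ a p q r i)) =
      -(2 * C8.eb v (Pi.single k 1) i)) := by
  constructor
  · intro j
    rw [C8.qb_apply]
    simp only [Fin.sum_univ_four]
    fin_cases i <;> fin_cases j <;>
      simp [PQ, webQ, pt, pderiv_X, pderiv_two] <;> ring
  · intro k
    fin_cases i <;> fin_cases k <;>
      simp [PQ, pt, pderiv_X, C8.eb, pderiv_two] <;> ring

theorem smoothX_of {F : Fin 4 → MvPolynomial (Fin 7) ℂ} {Q : C8.Web}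
    (h0 : ∀ (o : Fin 4 → ℂ) (v : Fin 3 → ℂ) i, aeval (pt o v) (F i) = C8.qq Q o i - C8.ee v i)
    (h1 : ∀ (o : Fin 4 → ℂ) (v : Fin 3 → ℂ) i,
      (∀ j : Fin 4, eval (pt o v) (pderiv (Fin.castAdd 3 j) (F i)) =
        2 * C8.qb Q o (Pi.single j 1) i) ∧
      (∀ k : Fin 3, eval (pt o v) (pderiv (Fin.natAdd 4 k) (F i)) =
        -(2 * C8.eb v (Pi.single k 1) i)))
    (hs : Smooth F) : C8.SmoothX Q := by
  intro o v hov hne l hl1 hl2
  have hz : pt o v ≠ 0 := by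
    intro h
    have h' : ∀ j, pt o v j = 0 := fun j => congrFun h j
    rcases hne with h2 | h2
    · apply h2
      funext j
      fin_cases j
      · exact h' 0
      · exact h' 1
      · exact h' 2
      · exact h' 3
    · apply h2
      funext j
      fin_cases j
      · exact h' 4
      · exact h' 5
      · exact h' 6
  have h2 := hs (pt o v) hz (fun i => by
    have h3 := h0 o v i
    rw [hov, sub_self] at h3
    exact h3)
  rw [Fintype.linearIndependent_iff] at h2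
  funext i
  refine h2 l ?_ i
  funext j
  simp only [Finset.sum_apply, Pi.smul_apply, smul_eq_mul, Pi.zero_apply]
  refine Fin.addCases (m := 4) (n := 3) (fun j => ?_) (fun k => ?_) j
  · have h3 : ∀ i, l i * eval (pt o v) (pderiv (Fin.castAdd 3 j) (F i)) =
        2 * (l i * C8.qb Q o (Pi.single j 1) i) := by
      intro i
      rw [(h1 o v i).1 j]
      ring
    rw [Finset.sum_congr rfl fun i _ => h3 i, ← Finset.mul_sum, hl1, mul_zero]
  · have h3 : ∀ i, l i * eval (pt o v) (pderiv (Fin.natAdd 4 k) (F i)) =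
        -2 * (l i * C8.eb v (Pi.single k 1) i) := by
      intro i
      rw [(h1 o v i).2 k]
      ring
    rw [Finset.sum_congr rfl fun i _ => h3 i, ← Finset.mul_sum, hl2, mul_zero]

theorem isX_of {F : Fin 4 → MvPolynomial (Fin 7) ℂ} {Q : C8.Web} {E : Type} [Field E]
    [Algebra ℂ E] {t : Fin 7 → E}
    (h0 : ∀ (o : Fin 4 → E) (v : Fin 3 → E) i, aeval (pt o v) (F i) = C8.qq Q o i - C8.ee v i)
    (h : IsFF F t) : C8.IsX Q ![t 0, t 1, t 2, t 3] ![t 4, t 5, t 6] := by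
  have ht : pt ![t 0, t 1, t 2, t 3] ![t 4, t 5, t 6] = t := by
    funext j
    fin_cases j <;> rfl
  refine ⟨h.one, ?_, ?_, h.trdeg⟩
  · funext i
    have h2 := h0 ![t 0, t 1, t 2, t 3] ![t 4, t 5, t 6] i
    rw [ht, h.zero] at h2
    exact (sub_eq_zero.1 h2.symm)
  · rw [← h.top]
    congr 1
    apply Set.Subset.antisymm
    · rintro _ (⟨j, rfl⟩ | ⟨j, rfl⟩)
      · fin_cases j
        · exact ⟨0, rfl⟩
        · exact ⟨1, rfl⟩
        · exact ⟨2, rfl⟩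
        · exact ⟨3, rfl⟩
      · fin_cases j
        · exact ⟨4, rfl⟩
        · exact ⟨5, rfl⟩
        · exact ⟨6, rfl⟩
    · rintro _ ⟨j, rfl⟩
      fin_cases j
      · exact Or.inl ⟨0, rfl⟩
      · exact Or.inl ⟨1, rfl⟩
      · exact Or.inl ⟨2, rfl⟩
      · exact Or.inl ⟨3, rfl⟩
      · exact Or.inr ⟨0, rfl⟩
      · exact Or.inr ⟨1, rfl⟩
      · exact Or.inr ⟨2, rfl⟩

theorem smoothX_8 {m : Fin 10 → ℂ} (hs : Smooth (P8 m)) : C8.SmoothX (zweb m) :=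
  smoothX_of (aeval_P8 m) (grad_P8 m) hs

theorem smoothX_Q {a : ℂ} {p q r : Fin 3 → ℂ} (hs : Smooth (PQ a p q r)) :
    C8.SmoothX (webQ a p q r) :=
  smoothX_of (aeval_PQ a p q r) (grad_PQ a p q r) hs

end Vale.Agent.P297.C8U
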