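import Vale.Agent.P297.H600.Big
import Vale.Agent.P297.Gen.Setup

/-!
Fields of transcendence degree three from a transcendence basis over a field of transcendence
degree two.
-/

set_option linter.unusedSectionVars false
set_option linter.style.haveILetI false

open IntermediateField Polynomial

namespace Vale.Agent.P297.H600

open Vale.Agent.P297 Vale.Agent.P297.H839

section

variable {A Ω N : Type} [Field A] [Algebra ℂ A] [Field Ω] [Algebra ℂ Ω] [Field N] [Algebra ℂ N]

theorem range_pair (a b : N) : Set.range ![a, b] = {a, b} := by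
  ext x
  constructor
  · rintro ⟨i, rfl⟩
    fin_cases i
    · exact Or.inl rfl
    · exact Or.inr rfl
  · rintro (rfl | rfl)
    · exact ⟨0, rfl⟩
    · exact ⟨1, rfl⟩

theorem basis_pair {a b : N} (hind : AlgebraicIndependent ℂ ![a, b])
    (halg : ∀ z : N, IsAlgebraic (IntermediateField.adjoin ℂ {a, b}) z) :
    IsTranscendenceBasis ℂ ![a, b] := by
  rw [isTranscendenceBasis_iff_algebraicIndependent_isAlgebraic]
  refine ⟨hind, ?_⟩
  rw [← IntermediateField.isAlgebraic_adjoin_iff_top, range_pair]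
  exact ⟨halg⟩

/-- **[Z4b]** -/
theorem big_of_basis [Algebra A Ω] [IsScalarTower ℂ A Ω] (a b : A)
    (hind : AlgebraicIndependent ℂ ![a, b])
    (halg : ∀ z : A, IsAlgebraic (IntermediateField.adjoin ℂ {a, b}) z)
    (s : Fin 1 → Ω) (hs : IsTranscendenceBasis A s) :
    Gen.Big Ω ![algebraMap A Ω a, algebraMap A Ω b, s 0] := by
  have h1 := (basis_pair hind halg).sumElim_comp hs
  let e : Fin 3 → Fin 1 ⊕ Fin 2 := ![Sum.inr 0, Sum.inr 1, Sum.inl 0]
  have he : Function.Injective e := by decide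
  have hes : Function.Surjective e := by decide
  have hu : ![algebraMap A Ω a, algebraMap A Ω b, s 0] =
      Sum.elim s (algebraMap A Ω ∘ ![a, b]) ∘ e := by
    funext i
    fin_cases i <;> rfl
  have hr : Set.range ![algebraMap A Ω a, algebraMap A Ω b, s 0] =
      Set.range (Sum.elim s (algebraMap A Ω ∘ ![a, b])) := by
    rw [hu]
    exact hes.range_comp _
  refine ⟨?_, fun M hM hi v => ?_⟩
  · rw [hu]
    exact h1.1.comp e he
  · have h2 := h1.isAlgebraic_field
    rw [← hr] at h2
    have h3 : IntermediateField.adjoin ℂ (Set.range ![algebraMap A Ω a, algebraMap A Ω b, s 0]) ≤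
        M := by
      rw [IntermediateField.adjoin_le_iff]
      rintro _ ⟨i, rfl⟩
      exact hi i
    exact hM v ((isAlgebraic_mono h3 h2).isAlgebraic v)

theorem alg_le {M M' : IntermediateField ℂ N} (h : M ≤ M') {z : N} (hz : IsAlgebraic M z) :
    IsAlgebraic M' z := by
  obtain ⟨p, hp0, hp⟩ := hz
  let e : M →+* M' := (IntermediateField.inclusion h).toRingHom
  refine ⟨p.map e, ?_, ?_⟩
  · rw [Ne, Polynomial.map_eq_zero]
    exact hp0
  · rw [Polynomial.aeval_def, Polynomial.eval₂_map]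
    exact hp

/-- transitivity of algebraicity -/
theorem alg_trans [IsAlgClosed N] {a b v l : N} (hv : IsAlgebraic (IntermediateField.adjoin ℂ {a, b}) v)
    (hl : IsAlgebraic (IntermediateField.adjoin ℂ {a, b}) l) {z : N}
    (hz : IsAlgebraic (IntermediateField.adjoin ℂ {v, l}) z) :
    IsAlgebraic (IntermediateField.adjoin ℂ {a, b}) z := by
  rw [← Gen.mem_cl0] at hv hl ⊢
  refine Gen.cl0_closed _ _ (alg_le ?_ hz)
  rw [IntermediateField.adjoin_le_iff]
  rintro x (rfl | rfl)
  · exact hv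
  · exact hl

/-- two elements over which an independent pair is algebraic are independent -/
theorem indep_of_algebraic [IsAlgClosed N] {a b v l : N} (hvl : AlgebraicIndependent ℂ ![v, l])
    (hv : IsAlgebraic (IntermediateField.adjoin ℂ {a, b}) v)
    (hl : IsAlgebraic (IntermediateField.adjoin ℂ {a, b}) l) :
    AlgebraicIndependent ℂ ![a, b] := by
  let M : IntermediateField ℂ N := Gen.cl0 {a, b}
  have ha : a ∈ M := Gen.subset_cl0 _ (Or.inl rfl)
  have hb : b ∈ M := Gen.subset_cl0 _ (Or.inr rfl)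
  have hv' : v ∈ M := Gen.mem_cl0.2 hv
  have hl' : l ∈ M := Gen.mem_cl0.2 hl
  have hinj : Function.Injective M.val := M.val.toRingHom.injective
  have h1 : AlgebraicIndependent ℂ ![(⟨v, hv'⟩ : M), ⟨l, hl'⟩] := by
    rw [← AlgHom.algebraicIndependent_iff M.val hinj]
    have h2 : M.val ∘ ![(⟨v, hv'⟩ : M), ⟨l, hl'⟩] = ![v, l] := by
      funext i
      fin_cases i <;> rfl
    rw [h2]
    exact hvl
  have halg : ∀ z : M, IsAlgebraic (IntermediateField.adjoin ℂ {(⟨a, ha⟩ : M), ⟨b, hb⟩}) z := by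
    intro z
    obtain ⟨p, hp0, hp⟩ := Gen.mem_cl0.1 z.2
    have hle : ∀ y ∈ IntermediateField.adjoin ℂ {a, b}, y ∈ M := fun y hy =>
      (IntermediateField.adjoin_le_iff.2 (by
        rintro x (rfl | rfl)
        · exact ha
        · exact hb) : IntermediateField.adjoin ℂ {a, b} ≤ M) hy
    have hmap : (IntermediateField.adjoin ℂ {(⟨a, ha⟩ : M), ⟨b, hb⟩}).map M.val =
        IntermediateField.adjoin ℂ {a, b} := by
      rw [IntermediateField.adjoin_map]
      congr 1
      ext x
      constructor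
      · rintro ⟨y, (rfl | rfl), rfl⟩
        · exact Or.inl rfl
        · exact Or.inr rfl
      · rintro (rfl | rfl)
        · exact ⟨_, Or.inl rfl, rfl⟩
        · exact ⟨_, Or.inr rfl, rfl⟩
    have hmem : ∀ y : IntermediateField.adjoin ℂ {a, b},
        (⟨y, hle y y.2⟩ : M) ∈ IntermediateField.adjoin ℂ {(⟨a, ha⟩ : M), ⟨b, hb⟩} := by
      intro y
      have h3 : (y : N) ∈ (IntermediateField.adjoin ℂ {(⟨a, ha⟩ : M), ⟨b, hb⟩}).map M.val := by
        rw [hmap]
        exact y.2
      obtain ⟨w, hw, hwy⟩ := h3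
      have h4 : (⟨y, hle y y.2⟩ : M) = w := Subtype.ext hwy.symm
      rw [h4]
      exact hw
    let e : IntermediateField.adjoin ℂ {a, b} →+*
        IntermediateField.adjoin ℂ {(⟨a, ha⟩ : M), ⟨b, hb⟩} :=
      { toFun := fun y => ⟨⟨y, hle y y.2⟩, hmem y⟩
        map_one' := rfl
        map_mul' := fun _ _ => rfl
        map_zero' := rfl
        map_add' := fun _ _ => rfl }
    refine ⟨p.map e, ?_, ?_⟩
    · rw [Ne, Polynomial.map_eq_zero]
      exact hp0
    · apply hinj
      rw [map_zero, ← hp, Polynomial.aeval_def, Polynomial.aeval_def, Polynomial.eval₂_map]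
      exact Polynomial.hom_eval₂ p _ M.val.toRingHom z
  have h2 : IsTranscendenceBasis ℂ ![(⟨a, ha⟩ : M), ⟨b, hb⟩] := by
    haveI : Algebra.IsAlgebraic (Algebra.adjoin ℂ (Set.range ![(⟨a, ha⟩ : M), ⟨b, hb⟩])) M := by
      rw [← IntermediateField.isAlgebraic_adjoin_iff_top, range_pair]
      exact ⟨halg⟩
    exact Algebra.IsAlgebraic.isTranscendenceBasis_of_le_trdeg_of_finite ℂ _ h1.cardinalMk_le_trdeg
  have h3 := h2.1.map' (f := M.val) hinj
  have h4 : M.val ∘ ![(⟨a, ha⟩ : M), ⟨b, hb⟩] = ![a, b] := by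
    funext i
    fin_cases i <;> rfl
  rw [h4] at h3
  exact h3

/-- **[Z4b]**, general form: `v`, `l` algebraic over `ℂ(a, b)`, `A` algebraic over `ℂ(v, l)` -/
theorem big_of_basis' [IsAlgClosed A] [Algebra A Ω] [IsScalarTower ℂ A Ω] (a b v l : A)
    (hvl : AlgebraicIndependent ℂ ![v, l])
    (halg : ∀ z : A, IsAlgebraic (IntermediateField.adjoin ℂ {v, l}) z)
    (hv : IsAlgebraic (IntermediateField.adjoin ℂ {a, b}) v)
    (hl : IsAlgebraic (IntermediateField.adjoin ℂ {a, b}) l)
    (s : Fin 1 → Ω) (hs : IsTranscendenceBasis A s) :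
    Gen.Big Ω ![algebraMap A Ω a, algebraMap A Ω b, s 0] :=
  big_of_basis a b (indep_of_algebraic hvl hv hl) (fun z => alg_trans hv hl (halg z)) s hs

end

end Vale.Agent.P297.H600
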