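import Vale.Agent.P297.H600.JThree
import Vale.Agent.P297.H424.G4.TFin

/-!
The relation of the jacobian for the cycles on the lines.
-/

set_option linter.unusedSectionVars false

open IntermediateField Polynomial WeierstrassCurve WeierstrassCurve.Affine

namespace Vale.Agent.P297.G4

open Vale.Agent.P297 Vale.Agent.P297.Gen Vale.Agent.P297.Z3 Vale.Agent.P297.H839
open Vale.Agent.P297.H600 Vale.Agent.P297.H729

variable {K N : Type} [Field K] [Algebra ℂ K] [Field N] [Algebra ℂ N]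
variable [CharZero N] [IsAlgClosed N] [DecidableEq N]
variable {m : Fin 11 → ℂ} {B : N → N → N → ((K →ₐ[ℂ] N) →₀ ℤ)} {s ε : N}

/-- **(J)** -/
theorem TD.jac_rel (T : TD m B s ε) {D : Fin 5 → Fin 3 → ℂ}
    (hD : ∀ l : ℂ, qI (H160.dq D l) = ID m l 1 ∧ qJ (H160.dq D l) = JD m l 1)
    (hj : ∀ α β : ℂ, (α ≠ 0 ∨ β ≠ 0) →
      C α * qI (H160.dq (fun i j => (C (D i j) : ℂ[X])) X) ^ 3 ≠
        C β * qJ (H160.dq (fun i j => (C (D i j) : ℂ[X])) X) ^ 2)
    {P : (Wq (cq m s)).Point} (hP : ¬ InF (cl0 {s}) P) :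
    nsum B (cq m s) ε s P + nsum B (cq m s) ε s⁻¹ (-P) ∈ stableRelations K N :=
  J.jthree T.deg hj (J.twist_of hD T.tr T.disc) (fun e Q => nsum B (cq m s) ε e Q)
    (fun g hg e _ Q hQ => T.nsum_act g hg
      (fun i => (J.twist_of hD T.tr T.disc).fixc g hg i) e hQ)
    (fun e Q t ht => nsum_add ε e Q t ht) hP

/-- The difference of the two cycles. -/
theorem TD.diff' (T : TD m B s ε) {D : Fin 5 → Fin 3 → ℂ}
    (hD : ∀ l : ℂ, qI (H160.dq D l) = ID m l 1 ∧ qJ (H160.dq D l) = JD m l 1)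
    (hj : ∀ α β : ℂ, (α ≠ 0 ∨ β ≠ 0) →
      C α * qI (H160.dq (fun i j => (C (D i j) : ℂ[X])) X) ^ 3 ≠
        C β * qJ (H160.dq (fun i j => (C (D i j) : ℂ[X])) X) ^ 2)
    {P : (Wq (cq m s)).Point} (hP : ¬ InF (cl0 {s}) P) :
    (8 : ℤ) • (bet B (cq m s) ε s P - bet B (cq m s) ε s⁻¹ P) ∈ stableRelations K N :=
  T.diff (fun Q hQ => T.jac_rel hD hj hQ) hP

end Vale.Agent.P297.G4
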