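import Mathlib.Data.Complex.Basic

/-!
The Craighero-Gattazzo quintic and the polynomials of its bicanonical pencil, over `ℤ[c]`,
`c³ - c² + 1 = 0`.
-/

namespace Vale.Agent.P297.H600

variable {K : Type*} [CommRing K]

/-- The Craighero-Gattazzo quintic form, where `c³ - c² + 1 = 0`. -/
def cgForm (c x y z w : K) : K :=
  x ^ 3 * ((1 - c - 2 * c ^ 2) * y + z + (c ^ 2 - 2 * c - 1) * w) ^ 2 +
  y ^ 3 * ((1 - c - 2 * c ^ 2) * z + w + (c ^ 2 - 2 * c - 1) * x) ^ 2 +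
  z ^ 3 * ((1 - c - 2 * c ^ 2) * w + x + (c ^ 2 - 2 * c - 1) * y) ^ 2 +
  w ^ 3 * ((1 - c - 2 * c ^ 2) * x + y + (c ^ 2 - 2 * c - 1) * z) ^ 2 +
  (2 - 10 * c - 9 * c ^ 2) *
    (x ^ 2 * y ^ 2 * z + y ^ 2 * z ^ 2 * w + z ^ 2 * w ^ 2 * x + w ^ 2 * x ^ 2 * y) +
  (9 - 8 * c ^ 2) *
    (x ^ 2 * y ^ 2 * w + y ^ 2 * z ^ 2 * x + z ^ 2 * w ^ 2 * y + w ^ 2 * x ^ 2 * z) +
  (3 + c + 4 * c ^ 2) *
    (x ^ 2 * z ^ 2 * y + y ^ 2 * w ^ 2 * z + z ^ 2 * x ^ 2 * w + w ^ 2 * y ^ 2 * x) +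
  (1 - 6 * c + 9 * c ^ 2) *
    (x ^ 2 * y * z * w + y ^ 2 * z * w * x + z ^ 2 * w * x * y + w ^ 2 * x * y * z)

/-- The polynomial `γ(μ,ρ)` (with `m = μ`, `r = ρ`). -/
def gam (c m r : K) : K :=
    ((1) + (-2 - 8 * c + 4 * c ^ 2) * r + (13 + 4 * c) * r ^ 2) +
    ((18 + 136 * c + 114 * c ^ 2) + (232 + 108 * c - 410 * c ^ 2) * r + (-218 - 112 * c + 112 * c ^ 2) * r ^ 2) * m +
    ((218 - 257 * c - 641 * c ^ 2) + (-894 - 168 * c + 1400 * c ^ 2) * r + (631 + 420 * c - 714 * c ^ 2) * r ^ 2) * m ^ 2 +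
    ((-732 - 160 * c + 1158 * c ^ 2) + (1334 + 38 * c - 1850 * c ^ 2) * r + (-732 - 160 * c + 1158 * c ^ 2) * r ^ 2) * m ^ 3 +
    ((631 + 420 * c - 714 * c ^ 2) + (-894 - 168 * c + 1400 * c ^ 2) * r + (218 - 257 * c - 641 * c ^ 2) * r ^ 2) * m ^ 4 +
    ((-218 - 112 * c + 112 * c ^ 2) + (232 + 108 * c - 410 * c ^ 2) * r + (18 + 136 * c + 114 * c ^ 2) * r ^ 2) * m ^ 5 +
    ((13 + 4 * c) + (-2 - 8 * c + 4 * c ^ 2) * r + (1) * r ^ 2) * m ^ 6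

/-- The polynomial `P₀(μ,ρ)`. -/
def pp0 (c m r : K) : K :=
    ((1) + (-4 * c + 2 * c ^ 2) * r + (-11 - 16 * c + 24 * c ^ 2) * r ^ 2 + (42 + 26 * c + 4 * c ^ 2) * r ^ 3 + (6 - 24 * c - 18 * c ^ 2) * r ^ 4) +
    ((26 - 90 * c - 26 * c ^ 2) + (118 - 178 * c + 142 * c ^ 2) * r + (28 - 558 * c + 118 * c ^ 2) * r ^ 2 + (-170 - 232 * c + 612 * c ^ 2) * r ^ 3 + (276 + 180 * c - 64 * c ^ 2) * r ^ 4) * m +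
    ((-38 - 47 * c + 131 * c ^ 2) + (178 - 336 * c + 80 * c ^ 2) * r + (809 + 14 * c + 562 * c ^ 2) * r ^ 2 + (778 - 746 * c - 668 * c ^ 2) * r ^ 3 + (-584 - 616 * c + 726 * c ^ 2) * r ^ 4) * m ^ 2 +
    ((-106 + 200 * c + 104 * c ^ 2) + (-196 + 374 * c - 224 * c ^ 2) * r + (-430 - 136 * c - 364 * c ^ 2) * r ^ 2 + (-82 + 238 * c + 426 * c ^ 2) * r ^ 3 + (592 + 120 * c - 732 * c ^ 2) * r ^ 4) * m ^ 3 +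
    ((123 + 196 * c - 418 * c ^ 2) + (-410 + 476 * c + 10 * c ^ 2) * r + (-346 + 507 * c - 403 * c ^ 2) * r ^ 2 + (-228 + 248 * c - 172 * c ^ 2) * r ^ 3 + (-138 + 76 * c + 190 * c ^ 2) * r ^ 4) * m ^ 4 +
    ((-132 - 76 * c + 116 * c ^ 2) + (132 - 70 * c - 158 * c ^ 2) * r + (104 + 20 * c + 100 * c ^ 2) * r ^ 2 + (34 - 38 * c - 4 * c ^ 2) * r ^ 3 + (-4 * c + 8 * c ^ 2) * r ^ 4) * m ^ 5 +
    ((13 + 4 * c) + (-2 - 8 * c + 4 * c ^ 2) * r + (1) * r ^ 2) * m ^ 6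

/-- The polynomial `h(μ,ρ)`. -/
def hh (c m r : K) : K :=
    ((1) + (1) * r + (6 + 6 * c - 8 * c ^ 2) * r ^ 2 + (-4 - 4 * c - 4 * c ^ 2) * r ^ 3) +
    ((-7 + 18 * c - 3 * c ^ 2) + (-23 + 22 * c - 10 * c ^ 2) * r + (-8 + 34 * c - 8 * c ^ 2) * r ^ 2 + (8 + 20 * c - 16 * c ^ 2) * r ^ 3) * m +
    ((11 - 4 * c - 10 * c ^ 2) + (29 - 10 * c + 7 * c ^ 2) * r + (10 - 26 * c + 12 * c ^ 2) * r ^ 2 + (-4 * c + 8 * c ^ 2) * r ^ 3) * m ^ 2 +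
    ((-1 - 4 * c + 2 * c ^ 2) + (1) * r) * m ^ 3

/-- The polynomial `P₁(μ,ρ)`, with `P₀² - γ h² = 4 P₁² β`. -/
def pp1 (c m r : K) : K :=
    ((-1 - 3 * c ^ 2) + (-5 + c + 4 * c ^ 2) * r) +
    ((-29 + 8 * c + 9 * c ^ 2) + (36 * c - 30 * c ^ 2) * r) * m +
    ((75 + 31 * c - 40 * c ^ 2) + (-65 - 27 * c + 13 * c ^ 2) * r) * m ^ 2 +
    ((-28 - 80 * c + 34 * c ^ 2) + (58 + 38 * c - 28 * c ^ 2) * r) * m ^ 3 +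
    ((10 + 10 * c + 3 * c ^ 2) + (-13 - 13 * c + 8 * c ^ 2) * r) * m ^ 4

/-- The polynomial `β(μ,ρ)`. -/
def bet (c m r : K) : K :=
    ((1) * r ^ 2 + (-4 * c + 2 * c ^ 2) * r ^ 3 + (-3 - 7 * c + 9 * c ^ 2) * r ^ 4 + (2 + 4 * c + 12 * c ^ 2) * r ^ 5 + (5 + 2 * c - 3 * c ^ 2) * r ^ 6) +
    ((-4 * c + 8 * c ^ 2) + (10 - 30 * c + 20 * c ^ 2) * r + (30 - 64 * c + 58 * c ^ 2) * r ^ 2 + (42 - 86 * c + 76 * c ^ 2) * r ^ 3 + (30 - 64 * c + 58 * c ^ 2) * r ^ 4 + (10 - 30 * c + 20 * c ^ 2) * r ^ 5 + (-4 * c + 8 * c ^ 2) * r ^ 6) * m +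
    ((5 + 2 * c - 3 * c ^ 2) + (2 + 4 * c + 12 * c ^ 2) * r + (-3 - 7 * c + 9 * c ^ 2) * r ^ 2 + (-4 * c + 2 * c ^ 2) * r ^ 3 + (1) * r ^ 4) * m ^ 2

end Vale.Agent.P297.H600
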