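import Vale.Agent.P297.H600.QPar

/-!
Scaling of a short Weierstrass curve.
-/

set_option linter.unusedSectionVars false

namespace Vale.Agent.P297.G4

open Vale.Agent.P297.Z3 WeierstrassCurve WeierstrassCurve.Affine

section

variable {k : Type} [Field k] [CharZero k] {a b a' b' : k}

theorem tw_aux {r : k} (hr : r ≠ 0) (ha : a = r ^ 4 * a') (hb : b = r ^ 6 * b') {x y : k}
    (h : (wc a b).toAffine.Nonsingular x y) :
    (wc a' b').toAffine.Nonsingular (x / r ^ 2) (y / r ^ 3) := by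
  rw [Affine.nonsingular_iff] at h ⊢
  obtain ⟨h1, h2⟩ := h
  rw [wc_equation] at h1
  refine ⟨?_, ?_⟩
  · rw [wc_equation]
    rw [ha, hb] at h1
    field_simp
    linear_combination h1
  · simp only [wc] at h2 ⊢
    rcases h2 with h2 | h2
    · left
      intro h3
      apply h2
      rw [ha]
      have h4 := congrArg (fun t => r ^ 4 * t) h3
      have h5 : r ^ 4 * (0 * (y / r ^ 3)) = 0 := by ring
      have h6 : r ^ 4 * (3 * (x / r ^ 2) ^ 2 + 2 * 0 * (x / r ^ 2) + a') =
          3 * x ^ 2 + r ^ 4 * a' := by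
        field_simp
        ring
      rw [h5, h6] at h4
      linear_combination h4
    · right
      intro h3
      apply h2
      have h4 := congrArg (fun t => r ^ 3 * t) h3
      have h5 : r ^ 3 * (y / r ^ 3) = y := by field_simp
      have h6 : r ^ 3 * (-(y / r ^ 3) - 0 * (x / r ^ 2) - 0) = -y := by
        field_simp
        ring
      rw [h5, h6] at h4
      linear_combination h4

/-- the scaling `(x, y) ↦ (x / r², y / r³)` -/
noncomputable def tw {r : k} (hr : r ≠ 0) (ha : a = r ^ 4 * a') (hb : b = r ^ 6 * b') :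
    (wc a b).toAffine.Point → (wc a' b').toAffine.Point
  | 0 => 0
  | .some x y h => .some (x / r ^ 2) (y / r ^ 3) (tw_aux hr ha hb h)

variable {r : k} (hr : r ≠ 0) (ha : a = r ^ 4 * a') (hb : b = r ^ 6 * b')

theorem tw_zero : tw hr ha hb 0 = 0 := rfl

theorem tw_some {x y : k} (h : (wc a b).toAffine.Nonsingular x y)
    (h' : (wc a' b').toAffine.Nonsingular (x / r ^ 2) (y / r ^ 3)) :
    tw hr ha hb (.some x y h) = .some (x / r ^ 2) (y / r ^ 3) h' := rfl

theorem tw_neg (P : (wc a b).toAffine.Point) : tw hr ha hb (-P) = -tw hr ha hb P := by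
  rcases P with (_ | ⟨x, y, h⟩)
  · rfl
  · change Point.some _ _ _ = Point.some _ _ _
    rw [Point.some.injEq]
    refine ⟨rfl, ?_⟩
    rw [wc_negY, wc_negY]
    ring

theorem tw_injective : Function.Injective (tw hr ha hb) := by
  rintro (_ | ⟨x, y, h⟩) (_ | ⟨x', y', h'⟩) hPQ
  · rfl
  · exact absurd hPQ.symm (Point.some_ne_zero _)
  · exact absurd hPQ (Point.some_ne_zero _)
  · have h1 := Point.some.inj hPQ
    have h2 : x = x' := by
      have h3 := h1.1
      field_simp at h3
      exact h3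
    have h4 : y = y' := by
      have h3 := h1.2
      field_simp at h3
      exact h3
    subst h2 h4
    rfl

/-- the inverse scaling -/
theorem tw_surjective : Function.Surjective (tw hr ha hb) := by
  rintro (_ | ⟨x, y, h⟩)
  · exact ⟨0, rfl⟩
  · have hr' : r⁻¹ ≠ 0 := inv_ne_zero hr
    have ha' : a' = r⁻¹ ^ 4 * a := by rw [ha]; field_simp
    have hb' : b' = r⁻¹ ^ 6 * b := by rw [hb]; field_simp
    have h1 := tw_aux hr' ha' hb' h
    have h2 : x / r⁻¹ ^ 2 = r ^ 2 * x := by field_simp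
    have h3 : y / r⁻¹ ^ 3 = r ^ 3 * y := by field_simp
    rw [h2, h3] at h1
    refine ⟨.some _ _ h1, ?_⟩
    change Point.some _ _ _ = Point.some _ _ _
    rw [Point.some.injEq]
    constructor
    · field_simp
    · field_simp

theorem tw_minus (hr' : -r ≠ 0) (ha' : a = (-r) ^ 4 * a') (hb' : b = (-r) ^ 6 * b')
    (P : (wc a b).toAffine.Point) : tw hr' ha' hb' P = tw hr ha hb (-P) := by
  rcases P with (_ | ⟨x, y, h⟩)
  · rfl
  · change Point.some _ _ _ = Point.some _ _ _
    rw [Point.some.injEq]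
    refine ⟨?_, ?_⟩
    · ring
    · rw [wc_negY]
      ring

theorem gfun_tw (g : k →+* k) (hg : g a = a ∧ g b = b) (hg' : g a' = a' ∧ g b' = b')
    (hgr : g r ≠ 0) (hga : a = g r ^ 4 * a') (hgb : b = g r ^ 6 * b')
    (P : (wc a b).toAffine.Point) :
    gfun g hg' (tw hr ha hb P) = tw hgr hga hgb (gfun g hg P) := by
  rcases P with (_ | ⟨x, y, h⟩)
  · rfl
  · change Point.some _ _ _ = Point.some _ _ _
    rw [Point.some.injEq]
    constructor
    · rw [map_div₀, map_pow]
    · rw [map_div₀, map_pow]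

variable [DecidableEq k]

theorem tw_add (P Q : (wc a b).toAffine.Point) :
    tw hr ha hb (P + Q) = tw hr ha hb P + tw hr ha hb Q := by
  rcases P with (_ | ⟨x₁, y₁, h₁⟩)
  · change tw hr ha hb (0 + Q) = 0 + tw hr ha hb Q
    rw [zero_add, zero_add]
  rcases Q with (_ | ⟨x₂, y₂, h₂⟩)
  · change tw hr ha hb (Point.some x₁ y₁ h₁ + 0) = tw hr ha hb (Point.some x₁ y₁ h₁) + 0
    rw [add_zero, add_zero]
  have hinv : ∀ {s t : k} (n : ℕ), s / r ^ n = t / r ^ n → s = t := by
    intro s t n hst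
    have h0 : r ^ n ≠ 0 := pow_ne_zero n hr
    rwa [div_left_inj' h0] at hst
  by_cases hxy : x₁ = x₂ ∧ y₁ = (wc a b).toAffine.negY x₂ y₂
  · rw [Point.add_of_Y_eq hxy.1 hxy.2]
    refine (Point.add_of_Y_eq (congrArg (fun t => t / r ^ 2) hxy.1) ?_).symm
    rw [wc_negY, hxy.2, wc_negY]
    ring
  · rw [Point.add_some hxy]
    have hxy' : ¬ (x₁ / r ^ 2 = x₂ / r ^ 2 ∧ y₁ / r ^ 3 = (wc a' b').toAffine.negY
        (x₂ / r ^ 2) (y₂ / r ^ 3)) := by
      rintro ⟨h1, h2⟩
      apply hxy
      refine ⟨hinv 2 h1, ?_⟩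
      rw [wc_negY] at h2 ⊢
      apply hinv 3
      rw [h2]
      ring
    refine Eq.trans ?_ (Point.add_some hxy').symm
    have hs : (wc a' b').toAffine.slope (x₁ / r ^ 2) (x₂ / r ^ 2) (y₁ / r ^ 3) (y₂ / r ^ 3) =
        (wc a b).toAffine.slope x₁ x₂ y₁ y₂ / r := by
      by_cases hx : x₁ = x₂
      · have hy : y₁ ≠ (wc a b).toAffine.negY x₂ y₂ := fun h0 => hxy ⟨hx, h0⟩
        have hx' : x₁ / r ^ 2 = x₂ / r ^ 2 := by rw [hx]
        have hy' : y₁ / r ^ 3 ≠ (wc a' b').toAffine.negY (x₂ / r ^ 2) (y₂ / r ^ 3) :=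
          fun h0 => hxy' ⟨hx', h0⟩
        rw [Affine.slope_of_Y_ne hx hy, Affine.slope_of_Y_ne hx' hy', wc_negY, wc_negY]
        have hyy : y₁ = y₂ := by
          have e1 := wc_equation.1 h₁.1
          have e2 := wc_equation.1 h₂.1
          rw [hx] at e1
          have e3 : (y₁ - y₂) * (y₁ + y₂) = 0 := by linear_combination e1 - e2
          rcases mul_eq_zero.1 e3 with e4 | e4
          · exact sub_eq_zero.1 e4
          · exfalso
            apply hy
            rw [wc_negY]
            exact eq_neg_of_add_eq_zero_left e4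
        have hy0 : y₁ ≠ 0 := by
          intro h0
          apply hy
          rw [wc_negY, ← hyy, h0, neg_zero]
        simp only [wc]
        rw [ha]
        have h2 : y₁ - -y₁ = 2 * y₁ := by ring
        have h3 : y₁ / r ^ 3 - -(y₁ / r ^ 3) = 2 * y₁ / r ^ 3 := by ring
        rw [h2, h3]
        field_simp
        ring
      · have hx' : x₁ / r ^ 2 ≠ x₂ / r ^ 2 := fun h0 => hx (hinv 2 h0)
        rw [Affine.slope_of_X_ne hx, Affine.slope_of_X_ne hx']
        have h0 : x₁ - x₂ ≠ 0 := sub_ne_zero.2 hx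
        have h1 : x₁ / r ^ 2 - x₂ / r ^ 2 = (x₁ - x₂) / r ^ 2 := by ring
        have h2 : y₁ / r ^ 3 - y₂ / r ^ 3 = (y₁ - y₂) / r ^ 3 := by ring
        rw [h1, h2]
        field_simp
    change Point.some _ _ _ = Point.some _ _ _
    rw [Point.some.injEq]
    refine ⟨?_, ?_⟩
    · rw [hs, wc_addX, wc_addX]
      field_simp
    · rw [hs, wc_addY, wc_addY]
      field_simp

end

end Vale.Agent.P297.G4
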