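import Vale.Agent.P297.H424.G4.Defs
import Vale.Agent.P297.H572.Z3.Pts

/-!
Binary quartics and their jacobians in Weierstrass form.
-/

set_option linter.unusedSectionVars false

namespace Vale.Agent.P297.G4

open Vale.Agent.P297.Z3 WeierstrassCurve WeierstrassCurve.Affine

section Poly

variable {k : Type} [CommRing k]

/-- the first derivative at `e` -/
def q1 (c : Fin 5 → k) (e : k) : k := c 1 + 2 * c 2 * e + 3 * c 3 * e ^ 2 + 4 * c 4 * e ^ 3

/-- half of the second derivative at `e` -/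
def q2 (c : Fin 5 → k) (e : k) : k := c 2 + 3 * c 3 * e + 6 * c 4 * e ^ 2

/-- a sixth of the third derivative at `e` -/
def q3 (c : Fin 5 → k) (e : k) : k := c 3 + 4 * c 4 * e

theorem qv_taylor (c : Fin 5 → k) (e h : k) : qv c (e + h) =
    qv c e + q1 c e * h + q2 c e * h ^ 2 + q3 c e * h ^ 3 + c 4 * h ^ 4 := by
  unfold qv q1 q2 q3; ring

theorem qI_at {c : Fin 5 → k} {e : k} (he : qv c e = 0) :
    qI c = q2 c e ^ 2 - 3 * (q1 c e * q3 c e) := by
  unfold qv at he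
  unfold qI q1 q2 q3
  linear_combination (12 * c 4) * he

theorem qJ_at {c : Fin 5 → k} {e : k} (he : qv c e = 0) :
    qJ c = 9 * (q3 c e * q2 c e * q1 c e) - 27 * (c 4 * q1 c e ^ 2) - 2 * q2 c e ^ 3 := by
  unfold qv at he
  unfold qJ q1 q2 q3
  linear_combination (72 * c 4 * c 2 - 27 * c 3 ^ 2) * he

end Poly

section Field

variable {k : Type} [Field k] [CharZero k] {c : Fin 5 → k} {e e' : k}

theorem q1_ne (hc : 4 * qI c ^ 3 ≠ qJ c ^ 2) (he : qv c e = 0) : q1 c e ≠ 0 := by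
  intro h0
  apply hc
  rw [qI_at he, qJ_at he, h0]
  ring

/-- the jacobian -/
abbrev Wq (c : Fin 5 → k) : WeierstrassCurve.Affine k := (wc (-qI c / 3) (-qJ c / 27)).toAffine

theorem wq_disc (hc : 4 * qI c ^ 3 ≠ qJ c ^ 2) :
    4 * (-qI c / 3) ^ 3 + 27 * (-qJ c / 27) ^ 2 ≠ 0 := by
  intro h0
  apply hc
  linear_combination (-27) * h0

/-- the equation of the jacobian in the coordinate `x - q₂ / 3` -/
theorem wq_eq (he : qv c e = 0) (z : k) :
    (z + q2 c e / 3) ^ 3 + (-qI c / 3) * (z + q2 c e / 3) + (-qJ c / 27) =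
      z ^ 3 + q2 c e * z ^ 2 + q1 c e * q3 c e * z + c 4 * q1 c e ^ 2 := by
  rw [qI_at he, qJ_at he]
  ring

/-- the first coordinate of the point of the quartic that corresponds to a point of the jacobian -/
noncomputable def aX (c : Fin 5 → k) (e : k) : (Wq c).Point → k
  | 0 => e
  | .some x _ _ => e + q1 c e / (x - q2 c e / 3)

/-- the second coordinate -/
noncomputable def aY (c : Fin 5 → k) (e : k) : (Wq c).Point → k
  | 0 => 0
  | .some x y _ => q1 c e * y / (x - q2 c e / 3) ^ 2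

/-- the point corresponds to a finite point of the quartic other than `(e, 0)` -/
def Fin' (c : Fin 5 → k) (e : k) (P : (Wq c).Point) : Prop :=
  ∃ x y h, P = .some x y h ∧ x ≠ q2 c e / 3

theorem Fin'.ne_zero {P : (Wq c).Point} (hP : Fin' c e P) : P ≠ 0 := by
  obtain ⟨x, y, h, rfl, _⟩ := hP
  exact Point.some_ne_zero _

theorem aX_some {x y : k} (h : (Wq c).Nonsingular x y) :
    aX c e (.some x y h) = e + q1 c e / (x - q2 c e / 3) := rfl

theorem aY_some {x y : k} (h : (Wq c).Nonsingular x y) :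
    aY c e (.some x y h) = q1 c e * y / (x - q2 c e / 3) ^ 2 := rfl

theorem aX_zero : aX c e 0 = e := rfl

theorem aY_zero : aY c e 0 = 0 := rfl

theorem Fin'.ne (hc : 4 * qI c ^ 3 ≠ qJ c ^ 2) (he : qv c e = 0) {P : (Wq c).Point}
    (hP : Fin' c e P) : aX c e P ≠ e := by
  obtain ⟨x, y, h, rfl, hx⟩ := hP
  rw [aX_some]
  intro h0
  have h1 : q1 c e / (x - q2 c e / 3) = 0 := by linear_combination h0
  rcases div_eq_zero_iff.1 h1 with h2 | h2
  · exact q1_ne hc he h2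
  · exact hx (sub_eq_zero.1 h2)

theorem Fin'.eqn (he : qv c e = 0) {P : (Wq c).Point} (hP : Fin' c e P) :
    aY c e P ^ 2 = qv c (aX c e P) := by
  obtain ⟨x, y, h, rfl, hx⟩ := hP
  rw [aX_some, aY_some, qv_taylor, he, zero_add]
  have h1 := wc_equation.1 h.1
  obtain ⟨z, rfl⟩ : ∃ z, x = z + q2 c e / 3 := ⟨x - q2 c e / 3, by ring⟩
  rw [wq_eq he] at h1
  have hz : z ≠ 0 := by
    rintro rfl
    apply hx
    ring
  rw [add_sub_cancel_right]
  field_simp
  linear_combination q1 c e ^ 2 * h1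

theorem exists_fin (hc : 4 * qI c ^ 3 ≠ qJ c ^ 2) (he : qv c e = 0) {X Y : k}
    (hXY : Y ^ 2 = qv c X) (hX : X ≠ e) :
    ∃ P, Fin' c e P ∧ aX c e P = X ∧ aY c e P = Y := by
  have h1 := q1_ne hc he
  obtain ⟨h, rfl⟩ : ∃ h, X = e + h := ⟨X - e, by ring⟩
  have hh : h ≠ 0 := by
    rintro rfl
    apply hX
    ring
  rw [qv_taylor, he, zero_add] at hXY
  have hz : q1 c e / h ≠ 0 := div_ne_zero h1 hh
  have hW : (Y * q1 c e / h ^ 2) ^ 2 = (q1 c e / h + q2 c e / 3) ^ 3 +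
      (-qI c / 3) * (q1 c e / h + q2 c e / 3) + (-qJ c / 27) := by
    rw [wq_eq he]
    field_simp
    linear_combination hXY
  have hns := wc_nonsing (wq_disc hc) hW
  refine ⟨.some _ _ hns, ⟨_, _, hns, rfl, ?_⟩, ?_, ?_⟩
  · intro h0
    apply hz
    linear_combination h0
  · rw [aX_some, add_sub_cancel_right]
    field_simp
  · rw [aY_some, add_sub_cancel_right]
    field_simp

theorem Fin'.inj (hc : 4 * qI c ^ 3 ≠ qJ c ^ 2) (he : qv c e = 0) {P P' : (Wq c).Point}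
    (hP : Fin' c e P) (hP' : Fin' c e P') (hX : aX c e P = aX c e P')
    (hY : aY c e P = aY c e P') : P = P' := by
  obtain ⟨x, y, h, rfl, hx⟩ := hP
  obtain ⟨x', y', h', rfl, hx'⟩ := hP'
  have h1 := q1_ne hc he
  rw [aX_some, aX_some] at hX
  rw [aY_some, aY_some] at hY
  have hz : x - q2 c e / 3 ≠ 0 := sub_ne_zero.2 hx
  have hz' : x' - q2 c e / 3 ≠ 0 := sub_ne_zero.2 hx'
  have h2 : q1 c e / (x - q2 c e / 3) = q1 c e / (x' - q2 c e / 3) := by
    linear_combination hX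
  rw [div_eq_div_iff hz hz'] at h2
  have h3 := mul_left_cancel₀ h1 h2
  have h4 : x = x' := by linear_combination -h3
  subst h4
  have h5 : q1 c e * y = q1 c e * y' := by
    have h6 := congrArg (fun t => t * (x - q2 c e / 3) ^ 2) hY
    rwa [div_mul_cancel₀ _ (pow_ne_zero 2 hz), div_mul_cancel₀ _ (pow_ne_zero 2 hz)] at h6
  obtain rfl := mul_left_cancel₀ h1 h5
  rfl

theorem neg_some' {x y : k} (h : (Wq c).Nonsingular x y) :
    ∃ h', -(Point.some x y h) = .some x (-y) h' := by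
  have h1 := Point.neg_some h
  have h2 := (Affine.nonsingular_neg x y).2 h
  rw [wc_negY] at h2
  refine ⟨h2, ?_⟩
  rw [h1, Point.some.injEq]
  exact ⟨rfl, wc_negY x y⟩

theorem aX_neg (P : (Wq c).Point) : aX c e (-P) = aX c e P := by
  rcases P with (_ | ⟨x, y, h⟩)
  · rfl
  · obtain ⟨h', h1⟩ := neg_some' h
    rw [h1, aX_some, aX_some]

theorem aY_neg (P : (Wq c).Point) : aY c e (-P) = -aY c e P := by
  rcases P with (_ | ⟨x, y, h⟩)
  · change (0 : k) = -0
    ring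
  · obtain ⟨h', h1⟩ := neg_some' h
    rw [h1, aY_some, aY_some]
    ring

theorem Fin'.neg {P : (Wq c).Point} (hP : Fin' c e P) : Fin' c e (-P) := by
  obtain ⟨x, y, h, rfl, hx⟩ := hP
  obtain ⟨h', h1⟩ := neg_some' h
  exact ⟨x, -y, h', h1, hx⟩

/-! ### change of the root -/

theorem root_rel (he : qv c e = 0) (he' : qv c e' = 0) (hne : e ≠ e') :
    q1 c e + q2 c e * (e' - e) + q3 c e * (e' - e) ^ 2 + c 4 * (e' - e) ^ 3 = 0 := by
  have h1 := qv_taylor c e (e' - e)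
  have h2 : e + (e' - e) = e' := by ring
  rw [h2, he', he] at h1
  have h3 : (e' - e) * (q1 c e + q2 c e * (e' - e) + q3 c e * (e' - e) ^ 2 +
      c 4 * (e' - e) ^ 3) = 0 := by linear_combination -h1
  exact (mul_eq_zero.1 h3).resolve_left (sub_ne_zero.2 hne.symm)

/-- the first coordinate of the point of order two -/
noncomputable def torX (c : Fin 5 → k) (e e' : k) : k := q1 c e / (e' - e) + q2 c e / 3

theorem torX_symm (he : qv c e = 0) (he' : qv c e' = 0) (hne : e ≠ e') :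
    torX c e e' = torX c e' e := by
  have h1 : e' - e ≠ 0 := sub_ne_zero.2 hne.symm
  have h2 : e - e' ≠ 0 := sub_ne_zero.2 hne
  have h3 := root_rel he he' hne
  unfold torX
  rw [← sub_eq_zero]
  have h4 : (q1 c e / (e' - e) + q2 c e / 3 - (q1 c e' / (e - e') + q2 c e' / 3)) *
      (3 * (e' - e)) = 0 := by
    have e1 : q1 c e / (e' - e) * (e' - e) = q1 c e := div_mul_cancel₀ _ h1
    have e2 : q1 c e' / (e - e') * (e - e') = q1 c e' := div_mul_cancel₀ _ h2
    have e3 : (q1 c e / (e' - e) + q2 c e / 3 - (q1 c e' / (e - e') + q2 c e' / 3)) *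
        (3 * (e' - e)) = 3 * q1 c e + q2 c e * (e' - e) + 3 * q1 c e' - q2 c e' * (e' - e) := by
      linear_combination 3 * e1 + 3 * e2
    rw [e3]
    unfold q1 q2 q3 at h3
    unfold q1 q2
    linear_combination 6 * h3
  exact (mul_eq_zero.1 h4).resolve_right (mul_ne_zero three_ne_zero h1)

theorem torX_root (he : qv c e = 0) (he' : qv c e' = 0)
    (hne : e ≠ e') :
    (0 : k) ^ 2 = (torX c e e') ^ 3 + (-qI c / 3) * torX c e e' + (-qJ c / 27) := by
  have h1 : e' - e ≠ 0 := sub_ne_zero.2 hne.symm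
  have h3 := root_rel he he' hne
  unfold torX
  rw [wq_eq he]
  field_simp
  linear_combination (-q1 c e ^ 2) * h3

/-- the point of order two that corresponds to `(e', 0)` -/
noncomputable def tor (c : Fin 5 → k) (e e' : k) : (Wq c).Point :=
  open Classical in
  if h : (Wq c).Nonsingular (torX c e e') 0 then .some _ _ h else 0

theorem tor_eq (hc : 4 * qI c ^ 3 ≠ qJ c ^ 2) (he : qv c e = 0) (he' : qv c e' = 0)
    (hne : e ≠ e') : ∃ h, tor c e e' = .some (torX c e e') 0 h := by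
  have h1 := wc_nonsing (wq_disc hc) (torX_root he he' hne)
  exact ⟨h1, dif_pos h1⟩

theorem tor_ne_zero (hc : 4 * qI c ^ 3 ≠ qJ c ^ 2) (he : qv c e = 0) (he' : qv c e' = 0)
    (hne : e ≠ e') : tor c e e' ≠ 0 := by
  obtain ⟨h, h1⟩ := tor_eq hc he he' hne
  rw [h1]
  exact Point.some_ne_zero _

theorem neg_tor (hc : 4 * qI c ^ 3 ≠ qJ c ^ 2) (he : qv c e = 0) (he' : qv c e' = 0)
    (hne : e ≠ e') : -tor c e e' = tor c e e' := by
  obtain ⟨h, h1⟩ := tor_eq hc he he' hne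
  obtain ⟨h', h2⟩ := neg_some' h
  rw [h1, h2, Point.some.injEq]
  exact ⟨rfl, neg_zero⟩

theorem tor_symm (hc : 4 * qI c ^ 3 ≠ qJ c ^ 2) (he : qv c e = 0) (he' : qv c e' = 0)
    (hne : e ≠ e') : tor c e e' = tor c e' e := by
  obtain ⟨h, h1⟩ := tor_eq hc he he' hne
  obtain ⟨h', h2⟩ := tor_eq hc he' he hne.symm
  rw [h1, h2, Point.some.injEq]
  exact ⟨torX_symm he he' hne, rfl⟩

theorem aX_tor (hc : 4 * qI c ^ 3 ≠ qJ c ^ 2) (he : qv c e = 0) (he' : qv c e' = 0)
    (hne : e ≠ e') : aX c e (tor c e e') = e' ∧ aY c e (tor c e e') = 0 ∧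
      Fin' c e (tor c e e') := by
  obtain ⟨h, h1⟩ := tor_eq hc he he' hne
  have h2 := q1_ne hc he
  have h3 : e' - e ≠ 0 := sub_ne_zero.2 hne.symm
  have h4 : torX c e e' - q2 c e / 3 = q1 c e / (e' - e) := by unfold torX; ring
  refine ⟨?_, ?_, ⟨_, _, h, h1, ?_⟩⟩
  · rw [h1, aX_some, h4]
    field_simp
    ring
  · rw [h1, aY_some]
    ring
  · intro h0
    rw [h0, sub_self] at h4
    exact div_ne_zero h2 h3 h4.symm

variable [DecidableEq k]

theorem two_tor (hc : 4 * qI c ^ 3 ≠ qJ c ^ 2) (he : qv c e = 0) (he' : qv c e' = 0)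
    (hne : e ≠ e') : (2 : ℕ) • tor c e e' = 0 := by
  rw [two_nsmul]
  nth_rewrite 1 [← neg_tor hc he he' hne]
  exact neg_add_cancel _

/-- every point of order two comes from a root -/
theorem exists_tor (hc : 4 * qI c ^ 3 ≠ qJ c ^ 2) (hc4 : c 4 ≠ 0) (he : qv c e = 0)
    {T : (Wq c).Point} (hT : (2 : ℕ) • T = 0) (hT0 : T ≠ 0) :
    ∃ e', e' ≠ e ∧ qv c e' = 0 ∧ T = tor c e e' := by
  have h1 := q1_ne hc he
  rcases T with (_ | ⟨x, y, h⟩)
  · exact absurd rfl hT0
  have h2 : Point.some x y h = -Point.some x y h := by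
    rw [eq_neg_iff_add_eq_zero, ← hT, two_nsmul]
  obtain ⟨h', h3⟩ := neg_some' h
  rw [h3, Point.some.injEq] at h2
  have hy : y = 0 := by
    have h4 : (2 : k) * y = 0 := by linear_combination h2.2
    exact (mul_eq_zero.1 h4).resolve_left two_ne_zero
  subst hy
  obtain ⟨z, rfl⟩ : ∃ z, x = z + q2 c e / 3 := ⟨x - q2 c e / 3, by ring⟩
  have h5 := wc_equation.1 h.1
  rw [wq_eq he] at h5
  have hz : z ≠ 0 := by
    rintro rfl
    have h6 : c 4 * q1 c e ^ 2 = 0 := by linear_combination -h5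
    exact mul_ne_zero hc4 (pow_ne_zero 2 h1) h6
  have hne : e ≠ e + q1 c e / z := by
    intro h0
    have h6 : q1 c e / z = 0 := by linear_combination -h0
    exact div_ne_zero h1 hz h6
  have he' : qv c (e + q1 c e / z) = 0 := by
    rw [qv_taylor, he]
    field_simp
    linear_combination -q1 c e ^ 2 * h5
  refine ⟨e + q1 c e / z, hne.symm, he', ?_⟩
  obtain ⟨h6, h7⟩ := tor_eq hc he he' hne
  rw [h7, Point.some.injEq]
  refine ⟨?_, rfl⟩
  unfold torX
  rw [add_sub_cancel_left]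
  field_simp

/-- change of the root -/
theorem change (hc : 4 * qI c ^ 3 ≠ qJ c ^ 2) (he : qv c e = 0) (he' : qv c e' = 0)
    (hne : e ≠ e') {P : (Wq c).Point} (hP : Fin' c e P) (hX : aX c e P ≠ e') :
    Fin' c e' (P + tor c e e') ∧ aX c e' (P + tor c e e') = aX c e P ∧
      aY c e' (P + tor c e e') = aY c e P := by
  obtain ⟨x, y, h, rfl, hx⟩ := hP
  obtain ⟨hT, hT'⟩ := tor_eq hc he he' hne
  have hA := q1_ne hc he
  have hA' := q1_ne hc he'
  have h3 := root_rel he he' hne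
  obtain ⟨z, rfl⟩ : ∃ z, x = z + q2 c e / 3 := ⟨x - q2 c e / 3, by ring⟩
  have hz : z ≠ 0 := by
    rintro rfl
    apply hx
    ring
  have h5 := wc_equation.1 h.1
  rw [wq_eq he] at h5
  obtain ⟨d, hd⟩ : ∃ d, d = e' - e := ⟨_, rfl⟩
  have hd0 : d ≠ 0 := by rw [hd]; exact sub_ne_zero.2 hne.symm
  rw [← hd] at h3
  have hQ : q1 c e' = q1 c e + 2 * q2 c e * d + 3 * q3 c e * d ^ 2 + 4 * c 4 * d ^ 3 := by
    rw [hd]; unfold q1 q2 q3; ring
  have hQ2 : q2 c e' = q2 c e + 3 * q3 c e * d + 6 * c 4 * d ^ 2 := by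
    rw [hd]; unfold q2 q3; ring
  obtain ⟨w, hw⟩ : ∃ w, w = z * d - q1 c e := ⟨_, rfl⟩
  have hXe : aX c e (Point.some _ y h) = e + q1 c e / z := by
    rw [aX_some, add_sub_cancel_right]
  have hYe : aY c e (Point.some _ y h) = q1 c e * y / z ^ 2 := by
    rw [aY_some, add_sub_cancel_right]
  have hw0 : w ≠ 0 := by
    intro h0
    apply hX
    rw [hXe]
    have h6 : q1 c e / z = d := by
      rw [div_eq_iff hz]
      linear_combination hw - h0
    rw [h6, hd]
    ring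
  have hTx : torX c e e' = q1 c e / d + q2 c e / 3 := by unfold torX; rw [hd]
  have hxT : z + q2 c e / 3 - torX c e e' = w / d := by
    rw [hTx, hw]
    field_simp
    ring
  have hxne : z + q2 c e / 3 ≠ torX c e e' := by
    intro h0
    rw [h0, sub_self] at hxT
    exact div_ne_zero hw0 hd0 hxT.symm
  rw [hT', Point.add_some (fun h0 => hxne h0.1)]
  obtain ⟨x', hx'⟩ : ∃ x', x' = (Wq c).addX (z + q2 c e / 3) (torX c e e')
      ((Wq c).slope (z + q2 c e / 3) (torX c e e') y 0) := ⟨_, rfl⟩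
  have hsl : (Wq c).slope (z + q2 c e / 3) (torX c e e') y 0 = y * d / w := by
    rw [wc_slope_of_ne hxne, hxT, sub_zero, div_div_eq_mul_div]
  have hx1 : x' - q2 c e' / 3 = -(q1 c e' * z) / w := by
    rw [hx', wc_addX, hsl, hTx, hQ2, hQ]
    rw [div_pow, mul_pow, h5]
    rw [hw] at hw0 ⊢
    field_simp
    linear_combination (6 * d ^ 2 * z ^ 2 - 3 * q1 c e ^ 2) * h3
  obtain ⟨y', hy'⟩ : ∃ y', y' = (Wq c).addY (z + q2 c e / 3) (torX c e e') y
      ((Wq c).slope (z + q2 c e / 3) (torX c e e') y 0) := ⟨_, rfl⟩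
  have hxx : (y * d / w) ^ 2 - (z + q2 c e / 3) - torX c e e' =
      q2 c e' / 3 - q1 c e' * z / w := by
    have h6 := hx1
    rw [hx', wc_addX, hsl] at h6
    linear_combination h6
  have hw1 : w ≠ 0 := hw0
  have hy1 : y' = q1 c e * y * q1 c e' / w ^ 2 := by
    rw [hy', wc_addY, hsl, hxx, eq_div_iff (pow_ne_zero 2 hw1)]
    have h6 : -(y * d / w * (q2 c e' / 3 - q1 c e' * z / w - (z + q2 c e / 3)) + y) * w ^ 2 =
        -(y * d * ((q2 c e' / 3 - (z + q2 c e / 3)) * w - q1 c e' * z) + y * w ^ 2) := by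
      field_simp
      ring
    rw [h6]
    linear_combination (-(y * d * w) / 3) * hQ2 - (y * q1 c e' + y * w) * hw + (y * w) * hQ +
      2 * y * w * h3
  have hnz : x' - q2 c e' / 3 ≠ 0 := by
    rw [hx1]
    exact div_ne_zero (neg_ne_zero.2 (mul_ne_zero hA' hz)) hw0
  refine ⟨⟨_, _, _, rfl, ?_⟩, ?_, ?_⟩
  · rw [← hx']
    exact sub_ne_zero.1 hnz
  · rw [hXe, aX_some, ← hx', hx1]
    have h6 : e' = e + d := by rw [hd]; ring
    rw [h6]
    rw [h6] at hA'
    rw [hw] at hw0 ⊢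
    field_simp
    ring
  · rw [hYe, aY_some, ← hx', ← hy', hx1, hy1]
    field_simp

end Field

end Vale.Agent.P297.G4
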