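import Vale.Agent.P297.H600.Z42Cyc

/-!
Closed subfields of an algebraically closed field of transcendence degree two.
-/

set_option linter.unusedSectionVars false

open IntermediateField Polynomial

namespace Vale.Agent.P297.Z42

open Vale.Agent.P297 Vale.Agent.P297.H839 Vale.Agent.P297.H600 Vale.Agent.P297.H729
open Vale.Agent.P297.Gen

section

variable {N : Type} [Field N] [Algebra ℂ N]

/-- closed subfields -/
def Cd (M : IntermediateField ℂ N) : Prop := ∀ u : N, IsAlgebraic M u → u ∈ M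

theorem quad_mem {M : IntermediateField ℂ N} (hM : Cd M) {b c x : N} (hb : b ∈ M) (hc : c ∈ M)
    (hx : x ^ 2 + b * x + c = 0) : x ∈ M := by
  apply hM
  refine isAlgebraic_of_coeff (p := X ^ 2 + C b * X + C c) ?_ ?_ ?_
  · intro n
    simp only [coeff_add, coeff_C_mul, coeff_X_pow, coeff_X, coeff_C]
    refine add_mem (add_mem ?_ (mul_mem hb ?_)) ?_
    · split_ifs
      · exact one_mem _
      · exact zero_mem _
    · split_ifs
      · exact one_mem _
      · exact zero_mem _
    · split_ifs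
      · exact hc
      · exact zero_mem _
  · intro h0
    have h1 := congrArg (fun q : N[X] => q.coeff 2) h0
    simp at h1
  · rw [eval_add, eval_add, eval_mul, eval_pow, eval_C, eval_C, eval_X]
    exact hx

theorem sq_mem {M : IntermediateField ℂ N} (hM : Cd M) {x : N} (hx : x ^ 2 ∈ M) : x ∈ M := by
  refine quad_mem hM (b := 0) (c := -x ^ 2) (zero_mem _) (neg_mem hx) ?_
  ring

/-- a quadratic relation over a closed subfield -/
theorem quad_zero {M : IntermediateField ℂ N} (hM : Cd M) {a b c x : N} (hx : x ∉ M) (ha : a ∈ M)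
    (hb : b ∈ M) (hc : c ∈ M) (h : a * x ^ 2 + b * x + c = 0) : a = 0 ∧ b = 0 ∧ c = 0 := by
  have ha0 : a = 0 := by
    by_contra h0
    apply hx
    refine quad_mem hM (mul_mem (inv_mem ha) hb) (mul_mem (inv_mem ha) hc) ?_
    field_simp
    linear_combination h
  subst ha0
  have hb0 : b = 0 := by
    by_contra h0
    apply hx
    have h1 : x = -c * b⁻¹ := by
      field_simp
      linear_combination h
    rw [h1]
    exact mul_mem (neg_mem hc) (inv_mem hb)
  subst hb0
  refine ⟨rfl, rfl, ?_⟩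
  linear_combination h

variable [IsAlgClosed N]

theorem cd_cl0 (S : Set N) : Cd (cl0 S) := cl0_closed S

theorem cd_clo (M : IntermediateField ℂ N) (S : Set N) : Cd (clo M S) := clo_closed M S

theorem mem_cl0'' {S : Set N} {x : N} :
    x ∈ cl0 S ↔ IsAlgebraic (Algebra.adjoin ℂ S) x := by
  rw [mem_cl0]
  exact IntermediateField.isAlgebraic_adjoin_iff

theorem range_two (x y : N) : Set.range ![x, y] = {x, y} := H600.range_pair x y

theorem all2 (h2 : Algebra.trdeg ℂ N = 2) {x y : N} (hv : AlgebraicIndependent ℂ ![x, y])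
    (z : N) : z ∈ cl0 {x, y} := by
  have h1 := hv.isTranscendenceBasis_of_trdeg_le_of_finite (by
    rw [h2, Cardinal.mk_fin]
    rfl)
  rw [mem_cl0'', ← range_two]
  exact h1.isAlgebraic.isAlgebraic z

theorem ind2 (h2 : Algebra.trdeg ℂ N = 2) {x y : N} (h : ∀ z, z ∈ cl0 ({x, y} : Set N)) :
    AlgebraicIndependent ℂ ![x, y] := by
  have h1 : Algebra.IsAlgebraic (Algebra.adjoin ℂ (Set.range ![x, y])) N := by
    rw [range_two]
    exact ⟨fun z => mem_cl0''.1 (h z)⟩
  exact (Algebra.IsAlgebraic.isTranscendenceBasis_of_le_trdeg_of_finite ℂ ![x, y] (by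
    rw [h2, Cardinal.mk_fin]
    rfl)).1

theorem notMem_cl0 {x y : N} (h : AlgebraicIndependent ℂ ![x, y]) : y ∉ cl0 {x} := by
  rw [mem_cl0]
  exact ((pair_iff' x y).1 h).2

theorem notMem_cl0' {x y : N} (h : AlgebraicIndependent ℂ ![x, y]) : x ∉ cl0 {y} :=
  notMem_cl0 (pair_swap h)

theorem cl0_empty_le (M : IntermediateField ℂ N) (hM : Cd M) : cl0 (∅ : Set N) ≤ M :=
  cl0_le hM (Set.empty_subset _)

theorem notMem_empty {x y : N} (h : AlgebraicIndependent ℂ ![x, y]) :
    x ∉ cl0 (∅ : Set N) ∧ y ∉ cl0 (∅ : Set N) :=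
  ⟨fun h1 => notMem_cl0' h (cl0_empty_le _ (cd_cl0 _) h1),
    fun h1 => notMem_cl0 h (cl0_empty_le _ (cd_cl0 _) h1)⟩

/-- two independent elements are not both algebraic over one element -/
theorem not_both {x y μ : N} (h : AlgebraicIndependent ℂ ![x, y]) (hx : x ∈ cl0 {μ})
    (hy : y ∈ cl0 {μ}) : False := by
  have h0 : cl0 ({μ} : Set N) ≤ clo (cl0 ∅) {μ} := by
    refine cl0_le (cd_clo _ _) ?_
    exact subset_clo _ _
  have h1 : μ ∈ clo (cl0 ∅) {x} := exchange (cd_cl0 _) (h0 hx) (notMem_empty h).1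
  have h2 : clo (cl0 (∅ : Set N)) {x} ≤ cl0 {x} := by
    refine clo_le (cd_cl0 _) (cl0_empty_le _ (cd_cl0 _)) (subset_cl0 _)
  apply notMem_cl0 h
  have h3 : cl0 ({μ} : Set N) ≤ cl0 {x} := by
    refine cl0_le (cd_cl0 _) ?_
    rintro _ rfl
    exact h2 h1
  exact h3 hy

/-- the product of two independent elements is not a constant -/
theorem mul_ne {x y : N} (h : AlgebraicIndependent ℂ ![x, y]) {c : N} (hc : c ∈ cl0 (∅ : Set N)) :
    x * y ≠ c := by
  intro h1
  have hx : x ≠ 0 := (ind_ne h).1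
  apply notMem_cl0 h
  have h2 : y = c * x⁻¹ := by
    rw [← h1]
    field_simp
  rw [h2]
  exact mul_mem (cl0_empty_le _ (cd_cl0 _) hc) (inv_mem (subset_cl0 _ rfl))

end

end Vale.Agent.P297.Z42
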