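import Vale.Agent.P297.H600.QTwin

/-!
Genus one curves `y₁² = Q₁(ν)`, `y₂² = Q₂(ν)` over `ℂ(w)` with a rational Jacobian surface: four
times the generic point is a combination of stable relations.
-/

set_option linter.unusedSectionVars false
set_option linter.style.haveILetI false

open CategoryTheory AlgebraicGeometry IntermediateField Polynomial

namespace Vale.Agent.P297.H600

open Vale.Agent.P297 Vale.Agent.P297.H839 Vale.Agent.P297.H109 Vale.Agent.P297.H729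

section

variable {T Ω : Type} [Field T] [Algebra ℂ T] [Field Ω] [Algebra ℂ Ω]

/-- `φ` is an embedding over `w` with the values `x`, `u₁`, `u₂` of the generators. -/
def IsEmb3 (φ₀ : T →ₐ[ℂ] Ω) (w ν y₁ y₂ : Ω) (φ : T →ₐ[ℂ] Ω) (x u₁ u₂ : Ω) : Prop :=
  ∃ g : Ω ≃ₐ[ℂ] Ω, g w = w ∧ φ = g.toAlgHom.comp φ₀ ∧ g ν = x ∧ g y₁ = u₁ ∧ g y₂ = u₂

variable {φ₀ : T →ₐ[ℂ] Ω} {w ν y₁ y₂ : Ω}

theorem IsEmb3.self : IsEmb3 φ₀ w ν y₁ y₂ φ₀ ν y₁ y₂ := ⟨AlgEquiv.refl, rfl, rfl, rfl, rfl, rfl⟩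

theorem IsEmb3.act {φ : T →ₐ[ℂ] Ω} {x u₁ u₂ : Ω} (h : IsEmb3 φ₀ w ν y₁ y₂ φ x u₁ u₂)
    {g : Ω ≃ₐ[ℂ] Ω} (hg : g w = w) :
    IsEmb3 φ₀ w ν y₁ y₂ (g.toAlgHom.comp φ) (g x) (g u₁) (g u₂) := by
  obtain ⟨k, hk, rfl, rfl, rfl, rfl⟩ := h
  refine ⟨k.trans g, ?_, rfl, rfl, rfl, rfl⟩
  change g (k w) = w
  rw [hk, hg]

theorem IsEmb3.uniq (hr : φ₀.fieldRange = IntermediateField.adjoin ℂ {w, ν, y₁, y₂})
    {φ ψ : T →ₐ[ℂ] Ω} {x u₁ u₂ : Ω} (h : IsEmb3 φ₀ w ν y₁ y₂ φ x u₁ u₂)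
    (h' : IsEmb3 φ₀ w ν y₁ y₂ ψ x u₁ u₂) : φ = ψ := by
  obtain ⟨g, hg, rfl, h1, h2, h3⟩ := h
  obtain ⟨k, hk, rfl, k1, k2, k3⟩ := h'
  apply AlgHom.ext
  intro a
  refine agree_on_adjoin g.toAlgHom k.toAlgHom {w, ν, y₁, y₂} ?_ (φ₀ a) ?_
  · rintro b (rfl | rfl | rfl | rfl)
    · exact hg.trans hk.symm
    · exact h1.trans k1.symm
    · exact h2.trans k2.symm
    · exact h3.trans k3.symm
  · rw [← hr]
    exact ⟨a, rfl⟩

theorem pairU (hr : φ₀.fieldRange = IntermediateField.adjoin ℂ {w, ν, y₁, y₂})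
    {φ φ' ψ ψ' : T →ₐ[ℂ] Ω} (x κ y z : Ω)
    (h1 : IsEmb3 φ₀ w ν y₁ y₂ φ x (κ * y) y) (h2 : IsEmb3 φ₀ w ν y₁ y₂ φ' x (κ * -y) (-y))
    (h3 : IsEmb3 φ₀ w ν y₁ y₂ ψ x (κ * z) z) (h4 : IsEmb3 φ₀ w ν y₁ y₂ ψ' x (κ * -z) (-z))
    (h : y ^ 2 = z ^ 2) :
    Finsupp.single φ (1 : ℤ) + Finsupp.single φ' 1 = Finsupp.single ψ 1 + Finsupp.single ψ' 1 := by
  rcases sq_eq_sq_iff_eq_or_eq_neg.1 h with h | h
  · subst h
    rw [h1.uniq hr h3, h2.uniq hr h4]
  · have h5 : z = -y := by rw [h, neg_neg]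
    subst h5
    rw [neg_neg] at h4
    rw [h1.uniq hr h4, h2.uniq hr h3, add_comm]

/-- **Biquadratic genus one curves over `ℂ(w)`.** -/
theorem biquad_stable [IsAlgClosed Ω] {a₁ b₁ c₁ a₂ b₂ c₂ ρ A B C : Ω}
    (hr : φ₀.fieldRange = IntermediateField.adjoin ℂ {w, ν, y₁, y₂})
    (ha₁ : a₁ ∈ ℂ⟮w⟯) (hb₁ : b₁ ∈ ℂ⟮w⟯) (hc₁ : c₁ ∈ ℂ⟮w⟯)
    (ha₂ : a₂ ∈ ℂ⟮w⟯) (hb₂ : b₂ ∈ ℂ⟮w⟯) (hc₂ : c₂ ∈ ℂ⟮w⟯)
    (h₁ : y₁ ^ 2 = a₁ * ν ^ 2 + b₁ * ν + c₁) (h₂ : y₂ ^ 2 = a₂ * ν ^ 2 + b₂ * ν + c₂)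
    (hρ : y₁ = ρ * y₂) (hρ0 : ρ ≠ 0) (hy₂ : y₂ ≠ 0)
    (hA : A = a₁ - ρ ^ 2 * a₂) (hB : B = b₁ - ρ ^ 2 * b₂) (hC : C = c₁ - ρ ^ 2 * c₂)
    (hA0 : A ≠ 0)
    (L₁ : IsRational (IntermediateField.adjoin ℂ {w, ν, y₂}))
    (L₁a : Algebra.IsAlgebraic (IntermediateField.adjoin ℂ {w, ν, y₂}) Ω)
    (L₂ : IsRational (IntermediateField.adjoin ℂ {w, ν, y₁}))
    (L₂a : Algebra.IsAlgebraic (IntermediateField.adjoin ℂ {w, ν, y₁}) Ω)
    (L₃ : IsRational (IntermediateField.adjoin ℂ {w, ρ}))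
    (L₃a : Algebra.IsAlgebraic (IntermediateField.adjoin ℂ {w, ρ}) Ω)
    (L₄ : IsRational (IntermediateField.adjoin ℂ {w, ρ ^ 2, ρ * (2 * A * ν + B)}))
    (L₄a : Algebra.IsAlgebraic (IntermediateField.adjoin ℂ {w, ρ ^ 2, ρ * (2 * A * ν + B)}) Ω) :
    Finsupp.single φ₀ (4 : ℤ) ∈ stableRelations T Ω := by
  haveI : CharZero Ω := charZero_of_injective_algebraMap (algebraMap ℂ Ω).injective
  have two0 : (2 : Ω) ≠ 0 := two_ne_zero
  have four : ∀ φ : T →ₐ[ℂ] Ω, Finsupp.single φ (4 : ℤ) = (4 : ℤ) • Finsupp.single φ (1 : ℤ) := by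
    intro φ
    rw [Finsupp.smul_single, smul_eq_mul, mul_one]
  -- memberships
  have hwall : ∀ g : Ω ≃ₐ[ℂ] Ω, g w = w → ∀ x ∈ ℂ⟮w⟯, g x = x := by
    intro g hg x hx
    refine agree_on_adjoin g.toAlgHom (AlgHom.id ℂ Ω) {w} ?_ x hx
    rintro _ rfl
    exact hg
  have hq : ∀ g : Ω ≃ₐ[ℂ] Ω, g w = w → (g y₂) ^ 2 = a₂ * (g ν) ^ 2 + b₂ * (g ν) + c₂ := by
    intro g hg
    rw [← map_pow, h₂, map_add, map_add, map_mul, map_mul, map_pow, hwall g hg _ ha₂,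
      hwall g hg _ hb₂, hwall g hg _ hc₂]
  have hquad : A * ν ^ 2 + B * ν + C = 0 := by
    rw [hA, hB, hC]
    have h3 : y₁ ^ 2 = ρ ^ 2 * y₂ ^ 2 := by rw [hρ]; ring
    rw [h₁, h₂] at h3
    linear_combination h3
  -- first involution
  have e0 := IsEmb3.self (φ₀ := φ₀) (w := w) (ν := ν) (y₁ := y₁) (y₂ := y₂)
  have hm1 : φ₀.fieldRange = IntermediateField.adjoin ℂ {w, ν, y₂} ⊔
      IntermediateField.adjoin ℂ {y₁} := by
    rw [hr, ← IntermediateField.adjoin_union]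
    congr 1
    ext a
    simp only [Set.mem_insert_iff, Set.mem_singleton_iff, Set.mem_union]
    tauto
  have hm2 : φ₀.fieldRange = IntermediateField.adjoin ℂ {w, ν, y₁} ⊔
      IntermediateField.adjoin ℂ {y₂} := by
    rw [hr, ← IntermediateField.adjoin_union]
    congr 1
    ext a
    simp only [Set.mem_insert_iff, Set.mem_singleton_iff, Set.mem_union]
    tauto
  have hwle : ∀ (S : Set Ω), w ∈ S → ℂ⟮w⟯ ≤ IntermediateField.adjoin ℂ S := by
    intro S hS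
    rw [IntermediateField.adjoin_simple_le_iff]
    exact IntermediateField.subset_adjoin _ _ hS
  have hQm : ∀ (S : Set Ω) (a b c : Ω), w ∈ S → ν ∈ S → a ∈ ℂ⟮w⟯ → b ∈ ℂ⟮w⟯ → c ∈ ℂ⟮w⟯ →
      a * ν ^ 2 + b * ν + c ∈ IntermediateField.adjoin ℂ S := by
    intro S a b c hw hν ha hb hc
    have hν' := IntermediateField.subset_adjoin ℂ S hν
    exact add_mem (add_mem (mul_mem (hwle S hw ha) (pow_mem hν' 2))
      (mul_mem (hwle S hw hb) hν')) (hwle S hw hc)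
  rcases pair_fixed hm1 _ L₁a le_rfl (-y₁) (by rw [add_neg_cancel]; exact zero_mem _)
    (by
      have h3 : y₁ * -y₁ = -(y₁ ^ 2) := by ring
      rw [h3, h₁]
      exact neg_mem (hQm _ _ _ _ (by simp) (by simp) ha₁ hb₁ hc₁)) with k1 | ⟨i₁, hi₁, hiy₁, k1⟩
  · rw [four]
    exact AddSubgroup.zsmul_mem _ (stable_of_fixed _ L₁ L₁a _ k1) _
  have R1 := stable_of_fixed _ L₁ L₁a _ k1
  rcases pair_fixed hm2 _ L₂a le_rfl (-y₂) (by rw [add_neg_cancel]; exact zero_mem _)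
    (by
      have h3 : y₂ * -y₂ = -(y₂ ^ 2) := by ring
      rw [h3, h₂]
      exact neg_mem (hQm _ _ _ _ (by simp) (by simp) ha₂ hb₂ hc₂)) with k2 | ⟨i₂, hi₂, hiy₂, k2⟩
  · rw [four]
    exact AddSubgroup.zsmul_mem _ (stable_of_fixed _ L₂ L₂a _ k2) _
  have R2 := stable_of_fixed _ L₂ L₂a _ k2
  have hi₁w : i₁ w = w := hi₁ w (IntermediateField.subset_adjoin _ _ (by simp))
  have hi₁ν : i₁ ν = ν := hi₁ ν (IntermediateField.subset_adjoin _ _ (by simp))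
  have hi₁y : i₁ y₂ = y₂ := hi₁ y₂ (IntermediateField.subset_adjoin _ _ (by simp))
  have hi₂w : i₂ w = w := hi₂ w (IntermediateField.subset_adjoin _ _ (by simp))
  have hi₂ν : i₂ ν = ν := hi₂ ν (IntermediateField.subset_adjoin _ _ (by simp))
  have hi₂y : i₂ y₁ = y₁ := hi₂ y₁ (IntermediateField.subset_adjoin _ _ (by simp))
  have e1 := e0.act hi₁w
  rw [hi₁ν, hiy₁, hi₁y] at e1
  have e2 := e0.act hi₂w
  rw [hi₂ν, hiy₂, hi₂y] at e2
  have e3 := e2.act hi₁w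
  rw [hi₁ν, map_neg, hiy₁, hi₁y] at e3
  have R3 := act_mem i₁ R2
  rw [map_add, act_single, act_single] at R3
  -- the translation
  set f0 : (T →ₐ[ℂ] Ω) →₀ ℤ := Finsupp.single φ₀ (1 : ℤ) with hf0
  set f1 : (T →ₐ[ℂ] Ω) →₀ ℤ := Finsupp.single (i₁.toAlgHom.comp φ₀) (1 : ℤ) with hf1
  set f2 : (T →ₐ[ℂ] Ω) →₀ ℤ := Finsupp.single (i₂.toAlgHom.comp φ₀) (1 : ℤ) with hf2
  set f3 : (T →ₐ[ℂ] Ω) →₀ ℤ :=
    Finsupp.single (i₁.toAlgHom.comp (i₂.toAlgHom.comp φ₀)) (1 : ℤ) with hf3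
  have fin2 : f0 + f3 ∈ stableRelations T Ω → Finsupp.single φ₀ (4 : ℤ) ∈ stableRelations T Ω := by
    intro h
    rw [four]
    have h3 : (4 : ℤ) • f0 = (2 : ℤ) • ((f0 + f3) - (f1 + f3) + (f0 + f1)) := by
      rw [show (4 : ℤ) = 2 * 2 from rfl, mul_smul]
      congr 1
      rw [two_smul]
      abel
    rw [← hf0, h3]
    exact AddSubgroup.zsmul_mem _ (add_mem (sub_mem h R3) R1) _
  -- a field `E` that contains `ρ` and `ν`
  have small : ∀ E : IntermediateField ℂ Ω, IsRational E → Algebra.IsAlgebraic E Ω → w ∈ E →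
      ρ ∈ E → ν ∈ E → E ≤ φ₀.fieldRange →
      Finsupp.single φ₀ (4 : ℤ) ∈ stableRelations T Ω := by
    intro E hE hEa hw hρE hνE hle
    have hm : φ₀.fieldRange = E ⊔ IntermediateField.adjoin ℂ {y₂} := by
      apply le_antisymm
      · rw [hr, IntermediateField.adjoin_le_iff]
        have hy2 : y₂ ∈ E ⊔ IntermediateField.adjoin ℂ {y₂} := mem_sup_adjoin E y₂
        rintro a (rfl | rfl | rfl | rfl)
        · exact (le_sup_left : E ≤ _) hw
        · exact (le_sup_left : E ≤ _) hνE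
        · rw [hρ]
          exact mul_mem ((le_sup_left : E ≤ _) hρE) hy2
        · exact hy2
      · refine sup_adjoin_le hle ?_
        rw [hr]
        exact IntermediateField.subset_adjoin _ _ (by simp)
    have hwE : ℂ⟮w⟯ ≤ E := by
      rw [IntermediateField.adjoin_simple_le_iff]
      exact hw
    rcases pair_fixed hm E hEa le_rfl (-y₂) (by rw [add_neg_cancel]; exact zero_mem _)
      (by
        have h3 : y₂ * -y₂ = -(y₂ ^ 2) := by ring
        rw [h3, h₂]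
        exact neg_mem (add_mem (add_mem (mul_mem (hwE ha₂) (pow_mem hνE 2))
          (mul_mem (hwE hb₂) hνE)) (hwE hc₂))) with k | ⟨j, hj, hjy, k⟩
    · rw [four]
      exact AddSubgroup.zsmul_mem _ (stable_of_fixed _ hE hEa _ k) _
    · apply fin2
      have k' := stable_of_fixed _ hE hEa _ k
      have e := e0.act (hj w hw)
      have h3 : j y₁ = -y₁ := by
        rw [hρ, map_mul, hj ρ hρE, hjy]
        ring
      rw [hj ν hνE, h3, hjy] at e
      rw [e.uniq hr e3] at k'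
      exact k'
  -- the fields `L₃`, `L₄`
  have hrm : ∀ a ∈ ({w, ν, y₁, y₂} : Set Ω), a ∈ φ₀.fieldRange := by
    intro a ha
    rw [hr]
    exact IntermediateField.subset_adjoin _ _ ha
  have hwm : w ∈ φ₀.fieldRange := hrm _ (by simp)
  have hνm : ν ∈ φ₀.fieldRange := hrm _ (by simp)
  have hwm' : ℂ⟮w⟯ ≤ φ₀.fieldRange := by
    rw [IntermediateField.adjoin_simple_le_iff]
    exact hwm
  have hρm : ρ ∈ φ₀.fieldRange := by
    have h3 : ρ = y₁ / y₂ := by rw [hρ, mul_div_cancel_right₀ _ hy₂]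
    rw [h3]
    exact div_mem (hrm _ (by simp)) (hrm _ (by simp))
  have hAm : A ∈ φ₀.fieldRange := by
    rw [hA]
    exact sub_mem (hwm' ha₁) (mul_mem (pow_mem hρm 2) (hwm' ha₂))
  have hBm : B ∈ φ₀.fieldRange := by
    rw [hB]
    exact sub_mem (hwm' hb₁) (mul_mem (pow_mem hρm 2) (hwm' hb₂))
  have hE3le : IntermediateField.adjoin ℂ {w, ρ} ≤ φ₀.fieldRange := by
    rw [IntermediateField.adjoin_le_iff]
    rintro a (rfl | rfl)
    · exact hwm
    · exact hρm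
  have hE4le : IntermediateField.adjoin ℂ {w, ρ ^ 2, ρ * (2 * A * ν + B)} ≤ φ₀.fieldRange := by
    rw [IntermediateField.adjoin_le_iff]
    rintro a (rfl | rfl | rfl)
    · exact hwm
    · exact pow_mem hρm 2
    · exact mul_mem hρm (add_mem (mul_mem (mul_mem (ofNat_mem _ 2) hAm) hνm) hBm)
  -- coefficients in a field that contains `w` and `ρ ^ 2`
  have coef : ∀ E : IntermediateField ℂ Ω, w ∈ E → ρ ^ 2 ∈ E → A ∈ E ∧ B ∈ E ∧ C ∈ E := by
    intro E hw hs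
    have hwE : ℂ⟮w⟯ ≤ E := by
      rw [IntermediateField.adjoin_simple_le_iff]
      exact hw
    refine ⟨?_, ?_, ?_⟩
    · rw [hA]; exact sub_mem (hwE ha₁) (mul_mem hs (hwE ha₂))
    · rw [hB]; exact sub_mem (hwE hb₁) (mul_mem hs (hwE hb₂))
    · rw [hC]; exact sub_mem (hwE hc₁) (mul_mem hs (hwE hc₂))
  set ν' : Ω := -B / A - ν with hν'
  have hsum : ν + ν' = -B / A := by rw [hν']; ring
  have hprod : ν * ν' = C / A := by
    rw [hν', eq_div_iff hA0]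
    field_simp
    linear_combination -hquad
  have hdν : 2 * A * ν' + B = -(2 * A * ν + B) := by
    rw [hν']
    field_simp
    ring
  -- `L₃`
  have hw3 : w ∈ IntermediateField.adjoin ℂ {w, ρ} := IntermediateField.subset_adjoin _ _ (by simp)
  have hρ3 : ρ ∈ IntermediateField.adjoin ℂ {w, ρ} := IntermediateField.subset_adjoin _ _ (by simp)
  obtain ⟨hA3, hB3, hC3⟩ := coef _ hw3 (pow_mem hρ3 2)
  by_cases hν3 : ν ∈ IntermediateField.adjoin ℂ {w, ρ}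
  · exact small _ L₃ L₃a hw3 hρ3 hν3 hE3le
  obtain ⟨k, hk, hkν⟩ := exists_conj _ L₃a ν ν' (by rw [hsum]; exact div_mem (neg_mem hB3) hA3)
    (by rw [hprod]; exact div_mem hC3 hA3) hν3
  -- `L₄`
  have hw4 : w ∈ IntermediateField.adjoin ℂ {w, ρ ^ 2, ρ * (2 * A * ν + B)} :=
    IntermediateField.subset_adjoin _ _ (by simp)
  have hs4 : ρ ^ 2 ∈ IntermediateField.adjoin ℂ {w, ρ ^ 2, ρ * (2 * A * ν + B)} :=
    IntermediateField.subset_adjoin _ _ (by simp)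
  have hV4 : ρ * (2 * A * ν + B) ∈ IntermediateField.adjoin ℂ {w, ρ ^ 2, ρ * (2 * A * ν + B)} :=
    IntermediateField.subset_adjoin _ _ (by simp)
  obtain ⟨hA4, hB4, hC4⟩ := coef _ hw4 hs4
  by_cases hρ4 : ρ ∈ IntermediateField.adjoin ℂ {w, ρ ^ 2, ρ * (2 * A * ν + B)}
  · refine small _ L₄ L₄a hw4 hρ4 ?_ hE4le
    have h3 : ν = (ρ * (2 * A * ν + B) / ρ - B) / (2 * A) := by
      field_simp
      ring
    have h4 : (ρ * (2 * A * ν + B) / ρ - B) / (2 * A) ∈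
        IntermediateField.adjoin ℂ {w, ρ ^ 2, ρ * (2 * A * ν + B)} :=
      div_mem (sub_mem (div_mem hV4 hρ4) hB4) (mul_mem (ofNat_mem _ 2) hA4)
    rw [← h3] at h4
    exact h4
  obtain ⟨j, hj, hjρ⟩ := exists_conj _ L₄a ρ (-ρ) (by rw [add_neg_cancel]; exact zero_mem _)
    (by
      have h3 : ρ * -ρ = -(ρ ^ 2) := by ring
      rw [h3]
      exact neg_mem hs4) hρ4
  have hkw : k w = w := hk w hw3
  have hkρ : k ρ = ρ := hk ρ hρ3
  have hjw : j w = w := hj w hw4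
  -- the embeddings
  have e0' : IsEmb3 φ₀ w ν y₁ y₂ φ₀ ν (ρ * y₂) y₂ := by
    rw [← hρ]
    exact e0
  have e1' : IsEmb3 φ₀ w ν y₁ y₂ (i₁.toAlgHom.comp φ₀) ν (-ρ * y₂) y₂ := by
    have h3 : -ρ * y₂ = -y₁ := by rw [hρ]; ring
    rw [h3]
    exact e1
  have e2' : IsEmb3 φ₀ w ν y₁ y₂ (i₂.toAlgHom.comp φ₀) ν (-ρ * -y₂) (-y₂) := by
    have h3 : -ρ * -y₂ = y₁ := by rw [hρ]; ring
    rw [h3]
    exact e2
  have e3' : IsEmb3 φ₀ w ν y₁ y₂ (i₁.toAlgHom.comp (i₂.toAlgHom.comp φ₀)) ν (ρ * -y₂) (-y₂) := by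
    have h3 : ρ * -y₂ = -y₁ := by rw [hρ]; ring
    rw [h3]
    exact e3
  have q0 := e0'.act hkw
  have q1 := e1'.act hkw
  have q2 := e2'.act hkw
  have q3 := e3'.act hkw
  rw [hkν, map_mul, hkρ] at q0
  rw [hkν, map_mul, map_neg, hkρ] at q1
  rw [hkν, map_mul, map_neg, map_neg, hkρ] at q2
  rw [hkν, map_mul, map_neg, hkρ] at q3
  -- action of automorphisms on `ν`, `ν'`
  have hfixν : ∀ g : Ω ≃ₐ[ℂ] Ω, g A = A → g B = B → g ν = ν → g ν' = ν' := by
    intro g h3 h4 h5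
    rw [hν', map_sub, map_div₀, map_neg, h3, h4, h5]
  have hfixν' : ∀ g : Ω ≃ₐ[ℂ] Ω, g A = A → g B = B → g ν = ν' → g ν' = ν := by
    intro g h3 h4 h5
    have h6 : g ν' = -B / A - g ν := by
      rw [hν', map_sub, map_div₀, map_neg, h3, h4]
    rw [h6, h5, hν']
    ring
  have hroots : ∀ g : Ω ≃ₐ[ℂ] Ω, g A = A → g B = B → g C = C → g ν = ν ∨ g ν = ν' := by
    intro g h3 h4 h5
    have h6 := congrArg g hquad
    simp only [map_add, map_mul, map_pow, h3, h4, h5, map_zero] at h6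
    have h7 : (g ν - ν) * (g ν - ν') = 0 := by
      have h8 : A * ((g ν - ν) * (g ν - ν')) = 0 := by
        rw [hν']
        field_simp
        linear_combination h6 - hquad
      exact (mul_eq_zero.1 h8).resolve_left hA0
    rcases mul_eq_zero.1 h7 with h | h
    · exact Or.inl (sub_eq_zero.1 h)
    · exact Or.inr (sub_eq_zero.1 h)
  -- `v₃`
  have R5 : f0 + f3 + (H600.act k.toAlgHom f0 + H600.act k.toAlgHom f3) ∈ stableRelations T Ω := by
    refine stable_of_fixed _ L₃ L₃a _ fun g hg => ?_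
    have hgw : g w = w := hg w hw3
    have hgρ : g ρ = ρ := hg ρ hρ3
    have hgA : g A = A := hg A hA3
    have hgB : g B = B := hg B hB3
    have hgC : g C = C := hg C hC3
    have g0 := e0'.act hgw
    have g3 := e3'.act hgw
    have gk0 := q0.act hgw
    have gk3 := q3.act hgw
    rw [map_mul, hgρ] at g0 gk0
    rw [map_mul, map_neg, hgρ] at g3 gk3
    rw [hf0, hf3, act_single, act_single, map_add, map_add, map_add, act_single, act_single,
      act_single, act_single]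
    rcases hroots g hgA hgB hgC with h | h
    · have h' := hfixν g hgA hgB h
      rw [h] at g0 g3
      rw [h'] at gk0 gk3
      have s1 := pairU hr ν ρ (g y₂) y₂ g0 g3 e0' e3' (by rw [hq g hgw, h, h₂])
      have s2 := pairU hr ν' ρ (g (k y₂)) (k y₂) gk0 gk3 q0 q3 (by
        have h5 := hq (k.trans g) (by
          change g (k w) = w
          rw [hkw, hgw])
        have h6 : (k.trans g) y₂ = g (k y₂) := rfl
        have h7 : (k.trans g) ν = g (k ν) := rfl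
        rw [← h6, h5, h7, hkν, h', hq k hkw, hkν])
      rw [s1, s2]
    · have h' := hfixν' g hgA hgB h
      rw [h] at g0 g3
      rw [h'] at gk0 gk3
      have s1 := pairU hr ν' ρ (g y₂) (k y₂) g0 g3 q0 q3 (by rw [hq g hgw, h, hq k hkw, hkν])
      have s2 := pairU hr ν ρ (g (k y₂)) y₂ gk0 gk3 e0' e3' (by
        have h5 := hq (k.trans g) (by
          change g (k w) = w
          rw [hkw, hgw])
        have h6 : (k.trans g) y₂ = g (k y₂) := rfl
        have h7 : (k.trans g) ν = g (k ν) := rfl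
        rw [← h6, h5, h7, hkν, h', h₂])
      rw [s1, s2, add_comm]
  -- `v₄`
  have hjA : j A = A := hj A hA4
  have hjB : j B = B := hj B hB4
  have hjV : ∀ g : Ω ≃ₐ[ℂ] Ω, Fixes (IntermediateField.adjoin ℂ {w, ρ ^ 2,
      ρ * (2 * A * ν + B)}) g → g ρ = ρ ∧ g ν = ν ∨ g ρ = -ρ ∧ g ν = ν' := by
    intro g hg
    have hgA : g A = A := hg A hA4
    have hgB : g B = B := hg B hB4
    have h3 := hg _ hV4
    rw [map_mul, map_add, map_mul, map_mul, map_ofNat, hgA, hgB] at h3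
    have h4 := hg _ hs4
    rw [map_pow] at h4
    rcases sq_eq_sq_iff_eq_or_eq_neg.1 h4 with h5 | h5
    · left
      refine ⟨h5, ?_⟩
      rw [h5] at h3
      have h6 := mul_left_cancel₀ hρ0 h3
      have h7 : (2 * A) * g ν = (2 * A) * ν := by linear_combination h6
      exact mul_left_cancel₀ (mul_ne_zero two0 hA0) h7
    · right
      refine ⟨h5, ?_⟩
      rw [h5] at h3
      have h6 : -(2 * A * g ν + B) = 2 * A * ν + B := by
        apply mul_left_cancel₀ hρ0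
        linear_combination h3
      have h7 : (2 * A) * g ν = (2 * A) * ν' := by
        linear_combination -h6 - hdν
      exact mul_left_cancel₀ (mul_ne_zero two0 hA0) h7
  have hjν : j ν = ν' := by
    rcases hjV j hj with h | h
    · exfalso
      have h3 : ρ = -ρ := h.1.symm.trans hjρ
      apply hρ0
      have h4 : 2 * ρ = 0 := by linear_combination h3
      exact (mul_eq_zero.1 h4).resolve_left two0
    · exact h.2
  have p0 := e0'.act hjw
  have p3 := e3'.act hjw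
  rw [hjν, map_mul, hjρ] at p0
  rw [hjν, map_mul, map_neg, hjρ] at p3
  have R6 : f0 + f3 + (H600.act j.toAlgHom f0 + H600.act j.toAlgHom f3) ∈ stableRelations T Ω := by
    refine stable_of_fixed _ L₄ L₄a _ fun g hg => ?_
    have hgw : g w = w := hg w hw4
    have hgA : g A = A := hg A hA4
    have hgB : g B = B := hg B hB4
    have g0 := e0'.act hgw
    have g3 := e3'.act hgw
    have gj0 := p0.act hgw
    have gj3 := p3.act hgw
    have h5 := hq (j.trans g) (by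
      change g (j w) = w
      rw [hjw, hgw])
    have h6 : (j.trans g) y₂ = g (j y₂) := rfl
    have h7 : (j.trans g) ν = g (j ν) := rfl
    rw [h6, h7, hjν] at h5
    rw [hf0, hf3, act_single, act_single, map_add, map_add, map_add, act_single, act_single,
      act_single, act_single]
    rcases hjV g hg with ⟨h, hh⟩ | ⟨h, hh⟩
    · have h' := hfixν g hgA hgB hh
      rw [map_mul, h, hh] at g0
      rw [map_mul, map_neg, h, hh] at g3
      rw [map_mul, map_neg, h, h'] at gj0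
      rw [map_mul, map_neg, map_neg, h, h'] at gj3
      have s1 := pairU hr ν ρ (g y₂) y₂ g0 g3 e0' e3' (by rw [hq g hgw, hh, h₂])
      have s2 := pairU hr ν' (-ρ) (g (j y₂)) (j y₂) gj0 gj3 p0 p3 (by
        rw [h5, h', hq j hjw, hjν])
      rw [s1, s2]
    · have h' := hfixν' g hgA hgB hh
      rw [map_mul, h, hh] at g0
      rw [map_mul, map_neg, h, hh] at g3
      rw [map_mul, map_neg, h, neg_neg, h'] at gj0
      rw [map_mul, map_neg, map_neg, h, neg_neg, h'] at gj3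
      have s1 := pairU hr ν' (-ρ) (g y₂) (j y₂) g0 g3 p0 p3 (by
        rw [hq g hgw, hh, hq j hjw, hjν])
      have s2 := pairU hr ν ρ (g (j y₂)) y₂ gj0 gj3 e0' e3' (by rw [h5, h', h₂])
      rw [s1, s2, add_comm]
  -- comparison
  have hcmp : H600.act j.toAlgHom f0 + H600.act j.toAlgHom f3 =
      H600.act k.toAlgHom f1 + H600.act k.toAlgHom f2 := by
    rw [hf0, hf1, hf2, hf3, act_single, act_single, act_single, act_single]
    exact pairU hr ν' (-ρ) (j y₂) (k y₂) p0 p3 q1 q2 (by rw [hq j hjw, hjν, hq k hkw, hkν])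
  rw [hcmp] at R6
  have S1 := act_mem k R1
  have S2 := act_mem k R2
  have S3 := act_mem k R3
  rw [map_add] at S1 S2 S3
  generalize H600.act k.toAlgHom f0 = k0 at *
  generalize H600.act k.toAlgHom f1 = k1' at *
  generalize H600.act k.toAlgHom f2 = k2' at *
  generalize H600.act k.toAlgHom f3 = k3' at *
  rw [four, ← hf0]
  have h3 : (4 : ℤ) • f0 = (f0 + f3 + (k0 + k3')) + (f0 + f3 + (k1' + k2')) - (k0 + k2') -
      (k1' + k3') - (2 : ℤ) • (f1 + f3) + (2 : ℤ) • (f0 + f1) := by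
    rw [show (4 : ℤ) = 2 * 2 from rfl, mul_smul]
    simp only [two_smul]
    abel
  rw [h3]
  exact add_mem (sub_mem (sub_mem (sub_mem (add_mem R5 R6) S2) S3)
    (AddSubgroup.zsmul_mem _ R3 _)) (AddSubgroup.zsmul_mem _ R1 _)

end

end Vale.Agent.P297.H600
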