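import Vale.Agent.P297.H839.Points
import Mathlib.Algebra.MvPolynomial.PDeriv

/-!
Intersections of four quadrics in the projective space of dimension six: the universal covers of the
numerical Campedelli surfaces with fundamental groups `ℤ/8`, `Q₈`, `ℤ/4 × ℤ/2`.
-/

open MvPolynomial

namespace Vale.Agent.P297.C8U

/-- The monomial `c X_i X_j`. -/
noncomputable def q (c : ℂ) (i j : Fin 7) : MvPolynomial (Fin 7) ℂ := C c * (X i * X j)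

/-- The intersection `F i = 0` of four quadrics in the projective space of dimension six is smooth
of codimension four. -/
def Smooth (F : Fin 4 → MvPolynomial (Fin 7) ℂ) : Prop :=
  ∀ z : Fin 7 → ℂ, z ≠ 0 → (∀ i, eval z (F i) = 0) →
    LinearIndependent ℂ fun i j => eval z (pderiv j (F i))

/-- The elements `t j`, with `t 0 = 1`, generate the function field `E` of the surface `F i = 0`. -/
structure IsFF (F : Fin 4 → MvPolynomial (Fin 7) ℂ) {E : Type} [Field E] [Algebra ℂ E]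
    (t : Fin 7 → E) : Prop where
  one : t 0 = 1
  zero : ∀ i, aeval t (F i) = 0
  top : IntermediateField.adjoin ℂ (Set.range t) = ⊤
  trdeg : Algebra.trdeg ℂ E = 2

/-- The four quadrics for the group `ℤ/8`. -/
structure F8 (m : Fin 10 → ℂ) (F : Fin 4 → MvPolynomial (Fin 7) ℂ) : Prop where
  e0 : F 0 = q (m 0) 0 3 + q (m 1) 1 2 - (q 1 4 4 + q 1 5 5 + q 1 6 6)
  e1 : F 1 = q (m 2) 0 0 + q (m 3) 1 1 + q (m 4) 2 3 +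
    (q (m 7) 2 2 + q (m 8) 3 3 + q (m 9) 0 1) - q 2 5 6
  e2 : F 2 = C Complex.I * (q (m 2) 0 0 + q (m 3) 1 1 + q (m 4) 2 3 -
    (q (m 7) 2 2 + q (m 8) 3 3 + q (m 9) 0 1)) - q 2 4 6
  e3 : F 3 = q (m 5) 0 2 + q (m 6) 1 3 - q 2 4 5

/-- The four quadrics for the group `Q₈`. -/
structure FQ (a : ℂ) (x y z : Fin 3 → ℂ) (F : Fin 4 → MvPolynomial (Fin 7) ℂ) : Prop where
  e0 : F 0 = q (2 * a) 0 3 - q (2 * a) 1 2 - (q 1 4 4 + q 1 5 5 + q 1 6 6)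
  e1 : F 1 = q (2 * x 0) 0 1 + (q (2 * y 0) 0 3 + q (2 * y 0) 1 2) + q (2 * z 0) 2 3 - q 2 5 6
  e2 : F 2 = (q (x 1) 0 0 + q (x 1) 1 1) + (q (2 * y 1) 0 2 + q (2 * y 1) 1 3) +
    (q (z 1) 2 2 + q (z 1) 3 3) - q 2 4 6
  e3 : F 3 = (q (x 2) 0 0 - q (x 2) 1 1) + (q (2 * y 2) 0 2 - q (2 * y 2) 1 3) +
    (q (z 2) 2 2 - q (z 2) 3 3) - q 2 4 5

/-- The four quadrics for the group `ℤ/4 × ℤ/2`. -/
structure F42 (p : Fin 9 → ℂ) (F : Fin 4 → MvPolynomial (Fin 7) ℂ) : Prop where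
  e0 : F 0 = q 1 1 2 - q 1 0 0 + q (p 8) 3 3
  e1 : F 1 = q (p 0) 0 3 + (q (p 1) 1 1 - q (p 1) 2 2) +
    (q (p 5) 0 0 + q (p 6) 3 3 + (q (p 7) 1 1 + q (p 7) 2 2)) - q 1 4 4
  e2 : F 2 = q (p 0) 0 3 + (q (p 1) 1 1 - q (p 1) 2 2) -
    (q (p 5) 0 0 + q (p 6) 3 3 + (q (p 7) 1 1 + q (p 7) 2 2)) - q 1 5 5
  e3 : F 3 = q (p 2) 0 3 + (q (p 3) 1 1 - q (p 3) 2 2) + q (2 * p 4) 4 5 - q 1 6 6

/-- Conditions on the parameters, which hold if the intersection of the quadrics is smooth. -/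
structure Good (p : Fin 9 → ℂ) : Prop where
  cm : p 0 * p 3 ≠ p 1 * p 2
  cg : p 1 ≠ 0 ∨ p 7 ≠ 0
  g3 : p 6 = -(p 8 * p 5) → p 0 ≠ 0 ∧ p 8 ≠ 0
  g4 : p 6 = p 8 * p 5 → ¬ (p 0 ^ 2 = 4 * p 8 * p 5 ^ 2 ∧ p 1 ^ 2 = p 7 ^ 2) ∧
    ¬ (p 5 ^ 2 = 4 * p 7 ^ 2 ∧ p 0 ^ 2 = 16 * p 8 * p 1 ^ 2) ∧
    ¬ (p 0 ^ 2 - 16 * p 8 * p 1 ^ 2 = 4 * p 8 * (p 5 ^ 2 - 4 * p 7 ^ 2) ∧
      p 0 * p 2 = 16 * p 8 * (p 1 * p 3) ∧
      p 2 ^ 2 - 16 * p 8 * p 3 ^ 2 = -4 * p 4 ^ 2 * (p 0 ^ 2 - 16 * p 8 * p 1 ^ 2))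
  g5 : p 4 = 0 → ¬ (p 3 = 0 ∧ p 1 ^ 2 = p 7 ^ 2) ∧
    ¬ (p 7 = 0 ∧ p 6 = -(p 8 * p 5) ∧ p 2 ^ 2 = 16 * p 8 * p 3 ^ 2 ∧
      (p 0 ^ 2 + 16 * p 8 * p 1 ^ 2 + 4 * p 8 * p 5 ^ 2) * p 3 = 2 * p 0 * p 1 * p 2)

section

variable {E : Type} [Field E] [Algebra ℂ E]

/-- The automorphism `G` of the function field is induced by the linear map
`t j ↦ c j * t (s j)` of the projective space. -/
def Acts (t : Fin 7 → E) (c : Fin 7 → ℂ) (s : Fin 7 → Fin 7) (G : E ≃ₐ[ℂ] E) : Prop :=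
  ∀ j, G (t j) * t (s 0) = algebraMap ℂ E (c j) * t (s j)

/-- All fields contained in the fixed field of `H` satisfy Bloch's conjecture. -/
def BlochSub (H : Subgroup (E ≃ₐ[ℂ] E)) : Prop :=
  ∀ (L : Type) [Field L] [Algebra ℂ L], (L →ₐ[ℂ] IntermediateField.fixedField H) →
    H839.PointsEquivalent L

end

end Vale.Agent.P297.C8U
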