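import Mathlib.Tactic.LinearCombination
import Mathlib.Tactic.FieldSimp
import Mathlib.Algebra.CharZero.Defs
import Mathlib.Tactic.Ring

/-!
Quartics with exactly one multiple root: the multiple root is rational.
-/

namespace Vale.Agent.P297.G4

section

variable {k : Type} [Field k] [CharZero k]

/-- The multiple root of a depressed quartic which is not a square. -/
theorem exists_dbl {a b d : k}
    (hd : 4 * (12 * d + a ^ 2) ^ 3 = (72 * a * d - 27 * b ^ 2 - 2 * a ^ 3) ^ 2)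
    (hs : ¬ (b = 0 ∧ a ^ 2 = 4 * d)) :
    ∃ z q : k, a = q - 3 * z ^ 2 ∧ b = 2 * z * (z ^ 2 - q) ∧ d = z ^ 2 * q ∧ q ≠ z ^ 2 := by
  have fin : ∀ z : k, 4 * z ^ 3 + 2 * a * z + b = 0 → 2 * a * z ^ 2 + 3 * b * z + 4 * d = 0 →
      ∃ z q : k, a = q - 3 * z ^ 2 ∧ b = 2 * z * (z ^ 2 - q) ∧ d = z ^ 2 * q ∧ q ≠ z ^ 2 := by
    intro z h1 h2
    have hb : b = 2 * z * (z ^ 2 - (a + 3 * z ^ 2)) := by linear_combination h1
    have hdd : d = z ^ 2 * (a + 3 * z ^ 2) := by
      have h3 : (4 : k) ≠ 0 := by norm_num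
      apply mul_left_cancel₀ h3
      linear_combination h2 - 3 * z * h1
    refine ⟨z, a + 3 * z ^ 2, by ring, hb, hdd, ?_⟩
    intro h3
    apply hs
    have ha : a = -2 * z ^ 2 := by linear_combination h3
    refine ⟨?_, ?_⟩
    · rw [hb, ha]
      ring
    · rw [hdd, ha]
      ring
  obtain ⟨I, hI⟩ : ∃ I, I = 12 * d + a ^ 2 := ⟨_, rfl⟩
  obtain ⟨J, hJ⟩ : ∃ J, J = 72 * a * d - 27 * b ^ 2 - 2 * a ^ 3 := ⟨_, rfl⟩
  obtain ⟨D, hDef⟩ : ∃ D, D = 2 * a ^ 3 - 8 * a * d + 9 * b ^ 2 := ⟨_, rfl⟩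
  have hd0 := hd
  rw [← hI, ← hJ] at hd
  have hJD : J = 4 * a * I - 3 * D := by
    rw [hJ, hI, hDef]
    ring
  by_cases hD : D = 0
  · -- a triple root
    have h1 : I ^ 2 * (a ^ 2 - 4 * d) = 0 := by
      have h3 : (12 : k) ≠ 0 := by norm_num
      apply mul_left_cancel₀ h3
      rw [hJD, hD] at hd
      have h4 : 12 * d = I - a ^ 2 := by rw [hI]; ring
      linear_combination -hd - 4 * I ^ 2 * h4
    have h9 : 9 * b ^ 2 = 8 * a * d - 2 * a ^ 3 := by
      rw [hDef] at hD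
      linear_combination hD
    rcases mul_eq_zero.1 h1 with h2 | h2
    · have hI0 : 12 * d + a ^ 2 = 0 := by
        rw [← hI]
        exact pow_eq_zero_iff two_ne_zero |>.1 h2
      have h27 : 27 * b ^ 2 = -8 * a ^ 3 := by
        linear_combination 3 * h9 + 2 * a * hI0
      have ha : a ≠ 0 := by
        rintro rfl
        apply hs
        have hb2 : b ^ 2 = 0 := by
          have h3 : (27 : k) ≠ 0 := by norm_num
          apply mul_left_cancel₀ h3
          rw [h27]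
          ring
        refine ⟨pow_eq_zero_iff two_ne_zero |>.1 hb2, ?_⟩
        have h3 : (3 : k) ≠ 0 := by norm_num
        apply mul_left_cancel₀ h3
        linear_combination -hI0
      obtain ⟨z, hz⟩ : ∃ z, 4 * a * z = -3 * b := ⟨-3 * b / (4 * a), by field_simp⟩
      refine fin z ?_ ?_
      · have h3 : (16 : k) * a ^ 3 ≠ 0 := mul_ne_zero (by norm_num) (pow_ne_zero 3 ha)
        apply mul_left_cancel₀ h3
        linear_combination ((4 * a * z) ^ 2 + (4 * a * z) * (-3 * b) + (-3 * b) ^ 2 +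
          8 * a ^ 3) * hz - b * h27
      · have h3 : (24 : k) * a ≠ 0 := mul_ne_zero (by norm_num) ha
        apply mul_left_cancel₀ h3
        linear_combination (3 * (4 * a * z) + 9 * b) * hz - h27 + 8 * a * hI0
    · exfalso
      apply hs
      have hb2 : b ^ 2 = 0 := by
        have h3 : (9 : k) ≠ 0 := by norm_num
        apply mul_left_cancel₀ h3
        linear_combination h9 - 2 * a * h2
      exact ⟨pow_eq_zero_iff two_ne_zero |>.1 hb2, sub_eq_zero.1 h2⟩
  · -- a double root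
    obtain ⟨z, hz⟩ : ∃ z, D * z = -(b * I) := ⟨-(b * I) / D, by field_simp⟩
    refine fin z ?_ ?_
    · have h3 : (9 : k) * D ^ 3 ≠ 0 := mul_ne_zero (by norm_num) (pow_ne_zero 3 hD)
      apply mul_left_cancel₀ h3
      have h4 : 9 * D ^ 3 * (4 * z ^ 3 + 2 * a * z + b) =
          36 * (D * z) ^ 3 + 18 * a * D ^ 2 * (D * z) + 9 * b * D ^ 3 := by ring
      rw [h4, hz, hDef, hI]
      linear_combination (b * (-(2 * a ^ 3 - 8 * a * d + 9 * b ^ 2) -
        2 / 3 * a * (12 * d + a ^ 2))) * hd0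
    · have h3 : (9 : k) * D ^ 2 ≠ 0 := mul_ne_zero (by norm_num) (pow_ne_zero 2 hD)
      apply mul_left_cancel₀ h3
      have h4 : 9 * D ^ 2 * (2 * a * z ^ 2 + 3 * b * z + 4 * d) =
          18 * a * (D * z) ^ 2 + 27 * b * D * (D * z) + 36 * d * D ^ 2 := by ring
      rw [h4, hz, hDef, hI]
      linear_combination (a ^ 2 / 3) * hd0

end

end Vale.Agent.P297.G4
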