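import Vale.Agent.P297.H600.CGDefs
import Mathlib.Tactic.LinearCombination

/-!
Elimination of `t₃ = R₃/R₂` from the quadratic and the cubic relation.
-/

namespace Vale.Agent.P297.H600

variable {K : Type*} [CommRing K]

/-- the determinant `Δ` (divided by `m`) -/
def dd (c m r : K) : K :=
    ((2 + 8 * c + 4 * c ^ 2) + (8 - 18 * c ^ 2) * r) +
    ((64 + 36 * c - 62 * c ^ 2) + (-42 - 38 * c + 20 * c ^ 2) * r) * m +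
    ((-40 - 46 * c + 14 * c ^ 2) + (52 + 36 * c - 42 * c ^ 2) * r) * m ^ 2

def aa2 (c m r : K) : K :=
    ((-52 - 36 * c + 42 * c ^ 2) + (40 + 46 * c - 14 * c ^ 2) * r) +
    ((42 + 38 * c - 20 * c ^ 2) + (-64 - 36 * c + 62 * c ^ 2) * r) * m +
    ((-8 + 18 * c ^ 2) + (-2 - 8 * c - 4 * c ^ 2) * r) * m ^ 2

def aa1 (c m r : K) : K :=
    ((2 + 8 * c + 4 * c ^ 2) * r ^ 2 + (8 - 18 * c ^ 2) * r ^ 3) +
    ((-28 - 4 * c + 22 * c ^ 2) + (-16 + 10 * c - 26 * c ^ 2) * r + (-32 + 36 * c + 42 * c ^ 2) * r ^ 2 + (22 + 42 * c - 4 * c ^ 2) * r ^ 3) * m +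
    ((22 + 42 * c - 4 * c ^ 2) + (-32 + 36 * c + 42 * c ^ 2) * r + (-16 + 10 * c - 26 * c ^ 2) * r ^ 2 + (-28 - 4 * c + 22 * c ^ 2) * r ^ 3) * m ^ 2 +
    ((8 - 18 * c ^ 2) + (2 + 8 * c + 4 * c ^ 2) * r) * m ^ 3

def bb2 (c m r : K) : K :=
    ((-1 - c + c ^ 2) + (5 + 3 * c - 3 * c ^ 2) * r) +
    ((-7 + 28 * c + 48 * c ^ 2) + (33 + 3 * c - 55 * c ^ 2) * r) * m +
    ((33 + 3 * c - 55 * c ^ 2) + (-7 + 28 * c + 48 * c ^ 2) * r) * m ^ 2 +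
    ((5 + 3 * c - 3 * c ^ 2) + (-1 - c + c ^ 2) * r) * m ^ 3

/-- left side of the quadratic relation -/
def relQ (c m r t3 t4 : K) : K :=
  t3 ^ 2 * (-1 + (4 + 5 * c + c ^ 2) * m + (3 + c - 4 * c ^ 2) * m ^ 2) +
  t3 * t4 * ((2 - 8 * c ^ 2) * m + (2 - 8 * c ^ 2) * m ^ 2) +
  t4 ^ 2 * ((-3 - c + 4 * c ^ 2) * m + (-4 - 5 * c - c ^ 2) * m ^ 2 + m ^ 3) +
  r ^ 2 * (1 + (-c + 3 * c ^ 2) * m + (-3 + 3 * c - 4 * c ^ 2) * m ^ 2) +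
  r * ((2 - 8 * c + 8 * c ^ 2) * m + (-2 + 8 * c - 8 * c ^ 2) * m ^ 2) +
  ((3 - 3 * c + 4 * c ^ 2) * m + (c - 3 * c ^ 2) * m ^ 2 - m ^ 3)

/-- left side of the cubic relation -/
def relK (c m r t3 t4 : K) : K :=
  r ^ 3 * (1 + (-3 * c + 3 * c ^ 2) * m) +
  r ^ 2 * (c ^ 2 + (4 - 10 * c + 5 * c ^ 2) * m) +
  r * ((4 - 10 * c + 5 * c ^ 2) * m + c ^ 2 * m ^ 2) +
  ((-3 * c + 3 * c ^ 2) * m + m ^ 2) +
  r * t3 ^ 2 * (-1 + (-4 - 5 * c + c ^ 2) * m) +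
  r * (t3 * t4) * ((-6 + 10 * c ^ 2) * m) +
  r * t4 ^ 2 * ((2 + 2 * c + c ^ 2) * m - c ^ 2 * m ^ 2) +
  t3 ^ 2 * (-c ^ 2 + (2 + 2 * c + c ^ 2) * m) +
  t3 * t4 * ((6 - 10 * c ^ 2) * m) +
  t4 ^ 2 * ((-4 - 5 * c + c ^ 2) * m - m ^ 2)

set_option maxHeartbeats 1000000 in
theorem elim1 (c m r t3 t4 : K) (hc : c ^ 3 - c ^ 2 + 1 = 0) (h1 : relQ c m r t3 t4 = 0)
    (h2 : relK c m r t3 t4 = 0) :
    m * (dd c m r * (t3 * t4) - bb2 c m r * t4 ^ 2 - (1 + c - c ^ 2) * hh c m r) = 0 := by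
  unfold relQ at h1
  unfold relK at h2
  unfold dd bb2 hh
  linear_combination (-(r * (-1 + (-4 - 5 * c + c ^ 2) * m) + (-c ^ 2 + (2 + 2 * c + c ^ 2) * m))) * h1 +
    (-1 + (4 + 5 * c + c ^ 2) * m + (3 + c - 4 * c ^ 2) * m ^ 2) * h2 + (
      ((-1) + (-4) * c) * m + ((-3) + (-4) * c) * m * t4 ^ 2 + (8 + 8 * c) * m * t3 * t4 +
      ((-8) * c) * m * r + ((-2) + (-12) * c) * m * r ^ 2 + ((-4) + (-4) * c) * m * r ^ 3 +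
      (14 + 1 * c) * m ^ 2 + (16 + 4 * c) * m ^ 2 * t4 ^ 2 + (44 + 10 * c) * m ^ 2 * t3 * t4 +
      ((-1) + 5 * c) * m ^ 2 * r + ((-25) + 3 * c) * m ^ 2 * r * t4 ^ 2 +
      ((-28) + (-18) * c) * m ^ 2 * r * t3 * t4 + ((-14) + 6 * c) * m ^ 2 * r ^ 2 +
      ((-8) + (-16) * c) * m ^ 2 * r ^ 3 + ((-15) + (-1) * c) * m ^ 3 +
      ((-25) + 3 * c) * m ^ 3 * t4 ^ 2 + ((-54) + (-48) * c) * m ^ 3 * t3 * t4 +
      ((-44) + 15 * c) * m ^ 3 * r + (16 + 4 * c) * m ^ 3 * r * t4 ^ 2 +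
      (62 + 32 * c) * m ^ 3 * r * t3 * t4 + ((-20) + 20 * c) * m ^ 3 * r ^ 2 +
      (12 + 16 * c) * m ^ 3 * r ^ 3 + ((-4) + 2 * c) * m ^ 4 + (3 + 4 * c) * m ^ 4 * r +
      ((-3) + (-4) * c) * m ^ 4 * r * t4 ^ 2) * hc

set_option maxHeartbeats 1000000 in
theorem elim2 (c m r t3 t4 : K) (hc : c ^ 3 - c ^ 2 + 1 = 0) (h1 : relQ c m r t3 t4 = 0)
    (h2 : relK c m r t3 t4 = 0) :
    m * (dd c m r * t3 ^ 2 - m * aa2 c m r * t4 ^ 2 - aa1 c m r) = 0 := by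
  unfold relQ at h1
  unfold relK at h2
  unfold dd aa2 aa1
  linear_combination ((6 - 10 * c ^ 2) * m * (1 - r)) * h1 -
    ((2 - 8 * c ^ 2) * m + (2 - 8 * c ^ 2) * m ^ 2) * h2 + (
      (8 + 8 * c) * m * t3 ^ 2 + ((-8) + (-8) * c) * m * r ^ 2 + (10 + 16 * c) * m ^ 2 +
      (62 + 32 * c) * m ^ 2 * t4 ^ 2 + (44 + 10 * c) * m ^ 2 * t3 ^ 2 + (30) * m ^ 2 * r +
      ((-54) + (-48) * c) * m ^ 2 * r * t4 ^ 2 + ((-28) + (-18) * c) * m ^ 2 * r * t3 ^ 2 +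
      (52 + (-98) * c) * m ^ 2 * r ^ 2 + ((-20) + (-54) * c) * m ^ 2 * r ^ 3 +
      ((-20) + (-54) * c) * m ^ 3 + ((-28) + (-18) * c) * m ^ 3 * t4 ^ 2 +
      ((-54) + (-48) * c) * m ^ 3 * t3 ^ 2 + (52 + (-98) * c) * m ^ 3 * r +
      (44 + 10 * c) * m ^ 3 * r * t4 ^ 2 + (62 + 32 * c) * m ^ 3 * r * t3 ^ 2 +
      (30) * m ^ 3 * r ^ 2 + (10 + 16 * c) * m ^ 3 * r ^ 3 + ((-8) + (-8) * c) * m ^ 4 * r +
      (8 + 8 * c) * m ^ 4 * r * t4 ^ 2) * hc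

set_option maxHeartbeats 1000000 in
theorem elim_gam (c m r : K) (hc : c ^ 3 - c ^ 2 + 1 = 0) :
    bb2 c m r ^ 2 - m * dd c m r * aa2 c m r = (1 + c - c ^ 2) ^ 2 * gam c m r := by
  unfold bb2 dd aa2 gam
  linear_combination (
      ((-8) + (-4) * c + 12 * c ^ 2 + (-4) * c ^ 3) * r + (12 + (-4) * c ^ 2) * r ^ 2 +
      (100 + 274 * c + (-22) * c ^ 2 + (-114) * c ^ 3) * m +
      ((-32) + (-530) * c + (-518) * c ^ 2 + 410 * c ^ 3) * m * r +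
      (228 + 408 * c + 224 * c ^ 2 + (-112) * c ^ 3) * m * r ^ 2 +
      (3009 + 3121 * c + (-384) * c ^ 2 + 641 * c ^ 3) * m ^ 2 +
      ((-4176) + (-3644) * c + 1568 * c ^ 2 + (-1400) * c ^ 3) * m ^ 2 * r +
      (2580 + 2494 * c + (-1134) * c ^ 2 + 714 * c ^ 3) * m ^ 2 * r ^ 2 +
      ((-4492) + (-4298) * c + 1318 * c ^ 2 + (-1158) * c ^ 3) * m ^ 3 +
      (11226 + 12226 * c + (-1888) * c ^ 2 + 1850 * c ^ 3) * m ^ 3 * r +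
      ((-4492) + (-4298) * c + 1318 * c ^ 2 + (-1158) * c ^ 3) * m ^ 3 * r ^ 2 +
      (2580 + 2494 * c + (-1134) * c ^ 2 + 714 * c ^ 3) * m ^ 4 +
      ((-4176) + (-3644) * c + 1568 * c ^ 2 + (-1400) * c ^ 3) * m ^ 4 * r +
      (3009 + 3121 * c + (-384) * c ^ 2 + 641 * c ^ 3) * m ^ 4 * r ^ 2 +
      (228 + 408 * c + 224 * c ^ 2 + (-112) * c ^ 3) * m ^ 5 +
      ((-32) + (-530) * c + (-518) * c ^ 2 + 410 * c ^ 3) * m ^ 5 * r +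
      (100 + 274 * c + (-22) * c ^ 2 + (-114) * c ^ 3) * m ^ 5 * r ^ 2 +
      (12 + (-4) * c ^ 2) * m ^ 6 + ((-8) + (-4) * c + 12 * c ^ 2 + (-4) * c ^ 3) * m ^ 6 * r) * hc

set_option maxHeartbeats 1000000 in
theorem elim_pp0 (c m r : K) (hc : c ^ 3 - c ^ 2 + 1 = 0) :
    dd c m r * aa1 c m r - 2 * (1 + c - c ^ 2) * hh c m r * bb2 c m r =
      2 * (1 + c - c ^ 2) ^ 2 * pp0 c m r := by
  unfold dd aa1 hh bb2 pp0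
  linear_combination (
      ((-8) + (-4) * c + 12 * c ^ 2 + (-4) * c ^ 3) * r +
      (28 + 128 * c + 108 * c ^ 2 + (-64) * c ^ 3) * r ^ 2 +
      ((-120) + (-272) * c + (-128) * c ^ 2 + 32 * c ^ 3) * r ^ 3 +
      (92 + 128 * c + 12 * c ^ 2 + 60 * c ^ 3) * r ^ 4 +
      ((-108) + (-190) * c + 170 * c ^ 2 + 46 * c ^ 3) * m +
      ((-520) + (-486) * c + 578 * c ^ 2 + (-286) * c ^ 3) * m * r +
      (112 + 1428 * c + 1372 * c ^ 2 + (-960) * c ^ 3) * m * r ^ 2 +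
      (200 + 712 * c + 192 * c ^ 2 + (-712) * c ^ 3) * m * r ^ 3 +
      ((-528) + (-1208) * c + (-288) * c ^ 2 + 664 * c ^ 3) * m * r ^ 4 +
      ((-1814) + (-248) * c + 1928 * c ^ 2 + (-570) * c ^ 3) * m ^ 2 +
      ((-56) + 1844 * c + 316 * c ^ 2 + (-716) * c ^ 3) * m ^ 2 * r +
      ((-2608) + (-2386) * c + 750 * c ^ 2 + 70 * c ^ 3) * m ^ 2 * r ^ 2 +
      (1684 + 284 * c + (-1860) * c ^ 2 + 296 * c ^ 3) * m ^ 2 * r ^ 3 +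
      ((-148) + (-520) * c + (-148) * c ^ 2 + (-124) * c ^ 3) * m ^ 2 * r ^ 4 +
      (3360 + 3786 * c + (-3146) * c ^ 2 + (-834) * c ^ 3) * m ^ 3 +
      ((-2224) + (-3348) * c + (-2268) * c ^ 2 + 3020 * c ^ 3) * m ^ 3 * r +
      (8 + (-974) * c + (-3458) * c ^ 2 + 1078 * c ^ 3) * m ^ 3 * r ^ 2 +
      ((-4748) + (-3200) * c + 3920 * c ^ 2 + (-404) * c ^ 3) * m ^ 3 * r ^ 3 +
      (1240 + 1784 * c + (-192) * c ^ 2 + (-960) * c ^ 3) * m ^ 3 * r ^ 4 +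
      ((-1284) + (-3898) * c + (-1246) * c ^ 2 + 2146 * c ^ 3) * m ^ 4 +
      (1572 + 2480 * c + (-432) * c ^ 2 + (-1916) * c ^ 3) * m ^ 4 * r +
      ((-702) + 320 * c + 356 * c ^ 2 + 186 * c ^ 3) * m ^ 4 * r ^ 2 +
      (788 + 996 * c + (-2308) * c ^ 2 + 696 * c ^ 3) * m ^ 4 * r ^ 3 +
      ((-1164) + (-800) * c + 364 * c ^ 2 + 356 * c ^ 3) * m ^ 4 * r ^ 4 +
      ((-100) + 512 * c + 800 * c ^ 2 + (-392) * c ^ 3) * m ^ 5 +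
      ((-276) + (-926) * c + (-334) * c ^ 2 + 446 * c ^ 3) * m ^ 5 * r +
      ((-132) + 186 * c + 354 * c ^ 2 + (-258) * c ^ 3) * m ^ 5 * r ^ 2 +
      ((-48) + (-32) * c + 64 * c ^ 2 + (-16) * c ^ 3) * m ^ 5 * r ^ 3 +
      ((-16) + (-4) * c + 28 * c ^ 2 + (-12) * c ^ 3) * m ^ 6 +
      ((-8) + (-4) * c + 12 * c ^ 2 + (-4) * c ^ 3) * m ^ 6 * r) * hc

/-- the quartic equation of `t₄` -/
theorem quartic_rel (c m r t3 t4 : K) (hc : c ^ 3 - c ^ 2 + 1 = 0) [IsDomain K] (hm : m ≠ 0)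
    (he : 1 + c - c ^ 2 ≠ 0) (h1 : relQ c m r t3 t4 = 0) (h2 : relK c m r t3 t4 = 0) :
    gam c m r * t4 ^ 4 - 2 * pp0 c m r * t4 ^ 2 + hh c m r ^ 2 = 0 := by
  have e1 := (mul_eq_zero.1 (elim1 c m r t3 t4 hc h1 h2)).resolve_left hm
  have e2 := (mul_eq_zero.1 (elim2 c m r t3 t4 hc h1 h2)).resolve_left hm
  have e3 := elim_gam c m r hc
  have e4 := elim_pp0 c m r hc
  have h : (1 + c - c ^ 2) ^ 2 *
      (gam c m r * t4 ^ 4 - 2 * pp0 c m r * t4 ^ 2 + hh c m r ^ 2) = 0 := by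
    linear_combination (-t4 ^ 4) * e3 + t4 ^ 2 * e4 +
      (-(dd c m r * (t3 * t4)) - (bb2 c m r * t4 ^ 2 + (1 + c - c ^ 2) * hh c m r)) * e1 +
      (dd c m r * t4 ^ 2) * e2
  exact (mul_eq_zero.1 h).resolve_left (pow_ne_zero 2 he)

end Vale.Agent.P297.H600
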