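import Vale.Agent.P297.H72.Third
import Vale.Agent.P297.H572.Z3.Cov
import Vale.Agent.P297.H424.Z3.Normal

/-!
Divisibility by three on a smooth plane cubic.
-/

set_option linter.unusedSectionVars false
set_option linter.style.haveILetI false

open IntermediateField Polynomial

namespace Vale.Agent.P297.H600

open Vale.Agent.P297 Vale.Agent.P297.H72 Vale.Agent.P297.Z3

theorem map_sc {R S : Type} [CommRing R] [CommRing S] (φ : R →+* S) (f : Fin 10 → R)
    (p q r : Fin 3 → R) (i : Fin 10) : φ (sc f p q r i) =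
      sc (fun i => φ (f i)) (fun i => φ (p i)) (fun i => φ (q i)) (fun i => φ (r i)) i := by
  fin_cases i <;> simp [sc, tv, tc, dc, hb, map_ofNat]

theorem eq_cm {R : Type} [CommRing R] (A : Matrix (Fin 3) (Fin 3) R) :
    A = cm (fun i => A i 0) (fun i => A i 1) (fun i => A i 2) := by
  ext i j
  fin_cases i <;> fin_cases j <;> rfl

theorem tv_smul {R : Type} [CommRing R] (c : R) (f : Fin 10 → R) (v : Fin 3 → R) :
    tv (fun i => c * f i) v = c * tv f v := by
  simp only [tv, tc]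
  ring

/-- A linear change of coordinates over a field is valid over every algebra. -/
theorem sub_algebra {k R : Type} [Field k] [CharZero k] [CommRing R] [Algebra k R]
    {f g : Fin 10 → k} (A : Matrix (Fin 3) (Fin 3) k) (c : k)
    (h : ∀ v : Fin 3 → k, tv g (A.mulVec v) = c * tv f v) (v : Fin 3 → R) :
    tv (fun i => algebraMap k R (g i)) ((A.map (algebraMap k R)).mulVec v) =
      algebraMap k R c * tv (fun i => algebraMap k R (f i)) v := by
  have h1 : sc g (fun i => A i 0) (fun i => A i 1) (fun i => A i 2) = fun i => c * f i := by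
    apply tv_inj
    intro v
    rw [isSub_cm g _ _ _ v, ← eq_cm, h, tv_smul]
  have h2 : A.map (algebraMap k R) = cm (fun i => algebraMap k R (A i 0))
      (fun i => algebraMap k R (A i 1)) (fun i => algebraMap k R (A i 2)) :=
    eq_cm (A.map (algebraMap k R))
  rw [h2, ← isSub_cm, ← tv_smul]
  congr 1
  funext i
  rw [← map_sc, h1, map_mul]

section

variable {E : Type} [Field E] [Algebra ℂ E]

theorem const_of_algebraic {x : E} (hx : IsAlgebraic ℂ x) : ∃ c : ℂ, algebraMap ℂ E c = x := by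
  have h1 : (minpoly ℂ x).degree = 1 :=
    IsAlgClosed.degree_eq_one_of_irreducible ℂ (minpoly.irreducible hx.isIntegral)
  exact minpoly.mem_range_of_degree_eq_one ℂ x h1

theorem not_const [IsFF ℂ E] {a b : E} (hab : IntermediateField.adjoin ℂ {a, b} = ⊤)
    (ha : ∃ c : ℂ, algebraMap ℂ E c = a) (hb : ∃ c : ℂ, algebraMap ℂ E c = b) : False := by
  obtain ⟨t, ht⟩ := IsFF.exists_transcendental (k := ℂ) (E := E)
  apply ht
  have h1 : IntermediateField.adjoin ℂ {a, b} ≤ ⊥ := by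
    rw [IntermediateField.adjoin_le_iff]
    rintro x (rfl | rfl)
    · exact IntermediateField.mem_bot.2 ha
    · exact IntermediateField.mem_bot.2 hb
  rw [hab] at h1
  have h2 : t ∈ (⊥ : IntermediateField ℂ E) := h1 IntermediateField.mem_top
  obtain ⟨c, rfl⟩ := IntermediateField.mem_bot.1 h2
  exact isAlgebraic_algebraMap c

/-- **[Y2]** On a smooth plane cubic, the classes of all places agree if they agree after
multiplication by three. -/
theorem third_cubic [IsFF ℂ E] (a b : E) (hab : IntermediateField.adjoin ℂ {a, b} = ⊤)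
    (f : Fin 10 → ℂ) (hf : tc (fun i => algebraMap ℂ E (f i)) a b 1 = 0)
    (hne : c4 f ^ 3 ≠ c6 f ^ 2) {Q : Type*} [AddCommGroup Q]
    (A : (PlaceOver ℂ E →₀ ℤ) →+ Q) (hdiv : ∀ F : E, A (div ℂ F) = 0)
    (hthree : ∀ w w' : PlaceOver ℂ E, (3 : ℤ) • A (Finsupp.single w 1) =
      (3 : ℤ) • A (Finsupp.single w' 1)) (w w' : PlaceOver ℂ E) :
    A (Finsupp.single w 1) = A (Finsupp.single w' 1) := by
  obtain ⟨M, hM, hMv⟩ := stmtNormal stmtCov ℂ f hne
  obtain ⟨α, hα⟩ : ∃ α : ℂ, α = -c4 f / 48 := ⟨_, rfl⟩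
  obtain ⟨β, hβ⟩ : ∃ β : ℂ, β = -c6 f / 864 := ⟨_, rfl⟩
  rw [← hα, ← hβ] at hMv
  have hD : 4 * α ^ 3 + 27 * β ^ 2 ≠ 0 := by
    intro h
    apply hne
    rw [hα, hβ] at h
    linear_combination (-27648) * h
  have h1 := sub_algebra (R := E) M M.det hMv ![a, b, 1]
  obtain ⟨u, hu⟩ : ∃ u : Fin 3 → E, u = (M.map (algebraMap ℂ E)).mulVec ![a, b, 1] := ⟨_, rfl⟩
  have h2 : tv (fun i => algebraMap ℂ E (f i)) ![a, b, 1] = 0 := hf
  rw [h2, mul_zero, ← hu] at h1
  have hinv : M⁻¹ * M = 1 := Matrix.nonsing_inv_mul M (isUnit_iff_ne_zero.2 hM)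
  have hinv' : (M⁻¹.map (algebraMap ℂ E)).mulVec u = ![a, b, 1] := by
    rw [hu, Matrix.mulVec_mulVec]
    have h3 : M⁻¹.map (algebraMap ℂ E) * M.map (algebraMap ℂ E) = 1 := by
      rw [← Matrix.map_mul, hinv, Matrix.map_one _ (map_zero _) (map_one _)]
    rw [h3, Matrix.one_mulVec]
  have e0 := congrFun hinv' 0
  have e1 := congrFun hinv' 1
  have e2 := congrFun hinv' 2
  simp only [Matrix.mulVec, dotProduct, Fin.sum_univ_three, Matrix.map_apply, Matrix.cons_val_zero,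
    Matrix.cons_val_one, Matrix.cons_val] at e0 e1 e2
  simp only [tv, tc, wf, Matrix.cons_val_zero, Matrix.cons_val_one, Matrix.cons_val, map_neg,
    map_one, map_zero] at h1
  have hz : u 2 ≠ 0 := by
    intro h0
    have h3 : u 0 = 0 := by
      have h4 : u 0 ^ 3 = 0 := by
        rw [h0] at h1
        linear_combination -h1
      exact pow_eq_zero_iff (by norm_num) |>.1 h4
    rw [h0, h3, mul_zero, mul_zero, add_zero, zero_add] at e0 e1 e2
    have h5 : algebraMap ℂ E (M⁻¹ 2 1) ≠ 0 := left_ne_zero_of_mul_eq_one e2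
    have h6 : u 1 = algebraMap ℂ E (M⁻¹ 2 1)⁻¹ := by
      rw [map_inv₀]
      exact eq_inv_of_mul_eq_one_right e2
    refine not_const hab ⟨M⁻¹ 0 1 * (M⁻¹ 2 1)⁻¹, ?_⟩ ⟨M⁻¹ 1 1 * (M⁻¹ 2 1)⁻¹, ?_⟩
    · rw [map_mul, ← h6, e0]
    · rw [map_mul, ← h6, e1]
  obtain ⟨t, ht⟩ : ∃ t : E, t = u 0 / u 2 := ⟨_, rfl⟩
  obtain ⟨θ, hθ⟩ : ∃ θ : E, θ = u 1 / u 2 := ⟨_, rfl⟩
  have hθ2 : θ ^ 2 = t ^ 3 + algebraMap ℂ E α * t + algebraMap ℂ E β := by
    rw [ht, hθ]
    field_simp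
    linear_combination h1
  have hden : u 2 * (algebraMap ℂ E (M⁻¹ 2 0) * t + algebraMap ℂ E (M⁻¹ 2 1) * θ +
      algebraMap ℂ E (M⁻¹ 2 2)) = 1 := by
    rw [ht, hθ]
    field_simp
    linear_combination e2
  obtain ⟨d, hd⟩ : ∃ d : E, d = algebraMap ℂ E (M⁻¹ 2 0) * t + algebraMap ℂ E (M⁻¹ 2 1) * θ +
      algebraMap ℂ E (M⁻¹ 2 2) := ⟨_, rfl⟩
  rw [← hd] at hden
  have hd0 : d ≠ 0 := right_ne_zero_of_mul_eq_one hden
  have hd2 : u 2 = d⁻¹ := eq_inv_of_mul_eq_one_left hden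
  have ha : a = (algebraMap ℂ E (M⁻¹ 0 0) * t + algebraMap ℂ E (M⁻¹ 0 1) * θ +
      algebraMap ℂ E (M⁻¹ 0 2)) * d⁻¹ := by
    rw [← hd2, ← e0, ht, hθ]
    field_simp
  have hb : b = (algebraMap ℂ E (M⁻¹ 1 0) * t + algebraMap ℂ E (M⁻¹ 1 1) * θ +
      algebraMap ℂ E (M⁻¹ 1 2)) * d⁻¹ := by
    rw [← hd2, ← e1, ht, hθ]
    field_simp
  have hmem : ∀ L : IntermediateField ℂ E, t ∈ L → θ ∈ L → a ∈ L ∧ b ∈ L := by
    intro L h3 h4
    have h5 : ∀ x y z : ℂ, algebraMap ℂ E x * t + algebraMap ℂ E y * θ + algebraMap ℂ E z ∈ L :=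
      fun x y z => add_mem (add_mem (mul_mem (L.algebraMap_mem x) h3)
        (mul_mem (L.algebraMap_mem y) h4)) (L.algebraMap_mem z)
    have h6 : d⁻¹ ∈ L := inv_mem (by rw [hd]; exact h5 _ _ _)
    exact ⟨by rw [ha]; exact mul_mem (h5 _ _ _) h6, by rw [hb]; exact mul_mem (h5 _ _ _) h6⟩
  have htr : Transcendental ℂ t := by
    intro h3
    obtain ⟨x, hx⟩ := const_of_algebraic h3
    have h4 : IsAlgebraic ℂ θ := by
      have h5 : IsAlgebraic ℂ (θ ^ 2) := by
        have h6 : θ ^ 2 = algebraMap ℂ E (x ^ 3 + α * x + β) := by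
          rw [hθ2, ← hx]
          simp only [map_add, map_mul, map_pow]
        rw [h6]
        exact isAlgebraic_algebraMap _
      exact h5.of_pow (n := 2) (by norm_num)
    obtain ⟨y, hy⟩ := const_of_algebraic h4
    obtain ⟨h7, h8⟩ := hmem ⊥ (IntermediateField.mem_bot.2 ⟨x, hx⟩)
      (IntermediateField.mem_bot.2 ⟨y, hy⟩)
    exact not_const hab (IntermediateField.mem_bot.1 h7) (IntermediateField.mem_bot.1 h8)
  have htop : IntermediateField.adjoin ℂ {t, θ} = ⊤ := by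
    rw [eq_top_iff, ← hab, IntermediateField.adjoin_le_iff]
    obtain ⟨h7, h8⟩ := hmem (IntermediateField.adjoin ℂ {t, θ})
      (IntermediateField.subset_adjoin ℂ _ (Or.inl rfl))
      (IntermediateField.subset_adjoin ℂ _ (Or.inr rfl))
    rintro x (rfl | rfl)
    · exact h7
    · exact h8
  have htm : t ∈ ℂ⟮t⟯ := IntermediateField.mem_adjoin_simple_self ℂ t
  have hspan : ∀ x : E, ∃ c ∈ ℂ⟮t⟯, ∃ d ∈ ℂ⟮t⟯, x = c + d * θ := by
    intro x
    refine exists_quad ℂ⟮t⟯ θ ?_ {t, θ} ?_ htop x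
    · rw [hθ2]
      exact add_mem (add_mem (pow_mem htm 3) (mul_mem (ℂ⟮t⟯.algebraMap_mem α) htm))
        (ℂ⟮t⟯.algebraMap_mem β)
    · rintro y (rfl | rfl)
      · exact Or.inl htm
      · exact Or.inr rfl
  exact third_const htr α β hD hθ2 hspan A hdiv hthree w w'

end

end Vale.Agent.P297.H600
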