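import Vale.Agent.P297.H72.Fib
import Vale.Agent.P297.H600.ThirdCubic
import Vale.Agent.P297.H572.Z3.Main

/-!
The general fibre of the fibration by plane cubics.
-/

set_option linter.unusedSectionVars false
set_option linter.style.haveILetI false

open IntermediateField Polynomial

namespace Vale.Agent.P297.H600

open Vale.Agent.P297 Vale.Agent.P297.H72 Vale.Agent.P297.Z3

section

variable {N : Type} [Field N] [Algebra ℂ N] {Ψ Δ : ℂ[X][X]} {v l Y Z : N}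

/-- an element of `ℂ(v, l, Y)` as a fraction -/
theorem frac3 (h : Fld Ψ Δ v l Y Z) {a : N}
    (ha : a ∈ IntermediateField.adjoin ℂ ({v, l, Y} : Set N)) :
    ∃ q p₀ p₁ : ℂ[X][X], q ≠ 0 ∧ ev v l q * a = ev v l p₀ + ev v l p₁ * Y := by
  obtain ⟨c, hc, d, hd, rfl⟩ := quad_mem (F := IntermediateField.adjoin ℂ ({v, l} : Set N))
    (Y := Y) (by rw [h.hY]; exact h.ev_mem _) (by
      rintro y (hy | hy | hy)
      · rw [hy]; exact Or.inl (IntermediateField.subset_adjoin _ _ (by simp))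
      · rw [hy]; exact Or.inl (IntermediateField.subset_adjoin _ _ (by simp))
      · rw [Set.mem_singleton_iff.1 hy]; exact Or.inr rfl) ha
  obtain ⟨p, q, hq, hpq⟩ := frac_mem h.ind hc
  obtain ⟨p', q', hq', hpq'⟩ := frac_mem h.ind hd
  refine ⟨q * q', q' * p, q * p', mul_ne_zero hq hq', ?_⟩
  simp only [map_mul]
  linear_combination ev v l q' * hpq + ev v l q * Y * hpq'

/-- a unit is not mapped to zero -/
theorem hom_ne_zero {B : Subalgebra ℂ N} {E : Type} [Field E] [Algebra ℂ E] (ρ : B →ₐ[ℂ] E)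
    {x : N} (hx : x ∈ B) (hx' : x⁻¹ ∈ B) (h0 : x ≠ 0) : ρ ⟨x, hx⟩ ≠ 0 := by
  intro h
  have h1 : (⟨x, hx⟩ * ⟨x⁻¹, hx'⟩ : B) = 1 := Subtype.ext (mul_inv_cancel₀ h0)
  have h2 := congrArg ρ h1
  rw [map_mul, h, zero_mul, map_one] at h2
  exact zero_ne_one h2

theorem aeval3 {B : Subalgebra ℂ N} {E : Type} [Field E] [Algebra ℂ E] (ρ : B →ₐ[ℂ] E)
    {e a b : N} (he : e ∈ B) (ha : a ∈ B) (hb : b ∈ B) (r : MvPolynomial (Fin 3) ℂ) :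
    ∃ h : MvPolynomial.aeval ![e, a, b] r ∈ B, ρ ⟨MvPolynomial.aeval ![e, a, b] r, h⟩ =
      MvPolynomial.aeval ![ρ ⟨e, he⟩, ρ ⟨a, ha⟩, ρ ⟨b, hb⟩] r := by
  have h1 : B.val.comp (MvPolynomial.aeval ![(⟨e, he⟩ : B), ⟨a, ha⟩, ⟨b, hb⟩]) =
      MvPolynomial.aeval ![e, a, b] := by
    apply MvPolynomial.algHom_ext
    intro i
    rw [AlgHom.comp_apply, MvPolynomial.aeval_X, MvPolynomial.aeval_X]
    fin_cases i <;> rfl
  have h2 : ρ.comp (MvPolynomial.aeval ![(⟨e, he⟩ : B), ⟨a, ha⟩, ⟨b, hb⟩]) =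
      MvPolynomial.aeval ![ρ ⟨e, he⟩, ρ ⟨a, ha⟩, ρ ⟨b, hb⟩] := by
    apply MvPolynomial.algHom_ext
    intro i
    rw [AlgHom.comp_apply, MvPolynomial.aeval_X, MvPolynomial.aeval_X]
    fin_cases i <;> rfl
  have h3 : ((MvPolynomial.aeval ![(⟨e, he⟩ : B), ⟨a, ha⟩, ⟨b, hb⟩] r : B) : N) =
      MvPolynomial.aeval ![e, a, b] r := DFunLike.congr_fun h1 r
  refine ⟨h3 ▸ Subtype.prop _, ?_⟩
  rw [← h2, AlgHom.comp_apply]
  congr 1
  exact Subtype.ext h3.symm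

theorem range_triple (e a b : N) : Set.range ![e, a, b] = {e, a, b} := by
  ext x
  simp only [Set.mem_range, Set.mem_insert_iff, Set.mem_singleton_iff]
  constructor
  · rintro ⟨i, rfl⟩
    fin_cases i
    · exact Or.inl rfl
    · exact Or.inr (Or.inl rfl)
    · exact Or.inr (Or.inr rfl)
  · rintro (rfl | rfl | rfl)
    · exact ⟨0, rfl⟩
    · exact ⟨1, rfl⟩
    · exact ⟨2, rfl⟩

/-- an element of `ℂ(e, a, b)` as a fraction -/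
theorem frac_eab {e a b x : N} (hx : x ∈ IntermediateField.adjoin ℂ ({e, a, b} : Set N))
    (hx0 : x ≠ 0) : ∃ r s : MvPolynomial (Fin 3) ℂ, MvPolynomial.aeval ![e, a, b] s ≠ 0 ∧
      MvPolynomial.aeval ![e, a, b] s * x = MvPolynomial.aeval ![e, a, b] r := by
  rw [← range_triple, IntermediateField.mem_adjoin_range_iff] at hx
  obtain ⟨r, s, hrs⟩ := hx
  have hs : MvPolynomial.aeval ![e, a, b] s ≠ 0 := by
    intro h0
    rw [h0, div_zero] at hrs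
    exact hx0 hrs
  refine ⟨r, s, hs, ?_⟩
  rw [hrs]
  exact mul_div_cancel₀ _ hs

theorem aeval3_mem {E : Type} [Field E] [Algebra ℂ E] (E₁ : IntermediateField ℂ E) {e a b : E}
    (he : e ∈ E₁) (ha : a ∈ E₁) (hb : b ∈ E₁) (r : MvPolynomial (Fin 3) ℂ) :
    MvPolynomial.aeval ![e, a, b] r ∈ E₁ := by
  obtain ⟨h, _⟩ := aeval3 (B := E₁.toSubalgebra) (E := E) E₁.toSubalgebra.val he ha hb r
  exact h

theorem adjoin_top_two {E : Type} [Field E] [Algebra ℂ E] (E₀ : IntermediateField ℂ E)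
    {a b : E} (ha : a ∈ E₀) (hb : b ∈ E₀) (h : E₀ ≤ IntermediateField.adjoin ℂ {a, b}) :
    IntermediateField.adjoin ℂ {(⟨a, ha⟩ : E₀), ⟨b, hb⟩} = ⊤ := by
  rw [eq_top_iff]
  intro z _
  have h1 : (z : E) ∈ (IntermediateField.adjoin ℂ {(⟨a, ha⟩ : E₀), ⟨b, hb⟩}).map E₀.val := by
    rw [IntermediateField.adjoin_map]
    have h2 : E₀.val '' {(⟨a, ha⟩ : E₀), ⟨b, hb⟩} = {a, b} := by
      simp only [Set.image_insert_eq, Set.image_singleton]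
      rfl
    rw [h2]
    exact h z.2
  obtain ⟨w, hw, hwz⟩ := h1
  have h3 : z = w := Subtype.ext hwz.symm
  rw [h3]
  exact hw

theorem transcendental_e (h : Fld Ψ Δ v l Y Z) {P Q H : ℂ[X][X]} {e a b : N} {F : Fin 10 → ℂ[X]}
    (hfib : H72.Fib Ψ P Q H v l Y e a b F) : Transcendental ℂ e := by
  intro he
  obtain ⟨c, hc⟩ := const_of_algebraic he
  apply h.hYF
  rw [← hfib.he, ← hc]
  exact mul_mem (IntermediateField.algebraMap_mem _ c) (h.ev_mem H)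

/-- **[P8]** the general fibre -/
theorem fibre_third {N : Type} [Field N] [Algebra ℂ N] {Ψ Δ : ℂ[X][X]} {v l Y Z : N}
    (hfld : Fld Ψ Δ v l Y Z) {P Q H : ℂ[X][X]} {e a b : N} {F : Fin 10 → ℂ[X]}
    (hfib : H72.Fib Ψ P Q H v l Y e a b F) :
    ∃ s₀ : ℂ[X][X], s₀ ≠ 0 ∧ ∀ s : ℂ[X][X], s ≠ 0 → s₀ ∣ s →
      ∀ (E : Type) [Field E] [Algebra ℂ E] [IsFF ℂ E] (ρ : Bs s v l Y Z →ₐ[ℂ] E) (e₀ : ℂ),
        ρ ⟨Y, mem_Y s⟩ = algebraMap ℂ E e₀ * ev (ρ ⟨v, mem_v s⟩) (ρ ⟨l, mem_l s⟩) H →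
        ∀ (E₀ : IntermediateField ℂ E) [IsFF ℂ E₀],
          E₀ = IntermediateField.adjoin ℂ
            ({ρ ⟨v, mem_v s⟩, ρ ⟨l, mem_l s⟩, ρ ⟨Y, mem_Y s⟩} : Set E) → ThirdProp E₀ := by
  classical
  have htr := transcendental_e hfld hfib
  have hHN : ev v l H ≠ 0 := ev_ne_zero hfld.ind hfib.hH
  have hv0 : v ≠ 0 := by
    have := hfld.ind.ne_zero 0
    exact this
  have hl0 : l ≠ 0 := by
    have := hfld.ind.ne_zero 1
    exact this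
  obtain ⟨rv, sv, hsv, hrv⟩ := frac_eab hfib.hv hv0
  obtain ⟨rl, sl, hsl, hrl⟩ := frac_eab hfib.hl hl0
  obtain ⟨qa, a₀, a₁, hqa, haa⟩ := frac3 hfld hfib.ha
  obtain ⟨qb, b₀, b₁, hqb, hbb⟩ := frac3 hfld hfib.hb
  obtain ⟨D, hD⟩ : ∃ D : ℂ[X], D = c4 F ^ 3 - c6 F ^ 2 := ⟨_, rfl⟩
  have hD0 : D ≠ 0 := by rw [hD]; exact sub_ne_zero.2 hfib.hF0
  have hDN : aeval (1 - e ^ 2) D ≠ 0 := by
    intro h0
    apply htr
    have h1 : IsAlgebraic ℂ (1 - e ^ 2) := ⟨D, hD0, h0⟩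
    have h2 : IsAlgebraic ℂ (e ^ 2) := by
      have h3 : e ^ 2 = 1 - (1 - e ^ 2) := by ring
      rw [h3]
      exact isAlgebraic_one.sub h1
    exact h2.of_pow two_pos
  obtain ⟨s₀, hs₀, hT⟩ := hfld.exists_mem_Bs {e, a, b, (ev v l H)⁻¹, (ev v l qa)⁻¹,
    (ev v l qb)⁻¹, (MvPolynomial.aeval ![e, a, b] sv)⁻¹, (MvPolynomial.aeval ![e, a, b] sl)⁻¹,
    (aeval (1 - e ^ 2) D)⁻¹}
  refine ⟨s₀, hs₀, fun s hs hdvd E _ _ _ ρ e₀ hρ E₀ _ hE₀ => ?_⟩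
  have hT' := hT s hdvd hs
  have me : e ∈ Bs s v l Y Z := hT' _ (by simp)
  have ma : a ∈ Bs s v l Y Z := hT' _ (by simp)
  have mb : b ∈ Bs s v l Y Z := hT' _ (by simp)
  have mH : (ev v l H)⁻¹ ∈ Bs s v l Y Z := hT' _ (by simp)
  have mqa : (ev v l qa)⁻¹ ∈ Bs s v l Y Z := hT' _ (by simp)
  have mqb : (ev v l qb)⁻¹ ∈ Bs s v l Y Z := hT' _ (by simp)
  have msv : (MvPolynomial.aeval ![e, a, b] sv)⁻¹ ∈ Bs s v l Y Z := hT' _ (by simp)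
  have msl : (MvPolynomial.aeval ![e, a, b] sl)⁻¹ ∈ Bs s v l Y Z := hT' _ (by simp)
  have mD : (aeval (1 - e ^ 2) D)⁻¹ ∈ Bs s v l Y Z := hT' _ (by simp)
  obtain ⟨v', hv'⟩ : ∃ v', v' = ρ ⟨v, mem_v s⟩ := ⟨_, rfl⟩
  obtain ⟨l', hl'⟩ : ∃ l', l' = ρ ⟨l, mem_l s⟩ := ⟨_, rfl⟩
  obtain ⟨Y', hY'⟩ : ∃ Y', Y' = ρ ⟨Y, mem_Y s⟩ := ⟨_, rfl⟩
  obtain ⟨a', ha'⟩ : ∃ a', a' = ρ ⟨a, ma⟩ := ⟨_, rfl⟩
  obtain ⟨b', hb'⟩ : ∃ b', b' = ρ ⟨b, mb⟩ := ⟨_, rfl⟩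
  rw [← hv', ← hl', ← hY'] at hρ hE₀
  -- the image of `e`
  have hH' : ev v' l' H ≠ 0 := by
    have h1 := hom_ne_zero ρ (mem_ev s H) mH hHN
    rwa [hom_ev, ← hv', ← hl'] at h1
  have he' : ρ ⟨e, me⟩ = algebraMap ℂ E e₀ := by
    have h1 : (⟨e, me⟩ * ⟨ev v l H, mem_ev s H⟩ : Bs s v l Y Z) = ⟨Y, mem_Y s⟩ :=
      Subtype.ext hfib.he
    have h2 := congrArg ρ h1
    rw [map_mul, hom_ev, ← hv', ← hl', ← hY', hρ] at h2
    exact mul_right_cancel₀ hH' h2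
  -- `a`, `b` in `E₀`
  have hvE : v' ∈ E₀ := by rw [hE₀]; exact IntermediateField.subset_adjoin _ _ (by simp)
  have hlE : l' ∈ E₀ := by rw [hE₀]; exact IntermediateField.subset_adjoin _ _ (by simp)
  have hYE : Y' ∈ E₀ := by rw [hE₀]; exact IntermediateField.subset_adjoin _ _ (by simp)
  have hevE : ∀ p : ℂ[X][X], ev v' l' p ∈ E₀ := by
    intro p
    have h1 := map_ev E₀.val ⟨v', hvE⟩ ⟨l', hlE⟩ p
    change _ = ev v' l' p at h1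
    rw [← h1]
    exact Subtype.prop _
  have key : ∀ (x : N) (mx : x ∈ Bs s v l Y Z) (q p₀ p₁ : ℂ[X][X]), q ≠ 0 →
      (ev v l q)⁻¹ ∈ Bs s v l Y Z → ev v l q * x = ev v l p₀ + ev v l p₁ * Y →
      ρ ⟨x, mx⟩ ∈ E₀ := by
    intro x mx q p₀ p₁ hq mq hx
    have h1 : (⟨ev v l q, mem_ev s q⟩ * ⟨x, mx⟩ : Bs s v l Y Z) =
        ⟨ev v l p₀, mem_ev s p₀⟩ + ⟨ev v l p₁, mem_ev s p₁⟩ * ⟨Y, mem_Y s⟩ := Subtype.ext hx
    have h2 := congrArg ρ h1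
    rw [map_add, map_mul, map_mul, hom_ev, hom_ev, hom_ev, ← hv', ← hl', ← hY'] at h2
    have h3 := hom_ne_zero ρ (mem_ev s q) mq (ev_ne_zero hfld.ind hq)
    rw [hom_ev, ← hv', ← hl'] at h3
    have h4 : ρ ⟨x, mx⟩ = (ev v' l' q)⁻¹ * (ev v' l' p₀ + ev v' l' p₁ * Y') := by
      rw [← h2, inv_mul_cancel_left₀ h3]
    rw [h4]
    exact mul_mem (inv_mem (hevE _)) (add_mem (hevE _) (mul_mem (hevE _) hYE))
  have haE : a' ∈ E₀ := by rw [ha']; exact key a ma qa a₀ a₁ hqa mqa haa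
  have hbE : b' ∈ E₀ := by rw [hb']; exact key b mb qb b₀ b₁ hqb mqb hbb
  -- `v`, `l` in `ℂ(a, b)`
  obtain ⟨E₁, hE₁⟩ : ∃ E₁ : IntermediateField ℂ E, E₁ = IntermediateField.adjoin ℂ {a', b'} :=
    ⟨_, rfl⟩
  have haE₁ : a' ∈ E₁ := by rw [hE₁]; exact IntermediateField.subset_adjoin _ _ (by simp)
  have hbE₁ : b' ∈ E₁ := by rw [hE₁]; exact IntermediateField.subset_adjoin _ _ (by simp)
  have hmem : ∀ r : MvPolynomial (Fin 3) ℂ,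
      MvPolynomial.aeval ![algebraMap ℂ E e₀, a', b'] r ∈ E₁ := fun r =>
    aeval3_mem E₁ (E₁.algebraMap_mem e₀) haE₁ hbE₁ r
  have key2 : ∀ (x : N) (mx : x ∈ Bs s v l Y Z) (r t : MvPolynomial (Fin 3) ℂ),
      MvPolynomial.aeval ![e, a, b] t ≠ 0 → (MvPolynomial.aeval ![e, a, b] t)⁻¹ ∈ Bs s v l Y Z →
      MvPolynomial.aeval ![e, a, b] t * x = MvPolynomial.aeval ![e, a, b] r →
      ρ ⟨x, mx⟩ ∈ E₁ := by
    intro x mx r t ht mt hx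
    obtain ⟨m1, e1⟩ := aeval3 ρ me ma mb t
    obtain ⟨m2, e2⟩ := aeval3 ρ me ma mb r
    rw [he', ← ha', ← hb'] at e1 e2
    have h1 : (⟨_, m1⟩ * ⟨x, mx⟩ : Bs s v l Y Z) = ⟨_, m2⟩ := Subtype.ext hx
    have h2 := congrArg ρ h1
    rw [map_mul, e1, e2] at h2
    have h3 := hom_ne_zero ρ m1 mt ht
    rw [e1] at h3
    have h4 : ρ ⟨x, mx⟩ = (MvPolynomial.aeval ![algebraMap ℂ E e₀, a', b'] t)⁻¹ *
        MvPolynomial.aeval ![algebraMap ℂ E e₀, a', b'] r := by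
      rw [← h2, inv_mul_cancel_left₀ h3]
    rw [h4]
    exact mul_mem (inv_mem (hmem _)) (hmem _)
  have hvE₁ : v' ∈ E₁ := by rw [hv']; exact key2 v (mem_v s) rv sv hsv msv hrv
  have hlE₁ : l' ∈ E₁ := by rw [hl']; exact key2 l (mem_l s) rl sl hsl msl hrl
  have hYE₁ : Y' ∈ E₁ := by
    rw [hρ]
    refine mul_mem (E₁.algebraMap_mem e₀) ?_
    have h1 := map_ev E₁.val ⟨v', hvE₁⟩ ⟨l', hlE₁⟩ H
    change _ = ev v' l' H at h1
    rw [← h1]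
    exact Subtype.prop _
  have hle : E₀ ≤ IntermediateField.adjoin ℂ {a', b'} := by
    rw [← hE₁, hE₀, IntermediateField.adjoin_le_iff]
    rintro x (hx | hx | hx)
    · rw [hx]; exact hvE₁
    · rw [hx]; exact hlE₁
    · rw [Set.mem_singleton_iff.1 hx]; exact hYE₁
  have htop := adjoin_top_two E₀ haE hbE hle
  -- the cubic
  obtain ⟨ε, hε⟩ : ∃ ε : ℂ, ε = 1 - e₀ ^ 2 := ⟨_, rfl⟩
  have hεe : ∀ p : ℂ[X], ∃ m : aeval (1 - e ^ 2) p ∈ Bs s v l Y Z,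
      ρ ⟨aeval (1 - e ^ 2) p, m⟩ = algebraMap ℂ E (p.eval ε) := by
    intro p
    have h1 : ((aeval (1 - (⟨e, me⟩ : Bs s v l Y Z) ^ 2) p : Bs s v l Y Z) : N) =
        aeval (1 - e ^ 2) p := by
      have h2 := Polynomial.aeval_algHom_apply (Bs s v l Y Z).val
        (1 - (⟨e, me⟩ : Bs s v l Y Z) ^ 2) p
      exact h2.symm
    refine ⟨h1 ▸ Subtype.prop _, ?_⟩
    have h3 : (⟨aeval (1 - e ^ 2) p, h1 ▸ Subtype.prop _⟩ : Bs s v l Y Z) =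
        aeval (1 - (⟨e, me⟩ : Bs s v l Y Z) ^ 2) p := Subtype.ext h1.symm
    rw [h3, ← Polynomial.aeval_algHom_apply, map_sub, map_one, map_pow, he']
    have h4 : 1 - algebraMap ℂ E e₀ ^ 2 = algebraMap ℂ E ε := by rw [hε]; simp
    rw [h4, Polynomial.aeval_algebraMap_apply]
    rfl
  have hne : c4 (fun i => (F i).eval ε) ^ 3 ≠ c6 (fun i => (F i).eval ε) ^ 2 := by
    intro h0
    obtain ⟨m, hm⟩ := hεe D
    have h1 := hom_ne_zero ρ m mD hDN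
    rw [hm] at h1
    apply h1
    have h2 : D.eval ε = 0 := by
      have h3 := map_c4 (evalRingHom ε) F
      have h4 := map_c6 (evalRingHom ε) F
      have h5 : D.eval ε = evalRingHom ε (c4 F) ^ 3 - evalRingHom ε (c6 F) ^ 2 := by
        rw [hD]
        simp
      rw [h5, ← h3, ← h4]
      exact sub_eq_zero.2 h0
    rw [h2, map_zero]
  have hf : tc (fun i => algebraMap ℂ E₀ ((F i).eval ε)) (⟨a', haE⟩ : E₀) ⟨b', hbE⟩ 1 = 0 := by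
    have h1 : tc (fun i => algebraMap ℂ E ((F i).eval ε)) a' b' 1 = 0 := by
      choose m hm using hεe
      have h2 : (tc (fun i => (⟨_, m (F i)⟩ : Bs s v l Y Z)) ⟨a, ma⟩ ⟨b, mb⟩ 1) = 0 := by
        apply Subtype.ext
        have h3 := hfib.hF
        unfold tc at h3 ⊢
        simpa using h3
      have h3 := congrArg ρ h2
      have h4 : ρ (tc (fun i => (⟨_, m (F i)⟩ : Bs s v l Y Z)) ⟨a, ma⟩ ⟨b, mb⟩ 1) =
          tc (fun i => ρ ⟨_, m (F i)⟩) (ρ ⟨a, ma⟩) (ρ ⟨b, mb⟩) 1 := by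
        unfold tc
        simp only [map_add, map_mul, map_pow, map_one]
      rw [h4, map_zero, ← ha', ← hb'] at h3
      simp only [hm] at h3
      exact h3
    apply Subtype.ext
    unfold tc at h1 ⊢
    simpa using h1
  intro Q' _ A hdiv hthree w w'
  exact third_cubic (⟨a', haE⟩ : E₀) ⟨b', hbE⟩ htop (fun i => (F i).eval ε) hf hne A hdiv hthree
    w w'

end

end Vale.Agent.P297.H600
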