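import Vale.Agent.P297.H600.CGDefs
import Mathlib.Tactic.LinearCombination

namespace Vale.Agent.P297.H600

variable {K : Type*} [CommRing K]

set_option maxHeartbeats 4000000 in
theorem disc_id (c m r : K) (hc : c ^ 3 - c ^ 2 + 1 = 0) :
    pp0 c m r ^ 2 - gam c m r * hh c m r ^ 2 = 4 * pp1 c m r ^ 2 * bet c m r := by
  unfold pp0 gam hh pp1 bet
  linear_combination (
      ((-48) + (-32) * c) * r ^ 2 + (40 + 280 * c + 72 * c ^ 2 + (-72) * c ^ 3) * r ^ 3 +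
      ((-144) + (-36) * c + (-216) * c ^ 2 + (-132) * c ^ 3) * r ^ 4 +
      ((-760) + (-944) * c + 536 * c ^ 2 + 48 * c ^ 3) * r ^ 5 +
      (1356 + 1396 * c + 1380 * c ^ 2 + 428 * c ^ 3) * r ^ 6 +
      (760 + (-432) * c + (-1896) * c ^ 2 + (-1120) * c ^ 3) * r ^ 7 +
      ((-672) + (-768) * c + 96 * c ^ 2 + 192 * c ^ 3) * r ^ 8 +
      (48 + (-336) * c + (-144) * c ^ 2 + (-288) * c ^ 3) * m +
      ((-40) + (-784) * c + 936 * c ^ 2 + 48 * c ^ 3) * m * r +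
      ((-1540) + (-1976) * c + (-776) * c ^ 2 + (-680) * c ^ 3) * m * r ^ 2 +
      ((-6224) + (-4512) * c + 2616 * c ^ 2 + 1792 * c ^ 3) * m * r ^ 3 +
      (8812 + 14160 * c + 2712 * c ^ 2 + (-6608) * c ^ 3) * m * r ^ 4 +
      (3232 + (-32976) * c + (-30608) * c ^ 2 + 13536 * c ^ 3) * m * r ^ 5 +
      ((-10912) + (-9232) * c + 13448 * c ^ 2 + 9784 * c ^ 3) * m * r ^ 6 +
      ((-2040) + 4448 * c + 19912 * c ^ 2 + 12912 * c ^ 3) * m * r ^ 7 +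
      (7632 + 8448 * c + (-2832) * c ^ 2 + (-5184) * c ^ 3) * m * r ^ 8 +
      (543 + (-2081) * c + 2436 * c ^ 2 + 1836 * c ^ 3) * m ^ 2 +
      (8490 + (-16906) * c + 1660 * c ^ 2 + (-4500) * c ^ 3) * m ^ 2 * r +
      (6791 + 2799 * c + 56204 * c ^ 2 + (-4644) * c ^ 3) * m ^ 2 * r ^ 2 +
      ((-19748) + 51436 * c + (-68208) * c ^ 2 + (-27920) * c ^ 3) * m ^ 2 * r ^ 3 +
      ((-82112) + 125412 * c + (-128976) * c ^ 2 + 73644 * c ^ 3) * m ^ 2 * r ^ 4 +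
      (8876 + 214840 * c + (-85528) * c ^ 2 + 8088 * c ^ 3) * m ^ 2 * r ^ 5 +
      (47068 + (-181696) * c + (-178428) * c ^ 2 + 109516 * c ^ 3) * m ^ 2 * r ^ 6 +
      ((-29208) + (-46480) * c + 98416 * c ^ 2 + (-9144) * c ^ 3) * m ^ 2 * r ^ 7 +
      (31288 + 24256 * c + 2728 * c ^ 2 + 16816 * c ^ 3) * m ^ 2 * r ^ 8 +
      ((-686) + (-998) * c + 5478 * c ^ 2 + (-11946) * c ^ 3) * m ^ 3 +
      ((-56422) + 63622 * c + 21542 * c ^ 2 + 6562 * c ^ 3) * m ^ 3 * r +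
      ((-55786) + 70498 * c + (-306404) * c ^ 2 + (-25976) * c ^ 3) * m ^ 3 * r ^ 2 +
      (1734 + (-82734) * c + 132752 * c ^ 2 + 195088 * c ^ 3) * m ^ 3 * r ^ 3 +
      ((-10312) + (-740804) * c + 302096 * c ^ 2 + (-128840) * c ^ 3) * m ^ 3 * r ^ 4 +
      (64588 + (-405160) * c + 779776 * c ^ 2 + (-50728) * c ^ 3) * m ^ 3 * r ^ 5 +
      (259016 + 501248 * c + 546776 * c ^ 2 + (-504288) * c ^ 3) * m ^ 3 * r ^ 6 +
      (299792 + (-182896) * c + (-518800) * c ^ 2 + 115704 * c ^ 3) * m ^ 3 * r ^ 7 +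
      ((-237616) + (-184384) * c + 126816 * c ^ 2 + 7184 * c ^ 3) * m ^ 3 * r ^ 8 +
      ((-41326) + 81643 * c + (-35014) * c ^ 2 + 32349 * c ^ 3) * m ^ 4 +
      (131510 + (-101138) * c + (-223512) * c ^ 2 + (-19016) * c ^ 3) * m ^ 4 * r +
      (512872 + (-942064) * c + 941686 * c ^ 2 + 178718 * c ^ 3) * m ^ 4 * r ^ 2 +
      (1060678 + (-1964910) * c + 1104880 * c ^ 2 + (-795844) * c ^ 3) * m ^ 4 * r ^ 3 +
      (1011983 + (-1055561) * c + 2299356 * c ^ 2 + (-446888) * c ^ 3) * m ^ 4 * r ^ 4 +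
      ((-251560) + (-1466520) * c + 515656 * c ^ 2 + (-753544) * c ^ 3) * m ^ 4 * r ^ 5 +
      ((-768180) + (-612252) * c + 463352 * c ^ 2 + 371364 * c ^ 3) * m ^ 4 * r ^ 6 +
      ((-466848) + 831136 * c + 591128 * c ^ 2 + (-562128) * c ^ 3) * m ^ 4 * r ^ 7 +
      (488364 + 366448 * c + (-656644) * c ^ 2 + 82876 * c ^ 3) * m ^ 4 * r ^ 8 +
      (192692 + (-208184) * c + (-11550) * c ^ 2 + (-63290) * c ^ 3) * m ^ 5 +
      ((-107294) + (-342822) * c + 1004944 * c ^ 2 + 42384 * c ^ 3) * m ^ 5 * r +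
      ((-1022474) + 708894 * c + 21848 * c ^ 2 + (-920284) * c ^ 3) * m ^ 5 * r ^ 2 +
      ((-1889526) + 2542314 * c + 214590 * c ^ 2 + 392190 * c ^ 3) * m ^ 5 * r ^ 3 +
      ((-203378) + 1520322 * c + (-2925164) * c ^ 2 + (-280496) * c ^ 3) * m ^ 5 * r ^ 4 +
      (1834260 + 637648 * c + (-221856) * c ^ 2 + 642936 * c ^ 3) * m ^ 5 * r ^ 5 +
      (1299248 + (-2052840) * c + (-103824) * c ^ 2 + (-704672) * c ^ 3) * m ^ 5 * r ^ 6 +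
      (129104 + (-1798040) * c + 1056176 * c ^ 2 + 398352 * c ^ 3) * m ^ 5 * r ^ 7 +
      ((-556320) + (-229200) * c + 1098704 * c ^ 2 + (-407776) * c ^ 3) * m ^ 5 * r ^ 8 +
      ((-340623) + 134713 * c + 179934 * c ^ 2 + 109554 * c ^ 3) * m ^ 6 +
      ((-189802) + 1373862 * c + (-1530452) * c ^ 2 + (-334056) * c ^ 3) * m ^ 6 * r +
      (351960 + 2202666 * c + (-1615384) * c ^ 2 + 1166058 * c ^ 3) * m ^ 6 * r ^ 2 +
      (752430 + 509414 * c + (-2974268) * c ^ 2 + (-96376) * c ^ 3) * m ^ 6 * r ^ 3 +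
      ((-1692847) + (-299311) * c + 1560194 * c ^ 2 + 612066 * c ^ 3) * m ^ 6 * r ^ 4 +
      ((-2146940) + 559636 * c + (-151228) * c ^ 2 + (-750528) * c ^ 3) * m ^ 6 * r ^ 5 +
      ((-458776) + 2437752 * c + 156408 * c ^ 2 + 455800 * c ^ 3) * m ^ 6 * r ^ 6 +
      (596112 + 909352 * c + (-1555712) * c ^ 2 + (-144952) * c ^ 3) * m ^ 6 * r ^ 7 +
      (397752 + (-170384) * c + (-711736) * c ^ 2 + 501184 * c ^ 3) * m ^ 6 * r ^ 8 +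
      (297926 + 101150 * c + (-222632) * c ^ 2 + (-147472) * c ^ 3) * m ^ 7 +
      (475902 + (-1271330) * c + 579082 * c ^ 2 + 643266 * c ^ 3) * m ^ 7 * r +
      (223598 + (-2472002) * c + 401128 * c ^ 2 + (-581468) * c ^ 3) * m ^ 7 * r ^ 2 +
      ((-384658) + (-115638) * c + 1638928 * c ^ 2 + 259336 * c ^ 3) * m ^ 7 * r ^ 3 +
      (710936 + 2020152 * c + (-2038014) * c ^ 2 + (-126850) * c ^ 3) * m ^ 7 * r ^ 4 +
      (292792 + 1326324 * c + (-1242228) * c ^ 2 + 931248 * c ^ 3) * m ^ 7 * r ^ 5 +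
      ((-425840) + (-185752) * c + (-905160) * c ^ 2 + 62624 * c ^ 3) * m ^ 7 * r ^ 6 +
      ((-561160) + 170008 * c + 731328 * c ^ 2 + 26400 * c ^ 3) * m ^ 7 * r ^ 7 +
      ((-134320) + 203520 * c + 187232 * c ^ 2 + (-297216) * c ^ 3) * m ^ 7 * r ^ 8 +
      ((-139993) + (-144173) * c + 69628 * c ^ 2 + 109460 * c ^ 3) * m ^ 8 +
      ((-403694) + 311894 * c + 240108 * c ^ 2 + (-458788) * c ^ 3) * m ^ 8 * r +
      ((-69180) + 840244 * c + 315666 * c ^ 2 + 295910 * c ^ 3) * m ^ 8 * r ^ 2 +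
      (522386 + (-664182) * c + (-560276) * c ^ 2 + 53576 * c ^ 3) * m ^ 8 * r ^ 3 +
      (419754 + (-1697593) * c + 1089286 * c ^ 2 + 81301 * c ^ 3) * m ^ 8 * r ^ 4 +
      (435604 + (-1160036) * c + 870580 * c ^ 2 + (-440648) * c ^ 3) * m ^ 8 * r ^ 5 +
      (282636 + (-325580) * c + 502108 * c ^ 2 + (-111892) * c ^ 3) * m ^ 8 * r ^ 6 +
      (164808 + (-172544) * c + (-169960) * c ^ 2 + 7424 * c ^ 3) * m ^ 8 * r ^ 7 +
      (15600 + (-57152) * c + (-8448) * c ^ 2 + 85312 * c ^ 3) * m ^ 8 * r ^ 8 +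
      (22044 + 44076 * c + 29672 * c ^ 2 + (-40888) * c ^ 3) * m ^ 9 +
      (225294 + (-46130) * c + (-117176) * c ^ 2 + 131856 * c ^ 3) * m ^ 9 * r +
      (44382 + (-279890) * c + 57744 * c ^ 2 + (-133432) * c ^ 3) * m ^ 9 * r ^ 2 +
      ((-164842) + 95210 * c + 352494 * c ^ 2 + (-103362) * c ^ 3) * m ^ 9 * r ^ 3 +
      ((-226926) + 292370 * c + (-104074) * c ^ 2 + (-58266) * c ^ 3) * m ^ 9 * r ^ 4 +
      ((-160556) + 197216 * c + (-155072) * c ^ 2 + 84928 * c ^ 3) * m ^ 9 * r ^ 5 +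
      ((-48936) + 68656 * c + (-78624) * c ^ 2 + 25440 * c ^ 3) * m ^ 9 * r ^ 6 +
      ((-16304) + 21344 * c + 16448 * c ^ 2 + (-1280) * c ^ 3) * m ^ 9 * r ^ 7 +
      (3872 * c + (-3072) * c ^ 2 + (-9344) * c ^ 3) * m ^ 9 * r ^ 8 +
      (11440 + (-3684) * c + (-17012) * c ^ 2 + 7444 * c ^ 3) * m ^ 10 +
      ((-50628) + (-1956) * c + 40472 * c ^ 2 + (-25344) * c ^ 3) * m ^ 10 * r +
      ((-15045) + 41307 * c + (-25020) * c ^ 2 + 12088 * c ^ 3) * m ^ 10 * r ^ 2 +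
      (434 + 25038 * c + (-55060) * c ^ 2 + 8924 * c ^ 3) * m ^ 10 * r ^ 3 +
      (11067 + 11755 * c + (-5360) * c ^ 2 + 5184 * c ^ 3) * m ^ 10 * r ^ 4 +
      (7532 + 1888 * c + 6912 * c ^ 2 + (-5184) * c ^ 3) * m ^ 10 * r ^ 5 +
      (88 + (-3920) * c + 2560 * c ^ 2 + (-768) * c ^ 3) * m ^ 10 * r ^ 6 +
      ((-192) * c + 512 * c ^ 2 + (-256) * c ^ 3) * m ^ 10 * r ^ 7 +
      ((-2928) + (-48) * c + 1952 * c ^ 2 + (-448) * c ^ 3) * m ^ 11 +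
      (3716 + 388 * c + (-5880) * c ^ 2 + 1800 * c ^ 3) * m ^ 11 * r +
      (2032 + 1096 * c + 1128 * c ^ 2 + (-568) * c ^ 3) * m ^ 11 * r ^ 2 +
      (388 + (-1372) * c + 864 * c ^ 2 + (-192) * c ^ 3) * m ^ 11 * r ^ 3 +
      (56 + (-368) * c + 448 * c ^ 2 + (-128) * c ^ 3) * m ^ 11 * r ^ 4 +
      (48 + (-32) * c) * m ^ 11 * r ^ 5 + (156 + (-4) * c + (-16) * c ^ 2) * m ^ 12 +
      ((-24) + (-88) * c + 80 * c ^ 2 + (-16) * c ^ 3) * m ^ 12 * r +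
      (12 + (-4) * c) * m ^ 12 * r ^ 2) * hc

end Vale.Agent.P297.H600
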