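import Vale.Agent.P297.H600.QTw
import Vale.Agent.P297.H424.G4.TrA

/-!
Automorphisms that fix a point of the twisted quartic.
-/

set_option linter.unusedSectionVars false

open IntermediateField Polynomial WeierstrassCurve WeierstrassCurve.Affine

namespace Vale.Agent.P297.G4.J

open Vale.Agent.P297 Vale.Agent.P297.Gen Vale.Agent.P297.Z3

section

variable {R S : Type} [CommRing R] [CommRing S] (σ : R →+* S) (c : Fin 5 → R)

theorem map_qI : σ (qI c) = qI (fun i => σ (c i)) := by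
  simp only [qI, map_add, map_sub, map_mul, map_pow, map_ofNat]

theorem map_qJ : σ (qJ c) = qJ (fun i => σ (c i)) := by
  simp only [qJ, map_add, map_sub, map_mul, map_pow, map_ofNat]

theorem map_qv (x : R) : σ (qv c x) = qv (fun i => σ (c i)) (σ x) := by
  simp only [qv, map_add, map_mul, map_pow]

theorem map_q1 (e : R) : σ (q1 c e) = q1 (fun i => σ (c i)) (σ e) := by
  simp only [q1, map_add, map_mul, map_pow, map_ofNat]

theorem map_q2 (e : R) : σ (q2 c e) = q2 (fun i => σ (c i)) (σ e) := by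
  simp only [q2, map_add, map_mul, map_pow, map_ofNat]

end

section

variable {k : Type} [Field k] [CharZero k] {c : Fin 5 → k}

theorem fix_ab (σ : k →+* k) (hσ : ∀ i, σ (c i) = c i) :
    σ (-qI c / 3) = -qI c / 3 ∧ σ (-qJ c / 27) = -qJ c / 27 := by
  have h : (fun i => σ (c i)) = c := funext hσ
  refine ⟨?_, ?_⟩
  · rw [map_div₀, map_neg, map_qI, h, map_ofNat]
  · rw [map_div₀, map_neg, map_qJ, h, map_ofNat]

theorem map_aX (σ : k →+* k) (hσ : ∀ i, σ (c i) = c i) (e : k) (P : (Wq c).Point) :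
    σ (aX c e P) = aX c (σ e) (gfun σ (fix_ab σ hσ) P) := by
  have h : (fun i => σ (c i)) = c := funext hσ
  rcases P with (_ | ⟨x, y, hxy⟩)
  · rfl
  · change σ (e + q1 c e / (x - q2 c e / 3)) = σ e + q1 c (σ e) / (σ x - q2 c (σ e) / 3)
    simp only [map_add, map_div₀, map_sub, map_q1, map_q2, h, map_ofNat]

theorem map_aY (σ : k →+* k) (hσ : ∀ i, σ (c i) = c i) (e : k) (P : (Wq c).Point) :
    σ (aY c e P) = aY c (σ e) (gfun σ (fix_ab σ hσ) P) := by
  have h : (fun i => σ (c i)) = c := funext hσ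
  rcases P with (_ | ⟨x, y, hxy⟩)
  · exact map_zero σ
  · change σ (q1 c e * y / (x - q2 c e / 3) ^ 2) =
      q1 c (σ e) * σ y / (σ x - q2 c (σ e) / 3) ^ 2
    simp only [map_mul, map_div₀, map_sub, map_pow, map_q1, map_q2, h, map_ofNat]

theorem map_fin (σ : k →+* k) (hσ : ∀ i, σ (c i) = c i) {e : k} {P : (Wq c).Point}
    (hP : Fin' c e P) : Fin' c (σ e) (gfun σ (fix_ab σ hσ) P) := by
  have h : (fun i => σ (c i)) = c := funext hσ
  obtain ⟨x, y, hxy, rfl, hx⟩ := hP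
  refine ⟨σ x, σ y, _, rfl, ?_⟩
  intro h0
  apply hx
  apply σ.injective
  rw [h0, map_div₀, map_q2, h, map_ofNat]

theorem map_root (σ : k →+* k) (hσ : ∀ i, σ (c i) = c i) {e : k} (he : qv c e = 0) :
    qv c (σ e) = 0 := by
  have h : (fun i => σ (c i)) = c := funext hσ
  have h1 := congrArg σ he
  rw [map_qv, map_zero, h] at h1
  exact h1

end

section

variable {N : Type} [Field N] [Algebra ℂ N] [IsAlgClosed N] [DecidableEq N] [CharZero N]

/-- The data of the twist. -/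
structure Twist (s : N) (c d : Fin 5 → N) : Prop where
  tr : Transcendental ℂ s
  memc : ∀ i, c i ∈ cl0 {s}
  memd : ∀ i, d i ∈ cl0 {s}
  fixc : ∀ g : N ≃ₐ[ℂ] N, g s = s ∨ g s = s⁻¹ → ∀ i, g (c i) = c i
  fixd : ∀ g : N ≃ₐ[ℂ] N, g s = s ∨ g s = s⁻¹ → ∀ i, g (d i) = d i
  disc : 4 * qI c ^ 3 ≠ qJ c ^ 2
  hI : qI c = (s - s⁻¹) ^ 4 * qI d
  hJ : qJ c = (s - s⁻¹) ^ 6 * qJ d

variable {s : N} {c d : Fin 5 → N}

theorem Twist.s_ne (H : Twist s c d) : s ≠ 0 := by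
  rintro rfl
  exact H.tr isAlgebraic_zero

theorem Twist.r_ne (H : Twist s c d) : s - s⁻¹ ≠ 0 := by
  intro h0
  have hs := H.s_ne
  have h1 : s ^ 2 - 1 = 0 := by
    have h2 : s * (s - s⁻¹) = 0 := by rw [h0, mul_zero]
    rw [mul_sub, mul_inv_cancel₀ hs] at h2
    linear_combination h2
  apply H.tr
  have h2 : (s - 1) * (s + 1) = 0 := by linear_combination h1
  rcases mul_eq_zero.1 h2 with h3 | h3
  · rw [sub_eq_zero.1 h3]
    exact isAlgebraic_one
  · rw [eq_neg_of_add_eq_zero_left h3]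
    exact isAlgebraic_one.neg

theorem Twist.ha (H : Twist s c d) : -qI c / 3 = (s - s⁻¹) ^ 4 * (-qI d / 3) := by
  rw [H.hI]; ring

theorem Twist.hb (H : Twist s c d) : -qJ c / 27 = (s - s⁻¹) ^ 6 * (-qJ d / 27) := by
  rw [H.hJ]; ring

theorem Twist.discd (H : Twist s c d) : 4 * qI d ^ 3 ≠ qJ d ^ 2 := by
  intro h0
  apply H.disc
  rw [H.hI, H.hJ]
  linear_combination (s - s⁻¹) ^ 12 * h0

/-- the twist -/
noncomputable def Twist.tp (H : Twist s c d) (P : (Wq c).Point) : (Wq d).Point :=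
  tw H.r_ne H.ha H.hb P

theorem Twist.qI_mem (H : Twist s c d) : -qI c / 3 ∈ cl0 {s} ∧ -qJ c / 27 ∈ cl0 {s} := by
  have h3 : (3 : N) ∈ cl0 {s} := ofNat_mem _ 3
  have h := H.memc
  refine ⟨?_, ?_⟩
  · unfold qI
    refine div_mem (neg_mem ?_) (ofNat_mem _ 3)
    exact add_mem (sub_mem (mul_mem (ofNat_mem _ 12) (mul_mem (h 4) (h 0)))
      (mul_mem (ofNat_mem _ 3) (mul_mem (h 3) (h 1)))) (pow_mem (h 2) 2)
  · unfold qJ
    refine div_mem (neg_mem ?_) (ofNat_mem _ 27)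
    refine sub_mem (sub_mem (sub_mem (add_mem ?_ ?_) ?_) ?_) ?_
    · exact mul_mem (ofNat_mem _ 72) (mul_mem (mul_mem (h 4) (h 2)) (h 0))
    · exact mul_mem (ofNat_mem _ 9) (mul_mem (mul_mem (h 3) (h 2)) (h 1))
    · exact mul_mem (ofNat_mem _ 27) (mul_mem (h 4) (pow_mem (h 1) 2))
    · exact mul_mem (ofNat_mem _ 27) (mul_mem (pow_mem (h 3) 2) (h 0))
    · exact mul_mem (ofNat_mem _ 2) (pow_mem (h 2) 3)

theorem q2_mem {M : IntermediateField ℂ N} (h : ∀ i, d i ∈ M) {e : N} (he : e ∈ M) :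
    q2 d e ∈ M := by
  unfold q2
  exact add_mem (add_mem (h 2) (mul_mem (mul_mem (ofNat_mem _ 3) (h 3)) he))
    (mul_mem (mul_mem (ofNat_mem _ 6) (h 4)) (pow_mem he 2))

theorem q1_mem {M : IntermediateField ℂ N} (h : ∀ i, d i ∈ M) {e : N} (he : e ∈ M) :
    q1 d e ∈ M := by
  unfold q1
  exact add_mem (add_mem (add_mem (h 1) (mul_mem (mul_mem (ofNat_mem _ 2) (h 2)) he))
    (mul_mem (mul_mem (ofNat_mem _ 3) (h 3)) (pow_mem he 2)))
    (mul_mem (mul_mem (ofNat_mem _ 4) (h 4)) (pow_mem he 3))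

/-- the roots of a quartic with coefficients in a closed field -/
theorem root_mem {M : IntermediateField ℂ N} (hM : Closed M) (h : ∀ i, d i ∈ M)
    (hd : ∃ i, d i ≠ 0) {e : N} (he : qv d e = 0) : e ∈ M := by
  apply hM
  let p : M[X] := C ⟨d 0, h 0⟩ + C ⟨d 1, h 1⟩ * X + C ⟨d 2, h 2⟩ * X ^ 2 +
    C ⟨d 3, h 3⟩ * X ^ 3 + C ⟨d 4, h 4⟩ * X ^ 4
  refine ⟨p, ?_, ?_⟩
  · intro h0
    have hcoeff : ∀ n, p.coeff n = 0 := fun n => by rw [h0, coeff_zero]
    have c0 := hcoeff 0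
    have c1 := hcoeff 1
    have c2 := hcoeff 2
    have c3 := hcoeff 3
    have c4 := hcoeff 4
    simp only [p, coeff_add, coeff_C_mul, coeff_X_pow, coeff_X, coeff_C] at c0 c1 c2 c3 c4
    norm_num at c0 c1 c2 c3 c4
    obtain ⟨i, hi⟩ := hd
    apply hi
    fin_cases i
    · exact congrArg Subtype.val c0
    · exact congrArg Subtype.val c1
    · exact congrArg Subtype.val c2
    · exact congrArg Subtype.val c3
    · exact congrArg Subtype.val c4
  · simp only [p, map_add, map_mul, map_pow, aeval_C, aeval_X]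
    exact he

theorem ne_of_disc (hd : 4 * qI d ^ 3 ≠ qJ d ^ 2) : ∃ i, d i ≠ 0 := by
  by_contra hcon
  push Not at hcon
  apply hd
  unfold qI qJ
  rw [hcon 0, hcon 1, hcon 2, hcon 3, hcon 4]
  ring

/-- a point outside a closed field is finite -/
theorem fin_of_notMem {M : IntermediateField ℂ N} (hM : Closed M) (h : ∀ i, d i ∈ M)
    (ha : -qI d / 3 ∈ M) (hb : -qJ d / 27 ∈ M) {e : N} (he : e ∈ M)
    {P : (Wq d).Point} (hP : ¬ InF M P) : Fin' d e P := by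
  rcases P with (_ | ⟨x, y, hxy⟩)
  · exact absurd (inF_zero M) hP
  · refine ⟨x, y, hxy, rfl, ?_⟩
    intro h0
    apply hP
    rw [inF_iff hM ha hb, h0]
    exact div_mem (q2_mem h he) (ofNat_mem _ 3)

/-- the coordinates of the point of the quartic determine the point -/
theorem inF_of_aX {M : IntermediateField ℂ N} (hM : Closed M) (h : ∀ i, d i ∈ M)
    (ha : -qI d / 3 ∈ M) (hb : -qJ d / 27 ∈ M) (hd : 4 * qI d ^ 3 ≠ qJ d ^ 2) {e : N}
    (he' : qv d e = 0) (he : e ∈ M)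
    {P : (Wq d).Point} (hP : Fin' d e P) (hX : aX d e P ∈ M) : InF M P := by
  obtain ⟨x, y, hxy, rfl, hx⟩ := hP
  rw [inF_iff hM ha hb]
  rw [aX_some] at hX
  have h1 := q1_ne hd he'
  have h2 : q1 d e / (x - q2 d e / 3) ∈ M := by
    have h3 := sub_mem hX he
    rwa [add_sub_cancel_left] at h3
  have h4 : x = q1 d e * (q1 d e / (x - q2 d e / 3))⁻¹ + q2 d e / 3 := by
    have h5 : x - q2 d e / 3 ≠ 0 := sub_ne_zero.2 hx
    rw [inv_div, mul_div_cancel₀ _ h1]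
    ring
  rw [h4]
  exact add_mem (mul_mem (q1_mem h he) (inv_mem h2)) (div_mem (q2_mem h he) (ofNat_mem _ 3))

theorem Twist.r_mem (_ : Twist s c d) : s - s⁻¹ ∈ cl0 {s} :=
  sub_mem (subset_cl0 _ rfl) (inv_mem (subset_cl0 _ rfl))

theorem Twist.qId_mem (H : Twist s c d) : -qI d / 3 ∈ cl0 {s} ∧ -qJ d / 27 ∈ cl0 {s} := by
  obtain ⟨h1, h2⟩ := H.qI_mem
  rw [H.ha] at h1
  rw [H.hb] at h2
  have hr := H.r_ne
  have hrm := H.r_mem
  refine ⟨?_, ?_⟩
  · have h3 := mul_mem (inv_mem (pow_mem hrm 4)) h1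
    rwa [inv_mul_cancel_left₀ (pow_ne_zero 4 hr)] at h3
  · have h3 := mul_mem (inv_mem (pow_mem hrm 6)) h2
    rwa [inv_mul_cancel_left₀ (pow_ne_zero 6 hr)] at h3

theorem Twist.tp_notMem (H : Twist s c d) {P : (Wq c).Point} {M : IntermediateField ℂ N}
    (hM : cl0 {s} ≤ M) (hP : ¬ InF M P) : ¬ InF M (H.tp P) := by
  intro h
  apply hP
  intro x y hxy h0
  subst h0
  have h1 := h _ _ _ (tw_some H.r_ne H.ha H.hb hxy (tw_aux H.r_ne H.ha H.hb hxy))
  have hr := H.r_ne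
  have hrm := hM H.r_mem
  refine ⟨?_, ?_⟩
  · have h3 := mul_mem h1.1 (pow_mem hrm 2)
    rwa [div_mul_cancel₀ _ (pow_ne_zero 2 hr)] at h3
  · have h3 := mul_mem h1.2 (pow_mem hrm 3)
    rwa [div_mul_cancel₀ _ (pow_ne_zero 3 hr)] at h3

theorem Twist.tp_add (H : Twist s c d) (P Q : (Wq c).Point) :
    H.tp (P + Q) = H.tp P + H.tp Q := tw_add _ _ _ P Q

theorem Twist.tp_neg (H : Twist s c d) (P : (Wq c).Point) : H.tp (-P) = -H.tp P :=
  tw_neg _ _ _ P

theorem Twist.tp_inj (H : Twist s c d) : Function.Injective H.tp :=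
  tw_injective H.r_ne H.ha H.hb

theorem Twist.root_mem (H : Twist s c d) {ε : N} (hε : qv d ε = 0) : ε ∈ cl0 {s} :=
  J.root_mem (closed_cl0 _) H.memd (ne_of_disc H.discd) hε

/-- the automorphism as a ring homomorphism -/
abbrev rh (g : N ≃ₐ[ℂ] N) : N →+* N := (g : N →+* N)

theorem Twist.gfun_tp (H : Twist s c d) (g : N ≃ₐ[ℂ] N) (hg : g s = s ∨ g s = s⁻¹)
    (P : (Wq c).Point) :
    gfun (rh g) (fix_ab (rh g) (H.fixd g hg)) (H.tp P) =
      if g s = s then H.tp (gfun (rh g) (fix_ab (rh g) (H.fixc g hg)) P)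
      else H.tp (-gfun (rh g) (fix_ab (rh g) (H.fixc g hg)) P) := by
  have hr := H.r_ne
  by_cases h : g s = s
  · rw [if_pos h]
    have hgr : (rh g) (s - s⁻¹) = s - s⁻¹ := by
      change g (s - s⁻¹) = _
      rw [map_sub, map_inv₀, h]
    have h1 := gfun_tw H.r_ne H.ha H.hb (rh g) (fix_ab (rh g) (H.fixc g hg))
      (fix_ab (rh g) (H.fixd g hg)) (by rw [hgr]; exact hr) (by rw [hgr]; exact H.ha)
      (by rw [hgr]; exact H.hb) P
    refine h1.trans ?_
    rcases gfun (rh g) (fix_ab (rh g) (H.fixc g hg)) P with (_ | ⟨x, y, hxy⟩)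
    · rfl
    · change Point.some _ _ _ = Point.some _ _ _
      rw [Point.some.injEq, hgr]
      exact ⟨rfl, rfl⟩
  · rw [if_neg h]
    have hgs : g s = s⁻¹ := hg.resolve_left h
    have hgr : (rh g) (s - s⁻¹) = -(s - s⁻¹) := by
      change g (s - s⁻¹) = _
      rw [map_sub, map_inv₀, hgs, inv_inv]
      ring
    have h1 := gfun_tw H.r_ne H.ha H.hb (rh g) (fix_ab (rh g) (H.fixc g hg))
      (fix_ab (rh g) (H.fixd g hg)) (by rw [hgr]; exact neg_ne_zero.2 hr)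
      (by rw [hgr, Even.neg_pow (by decide)]; exact H.ha)
      (by rw [hgr, Even.neg_pow (by decide)]; exact H.hb) P
    refine h1.trans ?_
    rcases gfun (rh g) (fix_ab (rh g) (H.fixc g hg)) P with (_ | ⟨x, y, hxy⟩)
    · rfl
    · change Point.some _ _ _ = Point.some _ _ _
      rw [Point.some.injEq, hgr]
      refine ⟨?_, ?_⟩
      · rw [Even.neg_pow (by decide)]
      · rw [wc_negY, Odd.neg_pow (by decide), div_neg, neg_div]

/-- **(J1)** -/
theorem Twist.jone (H : Twist s c d) {ε : N} (hε : qv d ε = 0) {P : (Wq c).Point}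
    (hP : ¬ InF (cl0 {s}) P) (g : N ≃ₐ[ℂ] N) (hg : g s = s ∨ g s = s⁻¹)
    (hX : g (aX d ε (H.tp P)) = aX d ε (H.tp P)) (hY : g (aY d ε (H.tp P)) = aY d ε (H.tp P)) :
    ∃ T : (Wq c).Point, (2 : ℕ) • T = 0 ∧
      ((g s = s ∧ gfun (rh g) (fix_ab (rh g) (H.fixc g hg)) P = P + T) ∨
       (g s = s⁻¹ ∧ gfun (rh g) (fix_ab (rh g) (H.fixc g hg)) P = -P + T)) := by
  have hκ := closed_cl0 ({s} : Set N)
  have hdd := H.discd
  obtain ⟨had, hbd⟩ := H.qId_mem
  have hP' := H.tp_notMem le_rfl hP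
  have hεm := H.root_mem hε
  have hfin : Fin' d ε (H.tp P) := fin_of_notMem hκ H.memd had hbd hεm hP'
  have hXm : aX d ε (H.tp P) ∉ cl0 {s} := fun h0 =>
    hP' (inF_of_aX hκ H.memd had hbd hdd hε hεm hfin h0)
  have hgε : qv d (g ε) = 0 := map_root (rh g) (H.fixd g hg) hε
  have hgεm := H.root_mem hgε
  have hfin' : Fin' d (g ε) (gfun (rh g) (fix_ab (rh g) (H.fixd g hg)) (H.tp P)) :=
    map_fin (rh g) (H.fixd g hg) hfin
  have hX' : aX d (g ε) (gfun (rh g) (fix_ab (rh g) (H.fixd g hg)) (H.tp P)) =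
      aX d ε (H.tp P) := (map_aX (rh g) (H.fixd g hg) ε (H.tp P)).symm.trans hX
  have hY' : aY d (g ε) (gfun (rh g) (fix_ab (rh g) (H.fixd g hg)) (H.tp P)) =
      aY d ε (H.tp P) := (map_aY (rh g) (H.fixd g hg) ε (H.tp P)).symm.trans hY
  obtain ⟨T', hT', hgT⟩ : ∃ T' : (Wq d).Point, (2 : ℕ) • T' = 0 ∧
      gfun (rh g) (fix_ab (rh g) (H.fixd g hg)) (H.tp P) = H.tp P + T' := by
    by_cases hεε : ε = g ε
    · refine ⟨0, smul_zero _, ?_⟩
      rw [add_zero]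
      rw [← hεε] at hfin' hX' hY'
      exact hfin'.inj hdd hε hfin hX' hY'
    · refine ⟨tor d ε (g ε), two_tor hdd hε hgε hεε, ?_⟩
      obtain ⟨h1, h2, h3⟩ := change hdd hε hgε hεε hfin (fun h0 => hXm (by rw [h0]; exact hgεm))
      exact hfin'.inj hdd hgε h1 (hX'.trans h2.symm) (hY'.trans h3.symm)
  obtain ⟨T, hT⟩ : ∃ T, H.tp T = T' := tw_surjective H.r_ne H.ha H.hb T'
  have h2T : (2 : ℕ) • T = 0 := by
    apply H.tp_inj
    rw [two_nsmul, H.tp_add, hT, ← two_nsmul, hT']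
    rfl
  refine ⟨T, h2T, ?_⟩
  rw [H.gfun_tp g hg, ← hT, ← H.tp_add] at hgT
  by_cases h : g s = s
  · rw [if_pos h] at hgT
    exact Or.inl ⟨h, H.tp_inj hgT⟩
  · rw [if_neg h] at hgT
    refine Or.inr ⟨hg.resolve_left h, ?_⟩
    have h1 := H.tp_inj hgT
    have h2 : gfun (rh g) (fix_ab (rh g) (H.fixc g hg)) P = -(P + T) := by
      rw [← h1, neg_neg]
    rw [h2]
    have h3 : -T = T := by
      rw [neg_eq_iff_add_eq_zero, ← two_nsmul, h2T]
    rw [neg_add, h3]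

end

end Vale.Agent.P297.G4.J
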