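import Vale.Agent.P297.H600.Red

/-!
Reductions of `z`, `μ`, `ρ`, `R₃/R₂`, `R₄/R₂` at the place.
-/

namespace Vale.Agent.P297.H600

section coeffs

variable {A : Type*} [CommRing A]

def zc3 (c x y : A) : A := ((1 - c - 2 * c ^ 2) + x + (c ^ 2 - 2 * c - 1) * y) ^ 2

def zc2 (c x y : A) : A :=
  x ^ 3 + (1 - c - 2 * c ^ 2) ^ 2 * y ^ 3 + (c ^ 2 - 2 * c - 1) ^ 2 +
  (2 - 10 * c - 9 * c ^ 2) * (y ^ 2 + x) + (9 - 8 * c ^ 2) * (y ^ 2 * x + y) +
  (3 + c + 4 * c ^ 2) * (x ^ 2 * y + x ^ 2) + (1 - 6 * c + 9 * c ^ 2) * (x * y)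

def zc1 (c x y : A) : A :=
  2 * x ^ 3 * ((1 - c - 2 * c ^ 2) * y + (c ^ 2 - 2 * c - 1)) +
  2 * (1 - c - 2 * c ^ 2) * y ^ 3 * (1 + (c ^ 2 - 2 * c - 1) * x) +
  2 * (c ^ 2 - 2 * c - 1) * ((1 - c - 2 * c ^ 2) * x + y) +
  (2 - 10 * c - 9 * c ^ 2) * (x ^ 2 * y ^ 2) + (9 - 8 * c ^ 2) * x ^ 2 +
  (3 + c + 4 * c ^ 2) * y ^ 2 + (1 - 6 * c + 9 * c ^ 2) * (x ^ 2 * y + y ^ 2 * x + x * y)

def zc0 (c x y : A) : A :=
  x ^ 3 * ((1 - c - 2 * c ^ 2) * y + (c ^ 2 - 2 * c - 1)) ^ 2 +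
  y ^ 3 * (1 + (c ^ 2 - 2 * c - 1) * x) ^ 2 + ((1 - c - 2 * c ^ 2) * x + y) ^ 2 +
  (2 - 10 * c - 9 * c ^ 2) * (x ^ 2 * y) + (9 - 8 * c ^ 2) * (x ^ 2 * y ^ 2) +
  (3 + c + 4 * c ^ 2) * (y ^ 2 * x)

theorem cgForm_cubic (c x y z : A) : cgForm c x y z 1 =
    zc3 c x y * z ^ 3 + zc2 c x y * z ^ 2 + zc1 c x y * z + zc0 c x y := by
  unfold cgForm zc3 zc2 zc1 zc0
  ring

variable {B : Type*} [CommRing B] (f : A →+* B)

theorem map_zc3 (c x y : A) : f (zc3 c x y) = zc3 (f c) (f x) (f y) := by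
  simp only [zc3, map_add, map_mul, map_sub, map_pow, map_one, map_ofNat]

theorem map_zc2 (c x y : A) : f (zc2 c x y) = zc2 (f c) (f x) (f y) := by
  simp only [zc2, map_add, map_mul, map_sub, map_pow, map_one, map_ofNat]

theorem map_zc1 (c x y : A) : f (zc1 c x y) = zc1 (f c) (f x) (f y) := by
  simp only [zc1, map_add, map_mul, map_sub, map_pow, map_one, map_ofNat]

theorem map_zc0 (c x y : A) : f (zc0 c x y) = zc0 (f c) (f x) (f y) := by
  simp only [zc0, map_add, map_mul, map_sub, map_pow, map_one, map_ofNat]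

end coeffs

section

variable {K : Type} [Field K] {V : ValuationSubring K}

/-- reduction of a polynomial expression in three elements -/
theorem Red.fun3 (g : ∀ (A : Type) [CommRing A], A → A → A → A)
    (hg : ∀ (A B : Type) [CommRing A] [CommRing B] (f : A →+* B) (a b c : A),
      f (g A a b c) = g B (f a) (f b) (f c))
    {a b c : K} {n m q : ℤ} (ha : Red V a n) (hb : Red V b m) (hc : Red V c q) :
    Red V (g K a b c) (g ℤ n m q) := by
  obtain ⟨a', rfl, ha⟩ := ha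
  obtain ⟨b', rfl, hb⟩ := hb
  obtain ⟨c', rfl, hc⟩ := hc
  refine ⟨g V a' b' c', hg V K V.subtype a' b' c', ?_⟩
  rw [hg V _ (IsLocalRing.residue V), ha, hb, hc]
  exact (hg ℤ (IsLocalRing.ResidueField V)
    (Int.castRingHom (IsLocalRing.ResidueField V)) n m q).symm

/-- reduction of a polynomial expression in five elements -/
theorem Red.fun5 (g : ∀ (A : Type) [CommRing A], A → A → A → A → A → A)
    (hg : ∀ (A B : Type) [CommRing A] [CommRing B] (f : A →+* B) (a b c d e : A),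
      f (g A a b c d e) = g B (f a) (f b) (f c) (f d) (f e))
    {a b c d e : K} {n m q r s : ℤ} (ha : Red V a n) (hb : Red V b m) (hc : Red V c q)
    (hd : Red V d r) (he : Red V e s) :
    Red V (g K a b c d e) (g ℤ n m q r s) := by
  obtain ⟨a', rfl, ha⟩ := ha
  obtain ⟨b', rfl, hb⟩ := hb
  obtain ⟨c', rfl, hc⟩ := hc
  obtain ⟨d', rfl, hd⟩ := hd
  obtain ⟨e', rfl, he⟩ := he
  refine ⟨g V a' b' c' d' e', hg V K V.subtype a' b' c' d' e', ?_⟩
  rw [hg V _ (IsLocalRing.residue V), ha, hb, hc, hd, he]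
  exact (hg ℤ (IsLocalRing.ResidueField V)
    (Int.castRingHom (IsLocalRing.ResidueField V)) n m q r s).symm

variable {c x y z : K}

theorem red_z (h23 : (23 : K) ∈ V.nonunits) (hc : Red V c 15) (hx : Red V x 8) (hy : Red V y 1)
    (hF : cgForm c x y z 1 = 0) : Red V z 1 := by
  rw [cgForm_cubic] at hF
  obtain ⟨a3, e3, r3⟩ := (Red.fun3 (fun A _ => zc3) (fun A B _ _ f => map_zc3 f) hc hx hy).congr
    (m := 12) h23 (by decide)
  obtain ⟨a2, e2, r2⟩ := (Red.fun3 (fun A _ => zc2) (fun A B _ _ f => map_zc2 f) hc hx hy).congr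
    (m := 10) h23 (by decide)
  obtain ⟨a1, e1, r1⟩ := (Red.fun3 (fun A _ => zc1) (fun A B _ _ f => map_zc1 f) hc hx hy).congr
    (m := 13) h23 (by decide)
  obtain ⟨a0, e0, r0⟩ := (Red.fun3 (fun A _ => zc0) (fun A B _ _ f => map_zc0 f) hc hx hy).congr
    (m := 11) h23 (by decide)
  rw [← e3, ← e2, ← e1, ← e0] at hF
  have hch := res_char h23
  have h12 : ((12 : ℤ) : IsLocalRing.ResidueField V) ≠ 0 := res_int_ne h23 (by
    rw [Int.isCoprime_iff_gcd_eq_one]; decide)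
  have main : ∀ z' : V, (z' : K) = z → Red V z 1 := by
    intro z' hz'
    subst hz'
    refine ⟨z', rfl, ?_⟩
    have h1 : a3 * z' ^ 3 + a2 * z' ^ 2 + a1 * z' + a0 = 0 := Subtype.ext hF
    have h2 := congrArg (IsLocalRing.residue V) h1
    rw [map_add, map_add, map_add, map_mul, map_mul, map_mul, map_pow, map_pow, map_zero,
      r3, r2, r1, r0] at h2
    have h3 : ((12 : ℤ) : IsLocalRing.ResidueField V) * (IsLocalRing.residue V z' - 1) ^ 3 = 0 := by
      push_cast at h2 ⊢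
      linear_combination h2 - (2 * (IsLocalRing.residue V z') ^ 2 -
        (IsLocalRing.residue V z') + 1) * hch
    have h4 := (mul_eq_zero.1 h3).resolve_left h12
    have h5 := pow_eq_zero_iff (three_ne_zero) |>.1 h4
    rw [sub_eq_zero.1 h5, Int.cast_one]
  rcases V.mem_or_inv_mem z with hz | hz
  · exact main ⟨z, hz⟩ rfl
  · by_cases hu : IsUnit (⟨z⁻¹, hz⟩ : V)
    · obtain ⟨u, hu⟩ := hu
      have h1 : (((u⁻¹ : Vˣ) : V) : K) = z := by
        have h2 : (((u⁻¹ : Vˣ) : V) : K) * ((u : V) : K) = 1 := by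
          have h3 : ((u⁻¹ : Vˣ) : V) * (u : V) = 1 := u.inv_mul
          exact congrArg Subtype.val h3
        rw [hu] at h2
        have h4 : z⁻¹ ≠ 0 := by
          intro h5
          rw [show (((⟨z⁻¹, hz⟩ : V) : V) : K) = z⁻¹ from rfl, h5, mul_zero] at h2
          exact zero_ne_one h2
        have h6 := eq_inv_of_mul_eq_one_left h2
        rw [h6]
        change (z⁻¹)⁻¹ = z
        exact inv_inv z
      exact main _ h1
    · exfalso
      have ht : IsLocalRing.residue V ⟨z⁻¹, hz⟩ = 0 := by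
        by_contra h
        exact hu ((IsLocalRing.residue_ne_zero_iff_isUnit _).1 h)
      by_cases hz0 : z = 0
      · have h1 : (a0 : K) = 0 := by
          rw [hz0] at hF
          linear_combination hF
        have h2 : a0 = 0 := Subtype.ext h1
        rw [h2, map_zero] at r0
        exact res_int_ne h23 (n := 11) (by rw [Int.isCoprime_iff_gcd_eq_one]; decide) r0.symm
      · have h1 : a3 + a2 * (⟨z⁻¹, hz⟩ : V) + a1 * (⟨z⁻¹, hz⟩ : V) ^ 2 +
            a0 * (⟨z⁻¹, hz⟩ : V) ^ 3 = 0 := by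
          apply Subtype.ext
          change (a3 : K) + a2 * z⁻¹ + a1 * z⁻¹ ^ 2 + a0 * z⁻¹ ^ 3 = 0
          have h3 : (z ^ 3) * ((a3 : K) + a2 * z⁻¹ + a1 * z⁻¹ ^ 2 + a0 * z⁻¹ ^ 3) = 0 := by
            rw [← hF]
            field_simp
          exact (mul_eq_zero.1 h3).resolve_left (pow_ne_zero 3 hz0)
        have h2 := congrArg (IsLocalRing.residue V) h1
        rw [map_add, map_add, map_add, map_mul, map_mul, map_mul, map_pow, map_pow, map_zero,
          r3, ht] at h2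
        apply h12
        linear_combination h2

/-- the value of `μ`, `ρ`, `R₃/R₂`, `R₄/R₂` at the place -/
theorem red_all (h23 : (23 : K) ∈ V.nonunits) (hc : Red V c 15) (hx : Red V x 8) (hy : Red V y 1)
    (hF : cgForm c x y z 1 = 0) :
    y ≠ 0 ∧ rr2 c x y z 1 ≠ 0 ∧ Red V (x * z / y) 8 ∧ Red V (rr1 c x y z 1 / rr2 c x y z 1) 9 ∧
    Red V (rr3 c x y z 1 / rr2 c x y z 1) 15 ∧ Red V (rr4 c x y z 1 / rr2 c x y z 1) 3 := by
  have hz := red_z h23 hc hx hy hF
  have h1 : Red V (1 : K) 1 := Red.one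
  have q1 := (Red.fun5 (fun A _ => rr1) (fun A B _ _ f => map_rr1 f) hc hx hy hz h1).congr
    (m := 16) h23 (by decide)
  have q2 := (Red.fun5 (fun A _ => rr2) (fun A B _ _ f => map_rr2 f) hc hx hy hz h1).congr
    (m := 12) h23 (by decide)
  have q3 := (Red.fun5 (fun A _ => rr3) (fun A B _ _ f => map_rr3 f) hc hx hy hz h1).congr
    (m := 19) h23 (by decide)
  have q4 := (Red.fun5 (fun A _ => rr4) (fun A B _ _ f => map_rr4 f) hc hx hy hz h1).congr
    (m := 13) h23 (by decide)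
  have c12 : IsCoprime (12 : ℤ) 23 := by rw [Int.isCoprime_iff_gcd_eq_one]; decide
  have c1 : IsCoprime (1 : ℤ) 23 := by rw [Int.isCoprime_iff_gcd_eq_one]; decide
  refine ⟨hy.ne_zero h23 c1, q2.ne_zero h23 c12, ?_, ?_, ?_, ?_⟩
  · exact (hx.mul hz).div hy h23 c1 (by decide)
  · exact q1.div q2 h23 c12 (by decide)
  · exact q3.div q2 h23 c12 (by decide)
  · exact q4.div q2 h23 c12 (by decide)

end

end Vale.Agent.P297.H600
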