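import Vale.Agent.P297.H600.Lin
import Vale.Agent.P297.H600.RedZ
import Vale.Agent.P297.H600.Quartic

/-!
The quintic side: from `x`, `y`, `z` with `cgForm c x y z 1 = 0` to `m`, `r`, `θ`.
-/

set_option linter.unusedSectionVars false
set_option linter.unusedSimpArgs false

open IntermediateField

namespace Vale.Agent.P297.H600

open Vale.Agent.P297 Vale.Agent.P297.H839 Vale.Agent.P297.H109

section dets

variable {A : Type*} [CommRing A]

/-- `Y` replaced by `X` -/
def detXUV (c m r t3 t4 : A) : A :=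
  det3 (laX c t3 t4) (laU c r) (laV c m r) (lbX c m t3 t4) (lbU c m r) (lbV c m r)
    (leX c m r) (leU c m t3 t4) (leV c m t3 t4)

/-- `U` replaced by `X` -/
def detYXV (c m r t3 t4 : A) : A :=
  det3 (laY c m t3 t4) (laX c t3 t4) (laV c m r) (lbY c m t3 t4) (lbX c m t3 t4) (lbV c m r)
    (leY c m r) (leX c m r) (leV c m t3 t4)

/-- `V` replaced by `X` -/
def detYUX (c m r t3 t4 : A) : A :=
  det3 (laY c m t3 t4) (laU c r) (laX c t3 t4) (lbY c m t3 t4) (lbU c m r) (lbX c m t3 t4)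
    (leY c m r) (leU c m t3 t4) (leX c m r)

variable {B : Type*} [CommRing B] (f : A →+* B)

theorem map_detYUV (c m r t3 t4 : A) :
    f (detYUV c m r t3 t4) = detYUV (f c) (f m) (f r) (f t3) (f t4) := by
  simp only [detYUV, det3, laX, laY, laU, laV, lbX, lbY, lbU, lbV, leX, leY, leU, leV,
    map_add, map_mul, map_sub, map_neg, map_pow, map_one, map_ofNat]

theorem map_detXUV (c m r t3 t4 : A) :
    f (detXUV c m r t3 t4) = detXUV (f c) (f m) (f r) (f t3) (f t4) := by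
  simp only [detXUV, det3, laX, laY, laU, laV, lbX, lbY, lbU, lbV, leX, leY, leU, leV,
    map_add, map_mul, map_sub, map_neg, map_pow, map_one, map_ofNat]

theorem map_detYXV (c m r t3 t4 : A) :
    f (detYXV c m r t3 t4) = detYXV (f c) (f m) (f r) (f t3) (f t4) := by
  simp only [detYXV, det3, laX, laY, laU, laV, lbX, lbY, lbU, lbV, leX, leY, leU, leV,
    map_add, map_mul, map_sub, map_neg, map_pow, map_one, map_ofNat]

theorem map_detYUX (c m r t3 t4 : A) :
    f (detYUX c m r t3 t4) = detYUX (f c) (f m) (f r) (f t3) (f t4) := by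
  simp only [detYUX, det3, laX, laY, laU, laV, lbX, lbY, lbU, lbV, leX, leY, leU, leV,
    map_add, map_mul, map_sub, map_neg, map_pow, map_one, map_ofNat]

theorem map_dd (c m r : A) : f (dd c m r) = dd (f c) (f m) (f r) := by
  simp only [dd, map_add, map_mul, map_sub, map_neg, map_pow, map_one, map_ofNat]

theorem map_bb2 (c m r : A) : f (bb2 c m r) = bb2 (f c) (f m) (f r) := by
  simp only [bb2, map_add, map_mul, map_sub, map_neg, map_pow, map_one, map_ofNat]

/-- `1 + c - c²` -/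
def eec (c _m _r : A) : A := 1 + c - c ^ 2

theorem map_eec (c m r : A) : f (eec c m r) = eec (f c) (f m) (f r) := by
  simp only [eec, map_add, map_sub, map_pow, map_one]

end dets

variable {K : Type} [Field K] [Algebra ℂ K]

theorem mem_fun3 (g : ∀ (A : Type) [CommRing A], A → A → A → A)
    (hg : ∀ (A B : Type) [CommRing A] [CommRing B] (f : A →+* B) (a b c : A),
      f (g A a b c) = g B (f a) (f b) (f c))
    (M : IntermediateField ℂ K) {a b c : K} (ha : a ∈ M) (hb : b ∈ M) (hc : c ∈ M) :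
    g K a b c ∈ M := by
  have h := hg M K M.val.toRingHom ⟨a, ha⟩ ⟨b, hb⟩ ⟨c, hc⟩
  change M.val (g M ⟨a, ha⟩ ⟨b, hb⟩ ⟨c, hc⟩) = g K a b c at h
  rw [← h]
  exact (g M ⟨a, ha⟩ ⟨b, hb⟩ ⟨c, hc⟩).2

theorem mem_fun5 (g : ∀ (A : Type) [CommRing A], A → A → A → A → A → A)
    (hg : ∀ (A B : Type) [CommRing A] [CommRing B] (f : A →+* B) (a b c d e : A),
      f (g A a b c d e) = g B (f a) (f b) (f c) (f d) (f e))
    (M : IntermediateField ℂ K) {a b c d e : K} (ha : a ∈ M) (hb : b ∈ M) (hc : c ∈ M)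
    (hd : d ∈ M) (he : e ∈ M) : g K a b c d e ∈ M := by
  have h := hg M K M.val.toRingHom ⟨a, ha⟩ ⟨b, hb⟩ ⟨c, hc⟩ ⟨d, hd⟩ ⟨e, he⟩
  change M.val (g M ⟨a, ha⟩ ⟨b, hb⟩ ⟨c, hc⟩ ⟨d, hd⟩ ⟨e, he⟩) = g K a b c d e at h
  rw [← h]
  exact (g M ⟨a, ha⟩ ⟨b, hb⟩ ⟨c, hc⟩ ⟨d, hd⟩ ⟨e, he⟩).2

/-- generation of the field by `m`, `r`, `θ` -/
theorem gens_top {c x y z m r t3 t4 : K} (M : IntermediateField ℂ K) (hcM : c ∈ M) (hm : m ∈ M)
    (hr : r ∈ M) (h3 : t3 ∈ M) (h4 : t4 ∈ M) (hD : detYUV c m r t3 t4 ≠ 0)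
    (ha : (x + z) * laX c t3 t4 + (y + 1) * laY c m t3 t4 + (x - z) * laU c r +
      (y - 1) * laV c m r = 0)
    (hb : (x + z) * lbX c m t3 t4 + (y + 1) * lbY c m t3 t4 + (x - z) * lbU c m r +
      (y - 1) * lbV c m r = 0)
    (he : (x + z) * leX c m r + (y + 1) * leY c m r + (x - z) * leU c m t3 t4 +
      (y - 1) * leV c m t3 t4 = 0) : x ∈ M ∧ y ∈ M ∧ z ∈ M := by
  have : CharZero K := charZero_of_injective_algebraMap (algebraMap ℂ K).injective
  obtain ⟨k1, k2, k3⟩ := cramer ha hb he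
  have m0 := mem_fun5 (fun A _ => detYUV) (fun A B _ _ f => map_detYUV f) M hcM hm hr h3 h4
  have m1 := mem_fun5 (fun A _ => detXUV) (fun A B _ _ f => map_detXUV f) M hcM hm hr h3 h4
  have m2 := mem_fun5 (fun A _ => detYXV) (fun A B _ _ f => map_detYXV f) M hcM hm hr h3 h4
  have m3 := mem_fun5 (fun A _ => detYUX) (fun A B _ _ f => map_detYUX f) M hcM hm hr h3 h4
  change (y + 1) * detYUV c m r t3 t4 = -((x + z) * detXUV c m r t3 t4) at k1
  change (x - z) * detYUV c m r t3 t4 = -((x + z) * detYXV c m r t3 t4) at k2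
  change (y - 1) * detYUV c m r t3 t4 = -((x + z) * detYUX c m r t3 t4) at k3
  generalize detYUV c m r t3 t4 = D at *
  generalize detXUV c m r t3 t4 = D1 at *
  generalize detYXV c m r t3 t4 = D2 at *
  generalize detYUX c m r t3 t4 = D3 at *
  have k4 : (x + z) * (D3 - D1) = 2 * D := by linear_combination k3 - k1
  have k5 : D3 - D1 ≠ 0 := by
    intro h
    rw [h, mul_zero] at k4
    exact mul_ne_zero two_ne_zero hD k4.symm
  have k6 : x + z = 2 * D / (D3 - D1) := by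
    rw [eq_div_iff k5]
    exact k4
  have k7 : x + z ∈ M := by
    rw [k6]
    exact div_mem (mul_mem (ofNat_mem M 2) m0) (sub_mem m3 m1)
  have k8 : y + 1 = -((x + z) * D1) / D := by
    rw [eq_div_iff hD]
    exact k1
  have k9 : x - z = -((x + z) * D2) / D := by
    rw [eq_div_iff hD]
    exact k2
  have k10 : y + 1 ∈ M := by
    rw [k8]
    exact div_mem (neg_mem (mul_mem k7 m1)) m0
  have k11 : x - z ∈ M := by
    rw [k9]
    exact div_mem (neg_mem (mul_mem k7 m2)) m0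
  refine ⟨?_, ?_, ?_⟩
  · have h : x = ((x + z) + (x - z)) / 2 := by ring
    rw [h]
    exact div_mem (add_mem k7 k11) (ofNat_mem M 2)
  · have h : y = (y + 1) - 1 := by ring
    rw [h]
    exact sub_mem k10 (one_mem M)
  · have h : z = ((x + z) - (x - z)) / 2 := by ring
    rw [h]
    exact div_mem (sub_mem k7 k11) (ofNat_mem M 2)

/-- **The quintic side.** -/
theorem quintic_side {s : ℂ} (hs : s ^ 3 - s ^ 2 + 1 = 0) {x y z : K}
    (hxy : AlgebraicIndependent ℂ ![x, y])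
    (hgen : IntermediateField.adjoin ℂ {x, y, z} = ⊤)
    (hF : cgForm (algebraMap ℂ K s) x y z 1 = 0) :
    ∃ m r θ : K, AlgebraicIndependent ℂ ![m, r] ∧
      gam (algebraMap ℂ K s) m r * θ ^ 4 - 2 * pp0 (algebraMap ℂ K s) m r * θ ^ 2 +
        hh (algebraMap ℂ K s) m r ^ 2 = 0 ∧
      IntermediateField.adjoin ℂ {m, r} ⊔ IntermediateField.adjoin ℂ {θ} = ⊤ := by
  obtain ⟨V, h23, h15, h8, h1⟩ := exists_place hs hxy
  have hc : (algebraMap ℂ K s) ^ 3 - (algebraMap ℂ K s) ^ 2 + 1 = 0 := by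
    rw [← map_pow, ← map_pow, ← map_sub, ← map_one (algebraMap ℂ K), ← map_add, hs, map_zero]
  have hcM : ∀ M : IntermediateField ℂ K, algebraMap ℂ K s ∈ M := fun M => M.algebraMap_mem s
  generalize algebraMap ℂ K s = c at *
  have qc : Red V c 15 := red_of_sub (by push_cast; exact h15)
  have qx : Red V x 8 := red_of_sub (by push_cast; exact h8)
  have qy : Red V y 1 := red_of_sub (by push_cast; exact h1)
  obtain ⟨hy, h2, qm, qr, q3, q4⟩ := red_all h23 qc qx qy hF
  obtain ⟨m, hm⟩ : ∃ m, m = x * z / y := ⟨_, rfl⟩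
  obtain ⟨r, hr⟩ : ∃ r, r = rr1 c x y z 1 / rr2 c x y z 1 := ⟨_, rfl⟩
  obtain ⟨t3, h3⟩ : ∃ t3, t3 = rr3 c x y z 1 / rr2 c x y z 1 := ⟨_, rfl⟩
  obtain ⟨t4, h4⟩ : ∃ t4, t4 = rr4 c x y z 1 / rr2 c x y z 1 := ⟨_, rfl⟩
  obtain ⟨e1, ea, eb, ee⟩ := rels_div hc hF hy h2 hm hr h3 h4
  have e2 := relK_div hc hF hy h2 hm hr h3 h4
  rw [← hm] at qm
  rw [← hr] at qr
  rw [← h3] at q3
  rw [← h4] at q4
  have cop : ∀ n : ℤ, Int.gcd n 23 = 1 → IsCoprime n 23 := fun n h =>
    Int.isCoprime_iff_gcd_eq_one.2 h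
  have hm0 : m ≠ 0 := qm.ne_zero h23 (cop 8 (by decide))
  have h40 : t4 ≠ 0 := q4.ne_zero h23 (cop 3 (by decide))
  have hdd : dd c m r ≠ 0 := ((Red.fun3 (fun A _ => dd) (fun A B _ _ f => map_dd f) qc qm qr).congr
    (m := 14) h23 (by decide)).ne_zero h23 (cop 14 (by decide))
  have hgam : gam c m r ≠ 0 := ((Red.fun3 (fun A _ => gam) (fun A B _ _ f => map_gam f)
    qc qm qr).congr (m := 18) h23 (by decide)).ne_zero h23 (cop 18 (by decide))
  have hee : 1 + c - c ^ 2 ≠ 0 := ((Red.fun3 (fun A _ => eec) (fun A B _ _ f => map_eec f)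
    qc qm qr).congr (m := 21) h23 (by decide)).ne_zero h23 (cop 21 (by decide))
  have hD : detYUV c m r t3 t4 ≠ 0 := ((Red.fun5 (fun A _ => detYUV)
    (fun A B _ _ f => map_detYUV f) qc qm qr q3 q4).congr
    (m := 16) h23 (by decide)).ne_zero h23 (cop 16 (by decide))
  have hq := quartic_rel c m r t3 t4 hc hm0 hee e1 e2
  have he1 := (mul_eq_zero.1 (elim1 c m r t3 t4 hc e1 e2)).resolve_left hm0
  have htop : IntermediateField.adjoin ℂ {m, r} ⊔ IntermediateField.adjoin ℂ {t4} = ⊤ := by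
    obtain ⟨M, hM⟩ : ∃ M, IntermediateField.adjoin ℂ {m, r} ⊔ IntermediateField.adjoin ℂ {t4} = M :=
      ⟨_, rfl⟩
    have hle : IntermediateField.adjoin ℂ {m, r} ≤ M := by rw [← hM]; exact le_sup_left
    have mm : m ∈ M := hle (IntermediateField.subset_adjoin _ _ (by simp))
    have mr : r ∈ M := hle (IntermediateField.subset_adjoin _ _ (by simp))
    have m4 : t4 ∈ M := by rw [← hM]; exact mem_sup_adjoin _ _
    have mc := hcM M
    have n0 := mem_fun3 (fun A _ => dd) (fun A B _ _ f => map_dd f) M mc mm mr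
    have n1 := mem_fun3 (fun A _ => bb2) (fun A B _ _ f => map_bb2 f) M mc mm mr
    have n2 := mem_fun3 (fun A _ => hh) (fun A B _ _ f => map_hh f) M mc mm mr
    have n3 := mem_fun3 (fun A _ => eec) (fun A B _ _ f => map_eec f) M mc mm mr
    have m3 : t3 ∈ M := by
      have h : t3 = (bb2 c m r * t4 ^ 2 + eec c m r * hh c m r) / (dd c m r * t4) := by
        rw [eq_div_iff (mul_ne_zero hdd h40)]
        unfold eec
        linear_combination he1
      rw [h]
      exact div_mem (add_mem (mul_mem n1 (pow_mem m4 2)) (mul_mem n3 n2)) (mul_mem n0 m4)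
    obtain ⟨mx, my, mz⟩ := gens_top M mc mm mr m3 m4 hD ea eb ee
    rw [hM, eq_top_iff, ← hgen, IntermediateField.adjoin_le_iff]
    rintro a (ha | ha | ha)
    · rw [ha]; exact mx
    · rw [ha]; exact my
    · rw [Set.mem_singleton_iff.1 ha]; exact mz
  refine ⟨m, r, t4, ?_, hq, htop⟩
  refine indep_of_algebraic hxy ?_
  rw [range_pair]
  obtain ⟨L, hL⟩ : ∃ L, IntermediateField.adjoin ℂ {m, r} = L := ⟨_, rfl⟩
  rw [hL]
  have mm : m ∈ L := by rw [← hL]; exact IntermediateField.subset_adjoin _ _ (by simp)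
  have mr : r ∈ L := by rw [← hL]; exact IntermediateField.subset_adjoin _ _ (by simp)
  have mc := hcM L
  have n0 : gam c m r ∈ L := mem_fun3 (fun A _ => gam) (fun A B _ _ f => map_gam f) L mc mm mr
  have n1 : pp0 c m r ∈ L := mem_fun3 (fun A _ => pp0) (fun A B _ _ f => map_pp0 f) L mc mm mr
  have n2 : hh c m r ∈ L := mem_fun3 (fun A _ => hh) (fun A B _ _ f => map_hh f) L mc mm mr
  rw [hL] at htop
  intro i
  refine Vale.Agent.P297.isAlgebraic_of_gens L ((L : Set K) ∪ {t4}) (adjoin_union_singleton L t4 htop) ?_ _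
  rintro a (ha | ha)
  · exact isAlgebraic_mem _ _ ha
  · rw [Set.mem_singleton_iff.1 ha]
    refine ⟨Polynomial.C (⟨gam c m r, n0⟩ : L) * Polynomial.X ^ 4 -
      Polynomial.C (2 * ⟨pp0 c m r, n1⟩ : L) * Polynomial.X ^ 2 +
      Polynomial.C (⟨hh c m r, n2⟩ ^ 2 : L), ?_, ?_⟩
    · intro h
      have h5 := congrArg (fun p => Polynomial.coeff p 4) h
      simp only [Polynomial.coeff_add, Polynomial.coeff_sub, Polynomial.coeff_C_mul,
        Polynomial.coeff_X_pow, Polynomial.coeff_C, Polynomial.coeff_zero] at h5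
      norm_num at h5
      exact hgam (congrArg Subtype.val h5)
    · simp only [map_add, map_sub, map_pow, Polynomial.aeval_X, map_mul, Polynomial.aeval_C]
      rw [← hq]
      rfl

end Vale.Agent.P297.H600
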