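import Vale.Agent.P297.H600.RDefs
import Vale.Agent.P297.H212.KIds
import Mathlib.Tactic.LinearCombination

/-!
The quadratic and the cubic relation, from the identities checked in `H212/KIds.lean`.
-/

namespace Vale.Agent.P297.H600

variable {K : Type} [CommRing K]

theorem rr1_eq (c x y z : K) : H212.rr1 c x y z = rr1 c x y z 1 := by
  unfold H212.rr1 rr1
  ring

theorem rr2_eq (c x y z : K) : H212.rr2 c x y z = rr2 c x y z 1 := by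
  unfold H212.rr2 rr2
  ring

theorem rr3_eq (c x y z : K) : H212.rr3 c x y z = rr3 c x y z 1 := by
  unfold H212.rr3 rr3
  ring

theorem rr4_eq (c x y z : K) : H212.rr4 c x y z = rr4 c x y z 1 := by
  unfold H212.rr4 rr4
  ring

/-- **The quadratic relation.** -/
theorem rel_q (c x y z : K) (hc : c ^ 3 - c ^ 2 + 1 = 0) (hF : cgForm c x y z 1 = 0) :
    rr3 c x y z 1 ^ 2 * (-y ^ 3 + (4 + 5 * c + c ^ 2) * (x * z) * y ^ 2 +
        (3 + c - 4 * c ^ 2) * (x * z) ^ 2 * y) +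
    rr3 c x y z 1 * rr4 c x y z 1 * ((2 - 8 * c ^ 2) * (x * z) * y ^ 2 +
        (2 - 8 * c ^ 2) * (x * z) ^ 2 * y) +
    rr4 c x y z 1 ^ 2 * ((-3 - c + 4 * c ^ 2) * (x * z) * y ^ 2 +
        (-4 - 5 * c - c ^ 2) * (x * z) ^ 2 * y + (x * z) ^ 3) +
    rr1 c x y z 1 ^ 2 * (y ^ 3 + (-c + 3 * c ^ 2) * (x * z) * y ^ 2 +
        (-3 + 3 * c - 4 * c ^ 2) * (x * z) ^ 2 * y) +
    rr1 c x y z 1 * rr2 c x y z 1 * ((2 - 8 * c + 8 * c ^ 2) * (x * z) * y ^ 2 +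
        (-2 + 8 * c - 8 * c ^ 2) * (x * z) ^ 2 * y) +
    rr2 c x y z 1 ^ 2 * ((3 - 3 * c + 4 * c ^ 2) * (x * z) * y ^ 2 +
        (c - 3 * c ^ 2) * (x * z) ^ 2 * y - (x * z) ^ 3) = 0 := by
  have h := H212.idQ (c := c) (by linear_combination hc) x y z
  rw [hF, mul_zero, rr1_eq, rr2_eq, rr3_eq, rr4_eq] at h
  unfold H212.qa H212.qb0 H212.qb1 H212.qb2 at h
  generalize rr1 c x y z 1 = R1 at *
  generalize rr2 c x y z 1 = R2 at *
  generalize rr3 c x y z 1 = R3 at *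
  generalize rr4 c x y z 1 = R4 at *
  linear_combination h

/-- **The cubic relation.** -/
theorem rel_k (c x y z : K) (hc : c ^ 3 - c ^ 2 + 1 = 0) (hF : cgForm c x y z 1 = 0) :
    rr1 c x y z 1 ^ 3 * (y ^ 2 + (-3 * c + 3 * c ^ 2) * (x * z) * y) +
    rr1 c x y z 1 ^ 2 * rr2 c x y z 1 *
      (c ^ 2 * y ^ 2 + (4 - 10 * c + 5 * c ^ 2) * (x * z) * y) +
    rr1 c x y z 1 * rr2 c x y z 1 ^ 2 *
      ((4 - 10 * c + 5 * c ^ 2) * (x * z) * y + c ^ 2 * (x * z) ^ 2) +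
    rr2 c x y z 1 ^ 3 * ((-3 * c + 3 * c ^ 2) * (x * z) * y + (x * z) ^ 2) +
    rr1 c x y z 1 * rr3 c x y z 1 ^ 2 * (-y ^ 2 + (-4 - 5 * c + c ^ 2) * (x * z) * y) +
    rr1 c x y z 1 * rr3 c x y z 1 * rr4 c x y z 1 * ((-6 + 10 * c ^ 2) * (x * z) * y) +
    rr1 c x y z 1 * rr4 c x y z 1 ^ 2 *
      ((2 + 2 * c + c ^ 2) * (x * z) * y - c ^ 2 * (x * z) ^ 2) +
    rr2 c x y z 1 * rr3 c x y z 1 ^ 2 * (-c ^ 2 * y ^ 2 + (2 + 2 * c + c ^ 2) * (x * z) * y) +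
    rr2 c x y z 1 * rr3 c x y z 1 * rr4 c x y z 1 * ((6 - 10 * c ^ 2) * (x * z) * y) +
    rr2 c x y z 1 * rr4 c x y z 1 ^ 2 *
      ((-4 - 5 * c + c ^ 2) * (x * z) * y - (x * z) ^ 2) = 0 := by
  have h := H212.idK (c := c) (by linear_combination hc) x y z
  rw [hF, mul_zero, rr1_eq, rr2_eq, rr3_eq, rr4_eq] at h
  unfold H212.ka H212.kb0 H212.kb1 H212.kb2 at h
  generalize rr1 c x y z 1 = R1 at *
  generalize rr2 c x y z 1 = R2 at *
  generalize rr3 c x y z 1 = R3 at *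
  generalize rr4 c x y z 1 = R4 at *
  linear_combination h

end Vale.Agent.P297.H600
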