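import Vale.Agent.P297.H600.Rel1
import Vale.Agent.P297.H600.RelQK
import Vale.Agent.P297.H600.Elim
import Mathlib.FieldTheory.IntermediateField.Basic

/-!
The relations divided by the powers of `y` and `R₂`; Cramer's rule.
-/

namespace Vale.Agent.P297.H600

section forms

variable {A : Type*} [CommRing A]

def laU (c r : A) : A := -(1 + c + c ^ 2) * r + (2 * c - 1)
def laV (c m r : A) : A := (c ^ 2 - 2 * c - 1) * r - 1 - (1 + c - 2 * c ^ 2) * m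
def laX (c t3 t4 : A) : A := (1 + c + c ^ 2) * t3 + (3 + 2 * c - 2 * c ^ 2) * t4
def laY (c m t3 t4 : A) : A := (1 + 3 * c ^ 2) * t3 + t4 + (1 + c - 2 * c ^ 2) * (m * t4)

def lbX (c m t3 t4 : A) : A :=
  m * t3 - (1 + 3 * c ^ 2) * (m * t4) + (1 + c - 2 * c ^ 2) * t3
def lbY (c m t3 t4 : A) : A := (3 + 2 * c - 2 * c ^ 2) * (m * t3) - (1 + c + c ^ 2) * (m * t4)
def lbU (c m r : A) : A := -(m * r) + (c ^ 2 - 2 * c - 1) * m - (1 + c - 2 * c ^ 2) * r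
def lbV (c m r : A) : A := (1 - 2 * c) * (m * r) + (1 + c + c ^ 2) * m

def leX (c m r : A) : A :=
  r * (1 + (-5 - 3 * c + 3 * c ^ 2) * m + (6 - 3 * c + c ^ 2) * m ^ 2 - (c + c ^ 2) * m ^ 3) +
  ((-1 + 3 * c - 2 * c ^ 2) * m + (16 - 26 * c + 9 * c ^ 2) * m ^ 2 +
    (-4 + 4 * c + c ^ 2) * m ^ 3)
def leY (c m r : A) : A :=
  r * ((4 - 4 * c - c ^ 2) * m + (-16 + 26 * c - 9 * c ^ 2) * m ^ 2 +
    (1 - 3 * c + 2 * c ^ 2) * m ^ 3) +
  ((c + c ^ 2) * m + (-6 + 3 * c - c ^ 2) * m ^ 2 + (5 + 3 * c - 3 * c ^ 2) * m ^ 3 - m ^ 4)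
def leU (c m t3 t4 : A) : A :=
  t3 * (-1 + (5 + 3 * c - 3 * c ^ 2) * m + (-6 + 3 * c - c ^ 2) * m ^ 2 + (c + c ^ 2) * m ^ 3) +
  t4 * ((-3 - c) * m + (8 * c - 9 * c ^ 2) * m ^ 2 + (2 - 2 * c + 3 * c ^ 2) * m ^ 3)
def leV (c m t3 t4 : A) : A :=
  t3 * ((2 - 2 * c + 3 * c ^ 2) * m + (8 * c - 9 * c ^ 2) * m ^ 2 - (3 + c) * m ^ 3) +
  t4 * (-(c + c ^ 2) * m + (6 - 3 * c + c ^ 2) * m ^ 2 + (-5 - 3 * c + 3 * c ^ 2) * m ^ 3 + m ^ 4)

/-- the determinant of a 3 × 3 matrix -/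
def det3 (a b c d e f g h i : A) : A :=
  a * (e * i - f * h) - b * (d * i - f * g) + c * (d * h - e * g)

/-- the determinant of the columns `Y`, `U`, `V` -/
def detYUV (c m r t3 t4 : A) : A :=
  det3 (laY c m t3 t4) (laU c r) (laV c m r) (lbY c m t3 t4) (lbU c m r) (lbV c m r)
    (leY c m r) (leU c m t3 t4) (leV c m t3 t4)

end forms

variable {K : Type} [Field K] {c x y z : K}

theorem rels_div (hc : c ^ 3 - c ^ 2 + 1 = 0) (hF : cgForm c x y z 1 = 0) (hy : y ≠ 0)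
    (h2 : rr2 c x y z 1 ≠ 0) {m r t3 t4 : K} (hm : m = x * z / y)
    (hr : r = rr1 c x y z 1 / rr2 c x y z 1) (ht3 : t3 = rr3 c x y z 1 / rr2 c x y z 1)
    (ht4 : t4 = rr4 c x y z 1 / rr2 c x y z 1) :
    relQ c m r t3 t4 = 0 ∧
    (x + z) * laX c t3 t4 + (y + 1) * laY c m t3 t4 + (x - z) * laU c r +
      (y - 1) * laV c m r = 0 ∧
    (x + z) * lbX c m t3 t4 + (y + 1) * lbY c m t3 t4 + (x - z) * lbU c m r +
      (y - 1) * lbV c m r = 0 ∧
    (x + z) * leX c m r + (y + 1) * leY c m r + (x - z) * leU c m t3 t4 +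
      (y - 1) * leV c m t3 t4 = 0 := by
  have e1 := rel_q c x y z hc hF
  have e3 := rel_a c x y z hc
  have e4 := rel_b c x y z hc
  have e5 := rel_e c x y z hc
  have k1 : x * z = m * y := by rw [hm, div_mul_cancel₀ _ hy]
  have k2 : rr1 c x y z 1 = r * rr2 c x y z 1 := by rw [hr, div_mul_cancel₀ _ h2]
  have k3 : rr3 c x y z 1 = t3 * rr2 c x y z 1 := by rw [ht3, div_mul_cancel₀ _ h2]
  have k4 : rr4 c x y z 1 = t4 * rr2 c x y z 1 := by rw [ht4, div_mul_cancel₀ _ h2]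
  rw [k2, k3, k4, k1] at e1 e3 e4 e5
  generalize rr2 c x y z 1 = R at *
  refine ⟨?_, ?_, ?_, ?_⟩
  · have h : (R ^ 2 * y ^ 3) * relQ c m r t3 t4 = 0 := by
      unfold relQ
      linear_combination e1
    exact (mul_eq_zero.1 h).resolve_left (mul_ne_zero (pow_ne_zero 2 h2) (pow_ne_zero 3 hy))
  · have h : (R * y) * ((x + z) * laX c t3 t4 + (y + 1) * laY c m t3 t4 + (x - z) * laU c r +
        (y - 1) * laV c m r) = 0 := by
      unfold laX laY laU laV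
      linear_combination e3
    exact (mul_eq_zero.1 h).resolve_left (mul_ne_zero h2 hy)
  · have h : (R * y) * ((x + z) * lbX c m t3 t4 + (y + 1) * lbY c m t3 t4 + (x - z) * lbU c m r +
        (y - 1) * lbV c m r) = 0 := by
      unfold lbX lbY lbU lbV
      linear_combination e4
    exact (mul_eq_zero.1 h).resolve_left (mul_ne_zero h2 hy)
  · have h : (R * y ^ 4) * ((x + z) * leX c m r + (y + 1) * leY c m r + (x - z) * leU c m t3 t4 +
        (y - 1) * leV c m t3 t4) = 0 := by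
      unfold leX leY leU leV
      linear_combination e5
    exact (mul_eq_zero.1 h).resolve_left (mul_ne_zero h2 (pow_ne_zero 4 hy))

theorem relK_div (hc : c ^ 3 - c ^ 2 + 1 = 0) (hF : cgForm c x y z 1 = 0)
    (hy : y ≠ 0)
    (h2 : rr2 c x y z 1 ≠ 0) {m r t3 t4 : K} (hm : m = x * z / y)
    (hr : r = rr1 c x y z 1 / rr2 c x y z 1) (ht3 : t3 = rr3 c x y z 1 / rr2 c x y z 1)
    (ht4 : t4 = rr4 c x y z 1 / rr2 c x y z 1) : relK c m r t3 t4 = 0 := by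
  have e2 := rel_k c x y z hc hF
  have k1 : x * z = m * y := by rw [hm, div_mul_cancel₀ _ hy]
  have k2 : rr1 c x y z 1 = r * rr2 c x y z 1 := by rw [hr, div_mul_cancel₀ _ h2]
  have k3 : rr3 c x y z 1 = t3 * rr2 c x y z 1 := by rw [ht3, div_mul_cancel₀ _ h2]
  have k4 : rr4 c x y z 1 = t4 * rr2 c x y z 1 := by rw [ht4, div_mul_cancel₀ _ h2]
  rw [k2, k3, k4, k1] at e2
  generalize rr2 c x y z 1 = R at *
  have h : (R ^ 3 * y ^ 2) * relK c m r t3 t4 = 0 := by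
    unfold relK
    linear_combination e2
  exact (mul_eq_zero.1 h).resolve_left (mul_ne_zero (pow_ne_zero 3 h2) (pow_ne_zero 2 hy))

/-- Cramer's rule: the solution of three homogeneous linear equations in four unknowns. -/
theorem cramer {a1 a2 a3 a4 b1 b2 b3 b4 e1 e2 e3 e4 X Y U V : K}
    (ha : X * a1 + Y * a2 + U * a3 + V * a4 = 0) (hb : X * b1 + Y * b2 + U * b3 + V * b4 = 0)
    (he : X * e1 + Y * e2 + U * e3 + V * e4 = 0) :
    Y * det3 a2 a3 a4 b2 b3 b4 e2 e3 e4 = -(X * det3 a1 a3 a4 b1 b3 b4 e1 e3 e4) ∧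
    U * det3 a2 a3 a4 b2 b3 b4 e2 e3 e4 = -(X * det3 a2 a1 a4 b2 b1 b4 e2 e1 e4) ∧
    V * det3 a2 a3 a4 b2 b3 b4 e2 e3 e4 = -(X * det3 a2 a3 a1 b2 b3 b1 e2 e3 e1) := by
  unfold det3
  refine ⟨?_, ?_, ?_⟩
  · linear_combination (b3 * e4 - b4 * e3) * ha - (a3 * e4 - a4 * e3) * hb +
      (a3 * b4 - a4 * b3) * he
  · linear_combination (-(b2 * e4 - b4 * e2)) * ha + (a2 * e4 - a4 * e2) * hb -
      (a2 * b4 - a4 * b2) * he
  · linear_combination (b2 * e3 - b3 * e2) * ha - (a2 * e3 - a3 * e2) * hb +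
      (a2 * b3 - a3 * b2) * he

theorem det3_mem {k A : Type*} [Field k] [Field A] [Algebra k A] (M : IntermediateField k A)
    {a b c d e f g h i : A} (ha : a ∈ M) (hb : b ∈ M) (hc : c ∈ M) (hd : d ∈ M) (he : e ∈ M)
    (hf : f ∈ M) (hg : g ∈ M) (hh : h ∈ M) (hi : i ∈ M) : det3 a b c d e f g h i ∈ M :=
  add_mem (sub_mem (mul_mem ha (sub_mem (mul_mem he hi) (mul_mem hf hh)))
    (mul_mem hb (sub_mem (mul_mem hd hi) (mul_mem hf hg))))
    (mul_mem hc (sub_mem (mul_mem hd hh) (mul_mem he hg)))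

end Vale.Agent.P297.H600
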