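import Vale.Agent.P297.H600.OneMain

/-!
The surfaces of type I: all points are rationally equivalent.
-/

set_option linter.unusedSectionVars false
set_option linter.style.haveILetI false

open IntermediateField

namespace Vale.Agent.P297.H600

open Vale.Agent.P297 Vale.Agent.P297.H839 Vale.Agent.P297.H109 Vale.Agent.P297.H729

section

variable {N : Type} [Field N] [Algebra ℂ N]

/-- the norm is not a square -/
theorem one_not_sq (D l₃ l₄ l₅ a : ℂ) (ha5 : a - l₅ ≠ 0) (haM : D * (a - l₃) * (a - l₄) ≠ 0)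
    (haD : D * (a - l₃) * (a - l₄) + a * (a - l₅) ≠ 0) {l τ : N}
    (hind : AlgebraicIndependent ℂ ![l, τ]) {N₁ M₁ : N} (hN₁ : N₁ = l - algebraMap ℂ N l₅)
    (hM₁ : M₁ = algebraMap ℂ N D * (l - algebraMap ℂ N l₃) * (l - algebraMap ℂ N l₄))
    (f : N) (hf : f ∈ IntermediateField.adjoin ℂ {l, τ}) :
    f ^ 2 ≠ (M₁ + l * N₁) ^ 2 * τ ^ 2 + -(2 * N₁ * (M₁ + l * N₁)) * τ + N₁ * (N₁ - 4 * M₁) := by
  obtain ⟨P, hP⟩ : ∃ P : MvPolynomial (Fin 2) ℂ, P =
    (MvPolynomial.C D * (MvPolynomial.X 0 - MvPolynomial.C l₃) *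
      (MvPolynomial.X 0 - MvPolynomial.C l₄) + MvPolynomial.X 0 *
      (MvPolynomial.X 0 - MvPolynomial.C l₅)) ^ 2 * MvPolynomial.X 1 ^ 2 +
    -(2 * (MvPolynomial.X 0 - MvPolynomial.C l₅) * (MvPolynomial.C D * (MvPolynomial.X 0 -
      MvPolynomial.C l₃) * (MvPolynomial.X 0 - MvPolynomial.C l₄) + MvPolynomial.X 0 *
      (MvPolynomial.X 0 - MvPolynomial.C l₅))) * MvPolynomial.X 1 +
    (MvPolynomial.X 0 - MvPolynomial.C l₅) * ((MvPolynomial.X 0 - MvPolynomial.C l₅) -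
      4 * (MvPolynomial.C D * (MvPolynomial.X 0 - MvPolynomial.C l₃) *
      (MvPolynomial.X 0 - MvPolynomial.C l₄))) := ⟨_, rfl⟩
  have h1 : MvPolynomial.aeval ![l, τ] P = (M₁ + l * N₁) ^ 2 * τ ^ 2 +
      -(2 * N₁ * (M₁ + l * N₁)) * τ + N₁ * (N₁ - 4 * M₁) := by
    rw [hP, hM₁, hN₁]
    simp only [map_sub, map_add, map_mul, map_pow, map_neg, map_ofNat, MvPolynomial.aeval_X,
      MvPolynomial.aeval_C, Matrix.cons_val_zero, Matrix.cons_val_one]
  rw [← h1]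
  refine Vale.Agent.P297.H424.not_square_of_spec hind P a ?_ f hf
  intro p
  have h2 : MvPolynomial.aeval ![Polynomial.C a, Polynomial.X] P =
      Polynomial.C ((D * (a - l₃) * (a - l₄) + a * (a - l₅)) ^ 2) * Polynomial.X ^ 2 +
      Polynomial.C (-(2 * (a - l₅) * (D * (a - l₃) * (a - l₄) + a * (a - l₅)))) * Polynomial.X +
      Polynomial.C ((a - l₅) * ((a - l₅) - 4 * (D * (a - l₃) * (a - l₄)))) := by
    rw [hP]
    simp only [map_sub, map_add, map_mul, map_pow, map_neg, map_ofNat, MvPolynomial.aeval_X,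
      MvPolynomial.aeval_C, Matrix.cons_val_zero, Matrix.cons_val_one,
      Polynomial.algebraMap_eq]
  rw [h2]
  refine Vale.Agent.P297.H424.quad_not_square ?_ p
  have h3 : (-(2 * (a - l₅) * (D * (a - l₃) * (a - l₄) + a * (a - l₅)))) ^ 2 -
      4 * (D * (a - l₃) * (a - l₄) + a * (a - l₅)) ^ 2 *
        ((a - l₅) * ((a - l₅) - 4 * (D * (a - l₃) * (a - l₄)))) =
      16 * ((D * (a - l₃) * (a - l₄) + a * (a - l₅)) ^ 2 * (a - l₅) *
        (D * (a - l₃) * (a - l₄))) := by ring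
  rw [h3]
  exact mul_ne_zero (by norm_num) (mul_ne_zero (mul_ne_zero (pow_ne_zero 2 haD) ha5) haM)

/-- the theorem inside an algebraically closed field -/
theorem one_mainN [IsAlgClosed N] {K : Type} [Field K] [Algebra ℂ K] (c D l₃ l₄ l₅ : ℂ)
    (hc : c ≠ 0) (hD : D ≠ 0) (hD1 : D ≠ -1) (hcd : 1 + c * (1 + D) ≠ 0)
    (ρ₁ ρ₂ ρ₃ : ℂ) (hρ : ρ₁ ≠ ρ₂) (hB1 : oB c D l₃ l₄ l₅ ρ₁ = 0)
    (hB2 : oB c D l₃ l₄ l₅ ρ₂ = 0) (hB3 : oB c D l₃ l₄ l₅ ρ₃ ≠ 0) (ξ τ y t : N)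
    (hind : AlgebraicIndependent ℂ ![ξ, τ])
    (halg : ∀ u : N, IsAlgebraic (IntermediateField.adjoin ℂ (Set.range ![ξ, τ])) u)
    (m : K →ₐ[ℂ] N) (hm : m.fieldRange = IntermediateField.adjoin ℂ {ξ, τ, y, t})
    (hy : y ^ 2 = oX ξ τ * oQ (algebraMap ℂ N c) (algebraMap ℂ N D) (algebraMap ℂ N l₃)
      (algebraMap ℂ N l₄) (algebraMap ℂ N l₅) ξ τ)
    (ht : t ^ 2 = oX ξ τ * (oG (algebraMap ℂ N c) (algebraMap ℂ N D) (algebraMap ℂ N l₃)
      (algebraMap ℂ N l₄) (algebraMap ℂ N l₅) ξ τ + 2 * y)) :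
    Finsupp.single m (8 : ℤ) ∈ stableRelations K N ∧
      IsRational (IntermediateField.adjoin ℂ {ξ, τ} ⊔ IntermediateField.adjoin ℂ {y} :
        IntermediateField ℂ N) := by
  have : CharZero N := charZero_of_injective_algebraMap (algebraMap ℂ N).injective
  obtain ⟨a, ha5, haM, haD⟩ := exists_pt_l D l₃ l₄ l₅ hD hD1
  have hτ0 : τ ≠ 0 := by
    refine nzp hind (MvPolynomial.X 1) 0 1 (gC := 1) ?_ ?_ one_ne_zero
    · simp
    · simp
  have hx0 : oX ξ τ ≠ 0 := by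
    refine nzp hind (MvPolynomial.X 0 - 1 - MvPolynomial.X 1) 0 0 (gC := -1) ?_ ?_ (by norm_num)
    · unfold oX; simp
    · simp
  have hW := one_wside c D l₃ l₄ l₅ ρ₁ ρ₂ ρ₃ hρ hB1 hB2 hB3 hind hy
  refine ⟨?_, hW⟩
  have hnid := norm_id (algebraMap ℂ N c) (oX ξ τ) (oN (algebraMap ℂ N l₅) ξ τ)
    (oM (algebraMap ℂ N D) (algebraMap ℂ N l₃) (algebraMap ℂ N l₄) ξ τ)
  obtain ⟨n, hn⟩ : ∃ n, n = oN (algebraMap ℂ N l₅) ξ τ ^ 2 * (1 + oX ξ τ) ^ 2 -
      2 * oM (algebraMap ℂ N D) (algebraMap ℂ N l₃) (algebraMap ℂ N l₄) ξ τ *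
        oN (algebraMap ℂ N l₅) ξ τ * (1 - oX ξ τ) +
      oM (algebraMap ℂ N D) (algebraMap ℂ N l₃) (algebraMap ℂ N l₄) ξ τ ^ 2 := ⟨_, rfl⟩
  obtain ⟨g, hg⟩ : ∃ g : N, g ^ 2 = n := IsAlgClosed.exists_pow_nat_eq _ two_pos
  obtain ⟨G, hG⟩ : ∃ G, G = oG (algebraMap ℂ N c) (algebraMap ℂ N D) (algebraMap ℂ N l₃)
      (algebraMap ℂ N l₄) (algebraMap ℂ N l₅) ξ τ := ⟨_, rfl⟩
  obtain ⟨Q, hQ⟩ : ∃ Q, Q = oQ (algebraMap ℂ N c) (algebraMap ℂ N D) (algebraMap ℂ N l₃)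
      (algebraMap ℂ N l₄) (algebraMap ℂ N l₅) ξ τ := ⟨_, rfl⟩
  have hkey : G ^ 2 - 4 * oX ξ τ * Q = n := by
    rw [hG, hQ, hn, ← hnid]
    rfl
  obtain ⟨ζ, hζ⟩ : ∃ ζ : N, ζ ^ 2 = oX ξ τ * (G + g) / 2 :=
    IsAlgClosed.exists_pow_nat_eq _ two_pos
  have hζ2 : 2 * ζ ^ 2 = oX ξ τ * (G + g) := by
    rw [hζ, mul_div_cancel₀ _ two_ne_zero]
  have hT := one_twin c D l₃ l₄ l₅ hc hD hD1 hcd hind halg (by rw [hg, hn]) (by rw [hζ2, hG])
  -- memberships
  have hξ1 : ξ ∈ IntermediateField.adjoin ℂ {ξ, τ} :=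
    IntermediateField.subset_adjoin _ _ (by simp)
  have hτ1 : τ ∈ IntermediateField.adjoin ℂ {ξ, τ} :=
    IntermediateField.subset_adjoin _ _ (by simp)
  have hXm : ∀ F : IntermediateField ℂ N, ξ ∈ F → τ ∈ F → oX ξ τ ∈ F := by
    intro F h1 h2
    exact sub_mem (sub_mem h1 (one_mem _)) h2
  have hNm : ∀ F : IntermediateField ℂ N, ξ ∈ F → τ ∈ F → oN (algebraMap ℂ N l₅) ξ τ ∈ F := by
    intro F h1 h2
    exact sub_mem h1 (mul_mem (F.algebraMap_mem _) (pow_mem h2 2))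
  have hMm : ∀ F : IntermediateField ℂ N, ξ ∈ F → τ ∈ F →
      oM (algebraMap ℂ N D) (algebraMap ℂ N l₃) (algebraMap ℂ N l₄) ξ τ ∈ F := by
    intro F h1 h2
    exact mul_mem (mul_mem (F.algebraMap_mem _) (sub_mem h1 (mul_mem (F.algebraMap_mem _)
      (pow_mem h2 2)))) (sub_mem h1 (mul_mem (F.algebraMap_mem _) (pow_mem h2 2)))
  have hGm : ∀ F : IntermediateField ℂ N, ξ ∈ F → τ ∈ F → G ∈ F := by
    intro F h1 h2
    rw [hG]
    exact sub_mem (sub_mem (add_mem (hNm F h1 h2) (mul_mem (mul_mem (ofNat_mem F 2)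
      (F.algebraMap_mem _)) (hXm F h1 h2))) (mul_mem (hXm F h1 h2) (hNm F h1 h2))) (hMm F h1 h2)
  have hnm : ∀ F : IntermediateField ℂ N, ξ ∈ F → τ ∈ F → n ∈ F := by
    intro F h1 h2
    rw [hn]
    exact add_mem (sub_mem (mul_mem (pow_mem (hNm F h1 h2) 2) (pow_mem (add_mem (one_mem _)
      (hXm F h1 h2)) 2)) (mul_mem (mul_mem (mul_mem (ofNat_mem F 2) (hMm F h1 h2)) (hNm F h1 h2))
      (sub_mem (one_mem _) (hXm F h1 h2)))) (pow_mem (hMm F h1 h2) 2)
  have hym : ∀ F : IntermediateField ℂ N, ξ ∈ F → τ ∈ F → t ^ 2 ∈ F → y ∈ F := by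
    intro F h1 h2 ht2
    have h3 : y = (t ^ 2 / oX ξ τ - G) / 2 := by
      rw [ht, ← hG]
      field_simp
      ring
    rw [h3]
    exact div_mem (sub_mem (div_mem ht2 (hXm F h1 h2)) (hGm F h1 h2)) (ofNat_mem F 2)
  -- the non-square
  obtain ⟨l, hl⟩ : ∃ l, l = ξ / τ ^ 2 := ⟨_, rfl⟩
  have hξl : ξ = l * τ ^ 2 := by rw [hl, div_mul_cancel₀ _ (pow_ne_zero 2 hτ0)]
  have hl1 : l ∈ IntermediateField.adjoin ℂ {l, τ} :=
    IntermediateField.subset_adjoin _ _ (by simp)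
  have hτ2 : τ ∈ IntermediateField.adjoin ℂ {l, τ} :=
    IntermediateField.subset_adjoin _ _ (by simp)
  have hξ2 : ξ ∈ IntermediateField.adjoin ℂ {l, τ} := by
    have h3 := mul_mem hl1 (pow_mem hτ2 2)
    rw [← hξl] at h3
    exact h3
  have hindlτ : AlgebraicIndependent ℂ ![l, τ] := by
    apply indep_of_algebraic hind
    intro i
    rw [range_pair]
    refine isAlgebraic_mem _ _ ?_
    fin_cases i
    · exact hξ2
    · exact hτ2
  have hle : IntermediateField.adjoin ℂ {ξ, τ} ≤ IntermediateField.adjoin ℂ {l, τ} := by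
    rw [IntermediateField.adjoin_le_iff]
    rintro b (hb | hb)
    · rw [hb]; exact hξ2
    · rw [Set.mem_singleton_iff.1 hb]; exact hτ2
  have hnsq := one_not_sq D l₃ l₄ l₅ a ha5 haM haD hindlτ rfl rfl
  have hnl : n = (τ ^ 3) ^ 2 * ((algebraMap ℂ N D * (l - algebraMap ℂ N l₃) *
      (l - algebraMap ℂ N l₄) + l * (l - algebraMap ℂ N l₅)) ^ 2 * τ ^ 2 +
      -(2 * (l - algebraMap ℂ N l₅) * (algebraMap ℂ N D * (l - algebraMap ℂ N l₃) *
      (l - algebraMap ℂ N l₄) + l * (l - algebraMap ℂ N l₅))) * τ +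
      (l - algebraMap ℂ N l₅) * ((l - algebraMap ℂ N l₅) -
        4 * (algebraMap ℂ N D * (l - algebraMap ℂ N l₃) * (l - algebraMap ℂ N l₄)))) := by
    rw [← norm_tau]
    have eN : oN (algebraMap ℂ N l₅) ξ τ = (l - algebraMap ℂ N l₅) * τ ^ 2 := by
      rw [oN, hξl]; ring
    have eM : oM (algebraMap ℂ N D) (algebraMap ℂ N l₃) (algebraMap ℂ N l₄) ξ τ =
        (algebraMap ℂ N D * (l - algebraMap ℂ N l₃) * (l - algebraMap ℂ N l₄)) * τ ^ 4 := by
      rw [oM, hξl]; ring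
    have eX : oX ξ τ = l * τ ^ 2 - 1 - τ := by rw [oX, hξl]
    rw [hn, eN, eM, eX]
  have hfin := quartic_stable (K := K) (m := m) (θ := t) (F := IntermediateField.adjoin ℂ {ξ, τ})
    (by
      have h3 : IntermediateField.adjoin ℂ {ξ, τ} =
        IntermediateField.adjoin ℂ (Set.range ![ξ, τ]) := by rw [range_pair]
      rw [h3]
      exact ⟨halg⟩) (oX ξ τ * G) (oX ξ τ ^ 2 * n) ζ (mul_mem (hXm _ hξ1 hτ1) (hGm _ hξ1 hτ1))
    (mul_mem (pow_mem (hXm _ hξ1 hτ1) 2) (hnm _ hξ1 hτ1)) ?_ ?_ ?_ ?_ 4 _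
    (IntermediateField.fieldRange_val _) hT ?_
  · exact hfin
  · rw [← hQ] at hy
    rw [← hG] at ht
    have e1 : t ^ 4 = (t ^ 2) ^ 2 := by ring
    rw [e1, ht]
    linear_combination (4 * oX ξ τ ^ 2) * hy - oX ξ τ ^ 2 * hkey
  · rw [hζ2]
    linear_combination oX ξ τ ^ 2 * hg
  · intro b hb hb2
    refine hnsq (b / (oX ξ τ * τ ^ 3)) (div_mem (hle hb) (mul_mem (hXm _ hξ2 hτ2)
      (pow_mem hτ2 3))) ?_
    rw [div_pow, hb2, hnl]
    field_simp
  · rw [hm]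
    apply le_antisymm
    · have hle' : IntermediateField.adjoin ℂ {ξ, τ} ≤ (IntermediateField.adjoin ℂ {ξ, τ} ⊔
        IntermediateField.adjoin ℂ {t} : IntermediateField ℂ N) := le_sup_left
      have ht1 := mem_sup_adjoin (IntermediateField.adjoin ℂ {ξ, τ}) t
      rw [IntermediateField.adjoin_le_iff]
      rintro b (hb | hb | hb | hb)
      · rw [hb]; exact hle' hξ1
      · rw [hb]; exact hle' hτ1
      · rw [hb]; exact hym _ (hle' hξ1) (hle' hτ1) (pow_mem ht1 2)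
      · rw [Set.mem_singleton_iff.1 hb]; exact ht1
    · refine sup_adjoin_le ?_ (IntermediateField.subset_adjoin _ _ (by simp))
      apply IntermediateField.adjoin.mono
      rintro b (hb | hb)
      · rw [hb]; simp
      · rw [Set.mem_singleton_iff.1 hb]; simp
  · have hEq : (IntermediateField.adjoin ℂ {ξ, τ} ⊔ IntermediateField.adjoin ℂ {t ^ 2} :
        IntermediateField ℂ N) =
        IntermediateField.adjoin ℂ {ξ, τ} ⊔ IntermediateField.adjoin ℂ {y} := by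
      apply le_antisymm
      · have hle' : IntermediateField.adjoin ℂ {ξ, τ} ≤ (IntermediateField.adjoin ℂ {ξ, τ} ⊔
          IntermediateField.adjoin ℂ {y} : IntermediateField ℂ N) := le_sup_left
        refine sup_adjoin_le hle' ?_
        rw [ht, ← hG]
        exact mul_mem (hXm _ (hle' hξ1) (hle' hτ1)) (add_mem (hle' (hGm _ hξ1 hτ1))
          (mul_mem (ofNat_mem _ 2) (mem_sup_adjoin _ y)))
      · have hle' : IntermediateField.adjoin ℂ {ξ, τ} ≤ (IntermediateField.adjoin ℂ {ξ, τ} ⊔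
          IntermediateField.adjoin ℂ {t ^ 2} : IntermediateField ℂ N) := le_sup_left
        exact sup_adjoin_le hle' (hym _ (hle' hξ1) (hle' hτ1) (mem_sup_adjoin _ (t ^ 2)))
    rw [hEq]
    exact hW

/-- **The family of type I.** -/
theorem one_main {K : Type} [Field K] [Algebra ℂ K] (c D l₃ l₄ l₅ : ℂ)
    (hc : c ≠ 0) (hD : D ≠ 0) (hD1 : D ≠ -1) (hcd : 1 + c * (1 + D) ≠ 0)
    (ρ₁ ρ₂ ρ₃ : ℂ) (hρ : ρ₁ ≠ ρ₂) (hB1 : oB c D l₃ l₄ l₅ ρ₁ = 0)
    (hB2 : oB c D l₃ l₄ l₅ ρ₂ = 0) (hB3 : oB c D l₃ l₄ l₅ ρ₃ ≠ 0) (ξ τ y t : K)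
    (hind : AlgebraicIndependent ℂ ![ξ, τ]) (htop : IntermediateField.adjoin ℂ {ξ, τ, y, t} = ⊤)
    (hy : y ^ 2 = oX ξ τ * oQ (algebraMap ℂ K c) (algebraMap ℂ K D) (algebraMap ℂ K l₃)
      (algebraMap ℂ K l₄) (algebraMap ℂ K l₅) ξ τ)
    (ht : t ^ 2 = oX ξ τ * (oG (algebraMap ℂ K c) (algebraMap ℂ K D) (algebraMap ℂ K l₃)
      (algebraMap ℂ K l₄) (algebraMap ℂ K l₅) ξ τ + 2 * y)) : PointsEquivalent K := by
  let N := AlgebraicClosure K
  let m : K →ₐ[ℂ] N := IsScalarTower.toAlgHom ℂ K N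
  have hinj : Function.Injective m := m.toRingHom.injective
  have hind' : AlgebraicIndependent ℂ ![m ξ, m τ] := by
    have h := hind.map' (f := m) hinj
    have h2 : (m ∘ ![ξ, τ]) = ![m ξ, m τ] := by
      funext i
      fin_cases i <;> rfl
    rwa [h2] at h
  have hm : m.fieldRange = IntermediateField.adjoin ℂ {m ξ, m τ, m y, m t} := by
    rw [AlgHom.fieldRange_eq_map, ← htop, IntermediateField.adjoin_map]
    congr 1
    simp only [Set.image_insert_eq, Set.image_singleton]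
  have hy' : (m y) ^ 2 = oX (m ξ) (m τ) * oQ (algebraMap ℂ N c) (algebraMap ℂ N D)
      (algebraMap ℂ N l₃) (algebraMap ℂ N l₄) (algebraMap ℂ N l₅) (m ξ) (m τ) := by
    have h0 := congrArg m hy
    have h1 := map_oQ (m : K →+* N) (algebraMap ℂ K c) (algebraMap ℂ K D) (algebraMap ℂ K l₃)
      (algebraMap ℂ K l₄) (algebraMap ℂ K l₅) ξ τ
    have h2 := map_oX (m : K →+* N) ξ τ
    simp only [RingHom.coe_coe, AlgHom.commutes] at h1 h2
    rw [map_pow, map_mul, h1, h2] at h0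
    exact h0
  have ht' : (m t) ^ 2 = oX (m ξ) (m τ) * (oG (algebraMap ℂ N c) (algebraMap ℂ N D)
      (algebraMap ℂ N l₃) (algebraMap ℂ N l₄) (algebraMap ℂ N l₅) (m ξ) (m τ) + 2 * m y) := by
    have h0 := congrArg m ht
    have h1 := map_oG (m : K →+* N) (algebraMap ℂ K c) (algebraMap ℂ K D) (algebraMap ℂ K l₃)
      (algebraMap ℂ K l₄) (algebraMap ℂ K l₅) ξ τ
    have h2 := map_oX (m : K →+* N) ξ τ
    simp only [RingHom.coe_coe, AlgHom.commutes] at h1 h2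
    rw [map_pow, map_mul, map_add, h1, h2, map_mul, map_ofNat] at h0
    exact h0
  -- `N` is algebraic over the rational field
  have halg : ∀ u : N, IsAlgebraic (IntermediateField.adjoin ℂ (Set.range ![m ξ, m τ])) u := by
    set L := IntermediateField.adjoin ℂ (Set.range ![m ξ, m τ]) with hL
    have hξL : m ξ ∈ L := mem_range_left _ _
    have hτL : m τ ∈ L := mem_range_right _ _
    have hcL : ∀ z : ℂ, algebraMap ℂ N z ∈ L := fun z => L.algebraMap_mem z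
    have hya : IsAlgebraic L (m y) := by
      apply isAlgebraic_sq
      rw [hy']
      refine isAlgebraic_mem _ _ ?_
      unfold oQ oX oN oM
      exact mul_mem (sub_mem (sub_mem hξL (one_mem _)) hτL) (sub_mem (mul_mem (add_mem
        (sub_mem hξL (mul_mem (hcL _) (pow_mem hτL 2))) (mul_mem (hcL _) (sub_mem (sub_mem hξL
        (one_mem _)) hτL))) (sub_mem (hcL _) (sub_mem hξL (mul_mem (hcL _) (pow_mem hτL 2)))))
        (mul_mem (hcL _) (mul_mem (mul_mem (hcL _) (sub_mem hξL (mul_mem (hcL _)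
        (pow_mem hτL 2)))) (sub_mem hξL (mul_mem (hcL _) (pow_mem hτL 2))))))
    have hta : IsAlgebraic L (m t) := by
      apply isAlgebraic_sq
      rw [ht']
      refine (isAlgebraic_mem _ _ ?_).mul ((isAlgebraic_mem _ _ ?_).add
        ((isAlgebraic_mem _ _ (ofNat_mem _ 2)).mul hya))
      · exact sub_mem (sub_mem hξL (one_mem _)) hτL
      · unfold oG oX oN oM
        exact sub_mem (sub_mem (add_mem (sub_mem hξL (mul_mem (hcL _) (pow_mem hτL 2)))
          (mul_mem (mul_mem (ofNat_mem _ 2) (hcL _)) (sub_mem (sub_mem hξL (one_mem _)) hτL)))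
          (mul_mem (sub_mem (sub_mem hξL (one_mem _)) hτL) (sub_mem hξL (mul_mem (hcL _)
          (pow_mem hτL 2))))) (mul_mem (mul_mem (hcL _) (sub_mem hξL (mul_mem (hcL _)
          (pow_mem hτL 2)))) (sub_mem hξL (mul_mem (hcL _) (pow_mem hτL 2))))
    refine alg_trans m.fieldRange L ?_ ?_
    · intro z
      obtain ⟨p, hp0, hp⟩ := Algebra.IsAlgebraic.isAlgebraic (R := K) z
      let e : K →+* m.fieldRange := (m.rangeRestrict).toRingHom
      refine ⟨p.map e, ?_, ?_⟩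
      · rw [Ne, Polynomial.map_eq_zero]
        exact hp0
      · rw [Polynomial.aeval_def, Polynomial.eval₂_map]
        exact hp
    · have hle : m.fieldRange ≤ (algebraicClosure L N).restrictScalars ℂ := by
        rw [hm, IntermediateField.adjoin_le_iff]
        rintro b (hb | hb | hb | hb)
        · rw [hb]; exact mem_algebraicClosure_iff.2 (isAlgebraic_mem _ _ hξL)
        · rw [hb]; exact mem_algebraicClosure_iff.2 (isAlgebraic_mem _ _ hτL)
        · rw [hb]; exact mem_algebraicClosure_iff.2 hya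
        · rw [Set.mem_singleton_iff.1 hb]; exact mem_algebraicClosure_iff.2 hta
      intro x hx
      exact mem_algebraicClosure_iff.1 (hle hx)
  obtain ⟨hS, hW⟩ := one_mainN c D l₃ l₄ l₅ hc hD hD1 hcd ρ₁ ρ₂ ρ₃ hρ hB1 hB2 hB3 (m ξ) (m τ)
    (m y) (m t) hind' halg m hm hy' ht'
  intro S _ f _ hSf x z
  refine criterion_stable_one (Ω := N) ?_ 3 hS f hSf x z
  -- `K` is a double cover of a rational surface
  refine ⟨IntermediateField.adjoin ℂ {ξ, τ} ⊔ IntermediateField.adjoin ℂ {y}, t, ?_, ?_, ?_⟩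
  · apply isRational_of_map m
    rw [IntermediateField.map_sup, IntermediateField.adjoin_map, IntermediateField.adjoin_map,
      Set.image_pair, Set.image_singleton]
    exact hW
  · have h1 : ξ ∈ (IntermediateField.adjoin ℂ {ξ, τ} ⊔ IntermediateField.adjoin ℂ {y} :
        IntermediateField ℂ K) :=
      (le_sup_left : IntermediateField.adjoin ℂ {ξ, τ} ≤ _)
        (IntermediateField.subset_adjoin _ _ (by simp))
    have h2 : τ ∈ (IntermediateField.adjoin ℂ {ξ, τ} ⊔ IntermediateField.adjoin ℂ {y} :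
        IntermediateField ℂ K) :=
      (le_sup_left : IntermediateField.adjoin ℂ {ξ, τ} ≤ _)
        (IntermediateField.subset_adjoin _ _ (by simp))
    have h3 := mem_sup_adjoin (IntermediateField.adjoin ℂ {ξ, τ}) y
    rw [ht]
    unfold oG oX oN oM
    have hcL := fun z : ℂ => (IntermediateField.adjoin ℂ {ξ, τ} ⊔ IntermediateField.adjoin ℂ {y} :
        IntermediateField ℂ K).algebraMap_mem z
    exact mul_mem (sub_mem (sub_mem h1 (one_mem _)) h2) (add_mem (sub_mem (sub_mem (add_mem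
      (sub_mem h1 (mul_mem (hcL _) (pow_mem h2 2)))
          (mul_mem (mul_mem (ofNat_mem _ 2) (hcL _)) (sub_mem (sub_mem h1 (one_mem _)) h2)))
          (mul_mem (sub_mem (sub_mem h1 (one_mem _)) h2) (sub_mem h1 (mul_mem (hcL _)
          (pow_mem h2 2))))) (mul_mem (mul_mem (hcL _) (sub_mem h1 (mul_mem (hcL _)
          (pow_mem h2 2)))) (sub_mem h1 (mul_mem (hcL _) (pow_mem h2 2)))))
          (mul_mem (ofNat_mem _ 2) h3))
  · rw [eq_top_iff, ← htop, IntermediateField.adjoin_le_iff]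
    rintro b (hb | hb | hb | hb)
    · rw [hb]
      exact IntermediateField.subset_adjoin _ _ (Or.inl
        ((le_sup_left : IntermediateField.adjoin ℂ {ξ, τ} ≤ _)
          (IntermediateField.subset_adjoin _ _ (by simp))))
    · rw [hb]
      exact IntermediateField.subset_adjoin _ _ (Or.inl
        ((le_sup_left : IntermediateField.adjoin ℂ {ξ, τ} ≤ _)
          (IntermediateField.subset_adjoin _ _ (by simp))))
    · rw [hb]
      exact IntermediateField.subset_adjoin _ _ (Or.inl (mem_sup_adjoin _ y))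
    · rw [Set.mem_singleton_iff.1 hb]
      exact IntermediateField.subset_adjoin _ _ (Or.inr rfl)

end

end Vale.Agent.P297.H600
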