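import Mathlib.Tactic.LinearCombination
import Mathlib.Tactic.Ring
import Mathlib.Tactic.FieldSimp
import Mathlib.Algebra.Field.Basic

/-!
Identities for the surfaces of type I.
-/

namespace Vale.Agent.P297.H600

section Ring

variable {R : Type*} [CommRing R]

/-- the polynomial `N` -/
def oN (l₅ ξ τ : R) : R := ξ - l₅ * τ ^ 2

/-- the polynomial `M` -/
def oM (D l₃ l₄ ξ τ : R) : R := D * (ξ - l₃ * τ ^ 2) * (ξ - l₄ * τ ^ 2)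

/-- the polynomial `x` -/
def oX (ξ τ : R) : R := ξ - 1 - τ

/-- the polynomial `q` -/
def oQ (c D l₃ l₄ l₅ ξ τ : R) : R :=
  (oN l₅ ξ τ + c * oX ξ τ) * (c - oN l₅ ξ τ) - c * oM D l₃ l₄ ξ τ

/-- the polynomial `G` -/
def oG (c D l₃ l₄ l₅ ξ τ : R) : R :=
  oN l₅ ξ τ + 2 * c * oX ξ τ - oX ξ τ * oN l₅ ξ τ - oM D l₃ l₄ ξ τ

theorem map_oN {S : Type*} [CommRing S] (φ : R →+* S) (l₅ ξ τ : R) :
    φ (oN l₅ ξ τ) = oN (φ l₅) (φ ξ) (φ τ) := by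
  simp only [oN, map_sub, map_mul, map_pow]

theorem map_oM {S : Type*} [CommRing S] (φ : R →+* S) (D l₃ l₄ ξ τ : R) :
    φ (oM D l₃ l₄ ξ τ) = oM (φ D) (φ l₃) (φ l₄) (φ ξ) (φ τ) := by
  simp only [oM, map_sub, map_mul, map_pow]

theorem map_oX {S : Type*} [CommRing S] (φ : R →+* S) (ξ τ : R) :
    φ (oX ξ τ) = oX (φ ξ) (φ τ) := by
  simp only [oX, map_sub, map_one]

theorem map_oQ {S : Type*} [CommRing S] (φ : R →+* S) (c D l₃ l₄ l₅ ξ τ : R) :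
    φ (oQ c D l₃ l₄ l₅ ξ τ) = oQ (φ c) (φ D) (φ l₃) (φ l₄) (φ l₅) (φ ξ) (φ τ) := by
  simp only [oQ, map_sub, map_add, map_mul, map_oN, map_oX, map_oM]

theorem map_oG {S : Type*} [CommRing S] (φ : R →+* S) (c D l₃ l₄ l₅ ξ τ : R) :
    φ (oG c D l₃ l₄ l₅ ξ τ) = oG (φ c) (φ D) (φ l₃) (φ l₄) (φ l₅) (φ ξ) (φ τ) := by
  simp only [oG, map_sub, map_add, map_mul, map_ofNat, map_oN, map_oX, map_oM]

theorem norm_id (c x N M : R) : (N + 2 * c * x - x * N - M) ^ 2 -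
    4 * x * ((N + c * x) * (c - N) - c * M) =
      N ^ 2 * (1 + x) ^ 2 - 2 * M * N * (1 - x) + M ^ 2 := by
  ring

/-- the norm in the coordinates `l`, `τ` -/
theorem norm_tau (N₁ M₁ l τ : R) :
    (N₁ * τ ^ 2) ^ 2 * (1 + (l * τ ^ 2 - 1 - τ)) ^ 2 -
      2 * (M₁ * τ ^ 4) * (N₁ * τ ^ 2) * (1 - (l * τ ^ 2 - 1 - τ)) + (M₁ * τ ^ 4) ^ 2 =
    (τ ^ 3) ^ 2 * ((M₁ + l * N₁) ^ 2 * τ ^ 2 + -(2 * N₁ * (M₁ + l * N₁)) * τ +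
      N₁ * (N₁ - 4 * M₁)) := by
  ring

/-- `-x v² D² = U X` -/
theorem x_id (l N₁ M₁ v : R) :
    v ^ 2 * (M₁ + l * N₁) ^ 2 + v * (M₁ + l * N₁) * (N₁ * v ^ 2 + N₁ * v + M₁) -
      l * (N₁ * v ^ 2 + N₁ * v + M₁) ^ 2 =
    (M₁ ^ 2 + M₁ * N₁ * v - l * N₁ ^ 2 * v ^ 2) * (v ^ 2 + v - l) := by
  ring

end Ring

section Field

variable {F : Type*} [Field F]

/-- the relation between `s`, `l`, `τ` -/
theorem rel_s {N₁ M₁ l τ s g : F} (h2 : (2 : F) ≠ 0) (hN : N₁ ≠ 0) (hτ : τ ≠ 0)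
    (hg : g = 2 * s * (N₁ * τ ^ 2) + M₁ * τ ^ 4 - N₁ * τ ^ 2 + (l * τ ^ 2 - 1 - τ) * (N₁ * τ ^ 2))
    (hg2 : g ^ 2 = (N₁ * τ ^ 2) ^ 2 * (1 + (l * τ ^ 2 - 1 - τ)) ^ 2 -
      2 * (M₁ * τ ^ 4) * (N₁ * τ ^ 2) * (1 - (l * τ ^ 2 - 1 - τ)) + (M₁ * τ ^ 4) ^ 2) :
    N₁ * (1 - s) ^ 2 + N₁ * (1 - s) * τ + (s * (M₁ + l * N₁) - N₁ * l) * τ ^ 2 = 0 := by
  have h4 : (4 : F) ≠ 0 := by
    have : (4 : F) = 2 * 2 := by norm_num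
    rw [this]
    exact mul_ne_zero h2 h2
  apply mul_left_cancel₀ (mul_ne_zero h4 (mul_ne_zero hN (pow_ne_zero 4 hτ)))
  rw [hg] at hg2
  linear_combination hg2

theorem rel_v {N₁ M₁ l τ s v : F} (hN : N₁ ≠ 0) (hM : M₁ ≠ 0) (hs : 1 - s ≠ 0)
    (h : N₁ * (1 - s) ^ 2 + N₁ * (1 - s) * τ + (s * (M₁ + l * N₁) - N₁ * l) * τ ^ 2 = 0)
    (hv : v * (N₁ * (1 - s)) = M₁ * τ) :
    v * (M₁ + l * N₁) * τ = N₁ * v ^ 2 + N₁ * v + M₁ ∧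
    s * ((M₁ + l * N₁) * N₁ * v ^ 2) = -(M₁ ^ 2 + M₁ * N₁ * v - l * N₁ ^ 2 * v ^ 2) := by
  have h1 : (1 - s) * ((M₁ + l * N₁) * N₁ * v ^ 2) = M₁ * (N₁ * v ^ 2 + N₁ * v + M₁) := by
    apply mul_left_cancel₀ (mul_ne_zero hN (pow_ne_zero 2 hs))
    linear_combination (-M₁ ^ 2) * h + (M₁ - (1 - s) * (M₁ + l * N₁)) * (-(v * (N₁ * (1 - s))) -
      M₁ * τ) * hv - N₁ * (1 - s) * M₁ * hv
  refine ⟨?_, ?_⟩
  · apply mul_left_cancel₀ hM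
    rw [← h1]
    linear_combination (-v * (M₁ + l * N₁)) * hv
  · linear_combination -h1

/-- the square of `y₁` -/
theorem y1_id {c l N₁ M₁ v τ s ζ x X U R D w ν y : F} (hD : D = M₁ + l * N₁)
    (hX : X = v ^ 2 + v - l) (hR : R = N₁ * v ^ 2 + N₁ * v + M₁)
    (hU : U = M₁ ^ 2 + M₁ * N₁ * v - l * N₁ ^ 2 * v ^ 2) (hD0 : D ≠ 0) (hX0 : X ≠ 0)
    (hR0 : R ≠ 0) (hU0 : U ≠ 0) (hv0 : v ≠ 0) (hN0 : N₁ ≠ 0)
    (hτ : v * D * τ = R) (hs : s * (D * N₁ * v ^ 2) = -U) (hx : x = l * τ ^ 2 - 1 - τ)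
    (hζ : ζ ^ 2 = x * (s * (N₁ * τ ^ 2) + c * x)) (hw : w = D / X) (hν : ν = v / (N₁ + w))
    (hy : y = ζ * D ^ 3 * v ^ 3 / (U * X * R)) :
    y ^ 2 = c * w ^ 2 * ν ^ 2 + 0 * ν + w := by
  have hRX : (N₁ + w) * X = R := by
    rw [hw, add_mul, div_mul_cancel₀ _ hX0, hD, hX, hR]
    ring
  have hNw : N₁ + w ≠ 0 := by
    intro h
    rw [h, zero_mul] at hRX
    exact hR0 hRX.symm
  have hν' : ν = v * X / R := by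
    rw [hν, ← hRX]
    field_simp
  have hτ' : τ = R / (v * D) := by
    rw [eq_div_iff (mul_ne_zero hv0 hD0)]
    linear_combination hτ
  have hs' : s = -U / (D * N₁ * v ^ 2) := by
    rw [eq_div_iff (mul_ne_zero (mul_ne_zero hD0 hN0) (pow_ne_zero 2 hv0))]
    exact hs
  have hx' : x = -(U * X) / (v ^ 2 * D ^ 2) := by
    have h1 := x_id l N₁ M₁ v
    rw [← hD, ← hR, ← hX, ← hU] at h1
    rw [hx, hτ', ← h1]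
    field_simp
    ring
  have hz : ζ ^ 2 = U ^ 2 * X * (R ^ 2 + c * v ^ 2 * D * X) / (v ^ 6 * D ^ 5) := by
    rw [hζ, hx', hs', hτ']
    field_simp
    ring
  rw [hy, div_pow, mul_pow, mul_pow, hz, hν', hw]
  field_simp
  ring

end Field

end Vale.Agent.P297.H600
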