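import Vale.Agent.P297.H600.Quartic
import Vale.Agent.P297.H424.Sq

/-!
Rational elliptic surfaces `V² = X (α X² + e(w) X + p(w) q(w))` with a two-torsion section.
-/

set_option linter.unusedSectionVars false

open IntermediateField

namespace Vale.Agent.P297.H600

open Vale.Agent.P297 Vale.Agent.P297.H839 Vale.Agent.P297.H109

section

variable {N : Type} [Field N] [Algebra ℂ N]

theorem nzp {x y : N} (h : AlgebraicIndependent ℂ ![x, y]) (P : MvPolynomial (Fin 2) ℂ) (a b : ℂ)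
    {g : N} {gC : ℂ} (h1 : MvPolynomial.aeval ![x, y] P = g)
    (h2 : MvPolynomial.aeval ![a, b] P = gC) (h3 : gC ≠ 0) : g ≠ 0 := by
  rw [← h1]
  exact Vale.Agent.P297.H424.ne_zero_of_point h P a b (by rwa [h2])

/-- **Rational elliptic surfaces with a two-torsion section.** -/
theorem res_rational (α p₂ p₁ p₀ q₂ q₁ q₀ e₂ e₁ e₀ w₀ u₀ : ℂ)
    (hp : p₂ * w₀ ^ 2 + p₁ * w₀ + p₀ ≠ 0)
    (hd : (α * p₁ * u₀ ^ 2 + e₁ * u₀ + q₁) ^ 2 - 4 * (α * p₂ * u₀ ^ 2 + e₂ * u₀ + q₂) *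
      (α * p₀ * u₀ ^ 2 + e₀ * u₀ + q₀) ≠ 0) {w X V : N} (hind : AlgebraicIndependent ℂ ![w, X])
    (hV : V ^ 2 = X * (algebraMap ℂ N α * X ^ 2 + (algebraMap ℂ N e₂ * w ^ 2 +
      algebraMap ℂ N e₁ * w + algebraMap ℂ N e₀) * X + (algebraMap ℂ N p₂ * w ^ 2 +
      algebraMap ℂ N p₁ * w + algebraMap ℂ N p₀) * (algebraMap ℂ N q₂ * w ^ 2 +
      algebraMap ℂ N q₁ * w + algebraMap ℂ N q₀))) :
    IsRational (IntermediateField.adjoin ℂ {w, X} ⊔ IntermediateField.adjoin ℂ {V} :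
      IntermediateField ℂ N) := by
  obtain ⟨P, hP⟩ : ∃ P : N, P = algebraMap ℂ N p₂ * w ^ 2 + algebraMap ℂ N p₁ * w +
    algebraMap ℂ N p₀ := ⟨_, rfl⟩
  have hP0 : P ≠ 0 := by
    rw [hP]
    refine nzp hind (MvPolynomial.C p₂ * MvPolynomial.X 0 ^ 2 + MvPolynomial.C p₁ *
      MvPolynomial.X 0 + MvPolynomial.C p₀) w₀ 0 ?_ ?_ hp
    · simp
    · simp
  have hX0 : X ≠ 0 := by
    refine nzp hind (MvPolynomial.X 1) 0 1 (gC := 1) ?_ ?_ one_ne_zero
    · simp
    · simp
  obtain ⟨u, hu⟩ : ∃ u : N, u = X / P := ⟨_, rfl⟩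
  have huP : u * P = X := by rw [hu, div_mul_cancel₀ _ hP0]
  have hu0 : u ≠ 0 := by rw [hu]; exact div_ne_zero hX0 hP0
  have hw1 : w ∈ IntermediateField.adjoin ℂ {w, X} :=
    IntermediateField.subset_adjoin _ _ (by simp)
  have hX1 : X ∈ IntermediateField.adjoin ℂ {w, X} :=
    IntermediateField.subset_adjoin _ _ (by simp)
  have hPmem : ∀ F : IntermediateField ℂ N, w ∈ F → P ∈ F := by
    intro F hF
    rw [hP]
    exact add_mem (add_mem (mul_mem (F.algebraMap_mem _) (pow_mem hF 2))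
      (mul_mem (F.algebraMap_mem _) hF)) (F.algebraMap_mem _)
  have hu2 : u ∈ IntermediateField.adjoin ℂ {u, w} :=
    IntermediateField.subset_adjoin _ _ (by simp)
  have hw2 : w ∈ IntermediateField.adjoin ℂ {u, w} :=
    IntermediateField.subset_adjoin _ _ (by simp)
  have hX2 : X ∈ IntermediateField.adjoin ℂ {u, w} := by
    rw [← huP]
    exact mul_mem hu2 (hPmem _ hw2)
  have hFF : IntermediateField.adjoin ℂ {w, X} = IntermediateField.adjoin ℂ {u, w} := by
    apply le_antisymm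
    · rw [IntermediateField.adjoin_le_iff]
      rintro a (rfl | ha)
      · exact hw2
      · rw [Set.mem_singleton_iff.1 ha]; exact hX2
    · rw [IntermediateField.adjoin_le_iff]
      rintro a (rfl | ha)
      · rw [hu]
        exact div_mem hX1 (hPmem _ hw1)
      · rw [Set.mem_singleton_iff.1 ha]; exact hw1
  have hind2 : AlgebraicIndependent ℂ ![u, w] := by
    apply indep_of_algebraic hind
    intro i
    rw [range_pair]
    refine isAlgebraic_mem _ _ ?_
    fin_cases i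
    · exact hw2
    · exact hX2
  have hconic : IsConicType (IntermediateField.adjoin ℂ {w, X}) V := by
    have huu : u ∈ ℂ⟮u⟯ := IntermediateField.mem_adjoin_simple_self ℂ u
    have hcm : ∀ c : ℂ, algebraMap ℂ N c ∈ ℂ⟮u⟯ := fun c => ℂ⟮u⟯.algebraMap_mem c
    refine ⟨u, w,
      u * (algebraMap ℂ N α * algebraMap ℂ N p₂ * u ^ 2 + algebraMap ℂ N e₂ * u +
        algebraMap ℂ N q₂),
      u * (algebraMap ℂ N α * algebraMap ℂ N p₁ * u ^ 2 + algebraMap ℂ N e₁ * u +
        algebraMap ℂ N q₁),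
      u * (algebraMap ℂ N α * algebraMap ℂ N p₀ * u ^ 2 + algebraMap ℂ N e₀ * u +
        algebraMap ℂ N q₀), P⁻¹, hind2, hFF, ?_, ?_, ?_, ?_, ?_, ?_, ?_⟩
    · exact mul_mem huu (add_mem (add_mem (mul_mem (mul_mem (hcm _) (hcm _)) (pow_mem huu 2))
        (mul_mem (hcm _) huu)) (hcm _))
    · exact mul_mem huu (add_mem (add_mem (mul_mem (mul_mem (hcm _) (hcm _)) (pow_mem huu 2))
        (mul_mem (hcm _) huu)) (hcm _))
    · exact mul_mem huu (add_mem (add_mem (mul_mem (mul_mem (hcm _) (hcm _)) (pow_mem huu 2))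
        (mul_mem (hcm _) huu)) (hcm _))
    · have h1 : (algebraMap ℂ N α * algebraMap ℂ N p₁ * u ^ 2 + algebraMap ℂ N e₁ * u +
          algebraMap ℂ N q₁) ^ 2 -
          4 * (algebraMap ℂ N α * algebraMap ℂ N p₂ * u ^ 2 + algebraMap ℂ N e₂ * u +
            algebraMap ℂ N q₂) *
          (algebraMap ℂ N α * algebraMap ℂ N p₀ * u ^ 2 + algebraMap ℂ N e₀ * u +
            algebraMap ℂ N q₀) ≠ 0 := by
        refine nzp hind2 ((MvPolynomial.C α * MvPolynomial.C p₁ * MvPolynomial.X 0 ^ 2 +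
          MvPolynomial.C e₁ * MvPolynomial.X 0 + MvPolynomial.C q₁) ^ 2 -
          4 * (MvPolynomial.C α * MvPolynomial.C p₂ * MvPolynomial.X 0 ^ 2 +
            MvPolynomial.C e₂ * MvPolynomial.X 0 + MvPolynomial.C q₂) *
          (MvPolynomial.C α * MvPolynomial.C p₀ * MvPolynomial.X 0 ^ 2 +
            MvPolynomial.C e₀ * MvPolynomial.X 0 + MvPolynomial.C q₀)) u₀ 0 ?_ ?_ hd
        · simp only [map_sub, map_add, map_mul, map_pow, map_ofNat, MvPolynomial.aeval_X,
            MvPolynomial.aeval_C, Matrix.cons_val_zero]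
        · simp only [map_sub, map_add, map_mul, map_pow, map_ofNat, MvPolynomial.aeval_X,
            MvPolynomial.aeval_C, Matrix.cons_val_zero, Algebra.algebraMap_self, RingHom.id_apply]
      intro h2
      apply h1
      apply mul_left_cancel₀ (pow_ne_zero 2 hu0)
      rw [mul_zero, ← h2]
      ring
    · exact inv_mem (hPmem _ hw1)
    · exact inv_ne_zero hP0
    · rw [mul_pow, hV, ← hP, inv_pow, inv_mul_eq_iff_eq_mul₀ (pow_ne_zero 2 hP0), ← huP]
      have hP' := hP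
      linear_combination (u ^ 3 * P ^ 2 * algebraMap ℂ N α) * hP'
  exact conic_rational hconic

end

end Vale.Agent.P297.H600
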