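import Vale.Agent.P297.H600.Biquad
import Vale.Agent.P297.H600.Res
import Vale.Agent.P297.H729.Quot
import Vale.Agent.P297.H729.Alg

/-!
The twins of the surfaces of type I: Enriques surfaces.
-/

set_option linter.unusedSectionVars false
set_option linter.style.haveILetI false

open CategoryTheory AlgebraicGeometry IntermediateField

namespace Vale.Agent.P297.H600

open Vale.Agent.P297 Vale.Agent.P297.H839 Vale.Agent.P297.H109 Vale.Agent.P297.H729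

section Ring

variable {R : Type*} [CommRing R]

/-- `C'` -/
def oC (d₂ d₁ d₀ l₅ w : R) : R :=
  (d₂ - 1) * w ^ 2 + (l₅ - 2 * d₂ * l₅ - d₁) * w + (d₂ * l₅ ^ 2 + d₁ * l₅ + d₀)

theorem oC_eq (d₂ d₁ d₀ l₅ w : R) : oC d₂ d₁ d₀ l₅ w =
    w * (l₅ - w) + (d₂ * (l₅ - w) ^ 2 + d₁ * (l₅ - w) + d₀) := by
  unfold oC
  ring

/-- the quadratic polynomial of the conic -/
theorem conic_id (d₂ d₁ d₀ l₅ w l ν : R)
    (h : w * ((ν * (l - l₅ + w)) ^ 2 + ν * (l - l₅ + w) - l) = d₂ * l ^ 2 + d₁ * l + d₀) :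
    (w * ν ^ 2 - d₂) * (l - l₅ + w) ^ 2 + (w * ν - w - (2 * d₂ * (l₅ - w) + d₁)) * (l - l₅ + w) -
      oC d₂ d₁ d₀ l₅ w = 0 := by
  rw [oC_eq]
  linear_combination h

/-- the second square -/
theorem sq_id (d₂ d₁ d₀ l₅ w l ν : R)
    (h : w * ((ν * (l - l₅ + w)) ^ 2 + ν * (l - l₅ + w) - l) = d₂ * l ^ 2 + d₁ * l + d₀) :
    (2 * (w * ν ^ 2 - d₂) * (l - l₅ + w) + (w * ν - w - (2 * d₂ * (l₅ - w) + d₁))) ^ 2 =
      w * (w + 4 * oC d₂ d₁ d₀ l₅ w) * ν ^ 2 + -2 * w * (w + (2 * d₂ * (l₅ - w) + d₁)) * ν +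
        (w ^ 2 + 2 * d₁ * w + (d₁ ^ 2 - 4 * d₂ * d₀)) := by
  have h1 := conic_id d₂ d₁ d₀ l₅ w l ν h
  rw [oC_eq] at h1 ⊢
  linear_combination 4 * (w * ν ^ 2 - d₂) * h1

/-- the discriminant of `Q₂` -/
theorem disc2_id (d₂ d₁ d₀ l₅ w : R) :
    (-2 * w * (w + (2 * d₂ * (l₅ - w) + d₁))) ^ 2 - 4 * (w * (w + 4 * oC d₂ d₁ d₀ l₅ w)) *
      (w ^ 2 + 2 * d₁ * w + (d₁ ^ 2 - 4 * d₂ * d₀)) =
    -16 * w * oC d₂ d₁ d₀ l₅ w * (w ^ 2 + (2 * d₁ - d₂) * w + (d₁ ^ 2 - 4 * d₂ * d₀)) := by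
  unfold oC
  ring

/-- the Jacobian -/
theorem jac_id (c d₂ d₁ d₀ l₅ w s A B C : R)
    (hA : A = c * w ^ 2 - s * (w * (w + 4 * oC d₂ d₁ d₀ l₅ w)))
    (hB : B = 0 - s * (-2 * w * (w + (2 * d₂ * (l₅ - w) + d₁))))
    (hC : C = w - s * (w ^ 2 + 2 * d₁ * w + (d₁ ^ 2 - 4 * d₂ * d₀))) :
    B ^ 2 - 4 * A * C = 4 * w * (-c * w ^ 2 + ((c + 4 * (d₂ - 1)) * w ^ 2 +
      (2 * c * d₁ + 1 + 4 * (l₅ - 2 * d₂ * l₅ - d₁)) * w + (c * (d₁ ^ 2 - 4 * d₂ * d₀) +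
      4 * (d₂ * l₅ ^ 2 + d₁ * l₅ + d₀))) * w * s +
      oC d₂ d₁ d₀ l₅ w * (-4 * w ^ 2 + -4 * (2 * d₁ - d₂) * w + -4 * (d₁ ^ 2 - 4 * d₂ * d₀)) *
        s ^ 2) := by
  rw [hA, hB, hC]
  unfold oC
  ring

/-- the leading coefficient of the pencil -/
theorem lead_id (c d₂ d₁ d₀ l₅ w ν : R) :
    c * w ^ 2 * (w * (w + 4 * oC d₂ d₁ d₀ l₅ w) * ν ^ 2 +
      -2 * w * (w + (2 * d₂ * (l₅ - w) + d₁)) * ν +
        (w ^ 2 + 2 * d₁ * w + (d₁ ^ 2 - 4 * d₂ * d₀))) -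
      (c * w ^ 2 * ν ^ 2 + 0 * ν + w) * (w * (w + 4 * oC d₂ d₁ d₀ l₅ w)) =
    w ^ 2 * (-2 * c * w * ((1 - 2 * d₂) * w + (2 * d₂ * l₅ + d₁)) * ν +
      ((c - 4 * (d₂ - 1)) * w ^ 2 + (2 * c * d₁ - 1 - 4 * (l₅ - 2 * d₂ * l₅ - d₁)) * w +
        (c * (d₁ ^ 2 - 4 * d₂ * d₀) - 4 * (d₂ * l₅ ^ 2 + d₁ * l₅ + d₀)))) := by
  unfold oC
  ring

end Ring

theorem map_oC {R S : Type*} [CommRing R] [CommRing S] (φ : R →+* S) (d₂ d₁ d₀ l₅ w : R) :
    φ (oC d₂ d₁ d₀ l₅ w) = oC (φ d₂) (φ d₁) (φ d₀) (φ l₅) (φ w) := by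
  simp only [oC, map_add, map_sub, map_mul, map_pow, map_one, map_ofNat]

/-- a point outside the zeros of a nonzero polynomial of degree at most two -/
theorem exists_pt_lead {c d₂ d₁ d₀ l₅ : ℂ} (hc : c ≠ 0) : ∃ w ν : ℂ,
    w ^ 2 * (-2 * c * w * ((1 - 2 * d₂) * w + (2 * d₂ * l₅ + d₁)) * ν +
      ((c - 4 * (d₂ - 1)) * w ^ 2 + (2 * c * d₁ - 1 - 4 * (l₅ - 2 * d₂ * l₅ - d₁)) * w +
        (c * (d₁ ^ 2 - 4 * d₂ * d₀) - 4 * (d₂ * l₅ ^ 2 + d₁ * l₅ + d₀)))) ≠ 0 := by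
  by_contra hcon
  push Not at hcon
  have g1 := hcon 1 0
  have g2 := hcon 2 0
  have g3 := hcon 3 0
  have b1 := hcon 1 1
  have b2 := hcon 2 1
  have k1 : (1 - 2 * d₂) * 1 + (2 * d₂ * l₅ + d₁) = 0 := by
    have h : c * ((1 - 2 * d₂) * 1 + (2 * d₂ * l₅ + d₁)) = 0 := by
      linear_combination (g1 - b1) / 2
    exact (mul_eq_zero.1 h).resolve_left hc
  have k2 : (1 - 2 * d₂) * 2 + (2 * d₂ * l₅ + d₁) = 0 := by
    have h : c * ((1 - 2 * d₂) * 2 + (2 * d₂ * l₅ + d₁)) = 0 := by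
      linear_combination (g2 - b2) / 16
    exact (mul_eq_zero.1 h).resolve_left hc
  have e1 : d₂ = 1 / 2 := by linear_combination (k1 - k2) / 2
  have e2 : d₁ = -l₅ := by
    rw [e1] at k1
    linear_combination k1
  have e3 : c = -2 := by
    have h : c - 4 * (d₂ - 1) = 0 := by
      linear_combination (g3 / 9 - 2 * (g2 / 4) + g1) / 2
    rw [e1] at h
    linear_combination h
  have h : 2 * c * d₁ - 1 - 4 * (l₅ - 2 * d₂ * l₅ - d₁) = 0 := by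
    linear_combination (g2 / 4 - g1) - 3 / 2 * (g3 / 9 - 2 * (g2 / 4) + g1)
  rw [e1, e2, e3] at h
  have h' : (-1 : ℂ) = 0 := by linear_combination h
  norm_num at h'

open Polynomial in
theorem exists_pt_w (d₂ d₁ d₀ l₅ : ℂ) (hd : d₂ ≠ 1) : ∃ w : ℂ, w ≠ 0 ∧ oC d₂ d₁ d₀ l₅ w ≠ 0 ∧
    w ^ 2 + (2 * d₁ - d₂) * w + (d₁ ^ 2 - 4 * d₂ * d₀) ≠ 0 := by
  have hev : ∀ w : ℂ, Polynomial.eval w (oC (C d₂) (C d₁) (C d₀) (C l₅) X : ℂ[X]) =
      oC d₂ d₁ d₀ l₅ w := by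
    intro w
    simp only [oC, eval_add, eval_sub, eval_mul, eval_pow, eval_C, eval_X, eval_one, eval_ofNat]
  have h1 : (oC (C d₂) (C d₁) (C d₀) (C l₅) X : ℂ[X]) ≠ 0 := by
    intro h0
    apply hd
    have k : ∀ w : ℂ, oC d₂ d₁ d₀ l₅ w = 0 := by
      intro w
      rw [← hev, h0, eval_zero]
    have k0 := k 0
    have k1 := k 1
    have k2 := k (-1)
    unfold oC at k0 k1 k2
    linear_combination (k1 + k2) / 2 - k0
  have h2 : (X ^ 2 + C (2 * d₁ - d₂) * X + C (d₁ ^ 2 - 4 * d₂ * d₀) : ℂ[X]) ≠ 0 := by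
    apply Monic.ne_zero
    monicity!
  have hne := mul_ne_zero (mul_ne_zero X_ne_zero h1) h2
  obtain ⟨w, hw⟩ : ∃ w : ℂ, Polynomial.eval w _ ≠ 0 := by
    by_contra hcon
    push Not at hcon
    exact hne (Polynomial.funext fun x => by rw [hcon x, Polynomial.eval_zero])
  rw [Polynomial.eval_mul, Polynomial.eval_mul, Polynomial.eval_X] at hw
  rw [hev] at hw
  refine ⟨w, ?_, ?_, ?_⟩
  · intro h; apply hw; rw [h]; ring
  · intro h; apply hw; rw [h]; ring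
  · intro h; apply hw
    simp only [eval_add, eval_mul, eval_pow, eval_C, eval_X]
    rw [h]; ring

section

variable {T N : Type} [Field T] [Algebra ℂ T] [Field N] [Algebra ℂ N]

theorem adj3 (w ν y : N) : IntermediateField.adjoin ℂ {w, ν, y} =
    IntermediateField.adjoin ℂ {w, ν} ⊔ IntermediateField.adjoin ℂ {y} := by
  rw [← IntermediateField.adjoin_union]
  congr 1
  ext a
  simp only [Set.mem_insert_iff, Set.mem_singleton_iff, Set.mem_union]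
  tauto

/-- conics over `ℂ(w)` -/
theorem conic_L {w ν y a b c : N} (hind : AlgebraicIndependent ℂ ![w, ν]) (ha : a ∈ ℂ⟮w⟯)
    (hb : b ∈ ℂ⟮w⟯) (hc : c ∈ ℂ⟮w⟯) (hd : b ^ 2 - 4 * a * c ≠ 0)
    (h : y ^ 2 = a * ν ^ 2 + b * ν + c) : IsRational (IntermediateField.adjoin ℂ {w, ν, y}) := by
  rw [adj3]
  refine conic_rational ⟨w, ν, a, b, c, 1, hind, rfl, ha, hb, hc, hd, one_mem _, one_ne_zero, ?_⟩
  rw [one_mul, h]

/-- **Enriques surfaces of type I.** -/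
theorem enr_T [IsAlgClosed N] (c d₂ d₁ d₀ l₅ : ℂ) (hc : c ≠ 0) (hd3 : d₂ ≠ 1)
    (hcd : 1 + c * d₂ ≠ 0) (φ₀ : T →ₐ[ℂ] N) {w ν y₁ y₂ : N}
    (hind : AlgebraicIndependent ℂ ![w, ν])
    (halg : ∀ u : N, IsAlgebraic (IntermediateField.adjoin ℂ (Set.range ![w, ν])) u)
    (hr : φ₀.fieldRange = IntermediateField.adjoin ℂ {w, ν, y₁, y₂})
    (h₁ : y₁ ^ 2 = algebraMap ℂ N c * w ^ 2 * ν ^ 2 + 0 * ν + w)
    (h₂ : y₂ ^ 2 = w * (w + 4 * oC (algebraMap ℂ N d₂) (algebraMap ℂ N d₁) (algebraMap ℂ N d₀)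
        (algebraMap ℂ N l₅) w) * ν ^ 2 + -2 * w * (w + (2 * algebraMap ℂ N d₂ *
          (algebraMap ℂ N l₅ - w) + algebraMap ℂ N d₁)) * ν +
        (w ^ 2 + 2 * algebraMap ℂ N d₁ * w + (algebraMap ℂ N d₁ ^ 2 -
          4 * algebraMap ℂ N d₂ * algebraMap ℂ N d₀))) :
    Finsupp.single φ₀ (4 : ℤ) ∈ stableRelations T N := by
  haveI : CharZero N := charZero_of_injective_algebraMap (algebraMap ℂ N).injective
  obtain ⟨wp, νp, hlead⟩ := exists_pt_lead (d₂ := d₂) (d₁ := d₁) (d₀ := d₀) (l₅ := l₅) hc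
  obtain ⟨wq, hwq0, hwqC, hwqq⟩ := exists_pt_w d₂ d₁ d₀ l₅ hd3
  obtain ⟨ws, hws⟩ : ∃ w : ℂ, w ^ 2 + 2 * d₁ * w + (d₁ ^ 2 - 4 * d₂ * d₀) ≠ 0 := by
    by_contra hcon
    push Not at hcon
    have h0 := hcon 0
    have h1 := hcon 1
    have h2 := hcon (-1)
    have h3 : (1 : ℂ) = 0 := by linear_combination (h1 + h2) / 2 - h0
    exact one_ne_zero h3
  -- names
  have hcN : algebraMap ℂ N c ≠ 0 := by rwa [Ne, FaithfulSMul.algebraMap_eq_zero_iff]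
  have hw0 : w ≠ 0 := by
    refine nzp hind (MvPolynomial.X 0) 1 0 (gC := 1) ?_ ?_ one_ne_zero
    · simp
    · simp
  obtain ⟨Cw, hCw⟩ : ∃ Cw, Cw = oC (algebraMap ℂ N d₂) (algebraMap ℂ N d₁) (algebraMap ℂ N d₀)
        (algebraMap ℂ N l₅) w := ⟨_, rfl⟩
  have hCw0 : Cw ≠ 0 := by
    rw [hCw]
    refine nzp hind (oC (MvPolynomial.C d₂) (MvPolynomial.C d₁) (MvPolynomial.C d₀)
      (MvPolynomial.C l₅) (MvPolynomial.X 0)) wq 0 ?_ ?_ hwqC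
    · simp only [oC, map_sub, map_add, map_mul, map_pow, map_ofNat, map_one, MvPolynomial.aeval_X,
        MvPolynomial.aeval_C, Matrix.cons_val_zero]
    · simp only [oC, map_sub, map_add, map_mul, map_pow, map_ofNat, map_one, MvPolynomial.aeval_X,
        MvPolynomial.aeval_C, Matrix.cons_val_zero, Algebra.algebraMap_self, RingHom.id_apply]
  have hQw0 : w ^ 2 + (2 * algebraMap ℂ N d₁ - algebraMap ℂ N d₂) * w + (algebraMap ℂ N d₁ ^ 2 -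
      4 * algebraMap ℂ N d₂ * algebraMap ℂ N d₀) ≠ 0 := by
    refine nzp hind (MvPolynomial.X 0 ^ 2 + (2 * MvPolynomial.C d₁ - MvPolynomial.C d₂) *
      MvPolynomial.X 0 + (MvPolynomial.C d₁ ^ 2 - 4 * MvPolynomial.C d₂ * MvPolynomial.C d₀))
      wq 0 ?_ ?_ hwqq
    · simp only [map_sub, map_add, map_mul, map_pow, map_ofNat, MvPolynomial.aeval_X,
        MvPolynomial.aeval_C, Matrix.cons_val_zero]
    · simp only [map_sub, map_add, map_mul, map_pow, map_ofNat, MvPolynomial.aeval_X,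
        MvPolynomial.aeval_C, Matrix.cons_val_zero, Algebra.algebraMap_self, RingHom.id_apply]
  have hy₁ : y₁ ≠ 0 := by
    have h3 : algebraMap ℂ N c * w ^ 2 * ν ^ 2 + 0 * ν + w ≠ 0 := by
      refine nzp hind (MvPolynomial.C c * MvPolynomial.X 0 ^ 2 * MvPolynomial.X 1 ^ 2 +
        0 * MvPolynomial.X 1 + MvPolynomial.X 0) 1 0 (gC := 1) ?_ ?_ one_ne_zero
      · simp
      · simp
    intro h0
    rw [h0] at h₁
    apply h3
    rw [← h₁]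
    ring
  have hy₂ : y₂ ≠ 0 := by
    intro h0
    rw [h0, zero_pow two_ne_zero] at h₂
    refine nzp hind (MvPolynomial.X 0 * (MvPolynomial.X 0 + 4 * oC (MvPolynomial.C d₂)
      (MvPolynomial.C d₁) (MvPolynomial.C d₀) (MvPolynomial.C l₅) (MvPolynomial.X 0)) *
        MvPolynomial.X 1 ^ 2 + -2 * MvPolynomial.X 0 * (MvPolynomial.X 0 +
        (2 * MvPolynomial.C d₂ * (MvPolynomial.C l₅ - MvPolynomial.X 0) + MvPolynomial.C d₁)) *
        MvPolynomial.X 1 + (MvPolynomial.X 0 ^ 2 + 2 * MvPolynomial.C d₁ * MvPolynomial.X 0 +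
        (MvPolynomial.C d₁ ^ 2 - 4 * MvPolynomial.C d₂ * MvPolynomial.C d₀))) ws 0
        (gC := ws ^ 2 + 2 * d₁ * ws + (d₁ ^ 2 - 4 * d₂ * d₀)) ?_ ?_ hws h₂.symm
    · simp only [oC, map_sub, map_add, map_mul, map_pow, map_ofNat, map_one, map_neg,
        MvPolynomial.aeval_X, MvPolynomial.aeval_C, Matrix.cons_val_zero, Matrix.cons_val_one]
    · simp only [oC, map_sub, map_add, map_mul, map_pow, map_ofNat, map_one, map_neg,
        MvPolynomial.aeval_X, MvPolynomial.aeval_C, Matrix.cons_val_zero, Matrix.cons_val_one,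
        Algebra.algebraMap_self, RingHom.id_apply]
      ring
  obtain ⟨ρ, hρ⟩ : ∃ ρ, ρ = y₁ / y₂ := ⟨_, rfl⟩
  have hρy : y₁ = ρ * y₂ := by rw [hρ, div_mul_cancel₀ _ hy₂]
  have hρ0 : ρ ≠ 0 := by rw [hρ]; exact div_ne_zero hy₁ hy₂
  have hwm : w ∈ ℂ⟮w⟯ := IntermediateField.mem_adjoin_simple_self ℂ w
  have hcm : ∀ c : ℂ, algebraMap ℂ N c ∈ ℂ⟮w⟯ := fun c => ℂ⟮w⟯.algebraMap_mem c
  have h2m : (2 : N) ∈ ℂ⟮w⟯ := ofNat_mem _ 2
  have h4m : (4 : N) ∈ ℂ⟮w⟯ := ofNat_mem _ 4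
  have hCm : Cw ∈ ℂ⟮w⟯ := by
    rw [hCw]
    unfold oC
    exact add_mem (add_mem (mul_mem (sub_mem (hcm _) (one_mem _)) (pow_mem hwm 2))
      (mul_mem (sub_mem (sub_mem (hcm _) (mul_mem (mul_mem h2m (hcm _)) (hcm _))) (hcm _)) hwm))
      (add_mem (add_mem (mul_mem (hcm _) (pow_mem (hcm _) 2)) (mul_mem (hcm _) (hcm _))) (hcm _))
  have ha₁ : algebraMap ℂ N c * w ^ 2 ∈ ℂ⟮w⟯ := mul_mem (hcm _) (pow_mem hwm 2)
  have ha₂ : w * (w + 4 * Cw) ∈ ℂ⟮w⟯ := mul_mem hwm (add_mem hwm (mul_mem h4m hCm))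
  have hb₂ : -2 * w * (w + (2 * algebraMap ℂ N d₂ * (algebraMap ℂ N l₅ - w) +
      algebraMap ℂ N d₁)) ∈ ℂ⟮w⟯ :=
    mul_mem (mul_mem (neg_mem h2m) hwm) (add_mem hwm (add_mem (mul_mem (mul_mem h2m (hcm _))
      (sub_mem (hcm _) hwm)) (hcm _)))
  have hc₂ : w ^ 2 + 2 * algebraMap ℂ N d₁ * w + (algebraMap ℂ N d₁ ^ 2 -
      4 * algebraMap ℂ N d₂ * algebraMap ℂ N d₀) ∈ ℂ⟮w⟯ :=
    add_mem (add_mem (pow_mem hwm 2) (mul_mem (mul_mem h2m (hcm _)) hwm))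
      (sub_mem (pow_mem (hcm _) 2) (mul_mem (mul_mem h4m (hcm _)) (hcm _)))
  obtain ⟨A, hA⟩ : ∃ A, A = algebraMap ℂ N c * w ^ 2 - ρ ^ 2 * (w * (w + 4 * Cw)) := ⟨_, rfl⟩
  obtain ⟨B, hB⟩ : ∃ B, B = 0 - ρ ^ 2 * (-2 * w * (w + (2 * algebraMap ℂ N d₂ *
    (algebraMap ℂ N l₅ - w) + algebraMap ℂ N d₁))) := ⟨_, rfl⟩
  obtain ⟨C, hC⟩ : ∃ C, C = w - ρ ^ 2 * (w ^ 2 + 2 * algebraMap ℂ N d₁ * w +
    (algebraMap ℂ N d₁ ^ 2 - 4 * algebraMap ℂ N d₂ * algebraMap ℂ N d₀)) := ⟨_, rfl⟩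
  have hA0 : A ≠ 0 := by
    have h3 : A * y₂ ^ 2 ≠ 0 := by
      have h4 : A * y₂ ^ 2 = algebraMap ℂ N c * w ^ 2 * y₂ ^ 2 - y₁ ^ 2 * (w * (w + 4 * Cw)) := by
        rw [hA, hρy]
        ring
      rw [h4, h₁, h₂, hCw, lead_id]
      refine nzp hind (MvPolynomial.X 0 ^ 2 * (-2 * MvPolynomial.C c * MvPolynomial.X 0 *
        ((1 - 2 * MvPolynomial.C d₂) * MvPolynomial.X 0 + (2 * MvPolynomial.C d₂ *
        MvPolynomial.C l₅ + MvPolynomial.C d₁)) * MvPolynomial.X 1 +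
        ((MvPolynomial.C c - 4 * (MvPolynomial.C d₂ - 1)) * MvPolynomial.X 0 ^ 2 +
        (2 * MvPolynomial.C c * MvPolynomial.C d₁ - 1 - 4 * (MvPolynomial.C l₅ -
        2 * MvPolynomial.C d₂ * MvPolynomial.C l₅ - MvPolynomial.C d₁)) * MvPolynomial.X 0 +
        (MvPolynomial.C c * (MvPolynomial.C d₁ ^ 2 - 4 * MvPolynomial.C d₂ * MvPolynomial.C d₀) -
        4 * (MvPolynomial.C d₂ * MvPolynomial.C l₅ ^ 2 + MvPolynomial.C d₁ * MvPolynomial.C l₅ +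
        MvPolynomial.C d₀))))) wp νp ?_ ?_ hlead
      · simp only [map_sub, map_add, map_mul, map_pow, map_ofNat, map_one, map_neg,
          MvPolynomial.aeval_X, MvPolynomial.aeval_C, Matrix.cons_val_zero, Matrix.cons_val_one]
      · simp only [map_sub, map_add, map_mul, map_pow, map_ofNat, map_one, map_neg,
          MvPolynomial.aeval_X, MvPolynomial.aeval_C, Matrix.cons_val_zero, Matrix.cons_val_one,
          Algebra.algebraMap_self, RingHom.id_apply]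
    exact (mul_ne_zero_iff.1 h3).1
  have hquad : A * ν ^ 2 + B * ν + C = 0 := by
    have h3 : y₁ ^ 2 = ρ ^ 2 * y₂ ^ 2 := by rw [hρy]; ring
    rw [h₁, h₂, ← hCw] at h3
    rw [hA, hB, hC]
    linear_combination h3
  -- the conics
  have L₁ : IsRational (IntermediateField.adjoin ℂ {w, ν, y₂}) := by
    refine conic_L hind ha₂ hb₂ hc₂ ?_ (by rw [h₂, hCw])
    rw [hCw, disc2_id, ← hCw]
    exact mul_ne_zero (mul_ne_zero (mul_ne_zero (neg_ne_zero.2 (by norm_num)) hw0) hCw0) hQw0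
  have L₂ : IsRational (IntermediateField.adjoin ℂ {w, ν, y₁}) := by
    refine conic_L hind ha₁ (zero_mem _) hwm ?_ h₁
    have h3 : (0 : N) ^ 2 - 4 * (algebraMap ℂ N c * w ^ 2) * w =
        -4 * (algebraMap ℂ N c * w ^ 3) := by ring
    rw [h3]
    exact mul_ne_zero (neg_ne_zero.2 (by norm_num)) (mul_ne_zero hcN (pow_ne_zero 3 hw0))
  have hle : ∀ y : N, IntermediateField.adjoin ℂ (Set.range ![w, ν]) ≤
      IntermediateField.adjoin ℂ {w, ν, y} := by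
    intro y
    rw [range_pair, adj3]
    exact le_sup_left
  have halg' : Algebra.IsAlgebraic (IntermediateField.adjoin ℂ (Set.range ![w, ν])) N := ⟨halg⟩
  -- independence
  have hind3 : AlgebraicIndependent ℂ ![w, ρ] := by
    apply indep_of_alg hind
    have hwE := mem_range_left w ρ
    have hρE := mem_range_right w ρ
    have hwE' : ℂ⟮w⟯ ≤ IntermediateField.adjoin ℂ (Set.range ![w, ρ]) := by
      rw [IntermediateField.adjoin_simple_le_iff]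
      exact hwE
    refine alg_of_quad _ (a := A) (b := B) (c := C) ?_ ?_ ?_ (fun h => hA0 h.1) hquad
    · rw [hA]; exact sub_mem (hwE' ha₁) (mul_mem (pow_mem hρE 2) (hwE' ha₂))
    · rw [hB]; exact sub_mem (zero_mem _) (mul_mem (pow_mem hρE 2) (hwE' hb₂))
    · rw [hC]; exact sub_mem hwE (mul_mem (pow_mem hρE 2) (hwE' hc₂))
  have hind4 : AlgebraicIndependent ℂ ![w, w / ρ ^ 2] := by
    apply indep_of_alg hind3
    have hwE := mem_range_left w (w / ρ ^ 2)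
    have hρE := mem_range_right w (w / ρ ^ 2)
    apply isAlgebraic_sq
    have h3 : ρ ^ 2 = w / (w / ρ ^ 2) := by
      field_simp
    have h4 := div_mem hwE hρE
    rw [← h3] at h4
    exact isAlgebraic_mem _ _ h4
  have halg3 := alg_of_indep hind halg hind3
  have halg4 := alg_of_indep hind halg hind4
  have hV : (ρ * (2 * A * ν + B)) ^ 2 = ρ ^ 2 * (B ^ 2 - 4 * A * C) := by
    have h3 : (2 * A * ν + B) ^ 2 = B ^ 2 - 4 * A * C := by
      linear_combination 4 * A * hquad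
    rw [mul_pow, h3]
  obtain ⟨V, hVdef⟩ : ∃ V, V = ρ * (2 * A * ν + B) := ⟨_, rfl⟩
  rw [← hVdef] at hV
  have hjac := jac_id (algebraMap ℂ N c) (algebraMap ℂ N d₂) (algebraMap ℂ N d₁)
    (algebraMap ℂ N d₀) (algebraMap ℂ N l₅) w (ρ ^ 2) A B C (by rw [hA, hCw]) hB hC
  have hres := res_rational (N := N) (-c) (d₂ - 1) (l₅ - 2 * d₂ * l₅ - d₁)
    (d₂ * l₅ ^ 2 + d₁ * l₅ + d₀) (-4) (-4 * (2 * d₁ - d₂)) (-4 * (d₁ ^ 2 - 4 * d₂ * d₀))
    (c + 4 * (d₂ - 1)) (2 * c * d₁ + 1 + 4 * (l₅ - 2 * d₂ * l₅ - d₁))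
    (c * (d₁ ^ 2 - 4 * d₂ * d₀) + 4 * (d₂ * l₅ ^ 2 + d₁ * l₅ + d₀)) wq (4 / c) hwqC ?_
    (w := w) (X := w / ρ ^ 2) (V := V / (2 * ρ ^ 4)) hind4 ?_
  · have hL4 : IntermediateField.adjoin ℂ {w, ρ ^ 2, ρ * (2 * A * ν + B)} =
        IntermediateField.adjoin ℂ {w, w / ρ ^ 2} ⊔
          IntermediateField.adjoin ℂ {V / (2 * ρ ^ 4)} := by
      rw [← hVdef]
      have hρ2 : ρ ^ 2 ≠ 0 := pow_ne_zero 2 hρ0
      apply le_antisymm
      · have hwE : w ∈ IntermediateField.adjoin ℂ {w, w / ρ ^ 2} ⊔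
            IntermediateField.adjoin ℂ {V / (2 * ρ ^ 4)} :=
          (le_sup_left : IntermediateField.adjoin ℂ {w, w / ρ ^ 2} ≤ _)
            (IntermediateField.subset_adjoin _ _ (by simp))
        have hXE : w / ρ ^ 2 ∈ IntermediateField.adjoin ℂ {w, w / ρ ^ 2} ⊔
            IntermediateField.adjoin ℂ {V / (2 * ρ ^ 4)} :=
          (le_sup_left : IntermediateField.adjoin ℂ {w, w / ρ ^ 2} ≤ _)
            (IntermediateField.subset_adjoin _ _ (by simp))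
        have hVE : V / (2 * ρ ^ 4) ∈ IntermediateField.adjoin ℂ {w, w / ρ ^ 2} ⊔
            IntermediateField.adjoin ℂ {V / (2 * ρ ^ 4)} := mem_sup_adjoin _ _
        have hsE : ρ ^ 2 ∈ IntermediateField.adjoin ℂ {w, w / ρ ^ 2} ⊔
            IntermediateField.adjoin ℂ {V / (2 * ρ ^ 4)} := by
          have h3 : ρ ^ 2 = w / (w / ρ ^ 2) := by
            field_simp
          have h4 := div_mem hwE hXE
          rw [← h3] at h4
          exact h4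
        rw [IntermediateField.adjoin_le_iff]
        rintro a (rfl | rfl | rfl)
        · exact hwE
        · exact hsE
        · have h3 : a = (a / (2 * ρ ^ 4)) * (2 * (ρ ^ 2) ^ 2) := by
            field_simp
          have h4 := mul_mem hVE (mul_mem (ofNat_mem _ 2) (pow_mem hsE 2))
          rw [← h3] at h4
          exact h4
      · have hwE : w ∈ IntermediateField.adjoin ℂ {w, ρ ^ 2, V} :=
          IntermediateField.subset_adjoin _ _ (by simp)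
        have hsE : ρ ^ 2 ∈ IntermediateField.adjoin ℂ {w, ρ ^ 2, V} :=
          IntermediateField.subset_adjoin _ _ (by simp)
        have hVE : V ∈ IntermediateField.adjoin ℂ {w, ρ ^ 2, V} :=
          IntermediateField.subset_adjoin _ _ (by simp)
        refine sup_adjoin_le ?_ ?_
        · rw [IntermediateField.adjoin_le_iff]
          rintro a (rfl | rfl)
          · exact hwE
          · exact div_mem hwE hsE
        · have h3 : V / (2 * ρ ^ 4) = V / (2 * (ρ ^ 2) ^ 2) := by ring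
          rw [h3]
          exact div_mem hVE (mul_mem (ofNat_mem _ 2) (pow_mem hsE 2))
    refine biquad_stable (w := w) (ν := ν) (y₁ := y₁) (y₂ := y₂) (ρ := ρ) (A := A) (B := B)
      (C := C) hr ha₁ (zero_mem _) hwm ha₂ hb₂ hc₂ h₁ (by rw [h₂, hCw]) hρy hρ0 hy₂ hA hB hC hA0
      L₁ (isAlgebraic_mono (hle y₂) halg') L₂ (isAlgebraic_mono (hle y₁) halg') ?_ ?_ ?_ ?_
    · exact ⟨2, ![w, ρ], hind3, by rw [range_pair]⟩
    · have h3 : IntermediateField.adjoin ℂ {w, ρ} =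
          IntermediateField.adjoin ℂ (Set.range ![w, ρ]) := by rw [range_pair]
      rw [h3]
      exact ⟨halg3⟩
    · rw [hL4]
      exact hres
    · rw [hL4]
      have h3 : IntermediateField.adjoin ℂ (Set.range ![w, w / ρ ^ 2]) ≤
          IntermediateField.adjoin ℂ {w, w / ρ ^ 2} ⊔
          IntermediateField.adjoin ℂ {V / (2 * ρ ^ 4)} := by
        rw [range_pair]
        exact le_sup_left
      exact isAlgebraic_mono h3 ⟨halg4⟩
  · -- the discriminant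
    have h3 : ((-c * (l₅ - 2 * d₂ * l₅ - d₁) * (4 / c) ^ 2 +
        (2 * c * d₁ + 1 + 4 * (l₅ - 2 * d₂ * l₅ - d₁)) * (4 / c) + -4 * (2 * d₁ - d₂)) ^ 2 -
      4 * (-c * (d₂ - 1) * (4 / c) ^ 2 + (c + 4 * (d₂ - 1)) * (4 / c) + -4) *
      (-c * (d₂ * l₅ ^ 2 + d₁ * l₅ + d₀) * (4 / c) ^ 2 + (c * (d₁ ^ 2 - 4 * d₂ * d₀) +
        4 * (d₂ * l₅ ^ 2 + d₁ * l₅ + d₀)) * (4 / c) + -4 * (d₁ ^ 2 - 4 * d₂ * d₀))) =
        (4 * (1 + c * d₂) / c) ^ 2 := by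
      field_simp
      ring
    rw [h3]
    exact pow_ne_zero 2 (div_ne_zero (mul_ne_zero (by norm_num) hcd) hc)
  · -- the equation
    rw [div_pow, hV, hjac]
    simp only [map_sub, map_add, map_mul, map_pow, map_ofNat, map_one, map_neg]
    unfold oC
    field_simp
    ring

end

end Vale.Agent.P297.H600
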