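import Vale.Agent.P297.H600.OneW
import Vale.Agent.P297.H600.OneT

/-!
The surfaces of type I: all points are rationally equivalent.
-/

set_option linter.unusedSectionVars false
set_option linter.style.haveILetI false

open IntermediateField

namespace Vale.Agent.P297.H600

open Vale.Agent.P297 Vale.Agent.P297.H839 Vale.Agent.P297.H109 Vale.Agent.P297.H729

/-- a point outside the zeros of the three polynomials -/
theorem exists_pt_l (D l₃ l₄ l₅ : ℂ) (hD : D ≠ 0) (hD1 : D ≠ -1) : ∃ a : ℂ, a - l₅ ≠ 0 ∧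
    D * (a - l₃) * (a - l₄) ≠ 0 ∧ D * (a - l₃) * (a - l₄) + a * (a - l₅) ≠ 0 := by
  open Polynomial in
  have h1 : (X - C l₅ : ℂ[X]) ≠ 0 := X_sub_C_ne_zero _
  open Polynomial in
  have h2 : (C D * (X - C l₃) * (X - C l₄) : ℂ[X]) ≠ 0 :=
    mul_ne_zero (mul_ne_zero (by rwa [Ne, C_eq_zero]) (X_sub_C_ne_zero _)) (X_sub_C_ne_zero _)
  open Polynomial in
  have h3 : (C D * (X - C l₃) * (X - C l₄) + X * (X - C l₅) : ℂ[X]) ≠ 0 := by
    intro h0
    apply hD1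
    have k : ∀ w : ℂ, D * (w - l₃) * (w - l₄) + w * (w - l₅) = 0 := by
      intro w
      have h4 := congrArg (Polynomial.eval w) h0
      simpa using h4
    linear_combination (k 1 + k (-1)) / 2 - k 0
  have hne := mul_ne_zero (mul_ne_zero h1 h2) h3
  obtain ⟨a, ha⟩ : ∃ a : ℂ, Polynomial.eval a _ ≠ 0 := by
    by_contra hcon
    push Not at hcon
    exact hne (Polynomial.funext fun x => by rw [hcon x, Polynomial.eval_zero])
  rw [Polynomial.eval_mul, Polynomial.eval_mul] at ha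
  simp only [Polynomial.eval_mul, Polynomial.eval_add, Polynomial.eval_sub, Polynomial.eval_C,
    Polynomial.eval_X] at ha
  refine ⟨a, ?_, ?_, ?_⟩
  · intro h; apply ha; rw [h]; ring
  · intro h; apply ha; rw [h]; ring
  · intro h; apply ha; rw [h]; ring

section

variable {N : Type} [Field N] [Algebra ℂ N]

/-- the twin of a surface of type I -/
theorem one_twin [IsAlgClosed N] (c D l₃ l₄ l₅ : ℂ) (hc : c ≠ 0) (hD : D ≠ 0) (hD1 : D ≠ -1)
    (hcd : 1 + c * (1 + D) ≠ 0) {ξ τ g ζ : N} (hind : AlgebraicIndependent ℂ ![ξ, τ])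
    (halg : ∀ u : N, IsAlgebraic (IntermediateField.adjoin ℂ (Set.range ![ξ, τ])) u)
    (hg : g ^ 2 = oN (algebraMap ℂ N l₅) ξ τ ^ 2 * (1 + oX ξ τ) ^ 2 -
      2 * oM (algebraMap ℂ N D) (algebraMap ℂ N l₃) (algebraMap ℂ N l₄) ξ τ *
        oN (algebraMap ℂ N l₅) ξ τ * (1 - oX ξ τ) +
      oM (algebraMap ℂ N D) (algebraMap ℂ N l₃) (algebraMap ℂ N l₄) ξ τ ^ 2)
    (hζ : 2 * ζ ^ 2 = oX ξ τ * (oG (algebraMap ℂ N c) (algebraMap ℂ N D) (algebraMap ℂ N l₃)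
      (algebraMap ℂ N l₄) (algebraMap ℂ N l₅) ξ τ + g)) :
    Finsupp.single (IntermediateField.adjoin ℂ {ξ, τ} ⊔ IntermediateField.adjoin ℂ {ζ} :
      IntermediateField ℂ N).val (4 : ℤ) ∈ stableRelations
        (IntermediateField.adjoin ℂ {ξ, τ} ⊔ IntermediateField.adjoin ℂ {ζ} :
          IntermediateField ℂ N) N := by
  haveI : CharZero N := charZero_of_injective_algebraMap (algebraMap ℂ N).injective
  obtain ⟨a, ha5, haM, haD⟩ := exists_pt_l D l₃ l₄ l₅ hD hD1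
  have hτ0 : τ ≠ 0 := by
    refine nzp hind (MvPolynomial.X 1) 0 1 (gC := 1) ?_ ?_ one_ne_zero
    · simp
    · simp
  have hx0 : oX ξ τ ≠ 0 := by
    refine nzp hind (MvPolynomial.X 0 - 1 - MvPolynomial.X 1) 0 0 (gC := -1) ?_ ?_ (by norm_num)
    · unfold oX; simp
    · simp
  obtain ⟨E, hE⟩ : ∃ E : IntermediateField ℂ N,
    (IntermediateField.adjoin ℂ {ξ, τ} ⊔ IntermediateField.adjoin ℂ {ζ} :
      IntermediateField ℂ N) = E := ⟨_, rfl⟩
  rw [hE]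
  have hξE : ξ ∈ E := by
    rw [← hE]
    exact (le_sup_left : IntermediateField.adjoin ℂ {ξ, τ} ≤ _)
      (IntermediateField.subset_adjoin _ _ (by simp))
  have hτE : τ ∈ E := by
    rw [← hE]
    exact (le_sup_left : IntermediateField.adjoin ℂ {ξ, τ} ≤ _)
      (IntermediateField.subset_adjoin _ _ (by simp))
  have hζE : ζ ∈ E := by
    rw [← hE]
    exact mem_sup_adjoin _ _
  -- the coordinate `l`
  obtain ⟨l, hl⟩ : ∃ l, l = ξ / τ ^ 2 := ⟨_, rfl⟩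
  have hξl : ξ = l * τ ^ 2 := by rw [hl, div_mul_cancel₀ _ (pow_ne_zero 2 hτ0)]
  have hindlτ : AlgebraicIndependent ℂ ![l, τ] := by
    apply indep_of_algebraic hind
    intro i
    rw [range_pair]
    refine isAlgebraic_mem _ _ ?_
    have h1 : l ∈ IntermediateField.adjoin ℂ {l, τ} :=
      IntermediateField.subset_adjoin _ _ (by simp)
    have h2 : τ ∈ IntermediateField.adjoin ℂ {l, τ} :=
      IntermediateField.subset_adjoin _ _ (by simp)
    fin_cases i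
    · change ξ ∈ _
      have h3 := mul_mem h1 (pow_mem h2 2)
      rw [← hξl] at h3
      exact h3
    · exact h2
  obtain ⟨N₁, hN₁⟩ : ∃ N₁ : N, N₁ = l - algebraMap ℂ N l₅ := ⟨_, rfl⟩
  obtain ⟨M₁, hM₁⟩ : ∃ M₁ : N, M₁ = algebraMap ℂ N D * (l - algebraMap ℂ N l₃) *
    (l - algebraMap ℂ N l₄) := ⟨_, rfl⟩
  obtain ⟨Δ, hΔ⟩ : ∃ Δ : N, Δ = M₁ + l * N₁ := ⟨_, rfl⟩
  have hN0 : N₁ ≠ 0 := by
    rw [hN₁]
    refine nzp hindlτ (MvPolynomial.X 0 - MvPolynomial.C l₅) a 0 ?_ ?_ ha5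
    · simp
    · simp
  have hM0 : M₁ ≠ 0 := by
    rw [hM₁]
    refine nzp hindlτ (MvPolynomial.C D * (MvPolynomial.X 0 - MvPolynomial.C l₃) *
      (MvPolynomial.X 0 - MvPolynomial.C l₄)) a 0 ?_ ?_ haM
    · simp
    · simp
  have hΔ0 : Δ ≠ 0 := by
    rw [hΔ, hM₁, hN₁]
    refine nzp hindlτ (MvPolynomial.C D * (MvPolynomial.X 0 - MvPolynomial.C l₃) *
      (MvPolynomial.X 0 - MvPolynomial.C l₄) + MvPolynomial.X 0 *
      (MvPolynomial.X 0 - MvPolynomial.C l₅)) a 0 ?_ ?_ haD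
    · simp
    · simp
  have eN : oN (algebraMap ℂ N l₅) ξ τ = N₁ * τ ^ 2 := by
    rw [oN, hN₁, hξl]; ring
  have eM : oM (algebraMap ℂ N D) (algebraMap ℂ N l₃) (algebraMap ℂ N l₄) ξ τ = M₁ * τ ^ 4 := by
    rw [oM, hM₁, hξl]; ring
  have eX : oX ξ τ = l * τ ^ 2 - 1 - τ := by rw [oX, hξl]
  obtain ⟨x, hx⟩ : ∃ x, x = oX ξ τ := ⟨_, rfl⟩
  rw [eN, eM, eX] at hg
  have eG : oG (algebraMap ℂ N c) (algebraMap ℂ N D) (algebraMap ℂ N l₃)
      (algebraMap ℂ N l₄) (algebraMap ℂ N l₅) ξ τ = N₁ * τ ^ 2 + 2 * algebraMap ℂ N c * x -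
        x * (N₁ * τ ^ 2) - M₁ * τ ^ 4 := by
    rw [oG, eN, eM, hx]
  rw [eG, ← hx] at hζ
  rw [← hx] at hx0
  have hxl : x = l * τ ^ 2 - 1 - τ := by rw [hx, eX]
  have hNτ : N₁ * τ ^ 2 ≠ 0 := mul_ne_zero hN0 (pow_ne_zero 2 hτ0)
  -- the coordinate `s`
  obtain ⟨s, hs⟩ : ∃ s, s = (g - M₁ * τ ^ 4 + N₁ * τ ^ 2 - x * (N₁ * τ ^ 2)) /
    (2 * (N₁ * τ ^ 2)) := ⟨_, rfl⟩
  have hgs : g = 2 * s * (N₁ * τ ^ 2) + M₁ * τ ^ 4 - N₁ * τ ^ 2 + x * (N₁ * τ ^ 2) := by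
    rw [hs]
    field_simp
    ring
  have hrel := rel_s two_ne_zero hN0 hτ0 (by rw [hgs, hxl]) hg
  have hs1 : 1 - s ≠ 0 := by
    intro h
    have h1 : s = 1 := (sub_eq_zero.1 h).symm
    rw [h1] at hrel
    have h2 : M₁ * τ ^ 2 = 0 := by linear_combination hrel
    exact mul_ne_zero hM0 (pow_ne_zero 2 hτ0) h2
  obtain ⟨v, hv⟩ : ∃ v, v = M₁ * τ / (N₁ * (1 - s)) := ⟨_, rfl⟩
  have hv0 : v ≠ 0 := by
    rw [hv]
    exact div_ne_zero (mul_ne_zero hM0 hτ0) (mul_ne_zero hN0 hs1)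
  have hvs : v * (N₁ * (1 - s)) = M₁ * τ := by
    rw [hv, div_mul_cancel₀ _ (mul_ne_zero hN0 hs1)]
  obtain ⟨hτR, hsU⟩ := rel_v hN0 hM0 hs1 hrel hvs
  rw [← hΔ] at hτR hsU
  obtain ⟨X, hX⟩ : ∃ X, X = v ^ 2 + v - l := ⟨_, rfl⟩
  obtain ⟨R, hR⟩ : ∃ R, R = N₁ * v ^ 2 + N₁ * v + M₁ := ⟨_, rfl⟩
  obtain ⟨U, hU⟩ : ∃ U, U = M₁ ^ 2 + M₁ * N₁ * v - l * N₁ ^ 2 * v ^ 2 := ⟨_, rfl⟩
  rw [← hR] at hτR
  rw [← hU] at hsU
  have hR0 : R ≠ 0 := by
    rw [← hτR]
    exact mul_ne_zero (mul_ne_zero hv0 hΔ0) hτ0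
  have hUX : U * X = -x * (v * Δ) ^ 2 := by
    have h1 := x_id l N₁ M₁ v
    rw [← hΔ, ← hR, ← hX, ← hU] at h1
    rw [← h1, hxl, ← hτR]
    ring
  have hUX0 : U * X ≠ 0 := by
    rw [hUX]
    exact mul_ne_zero (neg_ne_zero.2 hx0) (pow_ne_zero 2 (mul_ne_zero hv0 hΔ0))
  have hU0 : U ≠ 0 := (mul_ne_zero_iff.1 hUX0).1
  have hX0 : X ≠ 0 := (mul_ne_zero_iff.1 hUX0).2
  -- memberships, from `l`, `v`
  have fromlv : ∀ F : IntermediateField ℂ N, l ∈ F → v ∈ F → N₁ ∈ F ∧ M₁ ∈ F ∧ Δ ∈ F ∧ X ∈ F ∧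
      R ∈ F ∧ U ∈ F ∧ τ ∈ F ∧ ξ ∈ F ∧ s ∈ F := by
    intro F hlF hvF
    have k1 : N₁ ∈ F := by rw [hN₁]; exact sub_mem hlF (F.algebraMap_mem _)
    have k2 : M₁ ∈ F := by
      rw [hM₁]
      exact mul_mem (mul_mem (F.algebraMap_mem _) (sub_mem hlF (F.algebraMap_mem _)))
        (sub_mem hlF (F.algebraMap_mem _))
    have k3 : Δ ∈ F := by rw [hΔ]; exact add_mem k2 (mul_mem hlF k1)
    have k4 : X ∈ F := by rw [hX]; exact sub_mem (add_mem (pow_mem hvF 2) hvF) hlF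
    have k5 : R ∈ F := by
      rw [hR]; exact add_mem (add_mem (mul_mem k1 (pow_mem hvF 2)) (mul_mem k1 hvF)) k2
    have k6 : U ∈ F := by
      rw [hU]
      exact sub_mem (add_mem (pow_mem k2 2) (mul_mem (mul_mem k2 k1) hvF))
        (mul_mem (mul_mem hlF (pow_mem k1 2)) (pow_mem hvF 2))
    have k7 : τ ∈ F := by
      have h1 : τ = R / (v * Δ) := by
        rw [eq_div_iff (mul_ne_zero hv0 hΔ0), ← hτR]; ring
      rw [h1]
      exact div_mem k5 (mul_mem hvF k3)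
    have k8 : ξ ∈ F := by rw [hξl]; exact mul_mem hlF (pow_mem k7 2)
    have k9 : s ∈ F := by
      have h1 : s = -U / (Δ * N₁ * v ^ 2) := by
        rw [eq_div_iff (mul_ne_zero (mul_ne_zero hΔ0 hN0) (pow_ne_zero 2 hv0))]
        exact hsU
      rw [h1]
      exact div_mem (neg_mem k6) (mul_mem (mul_mem k3 k1) (pow_mem hvF 2))
    exact ⟨k1, k2, k3, k4, k5, k6, k7, k8, k9⟩
  have hindlv : AlgebraicIndependent ℂ ![l, v] := by
    apply indep_of_alg hindlτ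
    exact isAlgebraic_mem _ _ (fromlv _ (mem_range_left l v) (mem_range_right l v)).2.2.2.2.2.2.1
  have halglv := alg_of_indep hind halg hindlv
  -- the coordinates `w`, `ν`
  obtain ⟨w, hw⟩ : ∃ w, w = Δ / X := ⟨_, rfl⟩
  have hwX : w * X = Δ := by rw [hw, div_mul_cancel₀ _ hX0]
  have hw0 : w ≠ 0 := by rw [hw]; exact div_ne_zero hΔ0 hX0
  have hRX : (N₁ + w) * X = R := by
    rw [add_mul, hwX, hΔ, hX, hR]
    ring
  have hNw : N₁ + w ≠ 0 := by
    intro h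
    rw [h, zero_mul] at hRX
    exact hR0 hRX.symm
  obtain ⟨ν, hν⟩ : ∃ ν, ν = v / (N₁ + w) := ⟨_, rfl⟩
  have hνv : ν * (N₁ + w) = v := by rw [hν, div_mul_cancel₀ _ hNw]
  obtain ⟨d₂, hd₂⟩ : ∃ d₂ : ℂ, d₂ = D + 1 := ⟨_, rfl⟩
  obtain ⟨d₁, hd₁⟩ : ∃ d₁ : ℂ, d₁ = -D * (l₃ + l₄) - l₅ := ⟨_, rfl⟩
  obtain ⟨d₀, hd₀⟩ : ∃ d₀ : ℂ, d₀ = D * l₃ * l₄ := ⟨_, rfl⟩
  have hd20 : d₂ ≠ 0 := by
    rw [hd₂]
    intro h
    exact hD1 (eq_neg_of_add_eq_zero_left h)
  have hΔd : Δ = algebraMap ℂ N d₂ * l ^ 2 + algebraMap ℂ N d₁ * l + algebraMap ℂ N d₀ := by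
    rw [hΔ, hM₁, hN₁, hd₂, hd₁, hd₀]
    simp only [map_add, map_sub, map_mul, map_neg, map_one]
    ring
  have hlw : l - algebraMap ℂ N l₅ + w = N₁ + w := by rw [hN₁]
  have hconic : w * ((ν * (l - algebraMap ℂ N l₅ + w)) ^ 2 + ν * (l - algebraMap ℂ N l₅ + w) - l) =
      algebraMap ℂ N d₂ * l ^ 2 + algebraMap ℂ N d₁ * l + algebraMap ℂ N d₀ := by
    rw [hlw, hνv, ← hΔd, ← hX, hwX]
  have hlead : w * ν ^ 2 - algebraMap ℂ N d₂ ≠ 0 := by
    have h1 : (w * ν ^ 2 - algebraMap ℂ N d₂) * R ^ 2 =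
        Δ * X * v ^ 2 - algebraMap ℂ N d₂ * R ^ 2 := by
      rw [← hRX, ← hwX, ← hνv]
      ring
    have h2 : Δ * X * v ^ 2 - algebraMap ℂ N d₂ * R ^ 2 ≠ 0 := by
      rw [hΔ, hX, hR, hM₁, hN₁]
      refine nzp hindlv ((MvPolynomial.C D * (MvPolynomial.X 0 - MvPolynomial.C l₃) *
        (MvPolynomial.X 0 - MvPolynomial.C l₄) + MvPolynomial.X 0 *
        (MvPolynomial.X 0 - MvPolynomial.C l₅)) * (MvPolynomial.X 1 ^ 2 + MvPolynomial.X 1 -
        MvPolynomial.X 0) * MvPolynomial.X 1 ^ 2 - MvPolynomial.C d₂ * ((MvPolynomial.X 0 -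
        MvPolynomial.C l₅) * MvPolynomial.X 1 ^ 2 + (MvPolynomial.X 0 - MvPolynomial.C l₅) *
        MvPolynomial.X 1 + MvPolynomial.C D * (MvPolynomial.X 0 - MvPolynomial.C l₃) *
        (MvPolynomial.X 0 - MvPolynomial.C l₄)) ^ 2) a 0
        (gC := -d₂ * (D * (a - l₃) * (a - l₄)) ^ 2) ?_ ?_
        (mul_ne_zero (neg_ne_zero.2 hd20) (pow_ne_zero 2 haM))
      · simp only [map_sub, map_add, map_mul, map_pow, MvPolynomial.aeval_X,
          MvPolynomial.aeval_C, Matrix.cons_val_zero, Matrix.cons_val_one]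
      · simp only [map_sub, map_add, map_mul, map_pow, MvPolynomial.aeval_X,
          MvPolynomial.aeval_C, Matrix.cons_val_zero, Matrix.cons_val_one,
          Algebra.algebraMap_self, RingHom.id_apply]
        ring
    intro h3
    rw [h3, zero_mul] at h1
    exact h2 h1.symm
  -- independence of `w`, `ν`
  have hcid := conic_id (algebraMap ℂ N d₂) (algebraMap ℂ N d₁) (algebraMap ℂ N d₀)
    (algebraMap ℂ N l₅) w l ν hconic
  have hind2 : AlgebraicIndependent ℂ ![w, ν] := by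
    have hwE := mem_range_left w ν
    have hνE := mem_range_right w ν
    have hcE : ∀ z : ℂ, algebraMap ℂ N z ∈ IntermediateField.adjoin ℂ (Set.range ![w, ν]) :=
      fun z => IntermediateField.algebraMap_mem _ z
    have hlalg : IsAlgebraic (IntermediateField.adjoin ℂ (Set.range ![w, ν]))
        (l - algebraMap ℂ N l₅ + w) := by
      refine alg_of_quad _ (a := w * ν ^ 2 - algebraMap ℂ N d₂)
        (b := w * ν - w - (2 * algebraMap ℂ N d₂ * (algebraMap ℂ N l₅ - w) + algebraMap ℂ N d₁))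
        (c := -oC (algebraMap ℂ N d₂) (algebraMap ℂ N d₁) (algebraMap ℂ N d₀)
          (algebraMap ℂ N l₅) w) ?_ ?_ ?_ (fun h => hlead h.1) ?_
      · exact sub_mem (mul_mem hwE (pow_mem hνE 2)) (hcE _)
      · exact sub_mem (sub_mem (mul_mem hwE hνE) hwE) (add_mem (mul_mem (mul_mem (ofNat_mem _ 2)
          (hcE _)) (sub_mem (hcE _) hwE)) (hcE _))
      · unfold oC
        exact neg_mem (add_mem (add_mem (mul_mem (sub_mem (hcE _) (one_mem _)) (pow_mem hwE 2))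
          (mul_mem (sub_mem (sub_mem (hcE _) (mul_mem (mul_mem (ofNat_mem _ 2) (hcE _)) (hcE _)))
            (hcE _)) hwE)) (add_mem (add_mem (mul_mem (hcE _) (pow_mem (hcE _) 2))
            (mul_mem (hcE _) (hcE _))) (hcE _)))
      · rw [← hcid]
        ring
    have hlalg' : IsAlgebraic (IntermediateField.adjoin ℂ (Set.range ![w, ν])) l := by
      have h1 : l = (l - algebraMap ℂ N l₅ + w) + (algebraMap ℂ N l₅ - w) := by ring
      rw [h1]
      exact hlalg.add (isAlgebraic_mem _ _ (sub_mem (hcE _) hwE))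
    have hvalg : IsAlgebraic (IntermediateField.adjoin ℂ (Set.range ![w, ν])) v := by
      rw [← hνv, ← hlw]
      exact (isAlgebraic_mem _ _ hνE).mul hlalg
    apply indep_of_algebraic hindlv
    intro i
    fin_cases i
    · exact hlalg'
    · exact hvalg
  have halg2 := alg_of_indep hind halg hind2
  -- `y₁` and `y₂`
  have hζ2 : ζ ^ 2 = x * (s * (N₁ * τ ^ 2) + algebraMap ℂ N c * x) := by
    apply mul_left_cancel₀ (two_ne_zero (α := N))
    rw [hζ, hgs]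
    ring
  obtain ⟨y₁, hy₁⟩ : ∃ y, y = ζ * Δ ^ 3 * v ^ 3 / (U * X * R) := ⟨_, rfl⟩
  have hy₁sq := y1_id (c := algebraMap ℂ N c) hΔ hX hR hU hΔ0 hX0 hR0 hU0 hv0 hN0 hτR hsU hxl hζ2
    hw hν hy₁
  obtain ⟨y₂, hy₂⟩ : ∃ y, y = 2 * (w * ν ^ 2 - algebraMap ℂ N d₂) * (l - algebraMap ℂ N l₅ + w) +
    (w * ν - w - (2 * algebraMap ℂ N d₂ * (algebraMap ℂ N l₅ - w) + algebraMap ℂ N d₁)) :=
    ⟨_, rfl⟩
  have hy₂sq := sq_id (algebraMap ℂ N d₂) (algebraMap ℂ N d₁) (algebraMap ℂ N d₀)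
    (algebraMap ℂ N l₅) w l ν hconic
  rw [← hy₂] at hy₂sq
  -- the field
  have hEE : E = IntermediateField.adjoin ℂ {w, ν, y₁, y₂} := by
    apply le_antisymm
    · obtain ⟨E', hE'⟩ : ∃ E' : IntermediateField ℂ N,
        E' = IntermediateField.adjoin ℂ {w, ν, y₁, y₂} := ⟨_, rfl⟩
      rw [← hE']
      have hwE : w ∈ E' := by rw [hE']; exact IntermediateField.subset_adjoin _ _ (by simp)
      have hνE : ν ∈ E' := by rw [hE']; exact IntermediateField.subset_adjoin _ _ (by simp)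
      have hy1E : y₁ ∈ E' := by rw [hE']; exact IntermediateField.subset_adjoin _ _ (by simp)
      have hy2E : y₂ ∈ E' := by rw [hE']; exact IntermediateField.subset_adjoin _ _ (by simp)
      have hcE : ∀ z : ℂ, algebraMap ℂ N z ∈ E' := fun z => E'.algebraMap_mem z
      have hbE : w * ν - w - (2 * algebraMap ℂ N d₂ * (algebraMap ℂ N l₅ - w) +
          algebraMap ℂ N d₁) ∈ E' :=
        sub_mem (sub_mem (mul_mem hwE hνE) hwE) (add_mem (mul_mem (mul_mem (ofNat_mem _ 2)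
          (hcE _)) (sub_mem (hcE _) hwE)) (hcE _))
      have hlE : l ∈ E' := by
        have h1 : l = (y₂ - (w * ν - w - (2 * algebraMap ℂ N d₂ * (algebraMap ℂ N l₅ - w) +
            algebraMap ℂ N d₁))) / (2 * (w * ν ^ 2 - algebraMap ℂ N d₂)) +
            (algebraMap ℂ N l₅ - w) := by
          rw [hy₂]
          field_simp
          ring
        rw [h1]
        exact add_mem (div_mem (sub_mem hy2E hbE) (mul_mem (ofNat_mem _ 2)
          (sub_mem (mul_mem hwE (pow_mem hνE 2)) (hcE _)))) (sub_mem (hcE _) hwE)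
      have hvE : v ∈ E' := by
        rw [← hνv, hN₁]
        exact mul_mem hνE (add_mem (sub_mem hlE (hcE _)) hwE)
      obtain ⟨k1, k2, k3, k4, k5, k6, k7, k8, k9⟩ := fromlv E' hlE hvE
      rw [← hE]
      refine sup_adjoin_le ?_ ?_
      · rw [IntermediateField.adjoin_le_iff]
        rintro b (hb | hb)
        · rw [hb]; exact k8
        · rw [Set.mem_singleton_iff.1 hb]; exact k7
      · have h1 : ζ = y₁ * (U * X * R) / (Δ ^ 3 * v ^ 3) := by
          rw [hy₁]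
          field_simp
        rw [h1]
        exact div_mem (mul_mem hy1E (mul_mem (mul_mem k6 k4) k5))
          (mul_mem (pow_mem k3 3) (pow_mem hvE 3))
    · have hcE : ∀ z : ℂ, algebraMap ℂ N z ∈ E := fun z => E.algebraMap_mem z
      have hlE : l ∈ E := by rw [hl]; exact div_mem hξE (pow_mem hτE 2)
      have hN1E : N₁ ∈ E := by rw [hN₁]; exact sub_mem hlE (hcE _)
      have hM1E : M₁ ∈ E := by
        rw [hM₁]
        exact mul_mem (mul_mem (hcE _) (sub_mem hlE (hcE _))) (sub_mem hlE (hcE _))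
      have hxE : x ∈ E := by
        rw [hxl]
        exact sub_mem (sub_mem (mul_mem hlE (pow_mem hτE 2)) (one_mem _)) hτE
      have hsE : s ∈ E := by
        have h1 : s = (ζ ^ 2 / x - algebraMap ℂ N c * x) / (N₁ * τ ^ 2) := by
          rw [hζ2]
          field_simp
          ring
        rw [h1]
        exact div_mem (sub_mem (div_mem (pow_mem hζE 2) hxE) (mul_mem (hcE _) hxE))
          (mul_mem hN1E (pow_mem hτE 2))
      have hvE : v ∈ E := by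
        rw [hv]
        exact div_mem (mul_mem hM1E hτE) (mul_mem hN1E (sub_mem (one_mem _) hsE))
      obtain ⟨k1, k2, k3, k4, k5, k6, k7, k8, k9⟩ := fromlv E hlE hvE
      have hwE : w ∈ E := by rw [hw]; exact div_mem k3 k4
      have hνE : ν ∈ E := by rw [hν]; exact div_mem hvE (add_mem k1 hwE)
      rw [IntermediateField.adjoin_le_iff]
      rintro b (hb | hb | hb | hb)
      · rw [hb]; exact hwE
      · rw [hb]; exact hνE
      · rw [hb, hy₁]
        exact div_mem (mul_mem (mul_mem hζE (pow_mem k3 3)) (pow_mem hvE 3))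
          (mul_mem (mul_mem k6 k4) k5)
      · rw [Set.mem_singleton_iff.1 hb, hy₂]
        exact add_mem (mul_mem (mul_mem (ofNat_mem _ 2) (sub_mem (mul_mem hwE (pow_mem hνE 2))
          (hcE _))) (add_mem (sub_mem hlE (hcE _)) hwE))
          (sub_mem (sub_mem (mul_mem hwE hνE) hwE) (add_mem (mul_mem (mul_mem (ofNat_mem _ 2)
          (hcE _)) (sub_mem (hcE _) hwE)) (hcE _)))
  refine enr_T c d₂ d₁ d₀ l₅ hc ?_ ?_ E.val hind2 halg2
    (by rw [IntermediateField.fieldRange_val, hEE]) hy₁sq hy₂sq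
  · rw [hd₂]
    intro h
    apply hD
    linear_combination h
  · rw [hd₂, add_comm D 1]
    exact hcd

end

end Vale.Agent.P297.H600
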