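import Vale.Agent.P297.H600.OneIds
import Vale.Agent.P297.H600.Res

/-!
The double plane of a surface of type I is rational.
-/

set_option linter.unusedSectionVars false

open IntermediateField

namespace Vale.Agent.P297.H600

open Vale.Agent.P297 Vale.Agent.P297.H839 Vale.Agent.P297.H109

section Ring

variable {R : Type*} [CommRing R]

/-- the value of `q` at `x = 0` -/
def oB (c D l₃ l₄ l₅ z : R) : R :=
  (1 + z - l₅ * z ^ 2) * (c - (1 + z - l₅ * z ^ 2)) -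
    c * (D * (1 + z - l₃ * z ^ 2) * (1 + z - l₄ * z ^ 2))

theorem map_oB {S : Type*} [CommRing S] (φ : R →+* S) (c D l₃ l₄ l₅ z : R) :
    φ (oB c D l₃ l₄ l₅ z) = oB (φ c) (φ D) (φ l₃) (φ l₄) (φ l₅) (φ z) := by
  simp only [oB, map_sub, map_add, map_mul, map_pow, map_one]

theorem oQ_id (c D l₃ l₄ l₅ ξ τ : R) : oQ c D l₃ l₄ l₅ ξ τ =
    -(1 + c + c * D) * oX ξ τ ^ 2 + ((2 * l₅ + c * l₅ + c * D * (l₃ + l₄)) * τ ^ 2 +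
      (-2 - c - 2 * c * D) * τ + ((1 + c) * (c - 1) - 1 - 2 * c * D)) * oX ξ τ +
      oB c D l₃ l₄ l₅ τ := by
  unfold oQ oX oN oM oB
  ring

theorem oB_fac (c D l₃ l₄ l₅ ρ₁ ρ₂ z : R) :
    (ρ₁ - ρ₂) * (oB c D l₃ l₄ l₅ z - (z - ρ₁) * (z - ρ₂) *
      ((-l₅ ^ 2 - c * D * l₃ * l₄) * z ^ 2 +
      ((2 * l₅ + c * D * (l₃ + l₄)) + (-l₅ ^ 2 - c * D * l₃ * l₄) * (ρ₁ + ρ₂)) * z +
      ((-c * l₅ - (1 - 2 * l₅) - c * D * (1 - l₃ - l₄)) +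
        (2 * l₅ + c * D * (l₃ + l₄)) * (ρ₁ + ρ₂) +
        (-l₅ ^ 2 - c * D * l₃ * l₄) * (ρ₁ ^ 2 + ρ₁ * ρ₂ + ρ₂ ^ 2)))) =
      (z - ρ₂) * oB c D l₃ l₄ l₅ ρ₁ - (z - ρ₁) * oB c D l₃ l₄ l₅ ρ₂ := by
  unfold oB
  ring

end Ring

section

variable {N : Type} [Field N] [Algebra ℂ N]

/-- the double plane is rational -/
theorem one_wside (c D l₃ l₄ l₅ ρ₁ ρ₂ ρ₃ : ℂ) (hρ : ρ₁ ≠ ρ₂) (hB1 : oB c D l₃ l₄ l₅ ρ₁ = 0)
    (hB2 : oB c D l₃ l₄ l₅ ρ₂ = 0) (hB3 : oB c D l₃ l₄ l₅ ρ₃ ≠ 0) {ξ τ y : N}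
    (hind : AlgebraicIndependent ℂ ![ξ, τ])
    (hy : y ^ 2 = oX ξ τ * oQ (algebraMap ℂ N c) (algebraMap ℂ N D) (algebraMap ℂ N l₃)
      (algebraMap ℂ N l₄) (algebraMap ℂ N l₅) ξ τ) :
    IsRational (IntermediateField.adjoin ℂ {ξ, τ} ⊔ IntermediateField.adjoin ℂ {y} :
      IntermediateField ℂ N) := by
  have hρN : algebraMap ℂ N ρ₁ - algebraMap ℂ N ρ₂ ≠ 0 := by
    rw [← map_sub, Ne, FaithfulSMul.algebraMap_eq_zero_iff]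
    exact sub_ne_zero.2 hρ
  obtain ⟨p₂, hp₂⟩ : ∃ p₂ : ℂ, p₂ = -l₅ ^ 2 - c * D * l₃ * l₄ := ⟨_, rfl⟩
  obtain ⟨p₁, hp₁⟩ : ∃ p₁ : ℂ, p₁ = (2 * l₅ + c * D * (l₃ + l₄)) +
    (-l₅ ^ 2 - c * D * l₃ * l₄) * (ρ₁ + ρ₂) := ⟨_, rfl⟩
  obtain ⟨p₀, hp₀⟩ : ∃ p₀ : ℂ, p₀ = (-c * l₅ - (1 - 2 * l₅) - c * D * (1 - l₃ - l₄)) +
        (2 * l₅ + c * D * (l₃ + l₄)) * (ρ₁ + ρ₂) +
        (-l₅ ^ 2 - c * D * l₃ * l₄) * (ρ₁ ^ 2 + ρ₁ * ρ₂ + ρ₂ ^ 2) := ⟨_, rfl⟩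
  have hp3 : p₂ * ρ₃ ^ 2 + p₁ * ρ₃ + p₀ ≠ 0 := by
    intro h0
    have h1 := oB_fac c D l₃ l₄ l₅ ρ₁ ρ₂ ρ₃
    rw [hB1, hB2, ← hp₀, ← hp₁, ← hp₂, h0] at h1
    apply hB3
    have h2 : (ρ₁ - ρ₂) * oB c D l₃ l₄ l₅ ρ₃ = 0 := by linear_combination h1
    exact (mul_eq_zero.1 h2).resolve_left (sub_ne_zero.2 hρ)
  have hfac : oB (algebraMap ℂ N c) (algebraMap ℂ N D) (algebraMap ℂ N l₃)
      (algebraMap ℂ N l₄) (algebraMap ℂ N l₅) τ = (algebraMap ℂ N p₂ * τ ^ 2 +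
      algebraMap ℂ N p₁ * τ + algebraMap ℂ N p₀) * (algebraMap ℂ N 1 * τ ^ 2 +
      algebraMap ℂ N (-(ρ₁ + ρ₂)) * τ + algebraMap ℂ N (ρ₁ * ρ₂)) := by
    have h0 := oB_fac (algebraMap ℂ N c) (algebraMap ℂ N D) (algebraMap ℂ N l₃)
      (algebraMap ℂ N l₄) (algebraMap ℂ N l₅) (algebraMap ℂ N ρ₁) (algebraMap ℂ N ρ₂) τ
    rw [← map_oB (algebraMap ℂ N) c D l₃ l₄ l₅ ρ₁, ← map_oB (algebraMap ℂ N) c D l₃ l₄ l₅ ρ₂, hB1,
      hB2, map_zero, mul_zero, mul_zero, sub_zero] at h0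
    have h1 := (mul_eq_zero.1 h0).resolve_left hρN
    rw [sub_eq_zero.1 h1, hp₂, hp₁, hp₀]
    simp only [map_add, map_sub, map_mul, map_pow, map_neg, map_one, map_ofNat]
    ring
  obtain ⟨x, hx⟩ : ∃ x, x = oX ξ τ := ⟨_, rfl⟩
  have hξ : ξ = x + 1 + τ := by
    rw [hx]
    unfold oX
    ring
  have hF : IntermediateField.adjoin ℂ {ξ, τ} = IntermediateField.adjoin ℂ {τ, x} := by
    apply le_antisymm
    · have h1 : τ ∈ IntermediateField.adjoin ℂ {τ, x} :=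
        IntermediateField.subset_adjoin _ _ (by simp)
      have h2 : x ∈ IntermediateField.adjoin ℂ {τ, x} :=
        IntermediateField.subset_adjoin _ _ (by simp)
      rw [IntermediateField.adjoin_le_iff]
      rintro a (ha | ha)
      · rw [ha, hξ]
        exact add_mem (add_mem h2 (one_mem _)) h1
      · rw [Set.mem_singleton_iff.1 ha]
        exact h1
    · have h1 : ξ ∈ IntermediateField.adjoin ℂ {ξ, τ} :=
        IntermediateField.subset_adjoin _ _ (by simp)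
      have h2 : τ ∈ IntermediateField.adjoin ℂ {ξ, τ} :=
        IntermediateField.subset_adjoin _ _ (by simp)
      rw [IntermediateField.adjoin_le_iff]
      rintro a (ha | ha)
      · rw [ha]
        exact h2
      · rw [Set.mem_singleton_iff.1 ha, hx]
        exact sub_mem (sub_mem h1 (one_mem _)) h2
  have hind2 : AlgebraicIndependent ℂ ![τ, x] := by
    apply indep_of_algebraic hind
    intro i
    rw [range_pair]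
    refine isAlgebraic_mem _ _ ?_
    rw [← hF]
    fin_cases i
    · exact IntermediateField.subset_adjoin _ _ (by simp)
    · exact IntermediateField.subset_adjoin _ _ (by simp)
  rw [hF]
  refine res_rational (-(1 + c + c * D)) p₂ p₁ p₀ 1 (-(ρ₁ + ρ₂)) (ρ₁ * ρ₂)
    (2 * l₅ + c * l₅ + c * D * (l₃ + l₄)) (-2 - c - 2 * c * D) ((1 + c) * (c - 1) - 1 - 2 * c * D)
    ρ₃ 0 hp3 ?_ hind2 ?_
  · have h3 : (-(1 + c + c * D) * p₁ * 0 ^ 2 + (-2 - c - 2 * c * D) * 0 + -(ρ₁ + ρ₂)) ^ 2 -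
        4 * (-(1 + c + c * D) * p₂ * 0 ^ 2 + (2 * l₅ + c * l₅ + c * D * (l₃ + l₄)) * 0 + 1) *
        (-(1 + c + c * D) * p₀ * 0 ^ 2 + ((1 + c) * (c - 1) - 1 - 2 * c * D) * 0 + ρ₁ * ρ₂) =
        (ρ₁ - ρ₂) ^ 2 := by ring
    rw [h3]
    exact pow_ne_zero 2 (sub_ne_zero.2 hρ)
  · rw [hy, oQ_id, ← hx, hfac]
    simp only [map_add, map_sub, map_mul, map_neg, map_one, map_ofNat]

end

end Vale.Agent.P297.H600
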