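import Mathlib.RingTheory.Valuation.LocalSubring
import Mathlib.FieldTheory.Minpoly.IsIntegrallyClosed
import Mathlib.Algebra.Polynomial.SpecificDegree
import Mathlib.Algebra.Polynomial.Eval.Irreducible
import Mathlib.RingTheory.AlgebraicIndependent.Basic
import Mathlib.Data.Complex.Basic
import Mathlib.Data.ZMod.Basic
import Mathlib.Tactic

/-!
A place of a field with two algebraically independent elements `x`, `y` whose residue field has
characteristic `23`, with `c ↦ 15`, `x ↦ 8`, `y ↦ 1`, where `c³ - c² + 1 = 0`.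
-/

open Polynomial

namespace Vale.Agent.P297.H600

section general

variable {K : Type} [Field K]

/-- extension of a specialisation to a valuation ring -/
theorem exists_place_of_ker {R : Type} [CommRing R] {k : Type} [Field k] (Φ : R →+* K)
    (Ψ : R →+* k) (h : ∀ a, Φ a = 0 → Ψ a = 0) :
    ∃ V : ValuationSubring K, (∀ a, Φ a ∈ V) ∧ ∀ a, Ψ a = 0 → Φ a ∈ V.nonunits := by
  have hI : Ideal.map Φ.rangeRestrict (RingHom.ker Ψ) ≠ ⊤ := by
    intro htop
    have h1 : (1 : Φ.range) ∈ Ideal.map Φ.rangeRestrict (RingHom.ker Ψ) := by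
      rw [htop]; trivial
    obtain ⟨a, ha, ha1⟩ := (Ideal.mem_map_iff_of_surjective _ Φ.rangeRestrict_surjective).1 h1
    have h2 : Φ (a - 1) = 0 := by
      have h3 : Φ a = 1 := congrArg Subtype.val ha1
      rw [map_sub, h3, map_one, sub_self]
    have h3 := h _ h2
    rw [map_sub, map_one, (RingHom.mem_ker).1 ha, zero_sub, neg_eq_zero] at h3
    exact one_ne_zero h3
  obtain ⟨V, hV, hV2⟩ := Ideal.image_subset_nonunits_valuationSubring _ hI
  refine ⟨V, fun a => hV ⟨a, rfl⟩, fun a ha => hV2 ?_⟩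
  exact ⟨Φ.rangeRestrict a, Ideal.mem_map_of_mem _ ((RingHom.mem_ker).2 ha), rfl⟩

end general

theorem zmod23_root : (15 : ZMod 23) ^ 3 - 15 ^ 2 + 1 = 0 := by decide

theorem zmod23_zero : (23 : ZMod 23) = 0 := by decide

theorem zmod2_noroot : ∀ x : ZMod 2, x ^ 3 - x ^ 2 + 1 ≠ 0 := by decide

/-- the polynomial `X³ - X² + 1` -/
noncomputable def cubicPol : ℤ[X] := X ^ 3 - X ^ 2 + 1

theorem cubicPol_monic : cubicPol.Monic := by
  unfold cubicPol
  monicity!

theorem cubicPol_irreducible : Irreducible cubicPol := by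
  have h2 : Irreducible (cubicPol.map (Int.castRingHom (ZMod 2))) := by
    have : Fact (Nat.Prime 2) := ⟨Nat.prime_two⟩
    have hdeg : (cubicPol.map (Int.castRingHom (ZMod 2))).natDegree = 3 := by
      rw [cubicPol_monic.natDegree_map]
      unfold cubicPol
      compute_degree!
    apply Polynomial.irreducible_of_degree_le_three_of_not_isRoot
    · rw [hdeg]; decide
    · intro x hx
      have h3 : x ^ 3 - x ^ 2 + 1 = 0 := by
        have h4 := hx
        unfold cubicPol at h4
        simpa [Polynomial.IsRoot] using h4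
      exact zmod2_noroot x h3
  exact Polynomial.Monic.irreducible_of_irreducible_map _ _ cubicPol_monic h2

theorem cubicPol_dvd {s : ℂ} (hs : s ^ 3 - s ^ 2 + 1 = 0) {p : ℤ[X]} (hp : aeval s p = 0) :
    cubicPol ∣ p := by
  have h0 : aeval s cubicPol = 0 := by
    unfold cubicPol
    simpa using hs
  have hint : IsIntegral ℤ s := ⟨cubicPol, cubicPol_monic, by
    rw [← Polynomial.aeval_def]; exact h0⟩
  have h1 := minpoly.isIntegrallyClosed_dvd hint h0
  have h2 := minpoly.isIntegrallyClosed_dvd hint hp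
  have h3 : ¬ IsUnit (minpoly ℤ s) := minpoly.not_isUnit ℤ s
  have h4 : Associated cubicPol (minpoly ℤ s) := by
    obtain ⟨q, hq⟩ := h1
    rcases cubicPol_irreducible.isUnit_or_isUnit hq with h5 | h5
    · exact absurd h5 h3
    · exact ⟨h5.unit⁻¹, by rw [hq, mul_assoc, IsUnit.mul_val_inv, mul_one]⟩
  exact h4.dvd.trans h2

theorem exists_place {K : Type} [Field K] [Algebra ℂ K] {s : ℂ} (hs : s ^ 3 - s ^ 2 + 1 = 0)
    {x y : K} (hxy : AlgebraicIndependent ℂ ![x, y]) :
    ∃ V : ValuationSubring K, (23 : K) ∈ V.nonunits ∧ algebraMap ℂ K s - 15 ∈ V.nonunits ∧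
      x - 8 ∈ V.nonunits ∧ y - 1 ∈ V.nonunits := by
  have : Fact (Nat.Prime 23) := ⟨by norm_num⟩
  let φ₀ : ℤ[X] →+* ℂ := (aeval s : ℤ[X] →ₐ[ℤ] ℂ).toRingHom
  let ψ₀ : ℤ[X] →+* ZMod 23 := (aeval (15 : ZMod 23) : ℤ[X] →ₐ[ℤ] ZMod 23).toRingHom
  let Φ : MvPolynomial (Fin 2) ℤ[X] →+* K :=
    ((MvPolynomial.aeval ![x, y] : MvPolynomial (Fin 2) ℂ →ₐ[ℂ] K).toRingHom).comp
      (MvPolynomial.map φ₀)
  let Ψ : MvPolynomial (Fin 2) ℤ[X] →+* ZMod 23 :=
    (MvPolynomial.eval ![(8 : ZMod 23), 1]).comp (MvPolynomial.map ψ₀)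
  have hker : ∀ a, Φ a = 0 → Ψ a = 0 := by
    intro a ha
    have h1 : MvPolynomial.map φ₀ a = 0 := by
      apply hxy
      rw [map_zero]
      exact ha
    have h2 : MvPolynomial.map ψ₀ a = 0 := by
      ext m
      rw [MvPolynomial.coeff_map, MvPolynomial.coeff_zero]
      have h3 : φ₀ (MvPolynomial.coeff m a) = 0 := by
        rw [← MvPolynomial.coeff_map, h1, MvPolynomial.coeff_zero]
      obtain ⟨q, hq⟩ := cubicPol_dvd hs h3
      rw [hq, map_mul]
      have h4 : ψ₀ cubicPol = 0 := by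
        change aeval (15 : ZMod 23) cubicPol = 0
        unfold cubicPol
        simp only [map_add, map_sub, map_pow, aeval_X, map_one]
        exact zmod23_root
      rw [h4, zero_mul]
    change MvPolynomial.eval _ (MvPolynomial.map ψ₀ a) = 0
    rw [h2, map_zero]
  obtain ⟨V, -, hV⟩ := exists_place_of_ker Φ Ψ hker
  have hCC : ∀ p : ℤ[X], Φ (MvPolynomial.C p) = algebraMap ℂ K (φ₀ p) := by
    intro p
    change MvPolynomial.aeval ![x, y] (MvPolynomial.map φ₀ (MvPolynomial.C p)) = _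
    rw [MvPolynomial.map_C, MvPolynomial.aeval_C]
  have hCP : ∀ p : ℤ[X], Ψ (MvPolynomial.C p) = ψ₀ p := by
    intro p
    change MvPolynomial.eval _ (MvPolynomial.map ψ₀ (MvPolynomial.C p)) = _
    rw [MvPolynomial.map_C, MvPolynomial.eval_C]
  have hXC : ∀ i, Φ (MvPolynomial.X i) = ![x, y] i := by
    intro i
    change MvPolynomial.aeval ![x, y] (MvPolynomial.map φ₀ (MvPolynomial.X i)) = _
    rw [MvPolynomial.map_X, MvPolynomial.aeval_X]
  have hXP : ∀ i, Ψ (MvPolynomial.X i) = ![(8 : ZMod 23), 1] i := by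
    intro i
    change MvPolynomial.eval _ (MvPolynomial.map ψ₀ (MvPolynomial.X i)) = _
    rw [MvPolynomial.map_X, MvPolynomial.eval_X]
  refine ⟨V, ?_, ?_, ?_, ?_⟩
  · have h := hV 23 (by rw [map_ofNat]; exact zmod23_zero)
    rwa [map_ofNat] at h
  · have h := hV (MvPolynomial.C (X - 15)) (by
      rw [hCP]
      change aeval (15 : ZMod 23) (X - 15 : ℤ[X]) = 0
      rw [map_sub, aeval_X, map_ofNat, sub_self])
    rw [hCC] at h
    have h1 : φ₀ (X - 15) = s - 15 := by
      change aeval s (X - 15 : ℤ[X]) = s - 15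
      rw [map_sub, aeval_X, map_ofNat]
    rw [h1, map_sub, map_ofNat] at h
    exact h
  · have h := hV (MvPolynomial.X 0 - 8) (by
      rw [map_sub, hXP, map_ofNat]
      simp)
    rw [map_sub, hXC, map_ofNat] at h
    exact h
  · have h := hV (MvPolynomial.X 1 - 1) (by
      rw [map_sub, hXP, map_one]
      simp)
    rw [map_sub, hXC, map_one] at h
    exact h

end Vale.Agent.P297.H600
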