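import Vale.Agent.P297.H600.QDict

/-!
Four points on a parabola; twists.
-/

set_option linter.unusedSectionVars false

namespace Vale.Agent.P297.G4

open Vale.Agent.P297.Z3 WeierstrassCurve WeierstrassCurve.Affine

section

variable {k : Type} [Field k] [CharZero k] {a b : k}

/-- three different roots of a monic quadratic polynomial -/
theorem three_roots {g₁ g₀ x₁ x₂ x₃ : k} (h₁ : x₁ ^ 2 + g₁ * x₁ + g₀ = 0)
    (h₂ : x₂ ^ 2 + g₁ * x₂ + g₀ = 0) (h₃ : x₃ ^ 2 + g₁ * x₃ + g₀ = 0) (h12 : x₁ ≠ x₂)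
    (h13 : x₁ ≠ x₃) (h23 : x₂ ≠ x₃) : False := by
  have e1 : (x₁ - x₂) * (x₁ + x₂ + g₁) = 0 := by linear_combination h₁ - h₂
  have e2 : (x₁ - x₃) * (x₁ + x₃ + g₁) = 0 := by linear_combination h₁ - h₃
  have e3 := (mul_eq_zero.1 e1).resolve_left (sub_ne_zero.2 h12)
  have e4 := (mul_eq_zero.1 e2).resolve_left (sub_ne_zero.2 h13)
  exact h23 (by linear_combination e3 - e4)

variable [DecidableEq k]

/-- the sum of two points with different first coordinates -/
theorem add_coord {x₁ y₁ x₂ y₂ : k} (h₁ : (wc a b).toAffine.Nonsingular x₁ y₁)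
    (h₂ : (wc a b).toAffine.Nonsingular x₂ y₂) (hne : x₁ ≠ x₂) :
    ∃ (l x y : k) (h : (wc a b).toAffine.Nonsingular x y),
      Point.some x₁ y₁ h₁ + Point.some x₂ y₂ h₂ = .some x y h ∧ l * (x₁ - x₂) = y₁ - y₂ ∧
      x = l ^ 2 - x₁ - x₂ ∧ y = -(l * (x - x₁) + y₁) := by
  have h3 := Point.add_some (W := (wc a b).toAffine) (h₁ := h₁) (h₂ := h₂)
    (fun h0 => hne h0.1)
  refine ⟨(wc a b).toAffine.slope x₁ x₂ y₁ y₂, _, _, _, h3, ?_, ?_, ?_⟩
  · rw [wc_slope_of_ne hne, div_mul_cancel₀ _ (sub_ne_zero.2 hne)]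
  · rw [wc_addX]
  · rw [wc_addY, wc_addX]

/-- Four points with sum zero lie on a parabola. -/
theorem parabola {x y : Fin 4 → k} (h : ∀ i, (wc a b).toAffine.Nonsingular (x i) (y i))
    (hsum : Point.some _ _ (h 0) + Point.some _ _ (h 1) + (Point.some _ _ (h 2) +
      Point.some _ _ (h 3)) = 0)
    (hinj : ∀ i j, i ≠ j → x i ≠ x j)
    (htan : ∀ i j, i ≠ j → (2 : ℕ) • Point.some _ _ (h i) + Point.some _ _ (h j) ≠ 0) :
    ∃ α β γ : k, α ≠ 0 ∧ ∀ i, y i = α * x i ^ 2 + β * x i + γ := by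
  obtain ⟨l, X, Y, hXY, hR, hl, hX, hY⟩ := add_coord (h 0) (h 1) (hinj 0 1 (by decide))
  obtain ⟨m, X', Y', hXY', hR', hm, hX', hY'⟩ := add_coord (h 2) (h 3) (hinj 2 3 (by decide))
  have hRR : Point.some X' Y' hXY' = -Point.some X Y hXY := by
    rw [← hR, ← hR', eq_neg_iff_add_eq_zero, add_comm]
    exact hsum
  have hneg := Point.neg_some hXY
  rw [hneg, Point.some.injEq, wc_negY] at hRR
  obtain ⟨hXX, hYY⟩ := hRR
  rw [hYY] at hY'
  rw [hXX] at hX' hY'
  have c0 := wc_equation.1 (h 0).1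
  have c1 := wc_equation.1 (h 1).1
  have c2 := wc_equation.1 (h 2).1
  have c3 := wc_equation.1 (h 3).1
  have cR := wc_equation.1 hXY.1
  -- the first coordinate of the sum is different from the others
  have hne : ∀ i, x i ≠ X := by
    intro i h0
    have hcase : ∀ (j : Fin 4), j ≠ i → Point.some _ _ (h i) + Point.some _ _ (h j) =
        Point.some X Y hXY ∨ Point.some _ _ (h i) + Point.some _ _ (h j) =
        -Point.some X Y hXY → False := by
      intro j hj hs
      have hy : y i = Y ∨ y i = -Y := by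
        have e1 := wc_equation.1 (h i).1
        rw [h0] at e1
        have e2 : (y i - Y) * (y i + Y) = 0 := by linear_combination e1 - cR
        rcases mul_eq_zero.1 e2 with e3 | e3
        · exact Or.inl (sub_eq_zero.1 e3)
        · exact Or.inr (eq_neg_of_add_eq_zero_left e3)
      have hij : i ≠ j := hj.symm
      have hP : Point.some _ _ (h i) = Point.some X Y hXY ∨
          Point.some _ _ (h i) = -Point.some X Y hXY := by
        rcases hy with hy | hy
        · left
          rw [Point.some.injEq]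
          exact ⟨h0, hy⟩
        · right
          rw [hneg, Point.some.injEq, wc_negY]
          exact ⟨h0, hy⟩
      have key1 : Point.some _ _ (h i) + Point.some _ _ (h j) = Point.some _ _ (h i) → False := by
        intro e1
        exact Point.some_ne_zero (h j) (add_eq_left.1 e1)
      have key2 : Point.some _ _ (h i) + Point.some _ _ (h j) = -Point.some _ _ (h i) →
          False := by
        intro e1
        apply htan i j hij
        rw [two_nsmul, add_assoc, e1, add_neg_cancel]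
      rcases hP with hP | hP <;> rcases hs with hs | hs
      · exact key1 (hs.trans hP.symm)
      · exact key2 (by rw [hs, hP])
      · exact key2 (by rw [hs, hP, neg_neg])
      · exact key1 (hs.trans hP.symm)
    have hR'' : Point.some _ _ (h 2) + Point.some _ _ (h 3) = -Point.some X Y hXY := by
      rw [← hR, eq_neg_iff_add_eq_zero, add_comm]
      exact hsum
    fin_cases i
    · exact hcase 1 (by decide) (Or.inl hR)
    · exact hcase 0 (by decide) (Or.inl (by rw [← hR]; exact add_comm _ _))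
    · exact hcase 3 (by decide) (Or.inr hR'')
    · exact hcase 2 (by decide) (Or.inr (by rw [← hR'']; exact add_comm _ _))
  -- the function
  obtain ⟨κ, hκ⟩ : ∃ κ, κ = l + m := ⟨_, rfl⟩
  obtain ⟨g₁, hg₁⟩ : ∃ g₁, g₁ = X + l * m := ⟨_, rfl⟩
  obtain ⟨g₀, hg₀⟩ : ∃ g₀, g₀ = a + l * (y 2 - m * x 2) + m * (y 0 - l * x 0) + X * g₁ :=
    ⟨_, rfl⟩
  have hfun : ∀ s t : k, t ^ 2 = s ^ 3 + a * s + b →
      (t - (l * (s - x 0) + y 0)) * (t - (m * (s - x 2) + y 2)) =
        (s - X) * (s ^ 2 + g₁ * s + g₀ - κ * t) := by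
    intro s t hst
    rw [hg₀, hg₁, hκ]
    linear_combination hst - cR + (m * (X - x 2) + y 2 - t) * hY + (-Y - t) * hY'
  have hmem : ∀ i, κ * y i = x i ^ 2 + g₁ * x i + g₀ := by
    intro i
    have h1 := hfun (x i) (y i) (wc_equation.1 (h i).1)
    have h2 : (y i - (l * (x i - x 0) + y 0)) * (y i - (m * (x i - x 2) + y 2)) = 0 := by
      fin_cases i
      · simp
      · have h3 : y 1 - (l * (x 1 - x 0) + y 0) = 0 := by linear_combination hl
        change (y 1 - (l * (x 1 - x 0) + y 0)) * _ = 0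
        rw [h3, zero_mul]
      · change _ * (y 2 - (m * (x 2 - x 2) + y 2)) = 0
        ring
      · have h3 : y 3 - (m * (x 3 - x 2) + y 2) = 0 := by linear_combination hm
        change _ * (y 3 - (m * (x 3 - x 2) + y 2)) = 0
        rw [h3, mul_zero]
    rw [h2] at h1
    have h3 := (mul_eq_zero.1 h1.symm).resolve_left (sub_ne_zero.2 (hne i))
    linear_combination -h3
  have hκ0 : κ ≠ 0 := by
    intro h0
    have h1 : ∀ i, x i ^ 2 + g₁ * x i + g₀ = 0 := by
      intro i
      rw [← hmem i, h0, zero_mul]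
    exact three_roots (h1 0) (h1 1) (h1 2) (hinj 0 1 (by decide)) (hinj 0 2 (by decide))
      (hinj 1 2 (by decide))
  refine ⟨κ⁻¹, κ⁻¹ * g₁, κ⁻¹ * g₀, inv_ne_zero hκ0, fun i => ?_⟩
  apply mul_left_cancel₀ hκ0
  rw [hmem i]
  field_simp

end

section

variable {k : Type} [Field k] [CharZero k] {c : Fin 5 → k} {e : k}

/-- a quartic polynomial with five different roots -/
theorem five_roots [DecidableEq k] (r : Fin 5 → k) (S : Finset k) (hS : 4 < S.card)
    (h : ∀ x ∈ S, qv r x = 0) : ∀ i, r i = 0 := by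
  obtain ⟨p, hp⟩ : ∃ p : Polynomial k, p = Polynomial.C (r 0) + Polynomial.C (r 1) *
      Polynomial.X + Polynomial.C (r 2) * Polynomial.X ^ 2 + Polynomial.C (r 3) *
      Polynomial.X ^ 3 + Polynomial.C (r 4) * Polynomial.X ^ 4 := ⟨_, rfl⟩
  have hdeg : p.natDegree ≤ 4 := by
    rw [hp]
    compute_degree
  have h0 : p = 0 := by
    apply Polynomial.eq_zero_of_natDegree_lt_card_of_eval_eq_zero' p S
    · intro x hx
      rw [hp]
      simp only [Polynomial.eval_add, Polynomial.eval_mul, Polynomial.eval_C, Polynomial.eval_X,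
        Polynomial.eval_pow]
      exact h x hx
    · omega
  have hcoeff : ∀ n, p.coeff n = 0 := fun n => by rw [h0, Polynomial.coeff_zero]
  rw [hp] at hcoeff
  have c0 := hcoeff 0
  have c1 := hcoeff 1
  have c2 := hcoeff 2
  have c3 := hcoeff 3
  have c4 := hcoeff 4
  simp only [Polynomial.coeff_add, Polynomial.coeff_C_mul, Polynomial.coeff_X_pow,
    Polynomial.coeff_X, Polynomial.coeff_C] at c0 c1 c2 c3 c4
  norm_num at c0 c1 c2 c3 c4
  intro i
  fin_cases i
  · exact c0
  · exact c1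
  · exact c2
  · exact c3
  · exact c4

/-- the coefficients of `q - (α X² + β X + γ)²` -/
def parRes (c : Fin 5 → k) (α β γ : k) : Fin 5 → k :=
  ![c 0 - γ ^ 2, c 1 - 2 * β * γ, c 2 - (β ^ 2 + 2 * α * γ), c 3 - 2 * α * β, c 4 - α ^ 2]

theorem qv_parRes (c : Fin 5 → k) (α β γ x : k) :
    qv (parRes c α β γ) x = qv c x - (α * x ^ 2 + β * x + γ) ^ 2 := by
  unfold qv parRes
  simp only [Matrix.cons_val]
  ring

theorem parRes_ne (hc : 4 * qI c ^ 3 ≠ qJ c ^ 2) (α β γ : k) : ∃ i, parRes c α β γ i ≠ 0 := by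
  by_contra hcon
  push Not at hcon
  apply hc
  have e0 := hcon 0
  have e1 := hcon 1
  have e2 := hcon 2
  have e3 := hcon 3
  have e4 := hcon 4
  simp only [parRes, Matrix.cons_val] at e0 e1 e2 e3 e4
  rw [sub_eq_zero] at e0 e1 e2 e3 e4
  unfold qI qJ
  rw [e0, e1, e2, e3, e4]
  ring

variable [DecidableEq k]

/-- Four points of the quartic on a parabola. -/
theorem parabola_quartic (hc : 4 * qI c ^ 3 ≠ qJ c ^ 2) (he : qv c e = 0)
    {P : Fin 4 → (Wq c).Point} (hP : ∀ i, Fin' c e (P i))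
    (hsum : P 0 + P 1 + (P 2 + P 3) = 0) (hinj : ∀ i j, i ≠ j → P i ≠ P j ∧ P i + P j ≠ 0)
    (htan : ∀ i j, i ≠ j → (2 : ℕ) • P i + P j ≠ 0) :
    ∃ α β γ : k, (∀ i, aY c e (P i) = α * aX c e (P i) ^ 2 + β * aX c e (P i) + γ) ∧
      (∀ i j, i ≠ j → aX c e (P i) ≠ aX c e (P j)) ∧
      ∀ X Y : k, Y ^ 2 = qv c X → Y = α * X ^ 2 + β * X + γ → ∃ i, X = aX c e (P i) := by
  have hA := q1_ne hc he
  choose x y h hPe hx using hP
  have hz : ∀ i, x i - q2 c e / 3 ≠ 0 := fun i => sub_ne_zero.2 (hx i)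
  have hxne : ∀ i j, i ≠ j → x i ≠ x j := by
    intro i j hij h0
    obtain ⟨h1, h2⟩ := hinj i j hij
    have e1 := wc_equation.1 (h i).1
    have e2 := wc_equation.1 (h j).1
    rw [h0] at e1
    have e3 : (y i - y j) * (y i + y j) = 0 := by linear_combination e1 - e2
    rcases mul_eq_zero.1 e3 with e4 | e4
    · apply h1
      rw [hPe i, hPe j, Point.some.injEq]
      exact ⟨h0, sub_eq_zero.1 e4⟩
    · apply h2
      rw [← eq_neg_iff_add_eq_zero, hPe i, hPe j]
      obtain ⟨h', h3⟩ := neg_some' (h j)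
      rw [h3, Point.some.injEq]
      exact ⟨h0, eq_neg_of_add_eq_zero_left e4⟩
  obtain ⟨α, β, γ, hα, hpar⟩ := parabola h (by
      rw [hPe 0, hPe 1, hPe 2, hPe 3] at hsum
      exact hsum) hxne (by
      intro i j hij
      have h1 := htan i j hij
      rw [hPe i, hPe j] at h1
      exact h1)
  have hX : ∀ i, aX c e (P i) = e + q1 c e / (x i - q2 c e / 3) := by
    intro i
    rw [hPe i, aX_some]
  have hY : ∀ i, aY c e (P i) = q1 c e * y i / (x i - q2 c e / 3) ^ 2 := by
    intro i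
    rw [hPe i, aY_some]
  obtain ⟨β', hβ'⟩ : ∃ β', β' = β + 2 * α * (q2 c e / 3) := ⟨_, rfl⟩
  obtain ⟨γ', hγ'⟩ : ∃ γ', γ' = γ + β * (q2 c e / 3) + α * (q2 c e / 3) ^ 2 := ⟨_, rfl⟩
  have hXne : ∀ i j, i ≠ j → aX c e (P i) ≠ aX c e (P j) := by
    intro i j hij h0
    apply hxne i j hij
    rw [hX i, hX j] at h0
    have h1 : q1 c e / (x i - q2 c e / 3) = q1 c e / (x j - q2 c e / 3) := by
      linear_combination h0
    rw [div_eq_div_iff (hz i) (hz j)] at h1
    have h2 := mul_left_cancel₀ hA h1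
    linear_combination -h2
  obtain ⟨A, hAe⟩ : ∃ A, A = γ' / q1 c e := ⟨_, rfl⟩
  obtain ⟨B, hBe⟩ : ∃ B, B = β' - 2 * e * γ' / q1 c e := ⟨_, rfl⟩
  obtain ⟨C, hCe⟩ : ∃ C, C = q1 c e * α - β' * e + γ' * e ^ 2 / q1 c e := ⟨_, rfl⟩
  have hpts : ∀ i, aY c e (P i) = A * aX c e (P i) ^ 2 + B * aX c e (P i) + C := by
    intro i
    have h1 := hz i
    rw [hX i, hY i, hpar i]
    obtain ⟨z, hz'⟩ : ∃ z, x i = z + q2 c e / 3 := ⟨x i - q2 c e / 3, by ring⟩
    rw [hz'] at h1 ⊢
    rw [add_sub_cancel_right] at h1 ⊢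
    rw [hAe, hBe, hCe, hβ', hγ']
    field_simp
    ring
  refine ⟨A, B, C, hpts, hXne, fun X Y hXY hpY => ?_⟩
  by_contra hcon
  push Not at hcon
  obtain ⟨i, hi⟩ := parRes_ne hc A B C
  apply hi
  refine five_roots (parRes c A B C)
    (insert X {aX c e (P 0), aX c e (P 1), aX c e (P 2), aX c e (P 3)}) ?_ ?_ i
  · rw [Finset.card_insert_of_notMem, Finset.card_insert_of_notMem, Finset.card_insert_of_notMem,
      Finset.card_insert_of_notMem, Finset.card_singleton]
    · norm_num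
    · rw [Finset.mem_singleton]
      exact hXne 2 3 (by decide)
    · simp only [Finset.mem_insert, Finset.mem_singleton, not_or]
      exact ⟨hXne 1 2 (by decide), hXne 1 3 (by decide)⟩
    · simp only [Finset.mem_insert, Finset.mem_singleton, not_or]
      exact ⟨hXne 0 1 (by decide), hXne 0 2 (by decide), hXne 0 3 (by decide)⟩
    · simp only [Finset.mem_insert, Finset.mem_singleton, not_or]
      exact ⟨hcon 0, hcon 1, hcon 2, hcon 3⟩
  · intro t ht
    rw [qv_parRes, sub_eq_zero]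
    have key : ∀ j, qv c (aX c e (P j)) =
        (A * aX c e (P j) ^ 2 + B * aX c e (P j) + C) ^ 2 := by
      intro j
      rw [← hpts j]
      exact (Fin'.eqn he ⟨_, _, _, hPe j, hx j⟩).symm
    simp only [Finset.mem_insert, Finset.mem_singleton] at ht
    rcases ht with rfl | rfl | rfl | rfl | rfl
    · rw [← hXY, hpY]
    · exact key 0
    · exact key 1
    · exact key 2
    · exact key 3

end

end Vale.Agent.P297.G4
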