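import Vale.Agent.P297.H600.Stab

/-!
The twin principle for stable relations: `K = F(θ)`, `θ⁴ - 2 p θ² + n = 0`, and its twin
`T = F(ζ)`, `(2 ζ² - p)² = n`.
-/

set_option linter.unusedSectionVars false
set_option linter.style.haveILetI false

open CategoryTheory AlgebraicGeometry IntermediateField Polynomial

namespace Vale.Agent.P297.H600

open Vale.Agent.P297 Vale.Agent.P297.H839 Vale.Agent.P297.H109 Vale.Agent.P297.H729

section

variable {K T Ω : Type} [Field K] [Algebra ℂ K] [Field T] [Algebra ℂ T] [Field Ω] [Algebra ℂ Ω]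

/-- automorphisms that fix an intermediate field -/
def Fixes (F : IntermediateField ℂ Ω) (g : Ω ≃ₐ[ℂ] Ω) : Prop := ∀ x ∈ F, g x = x

theorem Fixes.mono {F E : IntermediateField ℂ Ω} (h : F ≤ E) {g : Ω ≃ₐ[ℂ] Ω} (hg : Fixes E g) :
    Fixes F g := fun x hx => hg x (h hx)

theorem Fixes.trans {F : IntermediateField ℂ Ω} {g h : Ω ≃ₐ[ℂ] Ω} (hg : Fixes F g)
    (hh : Fixes F h) : Fixes F (g.trans h) := fun x hx => by
  change h (g x) = x
  rw [hg x hx, hh x hx]

/-- algebraic over a bigger field -/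
theorem isAlgebraic_mono {F E : IntermediateField ℂ Ω} (h : F ≤ E)
    (hF : Algebra.IsAlgebraic F Ω) : Algebra.IsAlgebraic E Ω := by
  refine ⟨fun y => ?_⟩
  obtain ⟨p, hp0, hp⟩ := hF.isAlgebraic y
  let e : F →+* E := (IntermediateField.inclusion h).toRingHom
  refine ⟨p.map e, ?_, ?_⟩
  · rw [Ne, Polynomial.map_eq_zero]
    exact hp0
  · rw [Polynomial.aeval_def, Polynomial.eval₂_map]
    exact hp

/-- the conjugate of a quadratic element -/
theorem exists_conj [IsAlgClosed Ω] (E : IntermediateField ℂ Ω) (hE : Algebra.IsAlgebraic E Ω)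
    (a b : Ω) (hs : a + b ∈ E) (hp : a * b ∈ E) (ha : a ∉ E) :
    ∃ g : Ω ≃ₐ[ℂ] Ω, Fixes E g ∧ g a = b := by
  by_contra hcon
  push Not at hcon
  apply ha
  refine mem_of_fixed E hE a fun g hg => ?_
  have h1 : (g a - a) * (g a - b) = 0 := by
    have h2 : g (a + b) = a + b := hg _ hs
    have h3 : g (a * b) = a * b := hg _ hp
    rw [map_add] at h2
    rw [map_mul] at h3
    have h4 : g b = a + b - g a := by linear_combination h2
    rw [h4] at h3
    linear_combination -h3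
  rcases mul_eq_zero.1 h1 with h | h
  · exact sub_eq_zero.1 h
  · exact absurd (sub_eq_zero.1 h) (hcon g hg)

/-- `φ` is the embedding over `F` that maps the generator to `x`. -/
def IsEmb (F : IntermediateField ℂ Ω) (m : K →ₐ[ℂ] Ω) (θ : Ω) (φ : K →ₐ[ℂ] Ω) (x : Ω) : Prop :=
  ∃ g : Ω ≃ₐ[ℂ] Ω, Fixes F g ∧ φ = g.toAlgHom.comp m ∧ g θ = x

variable {F : IntermediateField ℂ Ω} {m : K →ₐ[ℂ] Ω} {θ : Ω}

theorem IsEmb.self : IsEmb F m θ m θ := ⟨AlgEquiv.refl, fun _ _ => rfl, rfl, rfl⟩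

theorem IsEmb.act {φ : K →ₐ[ℂ] Ω} {x : Ω} (h : IsEmb F m θ φ x) {g : Ω ≃ₐ[ℂ] Ω}
    (hg : Fixes F g) : IsEmb F m θ (g.toAlgHom.comp φ) (g x) := by
  obtain ⟨k, hk, rfl, rfl⟩ := h
  exact ⟨k.trans g, hk.trans hg, rfl, rfl⟩

theorem IsEmb.uniq (hm : m.fieldRange = F ⊔ IntermediateField.adjoin ℂ {θ})
    {φ ψ : K →ₐ[ℂ] Ω} {x : Ω} (h : IsEmb F m θ φ x) (h' : IsEmb F m θ ψ x) : φ = ψ := by
  obtain ⟨g, hg, rfl, hgx⟩ := h
  obtain ⟨k, hk, rfl, hkx⟩ := h'
  apply AlgHom.ext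
  intro a
  refine agree_on_sup g.toAlgHom k.toAlgHom F θ (fun c hc => ?_) ?_ (m a) ?_
  · change g c = k c
    rw [hg c hc, hk c hc]
  · change g θ = k θ
    rw [hgx, hkx]
  · rw [← hm]
    exact ⟨a, rfl⟩

/-- the orbit of an embedding over a field over which the generator is quadratic -/
theorem pair_fixed [IsAlgClosed Ω] (hm : m.fieldRange = F ⊔ IntermediateField.adjoin ℂ {θ})
    (E : IntermediateField ℂ Ω) (hE : Algebra.IsAlgebraic E Ω) (hFE : F ≤ E) (θ' : Ω)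
    (hs : θ + θ' ∈ E) (hp : θ * θ' ∈ E) :
    (∀ g : Ω ≃ₐ[ℂ] Ω, Fixes E g → H600.act g.toAlgHom (Finsupp.single m (1 : ℤ)) =
      Finsupp.single m 1) ∨
    ∃ h : Ω ≃ₐ[ℂ] Ω, Fixes E h ∧ h θ = θ' ∧ ∀ g : Ω ≃ₐ[ℂ] Ω, Fixes E g →
      H600.act g.toAlgHom (Finsupp.single m (1 : ℤ) + Finsupp.single (h.toAlgHom.comp m) 1) =
        Finsupp.single m (1 : ℤ) + Finsupp.single (h.toAlgHom.comp m) 1 := by
  by_cases hθE : θ ∈ E
  · left
    intro g hg
    rw [act_single]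
    congr 1
    have h1 := (IsEmb.self (F := F) (m := m) (θ := θ)).act (hg.mono hFE)
    rw [hg θ hθE] at h1
    exact h1.uniq hm IsEmb.self
  · right
    obtain ⟨h, hh, hhθ⟩ := exists_conj E hE θ θ' hs hp hθE
    refine ⟨h, hh, hhθ, fun g hg => ?_⟩
    have e1 := IsEmb.self (F := F) (m := m) (θ := θ)
    have e2 := e1.act (hh.mono hFE)
    rw [hhθ] at e2
    have f1 := e1.act (hg.mono hFE)
    have f2 := e2.act (hg.mono hFE)
    have h3 : (g θ - θ) * (g θ - θ') = 0 := by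
      have h2 : g (θ + θ') = θ + θ' := hg _ hs
      have h3 : g (θ * θ') = θ * θ' := hg _ hp
      rw [map_add] at h2
      rw [map_mul] at h3
      have h4 : g θ' = θ + θ' - g θ := by linear_combination h2
      rw [h4] at h3
      linear_combination -h3
    have h4 : g θ' = θ + θ' - g θ := by
      have h2 : g (θ + θ') = θ + θ' := hg _ hs
      rw [map_add] at h2
      linear_combination h2
    rw [map_add, act_single, act_single]
    rcases mul_eq_zero.1 h3 with h5 | h5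
    · have h6 : g θ = θ := sub_eq_zero.1 h5
      rw [h6] at f1
      rw [h4, h6, add_sub_cancel_left] at f2
      rw [f1.uniq hm e1, f2.uniq hm e2]
    · have h6 : g θ = θ' := sub_eq_zero.1 h5
      rw [h6] at f1
      rw [h4, h6, add_sub_cancel_right] at f2
      rw [f1.uniq hm e2, f2.uniq hm e1, add_comm]

/-- **Twin principle, stable form.** -/
theorem quartic_stable [IsAlgClosed Ω] (hF : Algebra.IsAlgebraic F Ω) (p n ζ : Ω)
    (hp : p ∈ F) (hn : n ∈ F) (hθ : θ ^ 4 - 2 * p * θ ^ 2 + n = 0)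
    (hζ : (2 * ζ ^ 2 - p) ^ 2 = n) (hsq : ∀ a ∈ F, a ^ 2 ≠ n)
    (hm : m.fieldRange = F ⊔ IntermediateField.adjoin ℂ {θ}) (r : ℤ) (φ₀ : T →ₐ[ℂ] Ω)
    (hT : φ₀.fieldRange = F ⊔ IntermediateField.adjoin ℂ {ζ})
    (h1 : Finsupp.single φ₀ r ∈ stableRelations T Ω)
    (h2 : IsRational (F ⊔ IntermediateField.adjoin ℂ {θ ^ 2})) :
    Finsupp.single m (2 * r) ∈ stableRelations K Ω := by
  haveI : CharZero Ω := charZero_of_injective_algebraMap (algebraMap ℂ Ω).injective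
  have hn0 : n ≠ 0 := fun h => hsq 0 F.zero_mem (by rw [h]; ring)
  have hθ0 : θ ≠ 0 := by
    rintro rfl
    apply hn0
    linear_combination hθ
  set g₀ : Ω := 2 * ζ ^ 2 - p with hg₀
  have hgF : g₀ ∉ F := fun h => hsq g₀ h hζ
  have hg0 : g₀ ≠ 0 := by
    intro h
    apply hn0
    rw [← hζ, h]
    ring
  have hgθ : (g₀ / θ) ^ 2 = 2 * p - θ ^ 2 := by
    rw [div_pow, hζ, div_eq_iff (pow_ne_zero 2 hθ0)]
    linear_combination hθ
  have hgθ' : θ * (g₀ / θ) = g₀ := mul_div_cancel₀ _ hθ0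
  have two : ∀ φ : K →ₐ[ℂ] Ω, Finsupp.single φ (2 * r) = (2 * r) • Finsupp.single φ (1 : ℤ) := by
    intro φ
    rw [Finsupp.smul_single, smul_eq_mul, mul_one]
  -- the rational quotient
  have hE1 : F ≤ F ⊔ IntermediateField.adjoin ℂ {θ ^ 2} := le_sup_left
  rcases pair_fixed hm (F ⊔ IntermediateField.adjoin ℂ {θ ^ 2}) (isAlgebraic_mono hE1 hF) hE1 (-θ)
    (by rw [add_neg_cancel]; exact zero_mem _)
    (by
      have h3 : θ * -θ = -(θ ^ 2) := by ring
      rw [h3]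
      exact neg_mem (mem_sup_adjoin F _)) with k1 | ⟨j₁, hj₁, hjθ₁, k1⟩
  · rw [two]
    exact AddSubgroup.zsmul_mem _ (stable_of_fixed _ h2 (isAlgebraic_mono hE1 hF) _ k1) _
  have R1 := stable_of_fixed _ h2 (isAlgebraic_mono hE1 hF) _ k1
  -- the twin
  have hE2 : F ≤ F ⊔ IntermediateField.adjoin ℂ {ζ} := le_sup_left
  have hζm : ζ ∈ F ⊔ IntermediateField.adjoin ℂ {ζ} := mem_sup_adjoin F ζ
  have hgm : g₀ ∈ F ⊔ IntermediateField.adjoin ℂ {ζ} := by
    rw [hg₀]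
    exact sub_mem (mul_mem (ofNat_mem _ 2) (pow_mem hζm 2)) (hE2 hp)
  have hzζ : θ + g₀ / θ = 2 * ζ ∨ θ + g₀ / θ = -(2 * ζ) := by
    apply sq_eq_sq_iff_eq_or_eq_neg.1
    have h3 : (θ + g₀ / θ) ^ 2 = θ ^ 2 + (g₀ / θ) ^ 2 + 2 * (θ * (g₀ / θ)) := by ring
    rw [h3, hgθ, hgθ', hg₀]
    ring
  have halg2 : ∀ y : Ω, IsAlgebraic φ₀.fieldRange y := by
    rw [hT]
    exact fun y => (isAlgebraic_mono hE2 hF).isAlgebraic y
  have hfix2 : ∀ g : Ω ≃ₐ[ℂ] Ω, (∀ a : T, g (φ₀ a) = φ₀ a) →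
      Fixes (F ⊔ IntermediateField.adjoin ℂ {ζ}) g := by
    intro g hg x hx
    rw [← hT] at hx
    obtain ⟨a, rfl⟩ := hx
    exact hg a
  rcases pair_fixed hm (F ⊔ IntermediateField.adjoin ℂ {ζ}) (isAlgebraic_mono hE2 hF) hE2 (g₀ / θ)
    (by
      rcases hzζ with h | h
      · rw [h]; exact mul_mem (ofNat_mem _ 2) hζm
      · rw [h]; exact neg_mem (mul_mem (ofNat_mem _ 2) hζm))
    (by rw [hgθ']; exact hgm) with k2 | ⟨j₂, hj₂, hjθ₂, k2⟩
  · have R2 := transfer_stable φ₀ halg2 r h1 _ (fun g hg => k2 g (hfix2 g hg))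
    rw [two, mul_smul]
    exact AddSubgroup.zsmul_mem _ R2 _
  have R2 := transfer_stable φ₀ halg2 r h1 _ (fun g hg => k2 g (hfix2 g hg))
  -- the conjugate twin
  obtain ⟨γ, hγ, hγg⟩ := exists_conj F hF g₀ (-g₀) (by rw [add_neg_cancel]; exact zero_mem _)
    (by
      have h3 : g₀ * -g₀ = -n := by rw [← hζ]; ring
      rw [h3]
      exact neg_mem hn) hgF
  have R3 := act_mem j₂ R1
  have R4 := act_mem γ R2
  rw [map_add, act_single, act_single] at R3
  rw [map_zsmul, map_add, act_single, act_single] at R4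
  have e1 := IsEmb.self (F := F) (m := m) (θ := θ)
  have e2 := e1.act (hj₁.mono hE1)
  rw [hjθ₁] at e2
  have e3 := e1.act (hj₂.mono hE2)
  rw [hjθ₂] at e3
  have e4 := e2.act (hj₂.mono hE2)
  rw [map_neg, hjθ₂] at e4
  have f1 := e1.act hγ
  have f2 := e3.act hγ
  rw [map_div₀, hγg] at f2
  have hroot : (γ θ ^ 2 - θ ^ 2) * (γ θ ^ 2 - (g₀ / θ) ^ 2) = 0 := by
    have h3 := congrArg γ hθ
    simp only [map_add, map_sub, map_mul, map_pow, map_ofNat, map_zero, hγ p hp, hγ n hn] at h3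
    rw [hgθ]
    linear_combination h3 - hθ
  have final : ∀ a b c d : (K →ₐ[ℂ] Ω) →₀ ℤ, a + b ∈ stableRelations K Ω →
      r • (a + c) ∈ stableRelations K Ω → c + d ∈ stableRelations K Ω →
      (r • (a + d) ∈ stableRelations K Ω ∨ r • (b + c) ∈ stableRelations K Ω) →
      (2 * r) • a ∈ stableRelations K Ω := by
    intro a b c d hab hac hcd h
    rcases h with h | h
    · have h3 : (2 * r) • a = r • (a + c) + r • (a + d) - r • (c + d) := by
        rw [mul_smul, two_smul]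
        simp only [smul_add]
        abel
      rw [h3]
      exact sub_mem (add_mem hac h) (AddSubgroup.zsmul_mem _ hcd _)
    · have h3 : (2 * r) • a = r • (a + c) - r • (b + c) + r • (a + b) := by
        rw [mul_smul, two_smul]
        simp only [smul_add]
        abel
      rw [h3]
      exact add_mem (sub_mem hac h) (AddSubgroup.zsmul_mem _ hab _)
  rw [two]
  refine final _ _ _ _ R1 R2 R3 ?_
  rcases mul_eq_zero.1 hroot with h | h
  · rcases sq_eq_sq_iff_eq_or_eq_neg.1 (sub_eq_zero.1 h) with h5 | h5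
    · rw [h5] at f1 f2
      have h6 : -g₀ / θ = -(g₀ / θ) := neg_div _ _
      rw [h6] at f2
      rw [f1.uniq hm e1, f2.uniq hm e4] at R4
      exact Or.inl R4
    · rw [h5] at f1 f2
      have h6 : -g₀ / -θ = g₀ / θ := neg_div_neg_eq _ _
      rw [h6] at f2
      rw [f1.uniq hm e2, f2.uniq hm e3] at R4
      exact Or.inr R4
  · rcases sq_eq_sq_iff_eq_or_eq_neg.1 (sub_eq_zero.1 h) with h5 | h5
    · rw [h5] at f1 f2
      have h6 : -g₀ / (g₀ / θ) = -θ := by
        field_simp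
      rw [h6] at f2
      rw [f1.uniq hm e3, f2.uniq hm e2, add_comm] at R4
      exact Or.inr R4
    · rw [h5] at f1 f2
      have h6 : -g₀ / -(g₀ / θ) = θ := by
        field_simp
      rw [h6] at f2
      rw [f1.uniq hm e4, f2.uniq hm e1, add_comm] at R4
      exact Or.inl R4

end

end Vale.Agent.P297.H600
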