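import Vale.Agent.P297.H600.QPar

/-!
Binary quartics and their jacobians: the statements without the group law, and four points with
sum zero.
-/

set_option linter.unusedSectionVars false

namespace Vale.Agent.P297.G4

open Vale.Agent.P297.Z3 WeierstrassCurve WeierstrassCurve.Affine

section

variable {k : Type} [Field k] [CharZero k]

/-- the first derivative at `e` -/
def qd1 (c : Fin 5 → k) (e : k) : k := c 1 + 2 * c 2 * e + 3 * c 3 * e ^ 2 + 4 * c 4 * e ^ 3

/-- half of the second derivative at `e` -/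
def qd2 (c : Fin 5 → k) (e : k) : k := c 2 + 3 * c 3 * e + 6 * c 4 * e ^ 2

/-- the first coordinate on the quartic -/
noncomputable def pX (c : Fin 5 → k) (e x : k) : k := e + qd1 c e / (x - qd2 c e / 3)

/-- the second coordinate on the quartic -/
noncomputable def pY (c : Fin 5 → k) (e x y : k) : k := qd1 c e * y / (x - qd2 c e / 3) ^ 2

variable {c : Fin 5 → k} {e e' : k}

theorem qd1_ne (he : qv c e = 0) (hc : 4 * qI c ^ 3 ≠ qJ c ^ 2) : qd1 c e ≠ 0 := q1_ne hc he

/-- (KD1) -/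
theorem pY_sq (he : qv c e = 0) {x y : k} (hx : x ≠ qd2 c e / 3)
    (hxy : y ^ 2 = x ^ 3 + (-(qI c) / 3) * x + (-(qJ c) / 27)) :
    (pY c e x y) ^ 2 = qv c (pX c e x) := by
  obtain ⟨z, rfl⟩ : ∃ z, x = z + q2 c e / 3 := ⟨x - q2 c e / 3, by ring⟩
  rw [wq_eq he] at hxy
  have hz : z ≠ 0 := by
    rintro rfl
    apply hx
    change 0 + q2 c e / 3 = q2 c e / 3
    ring
  have e1 : pX c e (z + q2 c e / 3) = e + q1 c e / z := by
    unfold pX
    change e + q1 c e / (z + q2 c e / 3 - q2 c e / 3) = _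
    rw [add_sub_cancel_right]
  have e2 : pY c e (z + q2 c e / 3) y = q1 c e * y / z ^ 2 := by
    unfold pY
    change q1 c e * y / (z + q2 c e / 3 - q2 c e / 3) ^ 2 = _
    rw [add_sub_cancel_right]
  rw [e1, e2, qv_taylor, he, zero_add]
  field_simp
  linear_combination q1 c e ^ 2 * hxy

/-- (KD1') -/
theorem of_quartic (he : qv c e = 0) {X Y : k} (hX : X ≠ e) (hXY : Y ^ 2 = qv c X) :
    (qd1 c e * Y / (X - e) ^ 2) ^ 2 = (qd2 c e / 3 + qd1 c e / (X - e)) ^ 3 +
      (-(qI c) / 3) * (qd2 c e / 3 + qd1 c e / (X - e)) + (-(qJ c) / 27) := by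
  obtain ⟨h, rfl⟩ : ∃ h, X = e + h := ⟨X - e, by ring⟩
  have hh : h ≠ 0 := by
    rintro rfl
    apply hX
    ring
  rw [qv_taylor, he, zero_add] at hXY
  have e1 : qd2 c e / 3 + qd1 c e / (e + h - e) = q1 c e / h + q2 c e / 3 := by
    change q2 c e / 3 + q1 c e / (e + h - e) = _
    rw [add_sub_cancel_left]
    ring
  have e2 : qd1 c e * Y / (e + h - e) ^ 2 = q1 c e * Y / h ^ 2 := by
    rw [add_sub_cancel_left]
    rfl
  rw [e1, e2, wq_eq he]
  field_simp
  linear_combination q1 c e ^ 2 * hXY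

/-- (KD2), first half -/
theorem xt_root (he : qv c e = 0) (he' : qv c e' = 0) (hne : e ≠ e') :
    (qd2 c e / 3 + qd1 c e / (e' - e)) ^ 3 +
      (-(qI c) / 3) * (qd2 c e / 3 + qd1 c e / (e' - e)) + (-(qJ c) / 27) = 0 := by
  have h1 := torX_root he he' hne
  have h2 : torX c e e' = qd2 c e / 3 + qd1 c e / (e' - e) := by
    unfold torX
    change q1 c e / (e' - e) + q2 c e / 3 = q2 c e / 3 + q1 c e / (e' - e)
    ring
  rw [h2] at h1
  linear_combination -h1

variable [DecidableEq k]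

/-- the sum with a point of order two -/
theorem add_two {a b xt x y : k} (hxt : xt ^ 3 + a * xt + b = 0)
    (ht : (wc a b).toAffine.Nonsingular xt 0) (h : (wc a b).toAffine.Nonsingular x y)
    (hne : x ≠ xt) : ∃ h', Point.some x y h + Point.some xt 0 ht =
      .some (xt + (3 * xt ^ 2 + a) / (x - xt)) (-y * (3 * xt ^ 2 + a) / (x - xt) ^ 2) h' := by
  obtain ⟨l, X, Y, hXY, hR, hl, hX, hY⟩ := add_coord h ht hne
  have h0 : x - xt ≠ 0 := sub_ne_zero.2 hne
  have hc := wc_equation.1 h.1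
  have hl' : l = y / (x - xt) := by
    rw [eq_div_iff h0]
    linear_combination hl
  have hX' : X = xt + (3 * xt ^ 2 + a) / (x - xt) := by
    rw [hX, hl', div_pow, hc]
    field_simp
    linear_combination hxt
  have hY' : Y = -y * (3 * xt ^ 2 + a) / (x - xt) ^ 2 := by
    rw [hY, hX', hl']
    field_simp
    ring
  subst hX' hY'
  exact ⟨hXY, hR⟩

/-- (KD2), second half -/
theorem change_root (hc : 4 * qI c ^ 3 ≠ qJ c ^ 2) (he : qv c e = 0) (he' : qv c e' = 0)
    (hne : e ≠ e') {x y : k} (hxy : y ^ 2 = x ^ 3 + (-(qI c) / 3) * x + (-(qJ c) / 27))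
    (hx : x ≠ qd2 c e' / 3) (hxt : x ≠ qd2 c e / 3 + qd1 c e / (e' - e)) :
    pX c e' x = pX c e (qd2 c e / 3 + qd1 c e / (e' - e) +
      (3 * (qd2 c e / 3 + qd1 c e / (e' - e)) ^ 2 + (-(qI c) / 3)) /
        (x - (qd2 c e / 3 + qd1 c e / (e' - e)))) ∧
    pY c e' x y = pY c e (qd2 c e / 3 + qd1 c e / (e' - e) +
      (3 * (qd2 c e / 3 + qd1 c e / (e' - e)) ^ 2 + (-(qI c) / 3)) /
        (x - (qd2 c e / 3 + qd1 c e / (e' - e))))
      (-y * (3 * (qd2 c e / 3 + qd1 c e / (e' - e)) ^ 2 + (-(qI c) / 3)) /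
        (x - (qd2 c e / 3 + qd1 c e / (e' - e))) ^ 2) := by
  obtain ⟨xt, hxte⟩ : ∃ xt, xt = qd2 c e / 3 + qd1 c e / (e' - e) := ⟨_, rfl⟩
  rw [← hxte] at hxt ⊢
  have h2 : torX c e e' = xt := by
    rw [hxte]
    unfold torX
    change q1 c e / (e' - e) + q2 c e / 3 = q2 c e / 3 + q1 c e / (e' - e)
    ring
  have h := wc_nonsing (wq_disc hc) hxy
  obtain ⟨hT, hT'⟩ := tor_eq hc he he' hne
  obtain ⟨hS, hS'⟩ := tor_eq hc he' he hne.symm
  have hP : Fin' c e' (.some x y h) := ⟨x, y, h, rfl, hx⟩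
  have h3 : torX c e' e = xt := by rw [← torX_symm he he' hne, h2]
  have hXne : aX c e' (.some x y h) ≠ e := by
    intro h0
    apply hxt
    rw [← h3]
    have hA := q1_ne hc he'
    have h4 : x - q2 c e' / 3 ≠ 0 := sub_ne_zero.2 hx
    rw [aX_some] at h0
    have h5 : e - e' = q1 c e' / (x - q2 c e' / 3) := by linear_combination -h0
    unfold torX
    rw [h5]
    field_simp
    ring
  obtain ⟨_, h5, h6⟩ := change hc he' he hne.symm hP hXne
  rw [hS'] at h5 h6
  have hxt0 : torX c e' e ^ 3 + (-qI c / 3) * torX c e' e + (-qJ c / 27) = 0 := by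
    have := torX_root he' he hne.symm
    linear_combination -this
  obtain ⟨h', h7⟩ := add_two hxt0 hS h (by rw [h3]; exact hxt)
  rw [h7, aX_some, aX_some] at h5
  rw [h7, aY_some, aY_some] at h6
  rw [h3] at h5 h6
  exact ⟨h5.symm, h6.symm⟩

/-- (KD3) Four points with sum zero lie on a conic of the form `x² + α x + β y + γ = 0`. -/
theorem four_points {a b : k} {x y : Fin 4 → k}
    (h : ∀ i, (wc a b).toAffine.Nonsingular (x i) (y i))
    (h01 : x 0 ≠ x 1) (h23 : x 2 ≠ x 3)
    (hsum : Point.some _ _ (h 0) + Point.some _ _ (h 1) + (Point.some _ _ (h 2) +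
      Point.some _ _ (h 3)) = 0) :
    ∃ α β γ : k, ∀ i, x i ^ 2 + α * x i + β * y i + γ = 0 := by
  obtain ⟨l, X, Y, hXY, hR, hl, hX, hY⟩ := add_coord (h 0) (h 1) h01
  obtain ⟨m, X', Y', hXY', hR', hm, hX', hY'⟩ := add_coord (h 2) (h 3) h23
  have hRR : Point.some X' Y' hXY' = -Point.some X Y hXY := by
    rw [← hR, ← hR', eq_neg_iff_add_eq_zero, add_comm]
    exact hsum
  have hneg := Point.neg_some hXY
  rw [hneg, Point.some.injEq, wc_negY] at hRR
  obtain ⟨hXX, hYY⟩ := hRR
  rw [hYY] at hY'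
  rw [hXX] at hX' hY'
  have c0 := wc_equation.1 (h 0).1
  have c1 := wc_equation.1 (h 1).1
  have c2 := wc_equation.1 (h 2).1
  have c3 := wc_equation.1 (h 3).1
  have cR := wc_equation.1 hXY.1
  -- the function
  obtain ⟨κ, hκ⟩ : ∃ κ, κ = l + m := ⟨_, rfl⟩
  obtain ⟨g₁, hg₁⟩ : ∃ g₁, g₁ = X + l * m := ⟨_, rfl⟩
  obtain ⟨g₀, hg₀⟩ : ∃ g₀, g₀ = a + l * (y 2 - m * x 2) + m * (y 0 - l * x 0) + X * g₁ :=
    ⟨_, rfl⟩
  have hfun : ∀ s t : k, t ^ 2 = s ^ 3 + a * s + b →
      (t - (l * (s - x 0) + y 0)) * (t - (m * (s - x 2) + y 2)) =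
        (s - X) * (s ^ 2 + g₁ * s + g₀ - κ * t) := by
    intro s t hst
    rw [hg₀, hg₁, hκ]
    linear_combination hst - cR + (m * (X - x 2) + y 2 - t) * hY + (-Y - t) * hY'
  -- tangents
  have htan : ∀ {p q r s n : k}, q ^ 2 = p ^ 3 + a * p + b → s ^ 2 = r ^ 3 + a * r + b →
      p ≠ r → n * (p - r) = q - s → n ^ 2 = 2 * p + r → 3 * p ^ 2 + a - 2 * n * q = 0 := by
    intro p q r s n e1 e2 hpr e3 e4
    apply mul_left_cancel₀ (sub_ne_zero.2 hpr)
    linear_combination e2 - e1 + (n * (p - r) - q - s) * e3 - (p - r) ^ 2 * e4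
  refine ⟨g₁, -κ, g₀, fun i => ?_⟩
  have h1 := hfun (x i) (y i) (wc_equation.1 (h i).1)
  have h2 : (y i - (l * (x i - x 0) + y 0)) * (y i - (m * (x i - x 2) + y 2)) = 0 := by
    fin_cases i
    · simp
    · have h3 : y 1 - (l * (x 1 - x 0) + y 0) = 0 := by linear_combination hl
      change (y 1 - (l * (x 1 - x 0) + y 0)) * _ = 0
      rw [h3, zero_mul]
    · change _ * (y 2 - (m * (x 2 - x 2) + y 2)) = 0
      ring
    · have h3 : y 3 - (m * (x 3 - x 2) + y 2) = 0 := by linear_combination hm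
      change _ * (y 3 - (m * (x 3 - x 2) + y 2)) = 0
      rw [h3, mul_zero]
  rw [h2] at h1
  rcases mul_eq_zero.1 h1.symm with h3 | h3
  swap
  · linear_combination h3
  -- the tangent case
  have hxi : x i = X := sub_eq_zero.1 h3
  have hg : X ^ 2 + g₁ * X + g₀ = 3 * X ^ 2 + a + (l - m) * Y := by
    rw [hg₀, hg₁]
    linear_combination m * hY + l * hY'
  have hyi : y i = Y ∨ y i = -Y := by
    have e1 := wc_equation.1 (h i).1
    rw [hxi] at e1
    have e2 : (y i - Y) * (y i + Y) = 0 := by linear_combination e1 - cR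
    rcases mul_eq_zero.1 e2 with e3 | e3
    · exact Or.inl (sub_eq_zero.1 e3)
    · exact Or.inr (eq_neg_of_add_eq_zero_left e3)
  have hR'' : Point.some _ _ (h 2) + Point.some _ _ (h 3) = -Point.some X Y hXY := by
    rw [← hR, eq_neg_iff_add_eq_zero, add_comm]
    exact hsum
  have hcase1 : ∀ j, Point.some _ _ (h i) + Point.some _ _ (h j) = Point.some X Y hXY →
      y i = -Y := by
    intro j hj
    rcases hyi with hy | hy
    · exfalso
      have hP : Point.some _ _ (h i) = Point.some X Y hXY := by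
        rw [Point.some.injEq]
        exact ⟨hxi, hy⟩
      rw [← hP] at hj
      exact Point.some_ne_zero (h j) (add_eq_left.1 hj)
    · exact hy
  have hcase2 : ∀ j, Point.some _ _ (h i) + Point.some _ _ (h j) = -Point.some X Y hXY →
      y i = Y := by
    intro j hj
    rcases hyi with hy | hy
    · exact hy
    · exfalso
      have hP : Point.some _ _ (h i) = -Point.some X Y hXY := by
        rw [hneg, Point.some.injEq, wc_negY]
        exact ⟨hxi, hy⟩
      rw [← hP] at hj
      exact Point.some_ne_zero (h j) (add_eq_left.1 hj)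
  rw [hxi]
  fin_cases i
  · have hy := hcase1 1 hR
    have ht := htan c0 c1 h01 hl (by
      change x 0 = X at hxi
      linear_combination -hX - hxi)
    change x 0 = X at hxi
    change y 0 = -Y at hy
    change X ^ 2 + g₁ * X + -κ * y 0 + g₀ = 0
    rw [hxi, hy] at ht
    rw [hy, hκ]
    linear_combination hg + ht
  · have hy := hcase1 0 (by rw [← hR]; exact add_comm _ _)
    have ht := htan c1 c0 h01.symm (n := l) (by linear_combination -hl) (by
      change x 1 = X at hxi
      linear_combination -hX - hxi)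
    change x 1 = X at hxi
    change y 1 = -Y at hy
    change X ^ 2 + g₁ * X + -κ * y 1 + g₀ = 0
    rw [hxi, hy] at ht
    rw [hy, hκ]
    linear_combination hg + ht
  · have hy := hcase2 3 hR''
    have ht := htan c2 c3 h23 hm (by
      change x 2 = X at hxi
      linear_combination -hX' - hxi)
    change x 2 = X at hxi
    change y 2 = Y at hy
    change X ^ 2 + g₁ * X + -κ * y 2 + g₀ = 0
    rw [hxi, hy] at ht
    rw [hy, hκ]
    linear_combination hg + ht
  · have hy := hcase2 2 (by rw [← hR'']; exact add_comm _ _)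
    have ht := htan c3 c2 h23.symm (n := m) (by linear_combination -hm) (by
      change x 3 = X at hxi
      linear_combination -hX' - hxi)
    change x 3 = X at hxi
    change y 3 = Y at hy
    change X ^ 2 + g₁ * X + -κ * y 3 + g₀ = 0
    rw [hxi, hy] at ht
    rw [hy, hκ]
    linear_combination hg + ht

end

end Vale.Agent.P297.G4
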