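import Vale.Agent.P297.H600.CGDefs

/-!
Relations between the cubics `R₁, …, R₄` and `a = x z`, `b = y w` on the quintic (`w = 1`).
-/

namespace Vale.Agent.P297.H600

variable {K : Type*} [CommRing K]

/-- The cubic `R₁`. -/
def rr1 (c x y z w : K) : K :=
  x ^ 2 * ((1 - c - 2 * c ^ 2) * y + z + (c ^ 2 - 2 * c - 1) * w) +
  z ^ 2 * ((1 - c - 2 * c ^ 2) * w + x + (c ^ 2 - 2 * c - 1) * y) +
  (3 + c) * (x * z * (y + w)) - (c + c ^ 2) * (y * w * (x + z))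

/-- The cubic `R₂`. -/
def rr2 (c x y z w : K) : K :=
  y ^ 2 * ((1 - c - 2 * c ^ 2) * z + w + (c ^ 2 - 2 * c - 1) * x) +
  w ^ 2 * ((1 - c - 2 * c ^ 2) * x + y + (c ^ 2 - 2 * c - 1) * z) -
  (c + c ^ 2) * (x * z * (y + w)) + (3 + c) * (y * w * (x + z))

/-- The cubic `R₃`. -/
def rr3 (c x y z w : K) : K :=
  (1 - c - 2 * c ^ 2) * (x ^ 2 * y - z ^ 2 * w) + (x ^ 2 * z - z ^ 2 * x) +
  (c ^ 2 - 2 * c - 1) * (x ^ 2 * w - z ^ 2 * y) +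
  (3 + 3 * c - 4 * c ^ 2) * (x * y * z - z * w * x) + (c + c ^ 2) * (y * z * w - w * x * y)

/-- The cubic `R₄`. -/
def rr4 (c x y z w : K) : K :=
  (1 - c - 2 * c ^ 2) * (y ^ 2 * z - w ^ 2 * x) + (y ^ 2 * w - w ^ 2 * y) +
  (c ^ 2 - 2 * c - 1) * (y ^ 2 * x - w ^ 2 * z) -
  (c + c ^ 2) * (x * y * z - z * w * x) + (3 + 3 * c - 4 * c ^ 2) * (y * z * w - w * x * y)

end Vale.Agent.P297.H600
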