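import Vale.Agent.P297.H600.Place
import Vale.Agent.P297.H600.RDefs
import Mathlib.RingTheory.Valuation.ValuationSubring

/-!
Reduction of elements at the place, and non-vanishing.
-/

namespace Vale.Agent.P297.H600

section maps

variable {A B : Type*} [CommRing A] [CommRing B] (f : A →+* B)

theorem map_rr1 (c x y z w : A) : f (rr1 c x y z w) = rr1 (f c) (f x) (f y) (f z) (f w) := by
  simp only [rr1, map_add, map_mul, map_sub, map_pow, map_one, map_ofNat]

theorem map_rr2 (c x y z w : A) : f (rr2 c x y z w) = rr2 (f c) (f x) (f y) (f z) (f w) := by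
  simp only [rr2, map_add, map_mul, map_sub, map_pow, map_one, map_ofNat]

theorem map_rr3 (c x y z w : A) : f (rr3 c x y z w) = rr3 (f c) (f x) (f y) (f z) (f w) := by
  simp only [rr3, map_add, map_mul, map_sub, map_pow, map_one, map_ofNat]

theorem map_rr4 (c x y z w : A) : f (rr4 c x y z w) = rr4 (f c) (f x) (f y) (f z) (f w) := by
  simp only [rr4, map_add, map_mul, map_sub, map_pow, map_one, map_ofNat]

theorem map_gam (c m r : A) : f (gam c m r) = gam (f c) (f m) (f r) := by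
  simp only [gam, map_add, map_mul, map_sub, map_neg, map_pow, map_one, map_ofNat]

theorem map_pp0 (c m r : A) : f (pp0 c m r) = pp0 (f c) (f m) (f r) := by
  simp only [pp0, map_add, map_mul, map_sub, map_neg, map_pow, map_one, map_ofNat]

theorem map_hh (c m r : A) : f (hh c m r) = hh (f c) (f m) (f r) := by
  simp only [hh, map_add, map_mul, map_sub, map_neg, map_pow, map_one, map_ofNat]

theorem map_pp1 (c m r : A) : f (pp1 c m r) = pp1 (f c) (f m) (f r) := by
  simp only [pp1, map_add, map_mul, map_sub, map_neg, map_pow, map_one, map_ofNat]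

theorem map_bet (c m r : A) : f (bet c m r) = bet (f c) (f m) (f r) := by
  simp only [bet, map_add, map_mul, map_sub, map_neg, map_pow, map_one, map_ofNat]

end maps

section

variable {K : Type} [Field K] {V : ValuationSubring K}

/-- `a` reduces to the integer `n` in the residue field of `V`. -/
def Red (V : ValuationSubring K) (a : K) (n : ℤ) : Prop :=
  ∃ a' : V, (a' : K) = a ∧ IsLocalRing.residue V a' = (n : IsLocalRing.ResidueField V)

theorem Red.int (n : ℤ) : Red V (n : K) n := ⟨(n : V), by push_cast; rfl, by rw [map_intCast]⟩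

theorem Red.one : Red V (1 : K) 1 := ⟨1, rfl, by rw [map_one, Int.cast_one]⟩

theorem Red.ofNat (n : ℕ) [n.AtLeastTwo] : Red V (OfNat.ofNat n : K) (OfNat.ofNat n) :=
  ⟨OfNat.ofNat n, rfl, by rw [map_ofNat, Int.cast_ofNat]⟩

theorem Red.add {a b : K} {n m : ℤ} (ha : Red V a n) (hb : Red V b m) : Red V (a + b) (n + m) := by
  obtain ⟨a', rfl, ha⟩ := ha
  obtain ⟨b', rfl, hb⟩ := hb
  exact ⟨a' + b', rfl, by rw [map_add, ha, hb, Int.cast_add]⟩

theorem Red.sub {a b : K} {n m : ℤ} (ha : Red V a n) (hb : Red V b m) : Red V (a - b) (n - m) := by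
  obtain ⟨a', rfl, ha⟩ := ha
  obtain ⟨b', rfl, hb⟩ := hb
  exact ⟨a' - b', rfl, by rw [map_sub, ha, hb, Int.cast_sub]⟩

theorem Red.mul {a b : K} {n m : ℤ} (ha : Red V a n) (hb : Red V b m) : Red V (a * b) (n * m) := by
  obtain ⟨a', rfl, ha⟩ := ha
  obtain ⟨b', rfl, hb⟩ := hb
  exact ⟨a' * b', rfl, by rw [map_mul, ha, hb, Int.cast_mul]⟩

theorem Red.neg {a : K} {n : ℤ} (ha : Red V a n) : Red V (-a) (-n) := by
  obtain ⟨a', rfl, ha⟩ := ha
  exact ⟨-a', rfl, by rw [map_neg, ha, Int.cast_neg]⟩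

theorem Red.pow {a : K} {n : ℤ} (ha : Red V a n) (k : ℕ) : Red V (a ^ k) (n ^ k) := by
  obtain ⟨a', rfl, ha⟩ := ha
  exact ⟨a' ^ k, rfl, by rw [map_pow, ha, Int.cast_pow]⟩

theorem red_of_sub {a : K} {n : ℤ} (h : a - n ∈ V.nonunits) : Red V a n := by
  obtain ⟨h1, h2⟩ := V.mem_nonunits_iff_exists_mem_maximalIdeal.1 h
  refine ⟨⟨a - n, h1⟩ + n, ?_, ?_⟩
  · push_cast
    ring
  · rw [map_add, map_intCast, (IsLocalRing.residue_eq_zero_iff _).2 h2, zero_add]

theorem res_char (h23 : (23 : K) ∈ V.nonunits) : (23 : IsLocalRing.ResidueField V) = 0 := by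
  obtain ⟨h1, h2⟩ := V.mem_nonunits_iff_exists_mem_maximalIdeal.1 h23
  rw [← (IsLocalRing.residue_eq_zero_iff _).2 h2]
  have h3 : (⟨23, h1⟩ : V) = 23 := rfl
  rw [h3, map_ofNat]

theorem res_int_ne (h23 : (23 : K) ∈ V.nonunits) {n : ℤ} (hn : IsCoprime n 23) :
    (n : IsLocalRing.ResidueField V) ≠ 0 := by
  obtain ⟨a, b, hab⟩ := hn
  intro h
  have h1 : ((a * n + b * 23 : ℤ) : IsLocalRing.ResidueField V) = 1 := by rw [hab, Int.cast_one]
  push_cast at h1
  rw [h, res_char h23] at h1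
  simp at h1

theorem res_int_eq (h23 : (23 : K) ∈ V.nonunits) {n m : ℤ} (h : (23 : ℤ) ∣ n - m) :
    (n : IsLocalRing.ResidueField V) = (m : IsLocalRing.ResidueField V) := by
  obtain ⟨q, hq⟩ := h
  have h1 : ((n - m : ℤ) : IsLocalRing.ResidueField V) = 0 := by
    rw [hq]
    push_cast
    rw [res_char h23, zero_mul]
  rw [Int.cast_sub] at h1
  exact sub_eq_zero.1 h1

theorem Red.congr {a : K} {n m : ℤ} (ha : Red V a n) (h23 : (23 : K) ∈ V.nonunits)
    (h : (23 : ℤ) ∣ n - m) : Red V a m := by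
  obtain ⟨a', rfl, ha⟩ := ha
  exact ⟨a', rfl, by rw [ha, res_int_eq h23 h]⟩

theorem Red.ne_zero {a : K} {n : ℤ} (ha : Red V a n) (h23 : (23 : K) ∈ V.nonunits)
    (hn : IsCoprime n 23) : a ≠ 0 := by
  obtain ⟨a', rfl, ha⟩ := ha
  intro h
  have h1 : a' = 0 := Subtype.ext h
  rw [h1, map_zero] at ha
  exact res_int_ne h23 hn ha.symm

theorem Red.div {a b : K} {n m q : ℤ} (ha : Red V a n) (hb : Red V b m)
    (h23 : (23 : K) ∈ V.nonunits) (hm : IsCoprime m 23) (hq : (23 : ℤ) ∣ q * m - n) :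
    Red V (a / b) q := by
  obtain ⟨a', rfl, ha⟩ := ha
  obtain ⟨b', rfl, hb⟩ := hb
  have hb0 : IsLocalRing.residue V b' ≠ 0 := by rw [hb]; exact res_int_ne h23 hm
  have hu : IsUnit b' := (IsLocalRing.residue_ne_zero_iff_isUnit _).1 hb0
  obtain ⟨u, rfl⟩ := hu
  refine ⟨a' * (u⁻¹ : Vˣ), ?_, ?_⟩
  · rw [div_eq_mul_inv]
    have h1 : (((u⁻¹ : Vˣ) : V) : K) = ((u : V) : K)⁻¹ := by
      apply eq_inv_of_mul_eq_one_left
      have h2 : ((u⁻¹ : Vˣ) : V) * (u : V) = 1 := u.inv_mul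
      exact congrArg Subtype.val h2
    rw [← h1]
    rfl
  · have h1 : (q : IsLocalRing.ResidueField V) * (m : IsLocalRing.ResidueField V) = n := by
      have h2 := res_int_eq h23 hq
      push_cast at h2
      exact h2
    have h3 : IsLocalRing.residue V (a' * (u⁻¹ : Vˣ)) * IsLocalRing.residue V (u : V) =
        IsLocalRing.residue V a' := by
      rw [← map_mul, mul_assoc, u.inv_mul, mul_one]
    rw [hb, ha, ← h1] at h3
    exact mul_right_cancel₀ (res_int_ne h23 hm) h3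

end

end Vale.Agent.P297.H600
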