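import Vale.Agent.P297.H600.RDefs
import Mathlib.Tactic.LinearCombination

/-!
The bilinear relations.
-/

namespace Vale.Agent.P297.H600

variable {K : Type*} [CommRing K]

set_option maxHeartbeats 1000000 in
theorem rel_a (c x y z : K) (hc : c ^ 3 - c ^ 2 + 1 = 0) :
    y * ((1 + c + c ^ 2) * ((x + z) * rr3 c x y z 1) +
      (3 + 2 * c - 2 * c ^ 2) * ((x + z) * rr4 c x y z 1) +
      (1 + 3 * c ^ 2) * ((y + 1) * rr3 c x y z 1) + (y + 1) * rr4 c x y z 1 -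
      (1 + c + c ^ 2) * ((x - z) * rr1 c x y z 1) + (2 * c - 1) * ((x - z) * rr2 c x y z 1) +
      (c ^ 2 - 2 * c - 1) * ((y - 1) * rr1 c x y z 1) - (y - 1) * rr2 c x y z 1) +
    x * z * ((1 + c - 2 * c ^ 2) * ((y + 1) * rr4 c x y z 1) -
      (1 + c - 2 * c ^ 2) * ((y - 1) * rr2 c x y z 1)) = 0 := by
  unfold rr1 rr2 rr3 rr4
  linear_combination (
      (2 + 10 * c) * y * z ^ 2 + (6 + 4 * c) * y ^ 2 * z + (10 + 8 * c) * y ^ 2 * z ^ 2 +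
      (6 + 2 * c) * y ^ 3 * z + (6 + 2 * c) * y ^ 3 * z ^ 2 + (2 + 10 * c) * x * y * z +
      (6 + 18 * c) * x * y * z ^ 2 + ((-6) + (-2) * c) * x * y ^ 2 +
      (8 + 12 * c) * x * y ^ 2 * z ^ 2 + ((-6) + (-4) * c) * x * y ^ 3 +
      ((-2) + (-10) * c) * x * y ^ 3 * z + ((-6) + (-2) * c) * x ^ 2 * y +
      ((-8) + (-12) * c) * x ^ 2 * y * z + ((-10) + (-8) * c) * x ^ 2 * y ^ 2 +
      ((-6) + (-18) * c) * x ^ 2 * y ^ 2 * z + ((-2) + (-10) * c) * x ^ 2 * y ^ 3) * hc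

set_option maxHeartbeats 1000000 in
theorem rel_b (c x y z : K) (hc : c ^ 3 - c ^ 2 + 1 = 0) :
    x * z * ((x + z) * rr3 c x y z 1 - (1 + 3 * c ^ 2) * ((x + z) * rr4 c x y z 1) +
      (3 + 2 * c - 2 * c ^ 2) * ((y + 1) * rr3 c x y z 1) -
      (1 + c + c ^ 2) * ((y + 1) * rr4 c x y z 1) -
      (x - z) * rr1 c x y z 1 + (c ^ 2 - 2 * c - 1) * ((x - z) * rr2 c x y z 1) +
      (1 - 2 * c) * ((y - 1) * rr1 c x y z 1) + (1 + c + c ^ 2) * ((y - 1) * rr2 c x y z 1)) +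
    y * ((1 + c - 2 * c ^ 2) * ((x + z) * rr3 c x y z 1) -
      (1 + c - 2 * c ^ 2) * ((x - z) * rr1 c x y z 1)) = 0 := by
  unfold rr1 rr2 rr3 rr4
  linear_combination (
      ((-6) + (-2) * c) * x * z ^ 3 + ((-8) + (-12) * c) * x * y * z ^ 2 +
      (2 + 10 * c) * x * y * z ^ 3 + (6 + 18 * c) * x * y ^ 2 * z ^ 2 +
      (2 + 10 * c) * x * y ^ 2 * z ^ 3 + ((-10) + (-8) * c) * x ^ 2 * z ^ 2 +
      ((-6) + (-2) * c) * x ^ 2 * z ^ 3 + ((-6) + (-18) * c) * x ^ 2 * y * z +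
      (6 + 4 * c) * x ^ 2 * y * z ^ 3 + (8 + 12 * c) * x ^ 2 * y ^ 2 * z +
      (10 + 8 * c) * x ^ 2 * y ^ 2 * z ^ 2 + ((-2) + (-10) * c) * x ^ 3 * z +
      ((-6) + (-4) * c) * x ^ 3 * z ^ 2 + ((-2) + (-10) * c) * x ^ 3 * y * z +
      (6 + 2 * c) * x ^ 3 * y * z ^ 2 + (6 + 2 * c) * x ^ 3 * y ^ 2 * z) * hc

set_option maxHeartbeats 1000000 in
theorem rel_e (c x y z : K) (hc : c ^ 3 - c ^ 2 + 1 = 0) :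
    (x + z) * (rr1 c x y z 1 * (y ^ 4 + (-5 - 3 * c + 3 * c ^ 2) * (x * z) * y ^ 3 +
        (6 - 3 * c + c ^ 2) * (x * z) ^ 2 * y ^ 2 - (c + c ^ 2) * (x * z) ^ 3 * y) +
      rr2 c x y z 1 * ((-1 + 3 * c - 2 * c ^ 2) * (x * z) * y ^ 3 +
        (16 - 26 * c + 9 * c ^ 2) * (x * z) ^ 2 * y ^ 2 +
        (-4 + 4 * c + c ^ 2) * (x * z) ^ 3 * y)) +
    (y + 1) * (rr1 c x y z 1 * ((4 - 4 * c - c ^ 2) * (x * z) * y ^ 3 +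
        (-16 + 26 * c - 9 * c ^ 2) * (x * z) ^ 2 * y ^ 2 +
        (1 - 3 * c + 2 * c ^ 2) * (x * z) ^ 3 * y) +
      rr2 c x y z 1 * ((c + c ^ 2) * (x * z) * y ^ 3 +
        (-6 + 3 * c - c ^ 2) * (x * z) ^ 2 * y ^ 2 +
        (5 + 3 * c - 3 * c ^ 2) * (x * z) ^ 3 * y - (x * z) ^ 4)) +
    (x - z) * (rr3 c x y z 1 * (-y ^ 4 + (5 + 3 * c - 3 * c ^ 2) * (x * z) * y ^ 3 +
        (-6 + 3 * c - c ^ 2) * (x * z) ^ 2 * y ^ 2 + (c + c ^ 2) * (x * z) ^ 3 * y) +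
      rr4 c x y z 1 * ((-3 - c) * (x * z) * y ^ 3 +
        (8 * c - 9 * c ^ 2) * (x * z) ^ 2 * y ^ 2 +
        (2 - 2 * c + 3 * c ^ 2) * (x * z) ^ 3 * y)) +
    (y - 1) * (rr3 c x y z 1 * ((2 - 2 * c + 3 * c ^ 2) * (x * z) * y ^ 3 +
        (8 * c - 9 * c ^ 2) * (x * z) ^ 2 * y ^ 2 - (3 + c) * (x * z) ^ 3 * y) +
      rr4 c x y z 1 * (-(c + c ^ 2) * (x * z) * y ^ 3 +
        (6 - 3 * c + c ^ 2) * (x * z) ^ 2 * y ^ 2 +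
        (-5 - 3 * c + 3 * c ^ 2) * (x * z) ^ 3 * y + (x * z) ^ 4)) = 0 := by
  unfold rr1 rr2 rr3 rr4
  linear_combination (
      (10 + (-6) * c) * x * y ^ 3 * z ^ 3 + ((-2) + (-4) * c) * x * y ^ 4 * z ^ 2 +
      (2 + 10 * c) * x * y ^ 4 * z ^ 3 + (6 + 4 * c) * x * y ^ 5 * z ^ 2 +
      ((-32) + 36 * c) * x ^ 2 * y ^ 2 * z ^ 4 + (12 + (-10) * c) * x ^ 2 * y ^ 3 * z ^ 2 +
      ((-12) + 22 * c) * x ^ 2 * y ^ 3 * z ^ 3 + (48 + (-54) * c) * x ^ 2 * y ^ 3 * z ^ 4 +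
      (6 + 4 * c) * x ^ 2 * y ^ 4 * z + ((-32) + 8 * c) * x ^ 2 * y ^ 4 * z ^ 2 +
      ((-14) + (-4) * c) * x ^ 2 * y ^ 4 * z ^ 3 + (32 + (-36) * c) * x ^ 2 * y ^ 4 * z ^ 4 +
      ((-2) + (-4) * c) * x ^ 2 * y ^ 5 * z + (12 + (-10) * c) * x ^ 2 * y ^ 5 * z ^ 2 +
      ((-48) + 54 * c) * x ^ 3 * y ^ 2 * z ^ 3 + (14 + 4 * c) * x ^ 3 * y ^ 2 * z ^ 4 +
      ((-12) + 10 * c) * x ^ 3 * y ^ 2 * z ^ 5 + ((-14) + (-4) * c) * x ^ 3 * y ^ 3 * z ^ 2 +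
      (12 + (-22) * c) * x ^ 3 * y ^ 3 * z ^ 4 + ((-10) + 6 * c) * x ^ 3 * y ^ 3 * z ^ 5 +
      (2 + 10 * c) * x ^ 3 * y ^ 4 * z + ((-12) + 22 * c) * x ^ 3 * y ^ 4 * z ^ 2 +
      ((-48) + 54 * c) * x ^ 3 * y ^ 4 * z ^ 3 + (10 + (-6) * c) * x ^ 3 * y ^ 5 * z +
      ((-2) + (-10) * c) * x ^ 4 * y * z ^ 4 + ((-6) + (-4) * c) * x ^ 4 * y * z ^ 5 +
      (32 + (-36) * c) * x ^ 4 * y ^ 2 * z ^ 2 + (12 + (-22) * c) * x ^ 4 * y ^ 2 * z ^ 3 +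
      (32 + (-8) * c) * x ^ 4 * y ^ 2 * z ^ 4 + (2 + 4 * c) * x ^ 4 * y ^ 2 * z ^ 5 +
      (48 + (-54) * c) * x ^ 4 * y ^ 3 * z ^ 2 + (14 + 4 * c) * x ^ 4 * y ^ 3 * z ^ 3 +
      ((-2) + (-10) * c) * x ^ 4 * y ^ 3 * z ^ 4 + ((-32) + 36 * c) * x ^ 4 * y ^ 4 * z ^ 2 +
      ((-10) + 6 * c) * x ^ 5 * y * z ^ 3 + (2 + 4 * c) * x ^ 5 * y * z ^ 4 +
      ((-12) + 10 * c) * x ^ 5 * y ^ 2 * z ^ 3 + ((-6) + (-4) * c) * x ^ 5 * y ^ 2 * z ^ 4) * hc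

end Vale.Agent.P297.H600
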