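import Vale.Agent.P297.H424.G4.Forms

/-!
The pair of forms `(ID, JD)` is not of the form `(α L ^ 4, β L ^ 6)`.
-/

open Polynomial

namespace Vale.Agent.P297.G4

theorem ID_zero (m : Fin 11 → ℂ) :
    ID m 0 1 = ((4 * m 5 - m 10 ^ 2) * (4 * m 6 - m 9 ^ 2)) ^ 2 := by
  simp only [ID, gD, gE]
  ring

theorem JD_zero (m : Fin 11 → ℂ) :
    JD m 0 1 = -2 * ((4 * m 5 - m 10 ^ 2) * (4 * m 6 - m 9 ^ 2)) ^ 3 := by
  simp only [JD, gD, gE]
  ring

theorem eval_ID (m : Fin 11 → ℂ) (l : ℂ) :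
    (ID (fun i => (C (m i) : ℂ[X])) X 1).eval l = ID m l 1 := by
  simp [ID, gD, gI, gA, gB, gC, gE]

theorem eval_JD (m : Fin 11 → ℂ) (l : ℂ) :
    (JD (fun i => (C (m i) : ℂ[X])) X 1).eval l = JD m l 1 := by
  simp [JD, gD, gI, gJ, gA, gB, gC, gE]

theorem der_ID (m : Fin 11 → ℂ) :
    (derivative (ID (fun i => (C (m i) : ℂ[X])) X 1)).eval 0 =
      -2 * ((4 * m 5 - m 10 ^ 2) * (4 * m 6 - m 9 ^ 2)) *
        (4 * m 4 ^ 2 + 4 * m 5 * m 6 + 2 * m 4 * m 9 * m 10) -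
      4 * m 1 * gI m (4 * m 5 - m 10 ^ 2) (4 * m 4 + m 9 * m 10) (4 * m 6 - m 9 ^ 2) 0 1 -
      768 * m 1 ^ 2 * (m 7 * m 8) := by
  simp [ID, gD, gI, gA, gB, gC, gE, derivative_mul, derivative_pow]
  ring

theorem der_JD (m : Fin 11 → ℂ) (h : (4 * m 5 - m 10 ^ 2) * (4 * m 6 - m 9 ^ 2) = 0) :
    (derivative (JD (fun i => (C (m i) : ℂ[X])) X 1)).eval 0 =
      1728 * m 1 ^ 2 * ((4 * m 6 - m 9 ^ 2) ^ 2 * m 7 ^ 2 + (4 * m 5 - m 10 ^ 2) ^ 2 * m 8 ^ 2) := by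
  have h1 : (derivative (JD (fun i => (C (m i) : ℂ[X])) X 1)).eval 0 =
      6 * ((4 * m 5 - m 10 ^ 2) * (4 * m 6 - m 9 ^ 2)) ^ 2 *
        (4 * m 4 ^ 2 + 4 * m 5 * m 6 + 2 * m 4 * m 9 * m 10) +
      12 * m 1 * ((4 * m 5 - m 10 ^ 2) * (4 * m 6 - m 9 ^ 2)) *
        gI m (4 * m 5 - m 10 ^ 2) (4 * m 4 + m 9 * m 10) (4 * m 6 - m 9 ^ 2) 0 1 -
      64 * m 1 ^ 2 * (18 * ((4 * m 5 - m 10 ^ 2) * (4 * m 6 - m 9 ^ 2)) * (m 7 * m 8) -
        27 * ((4 * m 6 - m 9 ^ 2) ^ 2 * m 7 ^ 2 + (4 * m 5 - m 10 ^ 2) ^ 2 * m 8 ^ 2)) := by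
    simp [JD, gD, gI, gJ, gA, gB, gC, gE, derivative_mul, derivative_pow]
    ring
  rw [h1, h]
  ring

theorem der_JD2 (m : Fin 11 → ℂ) (h5 : 4 * m 5 = m 10 ^ 2) (h6 : 4 * m 6 = m 9 ^ 2)
    (h78 : m 7 * m 8 = 0) :
    (derivative (derivative (JD (fun i => (C (m i) : ℂ[X])) X 1))).eval 0 =
      -221184 * m 1 ^ 3 * (m 2 * m 7 ^ 2 + m 0 * m 8 ^ 2) := by
  have e5 : m 5 = m 10 ^ 2 / 4 := by linear_combination h5 / 4
  have e6 : m 6 = m 9 ^ 2 / 4 := by linear_combination h6 / 4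
  simp [JD, gD, gI, gJ, gA, gB, gC, gE, derivative_mul, derivative_pow]
  rw [e5, e6]
  linear_combination (73728 * m 1 ^ 3 * m 3 -
    1152 * m 1 ^ 2 * (4 * m 4 + m 9 * m 10) ^ 2) * h78

/-- **The pair of forms is not the pair of a constant curve.** -/
theorem not_triv {m : Fin 11 → ℂ} (m0 : m 0 ≠ 0) (m1 : m 1 ≠ 0) (m2 : m 2 ≠ 0)
    (h78 : m 7 ≠ 0 ∨ m 8 ≠ 0) (hne : ∃ l : ℂ, 4 * ID m l 1 ^ 3 ≠ JD m l 1 ^ 2) (α β s t : ℂ) :
    ¬ ∀ l : ℂ, ID m l 1 = α * (s * l + t) ^ 4 ∧ JD m l 1 = β * (s * l + t) ^ 6 := by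
  intro hall
  obtain ⟨i0, j0⟩ := hall 0
  rw [ID_zero, mul_zero, zero_add] at i0
  rw [JD_zero, mul_zero, zero_add] at j0
  have ht : t = 0 := by
    by_contra ht
    have h1 : 4 * α ^ 3 = β ^ 2 := by
      have h2 : (4 * α ^ 3 - β ^ 2) * t ^ 12 = 0 := by
        have h3 : 4 * (α * t ^ 4) ^ 3 - (β * t ^ 6) ^ 2 = 0 := by
          rw [← i0, ← j0]
          ring
        linear_combination h3
      exact sub_eq_zero.1 ((mul_eq_zero.1 h2).resolve_right (pow_ne_zero 12 ht))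
    obtain ⟨l, hl⟩ := hne
    apply hl
    obtain ⟨h2, h3⟩ := hall l
    rw [h2, h3]
    linear_combination (s * l + t) ^ 12 * h1
  subst ht
  have hAC : (4 * m 5 - m 10 ^ 2) * (4 * m 6 - m 9 ^ 2) = 0 := by
    have h1 : ((4 * m 5 - m 10 ^ 2) * (4 * m 6 - m 9 ^ 2)) ^ 2 = 0 := by
      rw [i0]
      ring
    exact pow_eq_zero_iff two_ne_zero |>.1 h1
  have hI : ID (fun i => (C (m i) : ℂ[X])) X 1 = C (α * s ^ 4) * X ^ 4 := by
    apply Polynomial.funext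
    intro r
    rw [eval_ID, (hall r).1]
    simp only [eval_mul, eval_C, eval_pow, eval_X]
    ring
  have hJ : JD (fun i => (C (m i) : ℂ[X])) X 1 = C (β * s ^ 6) * X ^ 6 := by
    apply Polynomial.funext
    intro r
    rw [eval_JD, (hall r).2]
    simp only [eval_mul, eval_C, eval_pow, eval_X]
    ring
  have dI := der_ID m
  rw [hI, hAC] at dI
  simp only [derivative_mul, derivative_C, derivative_X_pow, eval_add, eval_mul, eval_C, eval_pow,
    eval_X, eval_zero] at dI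
  have dJ := der_JD m hAC
  rw [hJ] at dJ
  simp only [derivative_mul, derivative_C, derivative_X_pow, eval_add, eval_mul, eval_C, eval_pow,
    eval_X, eval_zero] at dJ
  norm_num at dI dJ
  -- both vanish
  have key : 4 * m 5 - m 10 ^ 2 = 0 → 4 * m 6 - m 9 ^ 2 = 0 → False := by
    intro hA hC
    have k1 : m 7 * m 8 = 0 := by
      simp only [gI] at dI
      rw [hA, hC] at dI
      have h1 : m 1 ^ 2 * (m 7 * m 8) = 0 := by linear_combination (1 / 768) * dI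
      exact (mul_eq_zero.1 h1).resolve_left (pow_ne_zero 2 m1)
    have d2 := der_JD2 m (sub_eq_zero.1 hA) (sub_eq_zero.1 hC) k1
    rw [hJ] at d2
    simp only [derivative_mul, derivative_C, derivative_X_pow, derivative_add, eval_add, eval_mul,
      eval_C, eval_pow, eval_X, eval_zero] at d2
    norm_num at d2
    have d3 := d2.resolve_left m1
    rcases mul_eq_zero.1 k1 with h7 | h8
    · rw [h7] at d3
      have h8 : m 8 ≠ 0 := h78.resolve_left (fun h => h h7)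
      apply mul_ne_zero m0 (pow_ne_zero 2 h8)
      linear_combination d3
    · rw [h8] at d3
      have h7 : m 7 ≠ 0 := h78.resolve_right (fun h => h h8)
      apply mul_ne_zero m2 (pow_ne_zero 2 h7)
      linear_combination d3
  -- the cases
  rcases mul_eq_zero.1 hAC with hA | hC
  · by_cases hC : 4 * m 6 - m 9 ^ 2 = 0
    · exact key hA hC
    · have h7 : m 7 = 0 := by
        rw [hA] at dJ
        simp [m1, hC] at dJ
        exact dJ
      simp only [gI] at dI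
      rw [hA, h7] at dI
      apply mul_ne_zero (mul_ne_zero m0 m1) (pow_ne_zero 2 hC)
      linear_combination (1 / 48) * dI
  · by_cases hA : 4 * m 5 - m 10 ^ 2 = 0
    · exact key hA hC
    · have h8 : m 8 = 0 := by
        rw [hC] at dJ
        simp [m1, hA] at dJ
        exact dJ
      simp only [gI] at dI
      rw [hC, h8] at dI
      apply mul_ne_zero (mul_ne_zero m2 m1) (pow_ne_zero 2 hA)
      linear_combination (1 / 48) * dI

end Vale.Agent.P297.G4
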