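import Vale.Agent.P297.H600.Z42Hom

/-!
A point and its image under the involution: four times the difference is a relation.
-/

set_option linter.unusedSectionVars false

open IntermediateField Polynomial

namespace Vale.Agent.P297.Z42

open Vale.Agent.P297 Vale.Agent.P297.H839 Vale.Agent.P297.H600 Vale.Agent.P297.H729
open Vale.Agent.P297.Gen Vale.Agent.P297.H72

/-- the degenerate curves -/
def nD {R : Type} [CommRing R] (p : Fin 8 → R) (μ : R) : R :=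
  (n11 p μ ^ 2 + 4 * (n02 p μ * n20 p μ) - 4 * (n00 p μ * n22 p μ)) ^ 2 -
    16 * (n11 p μ ^ 2 * (n02 p μ * n20 p μ))

/-- The conditions on the parameters `(c₁, c₂, m₁, m₂, n, α, β, γ)` for the first part. -/
structure ParA (p : Fin 8 → ℂ) : Prop where
  cm : p 0 * p 3 - p 1 * p 2 ≠ 0
  n : p 4 ≠ 0
  A : p 5 ≠ 0 ∨ p 6 ≠ 0 ∨ p 7 ≠ 0
  D : ∃ c : ℂ, nD p c ≠ 0

section

variable {N : Type} [Field N] [Algebra ℂ N] {p : Fin 8 → ℂ}

theorem amp_ne {i : Fin 8} (h : p i ≠ 0) : amp N p i ≠ 0 := by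
  intro h0
  exact h ((map_eq_zero_iff _ (algebraMap ℂ N).injective).1 h0)

theorem ParA.cm' (hp : ParA p) : amp N p 0 * amp N p 3 - amp N p 1 * amp N p 2 ≠ 0 := by
  intro h0
  apply hp.cm
  apply (algebraMap ℂ N).injective
  rw [map_sub, map_mul, map_mul, map_zero]
  exact h0

theorem ParA.n' (hp : ParA p) : amp N p 4 ≠ 0 := amp_ne hp.n

theorem ParA.A' (hp : ParA p) : amp N p 5 ≠ 0 ∨ amp N p 6 ≠ 0 ∨ amp N p 7 ≠ 0 := by
  rcases hp.A with h | h | h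
  · exact Or.inl (amp_ne h)
  · exact Or.inr (Or.inl (amp_ne h))
  · exact Or.inr (Or.inr (amp_ne h))

variable [IsAlgClosed N]

/-- a relation between two independent elements -/
theorem rel_zero {x y a₀₀ a₁₁ a₂₀ a₀₂ a₂₂ : N} (h : AlgebraicIndependent ℂ ![x, y])
    (h00 : a₀₀ ∈ cl0 (∅ : Set N)) (h11 : a₁₁ ∈ cl0 (∅ : Set N)) (h20 : a₂₀ ∈ cl0 (∅ : Set N))
    (h02 : a₀₂ ∈ cl0 (∅ : Set N)) (h22 : a₂₂ ∈ cl0 (∅ : Set N))
    (heq : a₀₀ + a₁₁ * (x * y) + a₂₀ * x ^ 2 + a₀₂ * y ^ 2 + a₂₂ * (x ^ 2 * y ^ 2) = 0) :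
    a₀₀ = 0 ∧ a₁₁ = 0 ∧ a₂₀ = 0 ∧ a₀₂ = 0 ∧ a₂₂ = 0 := by
  have hy : y ∈ cl0 ({y} : Set N) := subset_cl0 _ rfl
  have hle := cl0_empty_le _ (cd_cl0 ({y} : Set N))
  obtain ⟨e1, e2, e3⟩ := quad_zero (cd_cl0 _) (notMem_cl0' h)
    (a := a₂₀ + a₂₂ * y ^ 2) (b := a₁₁ * y) (c := a₀₀ + a₀₂ * y ^ 2)
    (add_mem (hle h20) (mul_mem (hle h22) (pow_mem hy 2))) (mul_mem (hle h11) hy)
    (add_mem (hle h00) (mul_mem (hle h02) (pow_mem hy 2))) (by linear_combination heq)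
  have hy' := (notMem_empty h).2
  obtain ⟨f1, -, f3⟩ := quad_zero (cd_cl0 _) hy' (a := a₂₂) (b := 0) (c := a₂₀) h22 (zero_mem _)
    h20 (by linear_combination e1)
  obtain ⟨g1, -, g3⟩ := quad_zero (cd_cl0 _) hy' (a := a₀₂) (b := 0) (c := a₀₀) h02 (zero_mem _)
    h00 (by linear_combination e3)
  refine ⟨g3, ?_, f3, g1, f1⟩
  rcases mul_eq_zero.1 e2 with h1 | h1
  · exact h1
  · exact absurd h1 (ind_ne h).2

/-- the parameter is not a constant -/
theorem mu_tr (hp : ParA p) {μ x y r s : N} (hE : HE p μ x y r s) :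
    μ ∉ cl0 (∅ : Set N) := by
  have : CharZero N := charZero_of_injective_algebraMap (algebraMap ℂ N).injective
  intro hμ
  obtain ⟨e00, e11, e20, e02, e22⟩ := rel_zero hE.ind (n00_mem hμ) (n11_mem hμ) (n20_mem hμ)
    (n02_mem hμ) (n22_mem hμ) hE.eqn
  have hcm := hp.cm' (N := N)
  have hn := hp.n' (N := N)
  have hA := hp.A' (N := N)
  unfold n00 at e00
  unfold n11 at e11
  unfold n20 at e20
  unfold n02 at e02
  unfold n22 at e22
  generalize amp N p 0 = c₁ at *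
  generalize amp N p 1 = c₂ at *
  generalize amp N p 2 = m₁ at *
  generalize amp N p 3 = m₂ at *
  generalize amp N p 4 = n at *
  generalize amp N p 5 = α at *
  generalize amp N p 6 = β at *
  generalize amp N p 7 = γ at *
  have h1 : (μ ^ 4 - n ^ 2) * α = 0 := by linear_combination (1 / 2) * e00 + (1 / 2) * e22
  have h2 : (μ ^ 4 - n ^ 2) * γ = 0 := by linear_combination (1 / 2) * e20 + (1 / 2) * e02
  have h3 : μ ^ 4 - n ^ 2 = 0 := by
    rcases hA with h | h | h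
    · exact (mul_eq_zero.1 h1).resolve_right h
    · exact (mul_eq_zero.1 e11).resolve_right h
    · exact (mul_eq_zero.1 h2).resolve_right h
  have h4 : 2 * n ^ 2 * c₁ = μ ^ 2 * m₁ := by
    linear_combination (1 / 2) * e00 - (1 / 2) * e22 - c₁ * h3
  have h5 : 2 * n ^ 2 * c₂ = μ ^ 2 * m₂ := by
    linear_combination (1 / 2) * e20 - (1 / 2) * e02 - c₂ * h3
  have h6 : (2 * n ^ 2) * (c₁ * m₂ - c₂ * m₁) = 0 := by linear_combination m₂ * h4 - m₁ * h5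
  rcases mul_eq_zero.1 h6 with h7 | h7
  · exact (mul_ne_zero two_ne_zero (pow_ne_zero 2 hn)) h7
  · exact hcm h7

theorem musq_tr {μ : N} (hμ : μ ∉ cl0 (∅ : Set N)) : μ ^ 2 ∉ cl0 (∅ : Set N) :=
  fun h => hμ (sq_mem (cd_cl0 _) h)

theorem n20_ne (hp : ParA p) {μ : N} (hμ : μ ∉ cl0 (∅ : Set N)) : n20 (amp N p) μ ≠ 0 := by
  have : CharZero N := charZero_of_injective_algebraMap (algebraMap ℂ N).injective
  intro h0
  unfold n20 at h0
  obtain ⟨e1, e2, e3⟩ := quad_zero (cd_cl0 _) (musq_tr hμ) (a := amp N p 7 + amp N p 1)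
    (b := -amp N p 3) (c := amp N p 4 ^ 2 * (amp N p 1 - amp N p 7))
    (add_mem (amp_mem _ _) (amp_mem _ _)) (neg_mem (amp_mem _ _))
    (mul_mem (pow_mem (amp_mem _ _) 2) (sub_mem (amp_mem _ _) (amp_mem _ _)))
    (by linear_combination h0)
  have e4 : amp N p 1 - amp N p 7 = 0 :=
    (mul_eq_zero.1 e3).resolve_left (pow_ne_zero 2 hp.n')
  have e5 : amp N p 1 = 0 := by linear_combination (1 / 2) * e1 + (1 / 2) * e4
  apply hp.cm' (N := N)
  rw [e5]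
  linear_combination -(amp N p 0) * e2

theorem n02_ne (hp : ParA p) {μ : N} (hμ : μ ∉ cl0 (∅ : Set N)) : n02 (amp N p) μ ≠ 0 := by
  have : CharZero N := charZero_of_injective_algebraMap (algebraMap ℂ N).injective
  intro h0
  unfold n02 at h0
  obtain ⟨e1, e2, e3⟩ := quad_zero (cd_cl0 _) (musq_tr hμ) (a := amp N p 7 - amp N p 1)
    (b := amp N p 3) (c := amp N p 4 ^ 2 * (-(amp N p 1 + amp N p 7)))
    (sub_mem (amp_mem _ _) (amp_mem _ _)) (amp_mem _ _)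
    (mul_mem (pow_mem (amp_mem _ _) 2) (neg_mem (add_mem (amp_mem _ _) (amp_mem _ _))))
    (by linear_combination h0)
  have e4 : -(amp N p 1 + amp N p 7) = 0 :=
    (mul_eq_zero.1 e3).resolve_left (pow_ne_zero 2 hp.n')
  have e5 : amp N p 1 = 0 := by linear_combination -(1 / 2) * e1 - (1 / 2) * e4
  apply hp.cm' (N := N)
  rw [e5]
  linear_combination (amp N p 0) * e2

theorem n22_ne (hp : ParA p) {μ : N} (hμ : μ ∉ cl0 (∅ : Set N)) : n22 (amp N p) μ ≠ 0 := by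
  have : CharZero N := charZero_of_injective_algebraMap (algebraMap ℂ N).injective
  intro h0
  unfold n22 at h0
  obtain ⟨e1, e2, e3⟩ := quad_zero (cd_cl0 _) (musq_tr hμ) (a := amp N p 5 - amp N p 0)
    (b := amp N p 2) (c := amp N p 4 ^ 2 * (-(amp N p 0 + amp N p 5)))
    (sub_mem (amp_mem _ _) (amp_mem _ _)) (amp_mem _ _)
    (mul_mem (pow_mem (amp_mem _ _) 2) (neg_mem (add_mem (amp_mem _ _) (amp_mem _ _))))
    (by linear_combination h0)
  have e4 : -(amp N p 0 + amp N p 5) = 0 :=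
    (mul_eq_zero.1 e3).resolve_left (pow_ne_zero 2 hp.n')
  have e5 : amp N p 0 = 0 := by linear_combination -(1 / 2) * e1 - (1 / 2) * e4
  apply hp.cm' (N := N)
  rw [e5]
  linear_combination -(amp N p 1) * e2

theorem transc {μ : N} (hμ : μ ∉ cl0 (∅ : Set N)) : Transcendental ℂ μ := by
  intro h
  apply hμ
  rw [mem_cl0]
  exact h.tower_top _

theorem nD_ne (hp : ParA p) {μ : N} (hμ : μ ∉ cl0 (∅ : Set N)) : nD (amp N p) μ ≠ 0 := by
  intro h0
  obtain ⟨c, hc⟩ := hp.D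
  apply hc
  have h1 : aeval μ (nD (fun i => C (p i)) (X : ℂ[X])) = nD (amp N p) μ := by
    unfold nD n00 n11 n20 n02 n22 amp
    simp only [map_sub, map_add, map_mul, map_pow, aeval_C, aeval_X, map_ofNat]
  rw [h0] at h1
  have h2 : nD (fun i => C (p i)) (X : ℂ[X]) = 0 := (transcendental_iff.1 (transc hμ)) _ h1
  have h3 := congrArg (fun q : ℂ[X] => q.eval c) h2
  unfold nD n00 n11 n20 n02 n22 at h3 ⊢
  simp only [eval_sub, eval_add, eval_mul, eval_pow, eval_C, eval_X, eval_ofNat, eval_zero] at h3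
  exact h3

/-- the two points of the conic with first coordinate zero -/
theorem exists_k (hp : ParA p) {μ ρ : N} (hμ : μ ∉ cl0 (∅ : Set N))
    (hρ : ρ ^ 2 * n20 (amp N p) μ = n02 (amp N p) μ) (hρF : ρ ∈ cl0 {μ}) :
    ∃ k₀ k₁ : N, k₀ ∈ cl0 {μ} ∧ k₁ ∈ cl0 {μ} ∧
      n22 (amp N p) μ * (k₀ + k₁) = -(n11 (amp N p) μ - 2 * ρ * n20 (amp N p) μ) ∧
      n22 (amp N p) μ * (k₀ * k₁) = n00 (amp N p) μ ∧ k₀ ≠ k₁ := by
  have : CharZero N := charZero_of_injective_algebraMap (algebraMap ℂ N).injective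
  have h22 := n22_ne hp hμ
  have hD := nD_ne hp hμ
  have hμF : μ ∈ cl0 ({μ} : Set N) := subset_cl0 _ rfl
  have m22 : n22 (amp N p) μ ∈ cl0 ({μ} : Set N) := n22_mem hμF
  have m20 : n20 (amp N p) μ ∈ cl0 ({μ} : Set N) := n20_mem hμF
  have m00 : n00 (amp N p) μ ∈ cl0 ({μ} : Set N) := n00_mem hμF
  have m11 : n11 (amp N p) μ ∈ cl0 ({μ} : Set N) := n11_mem hμF
  unfold nD at hD
  generalize n22 (amp N p) μ = a₂₂ at *
  generalize n20 (amp N p) μ = a₂₀ at *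
  generalize n02 (amp N p) μ = a₀₂ at *
  generalize n00 (amp N p) μ = a₀₀ at *
  generalize n11 (amp N p) μ = a₁₁ at *
  obtain ⟨δ, hδ⟩ := IsAlgClosed.exists_pow_nat_eq ((a₁₁ - 2 * ρ * a₂₀) ^ 2 - 4 * a₂₂ * a₀₀)
    (n := 2) (by norm_num)
  have m2 : (2 : N) ∈ cl0 ({μ} : Set N) := by
    rw [show (2 : N) = 1 + 1 by norm_num]
    exact add_mem (one_mem _) (one_mem _)
  have m4 : (4 : N) ∈ cl0 ({μ} : Set N) := by
    rw [show (4 : N) = 2 * 2 by norm_num]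
    exact mul_mem m2 m2
  have mB : a₁₁ - 2 * ρ * a₂₀ ∈ cl0 ({μ} : Set N) := sub_mem m11 (mul_mem (mul_mem m2 hρF) m20)
  have mδ : δ ∈ cl0 ({μ} : Set N) := by
    refine sq_mem (cd_cl0 _) ?_
    rw [hδ]
    exact sub_mem (pow_mem mB 2) (mul_mem (mul_mem m4 m22) m00)
  have hδ0 : δ ≠ 0 := by
    intro h0
    apply hD
    rw [h0] at hδ
    have h3 : a₁₁ ^ 2 + 4 * (a₀₂ * a₂₀) - 4 * (a₀₀ * a₂₂) = 4 * ρ * a₁₁ * a₂₀ := by
      linear_combination -hδ - 4 * a₂₀ * hρ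
    rw [h3]
    linear_combination 16 * a₁₁ ^ 2 * a₂₀ * hρ
  refine ⟨(-(a₁₁ - 2 * ρ * a₂₀) + δ) / (2 * a₂₂), (-(a₁₁ - 2 * ρ * a₂₀) - δ) / (2 * a₂₂),
    div_mem (add_mem (neg_mem mB) mδ) (mul_mem m2 m22),
    div_mem (sub_mem (neg_mem mB) mδ) (mul_mem m2 m22), ?_, ?_, ?_⟩
  · field_simp
    ring
  · field_simp
    linear_combination -hδ
  · intro h3
    apply hδ0
    rw [div_left_inj' (mul_ne_zero two_ne_zero h22)] at h3
    linear_combination (1 / 2) * h3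

/-- the conjugate point of the curve -/
theorem exists_conj (hp : ParA p) (h2 : Algebra.trdeg ℂ N = 2) {μ x y r s ρ : N}
    (hE : HE p μ x y r s) (hρ0 : ρ ≠ 0)
    (hρ : ρ ^ 2 * n20 (amp N p) μ = n02 (amp N p) μ) (hρF : ρ ∈ cl0 {μ}) :
    ∃ r₃ s₃ : N, HE p μ (ρ * y) (x / ρ) r₃ s₃ := by
  have : CharZero N := charZero_of_injective_algebraMap (algebraMap ℂ N).injective
  obtain ⟨r₃, hr₃⟩ := IsAlgClosed.exists_pow_nat_eq
    (eT (amp N p) (ρ * y) (x / ρ) + eA (amp N p) (ρ * y) (x / ρ)) (n := 2) (by norm_num)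
  obtain ⟨s₃, hs₃⟩ := IsAlgClosed.exists_pow_nat_eq
    (eT (amp N p) (ρ * y) (x / ρ) - eA (amp N p) (ρ * y) (x / ρ)) (n := 2) (by norm_num)
  have hon : μ ^ 4 * (eT (amp N p) (ρ * y) (x / ρ) + eA (amp N p) (ρ * y) (x / ρ)) -
      μ ^ 2 * eM (amp N p) (ρ * y) (x / ρ) +
      amp N p 4 ^ 2 * (eT (amp N p) (ρ * y) (x / ρ) - eA (amp N p) (ρ * y) (x / ρ)) = 0 := by
    rw [← n_eq]
    have h1 := hE.eqn
    have h3 : ρ * y * (x / ρ) = x * y := by field_simp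
    have h4 : (ρ * y) ^ 2 * (x / ρ) ^ 2 = x ^ 2 * y ^ 2 := by
      rw [← mul_pow, h3, mul_pow]
    have h5 : n02 (amp N p) μ * (x / ρ) ^ 2 = n20 (amp N p) μ * x ^ 2 := by
      rw [← hρ]
      field_simp
    rw [h3, h4, h5]
    linear_combination h1 + y ^ 2 * hρ
  refine ⟨r₃, s₃, hE.mu, ?_, hr₃, hs₃, hon⟩
  apply ind2 h2
  set M : IntermediateField ℂ N := cl0 {ρ * y, x / ρ} with hM
  have ma : ρ * y ∈ M := subset_cl0 _ (Or.inl rfl)
  have mb : x / ρ ∈ M := subset_cl0 _ (Or.inr rfl)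
  have mT : eT (amp N p) (ρ * y) (x / ρ) ∈ M := by
    unfold eT
    exact add_mem (mul_mem (amp_mem _ _) (sub_mem (one_mem _) (mul_mem (pow_mem ma 2)
      (pow_mem mb 2)))) (mul_mem (amp_mem _ _) (sub_mem (pow_mem ma 2) (pow_mem mb 2)))
  have mM : eM (amp N p) (ρ * y) (x / ρ) ∈ M := by
    unfold eM
    exact add_mem (mul_mem (amp_mem _ _) (sub_mem (one_mem _) (mul_mem (pow_mem ma 2)
      (pow_mem mb 2)))) (mul_mem (amp_mem _ _) (sub_mem (pow_mem ma 2) (pow_mem mb 2)))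
  have mA : eA (amp N p) (ρ * y) (x / ρ) ∈ M := by
    unfold eA
    exact add_mem (add_mem (mul_mem (amp_mem _ _) (add_mem (one_mem _) (mul_mem (pow_mem ma 2)
      (pow_mem mb 2)))) (mul_mem (amp_mem _ _) (mul_mem ma mb)))
      (mul_mem (amp_mem _ _) (add_mem (pow_mem ma 2) (pow_mem mb 2)))
  have mμ : μ ∈ M := by
    by_contra h0
    have h3 : μ ^ 2 ∉ M := fun h => h0 (sq_mem (cd_cl0 _) h)
    obtain ⟨e1, e2, e3⟩ := quad_zero (cd_cl0 _) h3 (add_mem mT mA) (neg_mem mM)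
      (mul_mem (pow_mem (amp_mem M 4) 2) (sub_mem mT mA)) (by linear_combination hon)
    have e4 : eT (amp N p) (ρ * y) (x / ρ) - eA (amp N p) (ρ * y) (x / ρ) = 0 :=
      (mul_eq_zero.1 e3).resolve_left (pow_ne_zero 2 hp.n')
    have e5 : eT (amp N p) (ρ * y) (x / ρ) = 0 := by
      linear_combination (1 / 2) * e1 + (1 / 2) * e4
    unfold eT at e5
    unfold eM at e2
    have e6 : (amp N p 0 * amp N p 3 - amp N p 1 * amp N p 2) *
        (1 - (ρ * y) ^ 2 * (x / ρ) ^ 2) = 0 := by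
      linear_combination amp N p 3 * e5 + amp N p 1 * e2
    have e7 : 1 - (ρ * y) ^ 2 * (x / ρ) ^ 2 = 0 := (mul_eq_zero.1 e6).resolve_left hp.cm'
    have e8 : (x * y - 1) * (x * y + 1) = 0 := by
      have e9 : ρ * y * (x / ρ) = x * y := by field_simp
      rw [← mul_pow, e9] at e7
      linear_combination -e7
    rcases mul_eq_zero.1 e8 with h | h
    · exact mul_ne hE.ind (one_mem _) (sub_eq_zero.1 h)
    · exact mul_ne hE.ind (neg_mem (one_mem _)) (eq_neg_of_add_eq_zero_left h)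
  have mρ : ρ ∈ M := by
    have h3 : cl0 ({μ} : Set N) ≤ M := by
      refine cl0_le (cd_cl0 _) ?_
      rintro _ rfl
      exact mμ
    exact h3 hρF
  have mx : x ∈ M := by
    have h3 : x = x / ρ * ρ := by field_simp
    rw [h3]
    exact mul_mem mb mρ
  have my : y ∈ M := by
    have h3 : y = ρ * y * ρ⁻¹ := by field_simp
    rw [h3]
    exact mul_mem ma (inv_mem mρ)
  intro z
  refine cl0_le (cd_cl0 _) ?_ (all2 h2 hE.ind z)
  rintro w (rfl | rfl)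
  · exact mx
  · exact my

end

section

variable {K E N : Type} [Field K] [Algebra ℂ K] [Field E] [Algebra ℂ E] [Field N] [Algebra ℂ N]
  {p : Fin 8 → ℂ} {e : Fin 5 → E} {ι : K →ₐ[ℂ] E} [IsAlgClosed N]

/-- **Translation by a point of order two.** -/
theorem flow (hp : ParA p) (h : IsE p e) (hs : Sym e ι) (h2 : Algebra.trdeg ℂ N = 2)
    {μ x y r s : N} (hE : HE p μ x y r s) {m : ℤ} :
    (2 : ℤ) • (Th p e ι μ x y r s - Th p e ι μ (-x) (-y) r s) ∈ Rel m K N := by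
  have hμ := mu_tr hp hE
  have h20 := n20_ne hp hμ
  have h22 := n22_ne hp hμ
  have h02 := n02_ne hp hμ
  have hμF : μ ∈ cl0 ({μ} : Set N) := subset_cl0 _ rfl
  obtain ⟨ρ, hρ'⟩ := IsAlgClosed.exists_pow_nat_eq (n02 (amp N p) μ / n20 (amp N p) μ)
    (n := 2) (by norm_num)
  have hρ : ρ ^ 2 * n20 (amp N p) μ = n02 (amp N p) μ := by
    rw [hρ', div_mul_cancel₀ _ h20]
  have hρ0 : ρ ≠ 0 := by
    rintro rfl
    apply h02
    rw [← hρ]
    ring
  have hρF : ρ ∈ cl0 {μ} := by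
    refine sq_mem (cd_cl0 _) ?_
    rw [hρ']
    exact div_mem (n02_mem hμF) (n20_mem hμF)
  obtain ⟨r₃, s₃, hE₃⟩ := exists_conj hp h2 hE hρ0 hρ hρF
  obtain ⟨k₀, k₁, hk₀, hk₁, hsum, hprod, hne⟩ := exists_k hp hμ hρ hρF
  have hρn : (-ρ) ^ 2 * n20 (amp N p) μ = n02 (amp N p) μ := by rw [neg_sq]; exact hρ
  obtain ⟨l₀, l₁, hl₀, hl₁, hsum', hprod', hne'⟩ := exists_k hp hμ hρn (neg_mem hρF)
  have f1 := flow1 h hs h2 hE hE₃ hρ0 hρ hρF hk₀ hk₁ hsum hprod hne h20 h22 (m := m)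
  have hE₃' : HE p μ (-ρ * y) (x / -ρ) r₃ s₃ := by
    rw [neg_mul, div_neg]
    exact hE₃.neg_xy
  have f2 := flow1 h hs h2 hE hE₃' (neg_ne_zero.2 hρ0) hρn (neg_mem hρF) hl₀ hl₁ hsum' hprod'
    hne' h20 h22 (m := m)
  rw [neg_mul, div_neg, neg_neg, neg_neg] at f2
  have f3 := add_mem f1 f2
  have e1 : (Th p e ι μ x y r s + Th p e ι μ (ρ * y) (x / ρ) r₃ s₃) -
      (Th p e ι μ (-x) (-y) r s + Th p e ι μ (-(ρ * y)) (-(x / ρ)) r₃ s₃) +
      ((Th p e ι μ x y r s + Th p e ι μ (-(ρ * y)) (-(x / ρ)) r₃ s₃) -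
      (Th p e ι μ (-x) (-y) r s + Th p e ι μ (ρ * y) (x / ρ) r₃ s₃)) =
      (2 : ℤ) • (Th p e ι μ x y r s - Th p e ι μ (-x) (-y) r s) := by
    rw [two_smul]
    abel
  rw [e1] at f3
  exact f3

/-- the square roots do not vanish -/
theorem rs_ne (hp : ParA p) {x y r s v : N} (hG : GP p ![x, y, r, s, v]) : r ≠ 0 ∧ s ≠ 0 := by
  have : CharZero N := charZero_of_injective_algebraMap (algebraMap ℂ N).injective
  have e1 : r ^ 2 = eT (amp N p) x y + eA (amp N p) x y := hG.on.er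
  have e2 : s ^ 2 = eT (amp N p) x y - eA (amp N p) x y := hG.on.es
  have hc : ∀ i, amp N p i ∈ cl0 (∅ : Set N) := fun i => amp_mem _ _
  constructor
  · rintro rfl
    unfold eT eA at e1
    obtain ⟨a0, -, a2, a3, a4⟩ := rel_zero (gp_ind hG)
      (a₀₀ := amp N p 0 + amp N p 5) (a₁₁ := amp N p 6) (a₂₀ := amp N p 1 + amp N p 7)
      (a₀₂ := amp N p 7 - amp N p 1) (a₂₂ := amp N p 5 - amp N p 0)
      (add_mem (hc 0) (hc 5)) (hc 6) (add_mem (hc 1) (hc 7)) (sub_mem (hc 7) (hc 1))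
      (sub_mem (hc 5) (hc 0)) (by linear_combination -e1)
    have b0 : amp N p 0 = 0 := by linear_combination (1 / 2) * a0 - (1 / 2) * a4
    have b1 : amp N p 1 = 0 := by linear_combination (1 / 2) * a2 - (1 / 2) * a3
    apply hp.cm' (N := N)
    rw [b0, b1]
    ring
  · rintro rfl
    unfold eT eA at e2
    obtain ⟨a0, -, a2, a3, a4⟩ := rel_zero (gp_ind hG)
      (a₀₀ := amp N p 0 - amp N p 5) (a₁₁ := -amp N p 6) (a₂₀ := amp N p 1 - amp N p 7)
      (a₀₂ := -amp N p 7 - amp N p 1) (a₂₂ := -amp N p 5 - amp N p 0)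
      (sub_mem (hc 0) (hc 5)) (neg_mem (hc 6)) (sub_mem (hc 1) (hc 7))
      (sub_mem (neg_mem (hc 7)) (hc 1)) (sub_mem (neg_mem (hc 5)) (hc 0))
      (by linear_combination -e2)
    have b0 : amp N p 0 = 0 := by linear_combination (1 / 2) * a0 - (1 / 2) * a4
    have b1 : amp N p 1 = 0 := by linear_combination (1 / 2) * a2 - (1 / 2) * a3
    apply hp.cm' (N := N)
    rw [b0, b1]
    ring

/-- a point lies on a curve -/
theorem he_of_gp (hp : ParA p) {x y r s v μ : N} (hG : GP p ![x, y, r, s, v])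
    (hμ : r * μ ^ 2 - v * μ + amp N p 4 * s = 0) :
    HE p μ x y r s ∧ μ * r + amp N p 4 * s / μ = v := by
  obtain ⟨hr, hs⟩ := rs_ne hp hG
  have e1 : r ^ 2 = eT (amp N p) x y + eA (amp N p) x y := hG.on.er
  have e2 : s ^ 2 = eT (amp N p) x y - eA (amp N p) x y := hG.on.es
  have e3 : v ^ 2 = eM (amp N p) x y + 2 * amp N p 4 * (r * s) := hG.on.ev
  have hμ0 : μ ≠ 0 := by
    rintro rfl
    apply mul_ne_zero (hp.n' (N := N)) hs
    linear_combination hμ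
  refine ⟨⟨hμ0, gp_ind hG, e1, e2, ?_⟩, ?_⟩
  · rw [← e1, ← e2]
    have e4 : eM (amp N p) x y = v ^ 2 - 2 * amp N p 4 * (r * s) := by linear_combination -e3
    rw [e4]
    linear_combination (r * μ ^ 2 + v * μ + amp N p 4 * s) * hμ
  · field_simp
    linear_combination hμ

/-- **The involution.** -/
theorem partA (hp : ParA p) (h : IsE p e) (hs : Sym e ι) (h2 : Algebra.trdeg ℂ N = 2)
    {x y r s v : N} (hG : GP p ![x, y, r, s, v]) {m : ℤ} :
    (4 : ℤ) • (ptK e ι ![x, y, r, s, v] - ptK e ι ![x, y, r, s, -v]) ∈ Rel m K N := by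
  have : CharZero N := charZero_of_injective_algebraMap (algebraMap ℂ N).injective
  obtain ⟨hr, hs0⟩ := rs_ne hp hG
  obtain ⟨δ, hδ⟩ := IsAlgClosed.exists_pow_nat_eq (v ^ 2 - 4 * r * (amp N p 4 * s))
    (n := 2) (by norm_num)
  obtain ⟨μ, hμ⟩ : ∃ μ : N, r * μ ^ 2 - v * μ + amp N p 4 * s = 0 := by
    refine ⟨(v + δ) / (2 * r), ?_⟩
    field_simp
    linear_combination hδ
  obtain ⟨hE, hv⟩ := he_of_gp hp hG hμ
  have hμ0 := hE.mu
  have hμ' : r * (amp N p 4 * s / (r * μ)) ^ 2 - v * (amp N p 4 * s / (r * μ)) +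
      amp N p 4 * s = 0 := by
    field_simp
    linear_combination (amp N p 4 * s) * hμ
  obtain ⟨hE', -⟩ := he_of_gp hp hG hμ'
  have f1 := flow hp h hs h2 hE (m := m)
  have f2 := flow hp h hs h2 hE' (m := m)
  rw [Th_neg_xy h hs hE] at f1
  rw [Th_neg_xy h hs hE'] at f2
  unfold Th at f1 f2
  have e1 : amp N p 4 * s / (r * μ) * r = amp N p 4 * s / μ := by field_simp
  have e2 : amp N p 4 * s / (amp N p 4 * s / (r * μ)) = μ * r := by
    have := hp.n' (N := N)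
    field_simp
  rw [e1, e2] at f2
  rw [hv] at f1
  have e3 : amp N p 4 * s / μ + μ * r = v := by rw [add_comm]; exact hv
  have e4 : -(amp N p 4 * s / μ) + μ * r = -(-(μ * r) + amp N p 4 * s / μ) := by ring
  rw [e3, e4, neg_neg (-(μ * r) + amp N p 4 * s / μ)] at f2
  have f3 := add_mem f1 f2
  generalize ptK e ι ![x, y, -r, s, -(μ * r) + amp N p 4 * s / μ] = P₁ at f3
  generalize ptK e ι ![x, y, -r, s, -(-(μ * r) + amp N p 4 * s / μ)] = P₂ at f3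
  generalize ptK e ι ![x, y, r, s, v] = P at f3 ⊢
  generalize ptK e ι ![x, y, r, s, -v] = P' at f3 ⊢
  have e5 : (2 : ℤ) • (P + P₁ - (P' + P₂)) + (2 : ℤ) • (P + P₂ - (P' + P₁)) =
      (4 : ℤ) • (P - P') := by
    rw [← smul_add, show (4 : ℤ) = 2 * 2 by norm_num, mul_smul, two_smul ℤ (P - P')]
    congr 1
    abel
  rw [e5] at f3
  exact f3

end

end Vale.Agent.P297.Z42
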