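import Vale.Agent.P297.H600.Z42Main

/-!
The automorphisms of the universal cover, and the final theorem for the quotient.
-/

set_option linter.unusedSectionVars false

open IntermediateField Polynomial CategoryTheory AlgebraicGeometry

namespace Vale.Agent.P297.Z42

open Vale.Agent.P297 Vale.Agent.P297.H839 Vale.Agent.P297.H600

section

variable {E : Type} [Field E] [Algebra ℂ E] {p : Fin 8 → ℂ} {e : Fin 5 → E}

/-- an endomorphism with given values -/
theorem IsE.exists_end (h : IsE p e) {ξ : Fin 5 → E} (hξ : GP p ξ) :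
    ∃ τ : E →ₐ[ℂ] E, ∀ i, τ (e i) = ξ i := by
  let j : E →ₐ[ℂ] AlgebraicClosure E := IsScalarTower.toAlgHom ℂ E (AlgebraicClosure E)
  obtain ⟨ψ, hψ⟩ := h.exists_emb (hξ.map j)
  have hmem : ∀ z : E, ψ z ∈ j.range := by
    intro z
    have h2 : z ∈ IntermediateField.adjoin ℂ (Set.range e) := by rw [h.top]; trivial
    induction h2 using IntermediateField.adjoin_induction with
    | mem x hx =>
      obtain ⟨i, rfl⟩ := hx
      exact ⟨ξ i, (hψ i).symm⟩
    | algebraMap r => exact ⟨algebraMap ℂ E r, by rw [AlgHom.commutes]; exact j.commutes r⟩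
    | add x y _ _ h1 h2 => rw [map_add]; exact add_mem h1 h2
    | mul x y _ _ h1 h2 => rw [map_mul]; exact mul_mem h1 h2
    | inv x _ h1 =>
      obtain ⟨w, hw⟩ := h1
      exact ⟨w⁻¹, by rw [map_inv₀ ψ, ← hw]; exact map_inv₀ j w⟩
  let τ : E →ₐ[ℂ] E := (AlgEquiv.ofInjectiveField j).symm.toAlgHom.comp (ψ.codRestrict j.range hmem)
  have hτ : ∀ z, j (τ z) = ψ z := by
    intro z
    have h3 : AlgEquiv.ofInjectiveField j (τ z) = ψ.codRestrict j.range hmem z :=
      (AlgEquiv.ofInjectiveField j).apply_symm_apply _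
    exact congrArg Subtype.val h3
  exact ⟨τ, fun i => j.toRingHom.injective ((hτ (e i)).trans (hψ i))⟩

theorem IsE.id_of (h : IsE p e) {τ : E →ₐ[ℂ] E} (hv : ∀ i, τ (e i) = e i) : τ = AlgHom.id ℂ E :=
  h.ext hv

/-- **The automorphisms exist.** -/
theorem IsE.exists_aut (h : IsE p e) :
    ∃ z b a : E ≃ₐ[ℂ] E,
      (z (e 0) = e 0 ∧ z (e 1) = e 1 ∧ z (e 2) = -e 2 ∧ z (e 3) = -e 3 ∧ z (e 4) = -e 4) ∧
      (b (e 0) = -e 0 ∧ b (e 1) = -e 1 ∧ b (e 2) = -e 2 ∧ b (e 3) = -e 3 ∧ b (e 4) = e 4) ∧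
      (a (e 0) = -(e 0)⁻¹ ∧ a (e 1) = -(e 1)⁻¹ ∧
        a (e 2) = algebraMap ℂ E Complex.I * e 3 / (e 0 * e 1) ∧
        a (e 3) = algebraMap ℂ E Complex.I * e 2 / (e 0 * e 1) ∧
        a (e 4) = algebraMap ℂ E Complex.I * e 4 / (e 0 * e 1)) := by
  have hG : GP p ![e 0, e 1, e 2, e 3, e 4] := gp_mk h.gp.ind h.gp.on
  obtain ⟨h0, h1⟩ := ind_ne h.gp.ind
  change e 0 ≠ 0 at h0
  change e 1 ≠ 0 at h1
  have hzG : GP p ![e 0, e 1, -e 2, -e 3, -e 4] := gp_neg_v (gp_neg_rs hG)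
  obtain ⟨z, hz⟩ := h.exists_end hzG
  have hbG : GP p ![-e 0, -e 1, -e 2, -e 3, e 4] := gp_neg_xy (gp_neg_rs hG)
  obtain ⟨b, hb⟩ := h.exists_end hbG
  obtain ⟨a, ha⟩ := h.exists_end (gp_a hG)
  have z0 : z (e 0) = e 0 := hz 0
  have z1 : z (e 1) = e 1 := hz 1
  have z2 : z (e 2) = -e 2 := hz 2
  have z3 : z (e 3) = -e 3 := hz 3
  have z4 : z (e 4) = -e 4 := hz 4
  have b0 : b (e 0) = -e 0 := hb 0
  have b1 : b (e 1) = -e 1 := hb 1
  have b2 : b (e 2) = -e 2 := hb 2
  have b3 : b (e 3) = -e 3 := hb 3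
  have b4 : b (e 4) = e 4 := hb 4
  have a0 : a (e 0) = -(e 0)⁻¹ := ha 0
  have a1 : a (e 1) = -(e 1)⁻¹ := ha 1
  have a2 : a (e 2) = algebraMap ℂ E Complex.I * e 3 / (e 0 * e 1) := ha 2
  have a3 : a (e 3) = algebraMap ℂ E Complex.I * e 2 / (e 0 * e 1) := ha 3
  have a4 : a (e 4) = algebraMap ℂ E Complex.I * e 4 / (e 0 * e 1) := ha 4
  have hI : algebraMap ℂ E Complex.I * algebraMap ℂ E Complex.I = -1 := by
    rw [← map_mul, Complex.I_mul_I, map_neg, map_one]
  have hI' : a (algebraMap ℂ E Complex.I) = algebraMap ℂ E Complex.I := a.commutes _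
  have hzz : z.comp z = AlgHom.id ℂ E := by
    refine h.id_of fun i => ?_
    fin_cases i
    · change z (z (e 0)) = e 0
      rw [z0, z0]
    · change z (z (e 1)) = e 1
      rw [z1, z1]
    · change z (z (e 2)) = e 2
      rw [z2, map_neg, z2, neg_neg]
    · change z (z (e 3)) = e 3
      rw [z3, map_neg, z3, neg_neg]
    · change z (z (e 4)) = e 4
      rw [z4, map_neg, z4, neg_neg]
  have hbb : b.comp b = AlgHom.id ℂ E := by
    refine h.id_of fun i => ?_
    fin_cases i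
    · change b (b (e 0)) = e 0
      rw [b0, map_neg, b0, neg_neg]
    · change b (b (e 1)) = e 1
      rw [b1, map_neg, b1, neg_neg]
    · change b (b (e 2)) = e 2
      rw [b2, map_neg, b2, neg_neg]
    · change b (b (e 3)) = e 3
      rw [b3, map_neg, b3, neg_neg]
    · change b (b (e 4)) = e 4
      rw [b4, b4]
  have haa : a.comp a = z := by
    refine h.ext fun i => ?_
    fin_cases i
    · change a (a (e 0)) = z (e 0)
      rw [a0, map_neg, map_inv₀, a0, z0, inv_neg, neg_neg, inv_inv]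
    · change a (a (e 1)) = z (e 1)
      rw [a1, map_neg, map_inv₀, a1, z1, inv_neg, neg_neg, inv_inv]
    · change a (a (e 2)) = z (e 2)
      rw [a2, map_div₀, map_mul, map_mul, hI', a3, a0, a1, z2]
      field_simp
      linear_combination (e 2) * hI
    · change a (a (e 3)) = z (e 3)
      rw [a3, map_div₀, map_mul, map_mul, hI', a2, a0, a1, z3]
      field_simp
      linear_combination (e 3) * hI
    · change a (a (e 4)) = z (e 4)
      rw [a4, map_div₀, map_mul, map_mul, hI', a4, a0, a1, z4]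
      field_simp
      linear_combination (e 4) * hI
  have h4 : a.comp (a.comp z) = AlgHom.id ℂ E := by
    rw [← AlgHom.comp_assoc, haa, hzz]
  have h5 : (a.comp z).comp a = AlgHom.id ℂ E := by
    rw [AlgHom.comp_assoc, ← haa]
    rw [show a.comp ((a.comp a).comp a) = (a.comp a).comp (a.comp a) by
      simp only [AlgHom.comp_assoc], haa, hzz]
  exact ⟨AlgEquiv.ofAlgHom z z hzz hzz, AlgEquiv.ofAlgHom b b hbb hbb,
    AlgEquiv.ofAlgHom a (a.comp z) h4 h5, ⟨z0, z1, z2, z3, z4⟩, ⟨b0, b1, b2, b3, b4⟩,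
    ⟨a0, a1, a2, a3, a4⟩⟩

/-- The action of `ℤ/4 × ℤ/2`: `a` has order four, `a² = z`, and `b` has order two. -/
structure Acts (x y r s v : E) (z b a : E ≃ₐ[ℂ] E) : Prop where
  z : z x = x ∧ z y = y ∧ z r = -r ∧ z s = -s ∧ z v = -v
  b : b x = -x ∧ b y = -y ∧ b r = -r ∧ b s = -s ∧ b v = v
  a : a x = -x⁻¹ ∧ a y = -y⁻¹ ∧ a r = algebraMap ℂ E Complex.I * s / (x * y) ∧
    a s = algebraMap ℂ E Complex.I * r / (x * y) ∧ a v = algebraMap ℂ E Complex.I * v / (x * y)

theorem isE_mk {x y r s v : E} (h1 : OnX (amp E p) x y r s v)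
    (h2 : AlgebraicIndependent ℂ ![x, y])
    (h3 : IntermediateField.adjoin ℂ {x, y, r, s, v} = ⊤)
    (h4 : Module.finrank (IntermediateField.adjoin ℂ {x, y}) E = 8) :
    IsE p ![x, y, r, s, v] := by
  refine ⟨⟨h2, h1⟩, ?_, ?_⟩
  · have : Set.range ![x, y, r, s, v] = {x, y, r, s, v} := by
      ext t
      simp only [Set.mem_range, Set.mem_insert_iff, Set.mem_singleton_iff]
      constructor
      · rintro ⟨i, rfl⟩
        fin_cases i
        · exact Or.inl rfl
        · exact Or.inr (Or.inl rfl)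
        · exact Or.inr (Or.inr (Or.inl rfl))
        · exact Or.inr (Or.inr (Or.inr (Or.inl rfl)))
        · exact Or.inr (Or.inr (Or.inr (Or.inr rfl)))
      · rintro (rfl | rfl | rfl | rfl | rfl)
        · exact ⟨0, rfl⟩
        · exact ⟨1, rfl⟩
        · exact ⟨2, rfl⟩
        · exact ⟨3, rfl⟩
        · exact ⟨4, rfl⟩
    rw [this]
    exact h3
  · have h5 : Set.range ![x, y] = {x, y} := H600.range_pair _ _
    change Module.finrank (IntermediateField.adjoin ℂ (Set.range ![x, y])) E = 8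
    rw [h5]
    exact h4

theorem Acts.sym {z b a : E ≃ₐ[ℂ] E} (h : Acts (e 0) (e 1) (e 2) (e 3) (e 4) z b a) :
    Sym e (IntermediateField.fixedField (Subgroup.closure {z, b, a})).val := by
  have hfix : ∀ g ∈ ({z, b, a} : Set (E ≃ₐ[ℂ] E)),
      g.toAlgHom.comp (IntermediateField.fixedField (Subgroup.closure {z, b, a})).val =
        (IntermediateField.fixedField (Subgroup.closure {z, b, a})).val := by
    intro g hg
    apply AlgHom.ext
    intro t
    exact t.2 ⟨g, Subgroup.subset_closure hg⟩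
  exact ⟨⟨z.toAlgHom, hfix z (by simp), h.z⟩, ⟨b.toAlgHom, hfix b (by simp), h.b⟩,
    ⟨a.toAlgHom, hfix a (by simp), h.a⟩⟩

/-- **Bloch's conjecture for the numerical Campedelli surfaces with fundamental group
`ℤ/4 × ℤ/2`.** -/
theorem bloch (hp : ParA p) (hq : ParB p) {x y r s v : E} (h1 : OnX (amp E p) x y r s v)
    (h2 : AlgebraicIndependent ℂ ![x, y])
    (h3 : IntermediateField.adjoin ℂ {x, y, r, s, v} = ⊤)
    (h4 : Module.finrank (IntermediateField.adjoin ℂ {x, y}) E = 8) :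
    ∃ z b a : E ≃ₐ[ℂ] E, Acts x y r s v z b a ∧
      H839.PointsEquivalent (IntermediateField.fixedField (Subgroup.closure {z, b, a})) := by
  have h := isE_mk h1 h2 h3 h4
  obtain ⟨z, b, a, hz, hb, ha⟩ := h.exists_aut
  have hA : Acts (![x, y, r, s, v] 0) (![x, y, r, s, v] 1) (![x, y, r, s, v] 2)
      (![x, y, r, s, v] 3) (![x, y, r, s, v] 4) z b a := ⟨hz, hb, ha⟩
  exact ⟨z, b, a, ⟨hz, hb, ha⟩, pointsEquivalent hp hq h hA.sym⟩

end

end Vale.Agent.P297.Z42
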