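import Vale.Agent.P297.H600.Z42Deg

/-!
The discriminant and the invariants of the quartics, with explicit conditions on the parameters.
-/

open Polynomial

namespace Vale.Agent.P297.Z42

open Vale.Agent.P297.G4

section

variable (c1 c2 a b g : ℂ)

theorem zRX_ne (h0 : c1 ≠ 0 ∨ c2 ≠ 0) (h1 : c1 ≠ 0 ∨ a ≠ 0) (h2 : c2 ≠ 0 ∨ g ≠ 0)
    (hA : a ≠ 0 ∨ b ≠ 0 ∨ g ≠ 0) (h : ¬ (b = 0 ∧ c1 ^ 2 = c2 ^ 2 ∧ a ^ 2 = g ^ 2)) :
    zRX c1 c2 a b g ≠ 0 := by
  intro hR
  have hl : ∀ l : ℂ, zR c1 c2 a b g l = 0 := by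
    intro l
    have h5 := congrArg (Polynomial.eval l) hR
    unfold zRX zR zA at h5
    simp only [Polynomial.eval_sub, Polynomial.eval_mul, Polynomial.eval_pow, Polynomial.eval_add,
      Polynomial.eval_C, Polynomial.eval_X, Polynomial.eval_ofNat, Polynomial.eval_zero] at h5
    unfold zR zA
    exact h5
  have k0 := hl 2
  have k1 := hl 3
  have k2 := hl 1
  unfold zR zA at k0 k1 k2
  have e2 : c1 ^ 2 * g ^ 2 = c2 ^ 2 * a ^ 2 := by linear_combination (k1 + k2 - 2 * k0) / 2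
  have e1 : c2 ^ 2 * (a * b) = 0 := by linear_combination (k2 - k1) / 4
  have e0 : 4 * (c1 ^ 2 * g ^ 2) + c2 ^ 2 * b ^ 2 = 4 * (c2 ^ 2 * g ^ 2) := by
    linear_combination -k0
  by_cases hc2 : c2 = 0
  · have hg := h2.resolve_left (fun h => h hc2)
    rw [hc2] at e2
    have h6 : (c1 * g) ^ 2 = 0 := by linear_combination e2
    have h7 := (mul_eq_zero.1 (pow_eq_zero_iff two_ne_zero |>.1 h6)).resolve_right hg
    exact (h0.resolve_left (fun h => h h7)) hc2
  · have hc22 := pow_ne_zero 2 hc2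
    rcases mul_eq_zero.1 ((mul_eq_zero.1 e1).resolve_left hc22) with ha | hb
    · have hc1 := h1.resolve_right (fun h => h ha)
      rw [ha] at e2
      have h6 : (c1 * g) ^ 2 = 0 := by linear_combination e2
      have hg := (mul_eq_zero.1 (pow_eq_zero_iff two_ne_zero |>.1 h6)).resolve_left hc1
      rw [hg] at e0
      have h8 : c2 ^ 2 * b ^ 2 = 0 := by linear_combination e0
      have hb := pow_eq_zero_iff two_ne_zero |>.1 ((mul_eq_zero.1 h8).resolve_left hc22)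
      rcases hA with h9 | h9 | h9
      · exact h9 ha
      · exact h9 hb
      · exact h9 hg
    · rw [hb] at e0
      have h6 : c2 ^ 2 * (a ^ 2 - g ^ 2) = 0 := by linear_combination e0 / 4 - e2
      have h7 : a ^ 2 = g ^ 2 := sub_eq_zero.1 ((mul_eq_zero.1 h6).resolve_left hc22)
      have h8 : (c1 ^ 2 - c2 ^ 2) * g ^ 2 = 0 := by
        rw [h7] at e2
        linear_combination e2
      rcases mul_eq_zero.1 h8 with h9 | h9
      · exact h ⟨hb, sub_eq_zero.1 h9, h7⟩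
      · have hg := pow_eq_zero_iff two_ne_zero |>.1 h9
        rw [hg] at h7
        have ha : a = 0 := pow_eq_zero_iff two_ne_zero |>.1 (by linear_combination h7)
        rcases hA with h9 | h9 | h9
        · exact h9 ha
        · exact h9 hb
        · exact h9 hg

/-- `E₁` when `c₁² = a²` -/
theorem zEX_special (h : c1 ^ 2 = a ^ 2) : zEX c1 c2 a b g =
    C (4 * a ^ 2 * (b ^ 2 + 4 * (c2 ^ 2 - g ^ 2))) * (X - 2) ^ 2 +
      C (4 * a * b * (b ^ 2 + 4 * (c2 ^ 2 - g ^ 2) + 4 * a ^ 2)) * (X - 2) +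
      C ((b ^ 2 + 4 * (c2 ^ 2 - g ^ 2) - 4 * a ^ 2) ^ 2 + 16 * a ^ 2 * b ^ 2) := by
  have hC : (C c1 : ℂ[X]) ^ 2 = C a ^ 2 := by rw [← C_pow, h, C_pow]
  unfold zEX zE zA
  rw [hC]
  simp only [C_add, C_sub, C_mul, C_pow]
  simp only [map_ofNat]
  ring

/-- The polynomial `E₁` is not zero, and `E₁`, `R₁` are not both constant. -/
theorem zEX_ne' (h1 : c1 ≠ 0 ∨ a ≠ 0) : zEX c1 c2 a b g ≠ 0 := by
  by_cases hc : c1 ^ 2 = a ^ 2
  · have ha : a ≠ 0 := by
      intro ha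
      rw [ha] at hc
      have h3 : c1 = 0 := pow_eq_zero_iff two_ne_zero |>.1 (by linear_combination hc)
      rcases h1 with h1 | h1
      · exact h1 h3
      · exact h1 ha
    intro h0
    rw [zEX_special c1 c2 a b g hc] at h0
    have hl : ∀ l : ℂ, 4 * a ^ 2 * (b ^ 2 + 4 * (c2 ^ 2 - g ^ 2)) * (l - 2) ^ 2 +
        4 * a * b * (b ^ 2 + 4 * (c2 ^ 2 - g ^ 2) + 4 * a ^ 2) * (l - 2) +
        ((b ^ 2 + 4 * (c2 ^ 2 - g ^ 2) - 4 * a ^ 2) ^ 2 + 16 * a ^ 2 * b ^ 2) = 0 := by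
      intro l
      have h5 := congrArg (Polynomial.eval l) h0
      simp only [Polynomial.eval_sub, Polynomial.eval_mul, Polynomial.eval_pow,
        Polynomial.eval_add, Polynomial.eval_C, Polynomial.eval_X, Polynomial.eval_ofNat,
        Polynomial.eval_zero] at h5
      exact h5
    have k0 := hl 2
    have k1 := hl 3
    have k2 := hl 1
    have ha2 := pow_ne_zero 2 ha
    have h6 : a ^ 2 * (b ^ 2 + 4 * (c2 ^ 2 - g ^ 2)) = 0 := by
      linear_combination (k1 + k2 - 2 * k0) / 8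
    have h7 := (mul_eq_zero.1 h6).resolve_left ha2
    rw [h7] at k0 k1 k2
    have h8 : a ^ 4 + a ^ 2 * b ^ 2 = 0 := by linear_combination k0 / 16
    have h9 : a ^ 3 * b = 0 := by linear_combination (k1 - k2) / 32
    have hb := (mul_eq_zero.1 h9).resolve_left (pow_ne_zero 3 ha)
    rw [hb] at h8
    exact pow_ne_zero 4 ha (by linear_combination h8)
  · exact zEX_ne c1 c2 a b g hc

theorem one_le_natDegree_zEX (h1 : c1 ≠ 0 ∨ a ≠ 0)
    (h : ¬ (b = 0 ∧ c1 ^ 2 = a ^ 2 ∧ c2 ^ 2 = g ^ 2)) : 1 ≤ (zEX c1 c2 a b g).natDegree := by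
  by_cases hc : c1 ^ 2 = a ^ 2
  · have ha : a ≠ 0 := by
      intro ha
      rw [ha] at hc
      have h3 : c1 = 0 := pow_eq_zero_iff two_ne_zero |>.1 (by linear_combination hc)
      rcases h1 with h1 | h1
      · exact h1 h3
      · exact h1 ha
    by_contra hlt
    have h0 : (zEX c1 c2 a b g).natDegree = 0 := by omega
    obtain ⟨d, hd⟩ := natDegree_eq_zero.1 h0
    rw [zEX_special c1 c2 a b g hc] at hd
    have hl : ∀ l : ℂ, d = 4 * a ^ 2 * (b ^ 2 + 4 * (c2 ^ 2 - g ^ 2)) * (l - 2) ^ 2 +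
        4 * a * b * (b ^ 2 + 4 * (c2 ^ 2 - g ^ 2) + 4 * a ^ 2) * (l - 2) +
        ((b ^ 2 + 4 * (c2 ^ 2 - g ^ 2) - 4 * a ^ 2) ^ 2 + 16 * a ^ 2 * b ^ 2) := by
      intro l
      have h5 := congrArg (Polynomial.eval l) hd
      simp only [Polynomial.eval_sub, Polynomial.eval_mul, Polynomial.eval_pow,
        Polynomial.eval_add, Polynomial.eval_C, Polynomial.eval_X, Polynomial.eval_ofNat] at h5
      exact h5
    have k0 := hl 2
    have k1 := hl 3
    have k2 := hl 1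
    have ha2 := pow_ne_zero 2 ha
    have h6 : a ^ 2 * (b ^ 2 + 4 * (c2 ^ 2 - g ^ 2)) = 0 := by
      linear_combination (2 * k0 - k1 - k2) / 8
    have h7 := (mul_eq_zero.1 h6).resolve_left ha2
    rw [h7] at k0 k1 k2
    have h9 : a ^ 3 * b = 0 := by linear_combination (k2 - k1) / 32
    have hb := (mul_eq_zero.1 h9).resolve_left (pow_ne_zero 3 ha)
    rw [hb] at h7
    exact h ⟨hb, hc, by linear_combination h7 / 4⟩
  · have := le_natDegree_zEX c1 c2 a b g hc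
    omega

theorem hdisc' (hE : zEX c1 c2 a b g ≠ 0) (hR : zRX c1 c2 a b g ≠ 0) :
    4 * zpX c1 c2 a b g ^ 3 ≠ zqX c1 c2 a b g ^ 2 := by
  intro h0
  have h1 := disc_zPX c1 c2 a b g
  rw [h0, sub_self] at h1
  have h2 := mul_eq_zero.1 h1.symm
  rcases h2 with h2 | h2
  · rw [C_eq_zero] at h2
    norm_num at h2
  · rcases mul_eq_zero.1 h2 with h3 | h3
    · exact hE h3
    · exact hR (pow_eq_zero_iff two_ne_zero |>.1 h3)

theorem hnt' (hE : zEX c1 c2 a b g ≠ 0) (hR : zRX c1 c2 a b g ≠ 0)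
    (hlow : 1 ≤ (zEX c1 c2 a b g).natDegree) (A B u v : ℂ) :
    ¬ (zpX c1 c2 a b g = C A * (C u * X + C v) ^ 4 ∧
      zqX c1 c2 a b g = C B * (C u * X + C v) ^ 6) := by
  rintro ⟨h1, h2⟩
  have h3 := disc_zPX c1 c2 a b g
  have h4 : 4 * zpX c1 c2 a b g ^ 3 - zqX c1 c2 a b g ^ 2 =
      C (4 * A ^ 3 - B ^ 2) * (C u * X + C v) ^ 12 := by
    rw [h1, h2]
    simp only [C_sub, C_mul, C_pow]
    rw [show (C 4 : ℂ[X]) = 4 from map_ofNat C 4]
    ring
  rw [h4] at h3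
  have hdeg : (C 1769472 * (zEX c1 c2 a b g * zRX c1 c2 a b g ^ 2)).natDegree =
      (zEX c1 c2 a b g).natDegree + 2 * (zRX c1 c2 a b g).natDegree := by
    rw [natDegree_C_mul (by norm_num), natDegree_mul hE (pow_ne_zero 2 hR), natDegree_pow]
  have hE4 := natDegree_zEX c1 c2 a b g
  have hR2 := natDegree_zRX c1 c2 a b g
  rw [← h3] at hdeg
  by_cases hu : u = 0
  · subst hu
    have h5 : (C (4 * A ^ 3 - B ^ 2) * (C (0 : ℂ) * X + C v) ^ 12).natDegree = 0 := by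
      have h6 : C (4 * A ^ 3 - B ^ 2) * (C (0 : ℂ) * X + C v) ^ 12 =
          C ((4 * A ^ 3 - B ^ 2) * v ^ 12) := by
        simp only [C_mul, C_pow, C_0, zero_mul, zero_add]
      rw [h6, natDegree_C]
    omega
  · have h5 : 4 * A ^ 3 - B ^ 2 ≠ 0 := by
      intro h6
      rw [h6, C_0, zero_mul] at h3
      have h7 := mul_eq_zero.1 h3.symm
      rcases h7 with h7 | h7
      · rw [C_eq_zero] at h7
        norm_num at h7
      · rcases mul_eq_zero.1 h7 with h8 | h8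
        · exact hE h8
        · exact hR (pow_eq_zero_iff two_ne_zero |>.1 h8)
    rw [natDegree_C_mul h5, natDegree_pow, natDegree_linear hu] at hdeg
    omega

end

end Vale.Agent.P297.Z42
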