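import Vale.Agent.P297.H600.Z42A
import Vale.Agent.P297.H600.Z42Deg2

/-!
The quotient by the involution: sixteen times the sum of a point and its image under the involution
is a relation.
-/

set_option linter.unusedSectionVars false

open IntermediateField Polynomial

namespace Vale.Agent.P297.Z42

open Vale.Agent.P297 Vale.Agent.P297.H839 Vale.Agent.P297.H600 Vale.Agent.P297.H729
open Vale.Agent.P297.Gen Vale.Agent.P297.H72 Vale.Agent.P297.G4

section

variable {N : Type} [Field N] [Algebra ℂ N]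

/-- The coordinates of a point of the quotient. -/
structure Over (x y r s σ X Y : N) : Prop where
  hs : x * y = σ
  hX : (y - x) * (σ + 1) = X * ((y + x) * (σ - 1))
  hY : Y * ((x + y) ^ 2 * σ) = 4 * (σ + 1) ^ 2 * (r * s)

theorem Over.map {x y r s σ X Y : N} (h : Over x y r s σ X Y) (g : N ≃ₐ[ℂ] N) :
    Over (g x) (g y) (g r) (g s) (g σ) (g X) (g Y) := by
  refine ⟨?_, ?_, ?_⟩
  · rw [← map_mul, h.hs]
  · have h1 := congrArg g h.hX
    simpa only [map_mul, map_sub, map_add, map_one] using h1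
  · have h1 := congrArg g h.hY
    simpa only [map_mul, map_pow, map_add, map_one, map_ofNat] using h1

theorem Over.neg_s {x y r s σ X Y : N} (h : Over x y r s σ X Y) :
    Over x y r (-s) σ X (-Y) :=
  ⟨h.hs, h.hX, by rw [mul_neg, mul_neg, neg_mul, h.hY]⟩

theorem over_mk {x y r s : N} (hσ : x * y ≠ 0) (h1 : x * y - 1 ≠ 0) (hxy : x + y ≠ 0) :
    Over x y r s (x * y) ((y - x) * (x * y + 1) / ((y + x) * (x * y - 1)))
      (4 * (x * y + 1) ^ 2 * (r * s) / ((x + y) ^ 2 * (x * y))) := by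
  refine ⟨rfl, ?_, ?_⟩
  · rw [div_mul_cancel₀]
    exact mul_ne_zero (by rwa [add_comm]) h1
  · rw [div_mul_cancel₀]
    exact mul_ne_zero (pow_ne_zero 2 hxy) hσ

end

section

variable {K E N : Type} [Field K] [Algebra ℂ K] [Field E] [Algebra ℂ E] [Field N] [Algebra ℂ N]
  {p : Fin 8 → ℂ} {e : Fin 5 → E} {ι : K →ₐ[ℂ] E}

/-- a point and its image under the involution -/
noncomputable def PS (e : Fin 5 → E) (ι : K →ₐ[ℂ] E) (x y r s v : N) : (K →ₐ[ℂ] N) →₀ ℤ :=
  ptK e ι ![x, y, r, s, v] + ptK e ι ![x, y, r, s, -v]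

theorem PS_neg_v (x y r s v : N) : PS e ι x y r s (-v) = PS e ι x y r s v := by
  unfold PS
  rw [neg_neg, add_comm]

theorem act_PS (h : IsE p e) (g : N ≃ₐ[ℂ] N) (x y r s v : N) :
    act g.toAlgHom (PS e ι x y r s v) = PS e ι (g x) (g y) (g r) (g s) (g v) := by
  unfold PS
  rw [map_add, act_ptK h, act_ptK h]
  congr 2
  · funext i
    fin_cases i <;> rfl
  · funext i
    fin_cases i
    · rfl
    · rfl
    · rfl
    · rfl
    · exact map_neg g v

variable [IsAlgClosed N]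

theorem sum_ne {x y : N} (h : AlgebraicIndependent ℂ ![x, y]) :
    x * y ≠ 0 ∧ x * y - 1 ≠ 0 ∧ x * y + 1 ≠ 0 ∧ x + y ≠ 0 := by
  refine ⟨mul_ne h (zero_mem _), fun h0 => mul_ne h (one_mem _) (sub_eq_zero.1 h0),
    fun h0 => mul_ne h (neg_mem (one_mem _)) (eq_neg_of_add_eq_zero_left h0), fun h0 => ?_⟩
  apply notMem_cl0 h
  have h1 : y = -x := by linear_combination h0
  rw [h1]
  exact neg_mem (subset_cl0 _ rfl)

theorem PS_neg_rs (h : IsE p e) (hs : Sym e ι) {x y r s v : N} (hG : GP p ![x, y, r, s, v]) :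
    PS e ι x y (-r) (-s) v = PS e ι x y r s v := by
  unfold PS
  have h1 := hs.pz h hG
  have h2 := hs.pz h (gp_neg_v hG)
  rw [neg_neg] at h2
  rw [h2, h1, add_comm]

theorem PS_neg_xy (h : IsE p e) (hs : Sym e ι) {x y r s v : N} (hG : GP p ![x, y, r, s, v]) :
    PS e ι (-x) (-y) r s v = PS e ι x y r s v := by
  unfold PS
  have h1 := hs.pb h (gp_neg_rs hG)
  have h2 := hs.pb h (gp_neg_rs (gp_neg_v hG))
  rw [neg_neg, neg_neg] at h1
  rw [neg_neg, neg_neg] at h2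
  rw [h1, h2]
  exact PS_neg_rs h hs hG

theorem PS_same (hp : ParA p) (h : IsE p e) (hs : Sym e ι) {x y r s v r' s' v' : N}
    (hG : GP p ![x, y, r, s, v]) (hG' : GP p ![x, y, r', s', v']) (hrs : r' * s' = r * s) :
    PS e ι x y r' s' v' = PS e ι x y r s v := by
  obtain ⟨hr, hs0⟩ := rs_ne hp hG
  have a1 : r ^ 2 = eT (amp N p) x y + eA (amp N p) x y := hG.on.er
  have a2 : r' ^ 2 = eT (amp N p) x y + eA (amp N p) x y := hG'.on.er
  have b1 : v ^ 2 = eM (amp N p) x y + 2 * amp N p 4 * (r * s) := hG.on.ev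
  have b2 : v' ^ 2 = eM (amp N p) x y + 2 * amp N p 4 * (r' * s') := hG'.on.ev
  have hv : PS e ι x y r s v' = PS e ι x y r s v ∧ GP p ![x, y, r, s, v'] := by
    have h1 : (v' - v) * (v' + v) = 0 := by linear_combination b2 - b1 + 2 * amp N p 4 * hrs
    rcases mul_eq_zero.1 h1 with h3 | h3
    · rw [sub_eq_zero.1 h3]
      exact ⟨rfl, hG⟩
    · rw [eq_neg_of_add_eq_zero_left h3]
      exact ⟨PS_neg_v _ _ _ _ _, gp_neg_v hG⟩
  have h2 : (r' - r) * (r' + r) = 0 := by linear_combination a2 - a1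
  rcases mul_eq_zero.1 h2 with h3 | h3
  · have h4 : r' = r := sub_eq_zero.1 h3
    have h5 : s' = s := by
      apply mul_left_cancel₀ hr
      rw [← h4] at hrs ⊢
      exact hrs
    rw [h4, h5]
    exact hv.1
  · have h4 : r' = -r := eq_neg_of_add_eq_zero_left h3
    have h5 : s' = -s := by
      apply mul_left_cancel₀ hr
      rw [h4] at hrs
      linear_combination -hrs
    rw [h4, h5, PS_neg_rs h hs hv.2]
    exact hv.1

theorem over_unique (hp : ParA p) (h : IsE p e) (hs : Sym e ι) {x y r s v x' y' r' s' v' σ X Y : N}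
    (hG : GP p ![x, y, r, s, v]) (hG' : GP p ![x', y', r', s', v'])
    (hO : Over x y r s σ X Y) (hO' : Over x' y' r' s' σ X Y) :
    PS e ι x' y' r' s' v' = PS e ι x y r s v := by
  have : CharZero N := charZero_of_injective_algebraMap (algebraMap ℂ N).injective
  obtain ⟨k0, k1, k2, k3⟩ := sum_ne (gp_ind hG)
  rw [hO.hs] at k0 k1 k2
  obtain ⟨hx, hy⟩ := ind_ne (gp_ind hG)
  have h1 : (y - x) * (y' + x') = (y' - x') * (y + x) := by
    apply mul_left_cancel₀ k2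
    linear_combination (y' + x') * hO.hX - (y + x) * hO'.hX
  have h2 : y * x' = x * y' := by linear_combination (1 / 2) * h1
  have h3 : x' * y' = x * y := by rw [hO.hs, hO'.hs]
  have h4 : (x' - x) * (x' + x) = 0 := by
    apply mul_left_cancel₀ hy
    linear_combination x' * h2 + x * h3
  have hrs : ∀ (x₁ y₁ r₁ s₁ : N), (x₁ + y₁) ^ 2 = (x + y) ^ 2 → Over x₁ y₁ r₁ s₁ σ X Y →
      r₁ * s₁ = r * s := by
    intro x₁ y₁ r₁ s₁ h5 h6
    have h7 := h6.hY
    rw [h5, hO.hY] at h7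
    have h8 : (4 : N) * (σ + 1) ^ 2 ≠ 0 := mul_ne_zero (by norm_num) (pow_ne_zero 2 k2)
    exact (mul_left_cancel₀ h8 h7).symm
  rcases mul_eq_zero.1 h4 with h5 | h5
  · have h6 : x' = x := sub_eq_zero.1 h5
    have h7 : y' = y := by
      apply mul_left_cancel₀ hx
      rw [← h2, h6, mul_comm]
    subst h6
    subst h7
    exact PS_same hp h hs hG hG' (hrs _ _ _ _ rfl hO')
  · have h6 : x' = -x := eq_neg_of_add_eq_zero_left h5
    have h7 : y' = -y := by
      apply mul_left_cancel₀ hx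
      rw [← h2, h6]
      ring
    subst h6
    subst h7
    have hG2 : GP p ![x, y, r', s', v'] := by
      have h8 := gp_neg_xy hG'
      rw [neg_neg, neg_neg] at h8
      exact h8
    rw [PS_neg_xy h hs hG2]
    exact PS_same hp h hs hG hG2 (hrs _ _ _ _ (by ring) hO')

open Classical in
/-- the cycle attached to a point of the quotient -/
noncomputable def BB (p : Fin 8 → ℂ) (e : Fin 5 → E) (ι : K →ₐ[ℂ] E) (σ X Y : N) :
    (K →ₐ[ℂ] N) →₀ ℤ :=
  if h : ∃ ξ : Fin 5 → N, GP p ξ ∧ Over (ξ 0) (ξ 1) (ξ 2) (ξ 3) σ X Y then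
    PS e ι (Classical.choose h 0) (Classical.choose h 1) (Classical.choose h 2)
      (Classical.choose h 3) (Classical.choose h 4) else 0

theorem BB_eq (hp : ParA p) (h : IsE p e) (hs : Sym e ι) {x y r s v σ X Y : N}
    (hG : GP p ![x, y, r, s, v]) (hO : Over x y r s σ X Y) :
    BB p e ι σ X Y = PS e ι x y r s v := by
  have h0 : ∃ ξ : Fin 5 → N, GP p ξ ∧ Over (ξ 0) (ξ 1) (ξ 2) (ξ 3) σ X Y :=
    ⟨![x, y, r, s, v], hG, hO⟩
  unfold BB
  rw [dif_pos h0]
  obtain ⟨h1, h2⟩ := Classical.choose_spec h0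
  exact over_unique hp h hs hG (gp_mk h1.ind h1.on) hO h2

theorem BB_zero {σ X Y : N}
    (h0 : ¬ ∃ ξ : Fin 5 → N, GP p ξ ∧ Over (ξ 0) (ξ 1) (ξ 2) (ξ 3) σ X Y) :
    BB p e ι σ X Y = 0 := by
  unfold BB
  rw [dif_neg h0]

theorem act_BB (hp : ParA p) (h : IsE p e) (hs : Sym e ι) (g : N ≃ₐ[ℂ] N) (σ X Y : N) :
    act g.toAlgHom (BB p e ι σ X Y) = BB p e ι (g σ) (g X) (g Y) := by
  by_cases h0 : ∃ ξ : Fin 5 → N, GP p ξ ∧ Over (ξ 0) (ξ 1) (ξ 2) (ξ 3) σ X Y
  · obtain ⟨ξ, h1, h2⟩ := h0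
    rw [BB_eq hp h hs (gp_mk h1.ind h1.on) h2, act_PS h]
    have h3 := h1.map g.toAlgHom
    exact (BB_eq hp h hs (gp_mk h3.ind h3.on) (h2.map g)).symm
  · rw [BB_zero h0, map_zero, BB_zero]
    rintro ⟨ξ, h1, h2⟩
    apply h0
    refine ⟨fun i => g.symm (ξ i), h1.map g.symm.toAlgHom, ?_⟩
    have h3 := h2.map g.symm
    rw [AlgEquiv.symm_apply_apply, AlgEquiv.symm_apply_apply, AlgEquiv.symm_apply_apply] at h3
    exact h3

/-- the element of order four -/
theorem BB_inv (hp : ParA p) (h : IsE p e) (hs : Sym e ι) {x y r s v σ X Y : N}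
    (hG : GP p ![x, y, r, s, v]) (hO : Over x y r s σ X Y) :
    BB p e ι σ⁻¹ X (-Y) = BB p e ι σ X Y := by
  obtain ⟨hx, hy⟩ := ind_ne (gp_ind hG)
  obtain ⟨k0, k1, k2, k3⟩ := sum_ne (gp_ind hG)
  have hI := I_sq (N := N)
  have g1 := gp_a hG
  have p1 := hs.pa h hG
  have p2 := hs.pa h (gp_neg_v hG)
  rw [mul_neg, neg_div] at p2
  generalize algebraMap ℂ N Complex.I = I at *
  have hO' : Over (-x⁻¹) (-y⁻¹) (I * s / (x * y)) (I * r / (x * y)) σ⁻¹ X (-Y) := by
    refine ⟨?_, ?_, ?_⟩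
    · rw [← hO.hs]
      field_simp
    · have h1 := hO.hX
      rw [← hO.hs] at h1 ⊢
      field_simp
      linear_combination h1
    · have h1 := hO.hY
      rw [← hO.hs] at h1 ⊢
      have h2 : I * s / (x * y) * (I * r / (x * y)) = -(r * s) / (x * y) ^ 2 := by
        have h3 : I * s / (x * y) * (I * r / (x * y)) = I ^ 2 * (r * s) / (x * y) ^ 2 := by ring
        rw [h3, hI]
        ring
      rw [h2]
      field_simp
      linear_combination -h1
  rw [BB_eq hp h hs g1 hO', BB_eq hp h hs hG hO]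
  unfold PS
  rw [p1, p2]

/-- the rational base -/
theorem BB_sum (hp : ParA p) (h : IsE p e) (hs : Sym e ι) {x y r s v σ X Y t₁ t₂ : N}
    (hG : GP p ![x, y, r, s, v]) (hO : Over x y r s σ X Y)
    (hind : AlgebraicIndependent ℂ ![x, y, t₁, t₂])
    (halg : Algebra.IsAlgebraic (IntermediateField.adjoin ℂ (Set.range ![x, y, t₁, t₂])) N) :
    BB p e ι σ X Y + BB p e ι σ X (-Y) ∈ stableRelations K N := by
  have : CharZero N := charZero_of_injective_algebraMap (algebraMap ℂ N).injective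
  obtain ⟨k0, k1, k2, k3⟩ := sum_ne (gp_ind hG)
  refine stable_of_fixed _ ⟨4, ![x, y, t₁, t₂], hind, rfl⟩ halg _ fun g hg => ?_
  have hgx : g x = x := hg _ (IntermediateField.subset_adjoin _ _ ⟨0, rfl⟩)
  have hgy : g y = y := hg _ (IntermediateField.subset_adjoin _ _ ⟨1, rfl⟩)
  have hgσ : g σ = σ := by rw [← hO.hs, map_mul, hgx, hgy]
  have hm := hO.map g
  rw [hgx, hgy, hgσ] at hm
  have hgX : g X = X := by
    have h1 := hm.hX
    have h2 : (y + x) * (σ - 1) ≠ 0 := by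
      rw [← hO.hs]
      exact mul_ne_zero (by rwa [add_comm]) k1
    apply mul_right_cancel₀ h2
    rw [← h1, hO.hX]
  have hgY : g Y = Y ∨ g Y = -Y := by
    have h1 := hm.hY
    have h2 : (x + y) ^ 2 * σ ≠ 0 := by
      rw [← hO.hs]
      exact mul_ne_zero (pow_ne_zero 2 k3) k0
    have h3 := (hG.map g.toAlgHom).on
    have e1 : (g r) ^ 2 = eT (amp N p) (g x) (g y) + eA (amp N p) (g x) (g y) := h3.er
    have e2 : (g s) ^ 2 = eT (amp N p) (g x) (g y) - eA (amp N p) (g x) (g y) := h3.es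
    have e3 : r ^ 2 = eT (amp N p) x y + eA (amp N p) x y := hG.on.er
    have e4 : s ^ 2 = eT (amp N p) x y - eA (amp N p) x y := hG.on.es
    rw [hgx, hgy, ← e3] at e1
    rw [hgx, hgy, ← e4] at e2
    have e5 : (g r * g s - r * s) * (g r * g s + r * s) = 0 := by
      linear_combination (g s) ^ 2 * e1 + r ^ 2 * e2
    rcases mul_eq_zero.1 e5 with h4 | h4
    · left
      apply mul_right_cancel₀ h2
      rw [h1, hO.hY, sub_eq_zero.1 h4]
    · right
      apply mul_right_cancel₀ h2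
      rw [h1, neg_mul, hO.hY, eq_neg_of_add_eq_zero_left h4]
      ring
  rw [map_add, act_BB hp h hs, act_BB hp h hs, map_neg, hgσ, hgX]
  rcases hgY with h4 | h4
  · rw [h4]
  · rw [h4, neg_neg, add_comm]

end

section

variable {N : Type} [Field N] [Algebra ℂ N] {p : Fin 8 → ℂ}

/-- The conditions for the second part. -/
structure ParB (p : Fin 8 → ℂ) : Prop where
  E : zEX (p 0) (p 1) (p 5) (p 6) (p 7) ≠ 0
  R : zRX (p 0) (p 1) (p 5) (p 6) (p 7) ≠ 0
  d : 1 ≤ (zEX (p 0) (p 1) (p 5) (p 6) (p 7)).natDegree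

theorem aeval_zPX (l : N) (i : Fin 5) :
    aeval l (zPX (p 0) (p 1) (p 5) (p 6) (p 7) i) =
      zP (amp N p 0) (amp N p 1) (amp N p 5) (amp N p 6) (amp N p 7) l i := by
  have h : ∀ c : ℂ, aeval l (C c) = algebraMap ℂ N c := fun c => aeval_C _ _
  fin_cases i
  · change aeval l ((X : ℂ[X]) ^ 2 * zQ1 (C (p 0)) (C (p 5)) (C (p 6)) (C (p 7)) X) = _
    unfold zQ1 zA
    simp only [map_mul, map_sub, map_add, map_pow, aeval_X, aeval_C, map_ofNat]
    rfl
  · change aeval l (8 * C (p 0) * C (p 1) * ((X : ℂ[X]) ^ 2 * (X - 4))) = _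
    simp only [map_mul, map_sub, map_pow, aeval_X, aeval_C, map_ofNat]
    rfl
  · change aeval l ((X : ℂ[X]) * (X - 4) * zW (C (p 0)) (C (p 1)) (C (p 5)) (C (p 6)) (C (p 7)) X)
      = _
    unfold zW zA
    simp only [map_mul, map_sub, map_add, map_pow, aeval_X, aeval_C, map_ofNat]
    rfl
  · change aeval l (-(8 * C (p 0) * C (p 1) * ((X : ℂ[X]) * (X - 4) ^ 2))) = _
    simp only [map_neg, map_mul, map_sub, map_pow, aeval_X, aeval_C, map_ofNat]
    rfl
  · change aeval l (((X : ℂ[X]) - 4) ^ 2 * zQ2 (C (p 0)) (C (p 5)) (C (p 6)) (C (p 7)) X) = _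
    unfold zQ2 zA
    simp only [map_mul, map_sub, map_add, map_pow, aeval_X, aeval_C, map_ofNat]
    rfl

theorem Over.eqn [IsAlgClosed N] {x y r s v σ X Y : N} (hG : GP p ![x, y, r, s, v])
    (hO : Over x y r s σ X Y) :
    Y ^ 2 = qv (fun i => aeval (lv σ) (zPX (p 0) (p 1) (p 5) (p 6) (p 7) i)) X := by
  have h0 : (fun i => aeval (lv σ) (zPX (p 0) (p 1) (p 5) (p 6) (p 7) i)) =
      zP (amp N p 0) (amp N p 1) (amp N p 5) (amp N p 6) (amp N p 7) (lv σ) := by
    funext i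
    exact aeval_zPX _ i
  rw [h0, qv_zP]
  obtain ⟨hx, hy⟩ := ind_ne (gp_ind hG)
  obtain ⟨k0, k1, k2, k3⟩ := sum_ne (gp_ind hG)
  have e1 : r ^ 2 = eT (amp N p) x y + eA (amp N p) x y := hG.on.er
  have e2 : s ^ 2 = eT (amp N p) x y - eA (amp N p) x y := hG.on.es
  have k3' : y + x ≠ 0 := by rwa [add_comm]
  have hX : X = (y - x) * (σ + 1) / ((y + x) * (σ - 1)) := by
    rw [eq_div_iff]
    · exact hO.hX.symm
    · rw [← hO.hs]
      exact mul_ne_zero k3' k1
  have hY : Y = 4 * (σ + 1) ^ 2 * (r * s) / ((x + y) ^ 2 * σ) := by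
    rw [eq_div_iff]
    · exact hO.hY
    · rw [← hO.hs]
      exact mul_ne_zero (pow_ne_zero 2 k3) k0
  have hσ := hO.hs
  subst hσ
  have hD : lv (x * y) - (lv (x * y) - 4) * X ^ 2 = 4 * (x * y + 1) ^ 2 / (x + y) ^ 2 := by
    rw [hX]
    unfold lv
    field_simp
    ring
  have hD' : lv (x * y) + (lv (x * y) - 4) * X ^ 2 =
      (x * y + 1) ^ 2 * (2 * (x ^ 2 + y ^ 2)) / ((x * y) * (x + y) ^ 2) := by
    rw [hX]
    unfold lv
    field_simp
    ring
  have hL : lv (x * y) * (lv (x * y) - 4) = (((x * y) ^ 2 - 1) / (x * y)) ^ 2 := by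
    unfold lv
    field_simp
    ring
  have hU : ((x * y) ^ 2 - 1) / (x * y) * (amp N p 0 * (4 * (x * y + 1) ^ 2 / (x + y) ^ 2) +
      4 * amp N p 1 * X) = -(4 * (x * y + 1) ^ 2 / ((x + y) ^ 2 * (x * y)) * eT (amp N p) x y) := by
    rw [hX]
    unfold eT
    field_simp
    ring
  have hV : zA (amp N p 5) (amp N p 6) (lv (x * y)) * (4 * (x * y + 1) ^ 2 / (x + y) ^ 2) +
      2 * amp N p 7 * ((x * y + 1) ^ 2 * (2 * (x ^ 2 + y ^ 2)) / ((x * y) * (x + y) ^ 2)) =
      4 * (x * y + 1) ^ 2 / ((x + y) ^ 2 * (x * y)) * eA (amp N p) x y := by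
    unfold zA eA lv
    field_simp
    ring
  rw [hD, hD', hV, hL, ← mul_pow, hU, hY]
  have h3 : (4 * (x * y + 1) ^ 2 * (r * s) / ((x + y) ^ 2 * (x * y))) ^ 2 =
      (4 * (x * y + 1) ^ 2 / ((x + y) ^ 2 * (x * y))) ^ 2 * (r ^ 2 * s ^ 2) := by ring
  rw [h3, e1, e2]
  ring

theorem Over.X_notMem [IsAlgClosed N] {x y r s v σ X Y : N} (hG : GP p ![x, y, r, s, v])
    (hO : Over x y r s σ X Y) : X ∉ cl0 ({σ} : Set N) := by
  have : CharZero N := charZero_of_injective_algebraMap (algebraMap ℂ N).injective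
  intro hX
  obtain ⟨hx, hy⟩ := ind_ne (gp_ind hG)
  obtain ⟨k0, k1, k2, k3⟩ := sum_ne (gp_ind hG)
  rw [hO.hs] at k0 k1 k2
  have mσ : σ ∈ cl0 ({σ} : Set N) := subset_cl0 _ rfl
  obtain ⟨u, hu⟩ : ∃ u, u = (σ + 1) - X * (σ - 1) := ⟨_, rfl⟩
  obtain ⟨w, hw⟩ : ∃ w, w = (σ + 1) + X * (σ - 1) := ⟨_, rfl⟩
  have mu : u ∈ cl0 ({σ} : Set N) := by
    rw [hu]
    exact sub_mem (add_mem mσ (one_mem _)) (mul_mem hX (sub_mem mσ (one_mem _)))
  have mw : w ∈ cl0 ({σ} : Set N) := by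
    rw [hw]
    exact add_mem (add_mem mσ (one_mem _)) (mul_mem hX (sub_mem mσ (one_mem _)))
  have h1 : y * u = x * w := by
    rw [hu, hw]
    linear_combination hO.hX
  have h2 : u + w = 2 * (σ + 1) := by
    rw [hu, hw]
    ring
  have hu0 : u ≠ 0 := by
    intro h0
    rw [h0, mul_zero] at h1
    rcases mul_eq_zero.1 h1.symm with h3 | h3
    · exact hx h3
    · rw [h0, h3, zero_add] at h2
      exact (mul_ne_zero two_ne_zero k2) h2.symm
  have hw0 : w ≠ 0 := by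
    intro h0
    rw [h0, mul_zero] at h1
    rcases mul_eq_zero.1 h1 with h3 | h3
    · exact hy h3
    · exact hu0 h3
  have mx : x ∈ cl0 ({σ} : Set N) := by
    refine sq_mem (cd_cl0 _) ?_
    have h3 : x ^ 2 = σ * u / w := by
      rw [eq_div_iff hw0, ← hO.hs]
      linear_combination -x * h1
    rw [h3]
    exact div_mem (mul_mem mσ mu) mw
  have my : y ∈ cl0 ({σ} : Set N) := by
    have h3 : y = x * w / u := by
      rw [eq_div_iff hu0, h1]
    rw [h3]
    exact div_mem (mul_mem mx mw) mu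
  exact not_both (gp_ind hG) mx my

theorem Over.s_tr [IsAlgClosed N] {x y r s v σ X Y : N} (hG : GP p ![x, y, r, s, v])
    (hO : Over x y r s σ X Y) : Transcendental ℂ σ := by
  apply transc
  intro h
  exact mul_ne (gp_ind hG) h hO.hs

end

section

variable {K E N : Type} [Field K] [Algebra ℂ K] [Field E] [Algebra ℂ E] [Field N] [Algebra ℂ N]
  {p : Fin 8 → ℂ} {e : Fin 5 → E} {ι : K →ₐ[ℂ] E} [IsAlgClosed N]

/-- **The quotient by the involution.** -/
theorem partB (hp : ParA p) (hq : ParB p) (h : IsE p e) (hs : Sym e ι)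
    (h4 : Algebra.trdeg ℂ N = 4) {x y r s v t₁ t₂ : N} (hG : GP p ![x, y, r, s, v])
    (hind : AlgebraicIndependent ℂ ![x, y, t₁, t₂])
    (halg : Algebra.IsAlgebraic (IntermediateField.adjoin ℂ (Set.range ![x, y, t₁, t₂])) N) :
    (16 : ℤ) • (ptK e ι ![x, y, r, s, v] + ptK e ι ![x, y, r, s, -v]) ∈ stableRelations K N := by
  have : CharZero N := charZero_of_injective_algebraMap (algebraMap ℂ N).injective
  obtain ⟨k0, k1, k2, k3⟩ := sum_ne (gp_ind hG)
  have hO := over_mk (r := r) (s := s) k0 k1 k3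
  set σ := x * y with hσ
  set X' := (y - x) * (σ + 1) / ((y + x) * (σ - 1)) with hX'
  set Y' := 4 * (σ + 1) ^ 2 * (r * s) / ((x + y) ^ 2 * σ) with hY'
  have f1 := H637.tside_family (P := zPX (p 0) (p 1) (p 5) (p 6) (p 7))
    (p := zpX (p 0) (p 1) (p 5) (p 6) (p 7)) (q := zqX (p 0) (p 1) (p 5) (p 6) (p 7)) h4
    (natDegree_zpX _ _ _ _ _) (natDegree_zqX _ _ _ _ _) (hdisc' _ _ _ _ _ hq.E hq.R)
    (hnt' _ _ _ _ _ hq.E hq.R hq.d) (qI_zP _ _ _ _ _ _) (qJ_zP _ _ _ _ _ _)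
    (H637.star_of_equi (B := BB p e ι) (fun g σ X Y => act_BB hp h hs g σ X Y))
    (hO.s_tr hG) (hO.X_notMem hG) (hO.eqn hG)
  -- the other point
  obtain ⟨w, hw⟩ := IsAlgClosed.exists_pow_nat_eq
    (eM (amp N p) x y + 2 * amp N p 4 * (r * -s)) (n := 2) (by norm_num)
  have hG2 : GP p ![x, y, r, -s, w] := by
    refine gp_mk (gp_ind hG) ⟨hG.on.er, ?_, hw⟩
    rw [neg_sq]
    exact hG.on.es
  have f2 := BB_inv hp h hs hG2 hO.neg_s
  rw [neg_neg] at f2
  rw [f2] at f1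
  have f3 := BB_sum hp h hs hG hO hind halg
  have f4 := AddSubgroup.add_mem _ f1 (AddSubgroup.zsmul_mem _ f3 8)
  rw [BB_eq hp h hs hG hO] at f4
  have e1 : (8 : ℤ) • (PS e ι x y r s v - BB p e ι σ X' (-Y')) +
      (8 : ℤ) • (PS e ι x y r s v + BB p e ι σ X' (-Y')) = (16 : ℤ) • PS e ι x y r s v := by
    rw [← smul_add, show (16 : ℤ) = 8 * 2 by norm_num, mul_smul, two_smul ℤ (PS e ι x y r s v)]
    congr 1
    abel
  rw [e1] at f4
  exact f4

end

end Vale.Agent.P297.Z42
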