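import Vale.Agent.P297.H600.Z42A

/-!
The conditions on the parameters, in explicit form.
-/

open Polynomial

namespace Vale.Agent.P297.Z42

theorem cond_aux {c1 c2 m1 m2 n a b g : ℂ} (cm : c1 * m2 - c2 * m1 ≠ 0) (hn : n ≠ 0)
    (h : ¬ (b = 0 ∧ c1 ^ 2 - c2 ^ 2 = a ^ 2 - g ^ 2 ∧ c1 * m1 = c2 * m2 ∧
      m1 ^ 2 - m2 ^ 2 = 4 * n ^ 2 * (c2 ^ 2 - c1 ^ 2)))
    (hF : ∀ w : ℂ, ((b ^ 2 - 4 * g ^ 2 - 4 * a ^ 2) ^ 2 - 64 * a ^ 2 * g ^ 2) *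
        (w ^ 2 - n ^ 2) ^ 4 + 8 * (w ^ 2 - n ^ 2) ^ 2 *
        ((b ^ 2 + 4 * g ^ 2 - 4 * a ^ 2) * (c1 * (w ^ 2 + n ^ 2) - m1 * w) ^ 2 +
        (b ^ 2 + 4 * a ^ 2 - 4 * g ^ 2) * (c2 * (w ^ 2 + n ^ 2) - m2 * w) ^ 2) +
      16 * ((c1 * (w ^ 2 + n ^ 2) - m1 * w) ^ 2 - (c2 * (w ^ 2 + n ^ 2) - m2 * w) ^ 2) ^ 2 = 0) :
    False := by
  have h1 : (2 * n * c1 - m1) ^ 2 = (2 * n * c2 - m2) ^ 2 := by
    have h2 := hF n
    have h3 : n ^ 4 * ((2 * n * c1 - m1) ^ 2 - (2 * n * c2 - m2) ^ 2) ^ 2 = 0 := by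
      linear_combination h2 / 16
    exact sub_eq_zero.1 (pow_eq_zero_iff two_ne_zero |>.1
      ((mul_eq_zero.1 h3).resolve_left (pow_ne_zero 4 hn)))
  have h1' : (2 * n * c1 + m1) ^ 2 = (2 * n * c2 + m2) ^ 2 := by
    have h2 := hF (-n)
    have h3 : n ^ 4 * ((2 * n * c1 + m1) ^ 2 - (2 * n * c2 + m2) ^ 2) ^ 2 = 0 := by
      linear_combination h2 / 16
    exact sub_eq_zero.1 (pow_eq_zero_iff two_ne_zero |>.1
      ((mul_eq_zero.1 h3).resolve_left (pow_ne_zero 4 hn)))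
  have H1 : c1 * m1 = c2 * m2 := by
    have h3 : n * (c1 * m1 - c2 * m2) = 0 := by linear_combination (h1' - h1) / 8
    exact sub_eq_zero.1 ((mul_eq_zero.1 h3).resolve_left hn)
  have H2 : m1 ^ 2 - m2 ^ 2 = 4 * n ^ 2 * (c2 ^ 2 - c1 ^ 2) := by
    linear_combination (h1' + h1) / 2
  set D := c1 ^ 2 - c2 ^ 2 with hD
  set k := (b ^ 2 - 4 * g ^ 2 - 4 * a ^ 2) ^ 2 - 64 * a ^ 2 * g ^ 2 with hk
  have K0 : k + 8 * (b ^ 2 + 4 * g ^ 2 - 4 * a ^ 2) * D + 16 * D ^ 2 = -16 * b ^ 2 * c2 ^ 2 := by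
    have h2 := hF 0
    have h3 : n ^ 8 * (k + 8 * (b ^ 2 + 4 * g ^ 2 - 4 * a ^ 2) * D + 16 * D ^ 2 +
        16 * b ^ 2 * c2 ^ 2) = 0 := by
      rw [hD]
      linear_combination h2
    have h4 := (mul_eq_zero.1 h3).resolve_left (pow_ne_zero 8 hn)
    linear_combination h4
  have K2 : b ^ 2 * ((c2 * n - m2) * (4 * c2 * n - m2)) = 0 := by
    have h2 := hF (2 * n)
    have hP : (c1 * ((2 * n) ^ 2 + n ^ 2) - m1 * (2 * n)) ^ 2 =
        (c2 * ((2 * n) ^ 2 + n ^ 2) - m2 * (2 * n)) ^ 2 + 9 * n ^ 4 * D := by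
      rw [hD]
      linear_combination 4 * n ^ 2 * H2 - 20 * n ^ 3 * H1
    rw [hP] at h2
    have h3 : n ^ 6 * (b ^ 2 * ((c2 * n - m2) * (4 * c2 * n - m2))) = 0 := by
      linear_combination (h2 - 81 * n ^ 8 * K0) / 576
    exact (mul_eq_zero.1 h3).resolve_left (pow_ne_zero 6 hn)
  have K3 : b ^ 2 * ((2 * c2 * n - 3 * m2) * (6 * c2 * n - m2)) = 0 := by
    have h2 := hF (3 * n)
    have hP : (c1 * ((3 * n) ^ 2 + n ^ 2) - m1 * (3 * n)) ^ 2 =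
        (c2 * ((3 * n) ^ 2 + n ^ 2) - m2 * (3 * n)) ^ 2 + 64 * n ^ 4 * D := by
      rw [hD]
      linear_combination 9 * n ^ 2 * H2 - 60 * n ^ 3 * H1
    rw [hP] at h2
    have h3 : n ^ 6 * (b ^ 2 * ((2 * c2 * n - 3 * m2) * (6 * c2 * n - m2))) = 0 := by
      linear_combination (h2 - 4096 * n ^ 8 * K0) / 3072
    exact (mul_eq_zero.1 h3).resolve_left (pow_ne_zero 6 hn)
  by_cases hb : b = 0
  · apply h
    refine ⟨hb, ?_, H1, H2⟩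
    have h3 : (g ^ 2 - a ^ 2 + D) ^ 2 = 0 := by
      rw [hk, hb] at K0
      linear_combination K0 / 16
    have h4 := pow_eq_zero_iff two_ne_zero |>.1 h3
    linear_combination h4
  · have hb2 := pow_ne_zero 2 hb
    have K2' := (mul_eq_zero.1 K2).resolve_left hb2
    have K3' := (mul_eq_zero.1 K3).resolve_left hb2
    have hc : c2 = 0 ∧ m2 = 0 := by
      rcases mul_eq_zero.1 K2' with h5 | h5
      · have h6 : m2 = c2 * n := by linear_combination -h5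
        rw [h6] at K3'
        have h7 : (c2 * n) ^ 2 = 0 := by linear_combination -K3' / 5
        have h8 := (mul_eq_zero.1 (pow_eq_zero_iff two_ne_zero |>.1 h7)).resolve_right hn
        exact ⟨h8, by rw [h6, h8, zero_mul]⟩
      · have h6 : m2 = 4 * (c2 * n) := by linear_combination -h5
        rw [h6] at K3'
        have h7 : (c2 * n) ^ 2 = 0 := by linear_combination -K3' / 20
        have h8 := (mul_eq_zero.1 (pow_eq_zero_iff two_ne_zero |>.1 h7)).resolve_right hn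
        exact ⟨h8, by rw [h6, h8, zero_mul, mul_zero]⟩
    apply cm
    rw [hc.1, hc.2]
    ring

/-- The general curve with a parameter is smooth. -/
theorem exists_nD (p : Fin 8 → ℂ) (cm : p 0 * p 3 - p 1 * p 2 ≠ 0) (n : p 4 ≠ 0)
    (h : ¬ (p 6 = 0 ∧ p 0 ^ 2 - p 1 ^ 2 = p 5 ^ 2 - p 7 ^ 2 ∧ p 0 * p 2 = p 1 * p 3 ∧
      p 2 ^ 2 - p 3 ^ 2 = 4 * p 4 ^ 2 * (p 1 ^ 2 - p 0 ^ 2))) :
    ∃ t : ℂ, nD p t ≠ 0 := by
  by_contra hcon
  push Not at hcon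
  refine cond_aux cm n h fun w => ?_
  obtain ⟨t, rfl⟩ := IsAlgClosed.exists_pow_nat_eq w (n := 2) (by norm_num)
  have h1 := hcon t
  unfold nD n00 n11 n20 n02 n22 at h1
  linear_combination h1

end Vale.Agent.P297.Z42
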