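import Vale.Agent.P297.H600.Z42Pts

/-!
The cycles on the surface attached to the points of its universal cover.
-/

set_option linter.unusedSectionVars false

open IntermediateField Polynomial

namespace Vale.Agent.P297.Z42

open Vale.Agent.P297 Vale.Agent.P297.H839 Vale.Agent.P297.H600 Vale.Agent.P297.H729
open Vale.Agent.P297.Gen

section

variable {K E N N' : Type} [Field K] [Algebra ℂ K] [Field E] [Algebra ℂ E] [Field N] [Algebra ℂ N]
  [Field N'] [Algebra ℂ N'] {p : Fin 8 → ℂ} {e : Fin 5 → E} {ι : K →ₐ[ℂ] E}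

open Classical in
/-- The point of the quotient that is given by a point of the cover. -/
noncomputable def ptK (e : Fin 5 → E) (ι : K →ₐ[ℂ] E) (ξ : Fin 5 → N) : (K →ₐ[ℂ] N) →₀ ℤ :=
  if h : ∃ ψ : E →ₐ[ℂ] N, ∀ i, ψ (e i) = ξ i then
    Finsupp.single ((Classical.choose h).comp ι) (1 : ℤ) else 0

theorem ptK_eq (h : IsE p e) {ξ : Fin 5 → N} (ψ : E →ₐ[ℂ] N) (hψ : ∀ i, ψ (e i) = ξ i) :
    ptK e ι ξ = Finsupp.single (ψ.comp ι) (1 : ℤ) := by
  have h0 : ∃ ψ : E →ₐ[ℂ] N, ∀ i, ψ (e i) = ξ i := ⟨ψ, hψ⟩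
  unfold ptK
  rw [dif_pos h0]
  have h1 : Classical.choose h0 = ψ := h.ext fun i => (Classical.choose_spec h0 i).trans (hψ i).symm
  rw [h1]

theorem ptK_zero {ξ : Fin 5 → N} (h0 : ¬ ∃ ψ : E →ₐ[ℂ] N, ∀ i, ψ (e i) = ξ i) :
    ptK e ι ξ = 0 := by
  unfold ptK
  rw [dif_neg h0]

theorem act_ptK (h : IsE p e) (g : N ≃ₐ[ℂ] N) (ξ : Fin 5 → N) :
    act g.toAlgHom (ptK e ι ξ) = ptK e ι (fun i => g (ξ i)) := by
  by_cases h0 : ∃ ψ : E →ₐ[ℂ] N, ∀ i, ψ (e i) = ξ i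
  · obtain ⟨ψ, hψ⟩ := h0
    rw [ptK_eq h ψ hψ, act_single, ptK_eq h (g.toAlgHom.comp ψ) (fun i => by
      change g (ψ (e i)) = g (ξ i)
      rw [hψ])]
    rfl
  · rw [ptK_zero h0, map_zero, ptK_zero]
    rintro ⟨ψ, hψ⟩
    apply h0
    refine ⟨g.symm.toAlgHom.comp ψ, fun i => ?_⟩
    change g.symm (ψ (e i)) = ξ i
    rw [hψ, AlgEquiv.symm_apply_apply]

theorem map_ptK [IsAlgClosed N] (h : IsE p e) (μ : N →ₐ[ℂ] N') {ξ : Fin 5 → N} (hξ : GP p ξ) :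
    Finsupp.mapDomain (fun φ : K →ₐ[ℂ] N => μ.comp φ) (ptK e ι ξ) =
      ptK e ι (fun i => μ (ξ i)) := by
  obtain ⟨ψ, hψ⟩ := h.exists_emb hξ
  rw [ptK_eq h ψ hψ, Finsupp.mapDomain_single, ptK_eq h (μ.comp ψ) (fun i => by
    change μ (ψ (e i)) = μ (ξ i)
    rw [hψ])]
  rfl

/-- an endomorphism of the cover over the surface -/
theorem ptK_sym [IsAlgClosed N] (h : IsE p e) (τ : E →ₐ[ℂ] E) (hτ : τ.comp ι = ι)
    {ξ ξ' : Fin 5 → N} (hξ : GP p ξ)
    (hv : ∀ ψ : E →ₐ[ℂ] N, (∀ i, ψ (e i) = ξ i) → ∀ i, ψ (τ (e i)) = ξ' i) :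
    ptK e ι ξ' = ptK e ι ξ := by
  obtain ⟨ψ, hψ⟩ := h.exists_emb hξ
  rw [ptK_eq h ψ hψ, ptK_eq h (ψ.comp τ) (hv ψ hψ), AlgHom.comp_assoc, hτ]

/-- The group acts on the cover, and the surface is a quotient of the cover by a group that contains
it. -/
structure Sym (e : Fin 5 → E) (ι : K →ₐ[ℂ] E) : Prop where
  z : ∃ τ : E →ₐ[ℂ] E, τ.comp ι = ι ∧ τ (e 0) = e 0 ∧ τ (e 1) = e 1 ∧ τ (e 2) = -e 2 ∧
    τ (e 3) = -e 3 ∧ τ (e 4) = -e 4
  b : ∃ τ : E →ₐ[ℂ] E, τ.comp ι = ι ∧ τ (e 0) = -e 0 ∧ τ (e 1) = -e 1 ∧ τ (e 2) = -e 2 ∧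
    τ (e 3) = -e 3 ∧ τ (e 4) = e 4
  a : ∃ τ : E →ₐ[ℂ] E, τ.comp ι = ι ∧ τ (e 0) = -(e 0)⁻¹ ∧ τ (e 1) = -(e 1)⁻¹ ∧
    τ (e 2) = algebraMap ℂ E Complex.I * e 3 / (e 0 * e 1) ∧
    τ (e 3) = algebraMap ℂ E Complex.I * e 2 / (e 0 * e 1) ∧
    τ (e 4) = algebraMap ℂ E Complex.I * e 4 / (e 0 * e 1)

variable [IsAlgClosed N]

theorem Sym.pz (hs : Sym e ι) (h : IsE p e) {x y r s v : N} (hG : GP p ![x, y, r, s, v]) :
    ptK e ι ![x, y, -r, -s, -v] = ptK e ι ![x, y, r, s, v] := by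
  obtain ⟨τ, h1, t0, t1, t2, t3, t4⟩ := hs.z
  refine ptK_sym h τ h1 hG fun ψ hψ i => ?_
  fin_cases i
  · change ψ (τ (e 0)) = x
    rw [t0]
    exact hψ 0
  · change ψ (τ (e 1)) = y
    rw [t1]
    exact hψ 1
  · change ψ (τ (e 2)) = -r
    rw [t2, map_neg, hψ 2]
    rfl
  · change ψ (τ (e 3)) = -s
    rw [t3, map_neg, hψ 3]
    rfl
  · change ψ (τ (e 4)) = -v
    rw [t4, map_neg, hψ 4]
    rfl

theorem Sym.pb (hs : Sym e ι) (h : IsE p e) {x y r s v : N} (hG : GP p ![x, y, r, s, v]) :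
    ptK e ι ![-x, -y, -r, -s, v] = ptK e ι ![x, y, r, s, v] := by
  obtain ⟨τ, h1, t0, t1, t2, t3, t4⟩ := hs.b
  refine ptK_sym h τ h1 hG fun ψ hψ i => ?_
  fin_cases i
  · change ψ (τ (e 0)) = -x
    rw [t0, map_neg, hψ 0]
    rfl
  · change ψ (τ (e 1)) = -y
    rw [t1, map_neg, hψ 1]
    rfl
  · change ψ (τ (e 2)) = -r
    rw [t2, map_neg, hψ 2]
    rfl
  · change ψ (τ (e 3)) = -s
    rw [t3, map_neg, hψ 3]
    rfl
  · change ψ (τ (e 4)) = v
    rw [t4]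
    exact hψ 4

theorem Sym.pa (hs : Sym e ι) (h : IsE p e) {x y r s v : N} (hG : GP p ![x, y, r, s, v]) :
    ptK e ι ![-x⁻¹, -y⁻¹, algebraMap ℂ N Complex.I * s / (x * y),
      algebraMap ℂ N Complex.I * r / (x * y), algebraMap ℂ N Complex.I * v / (x * y)] =
      ptK e ι ![x, y, r, s, v] := by
  obtain ⟨τ, h1, t0, t1, t2, t3, t4⟩ := hs.a
  refine ptK_sym h τ h1 hG fun ψ hψ i => ?_
  have k0 : ψ (e 0) = x := hψ 0
  have k1 : ψ (e 1) = y := hψ 1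
  have k2 : ψ (e 2) = r := hψ 2
  have k3 : ψ (e 3) = s := hψ 3
  have k4 : ψ (e 4) = v := hψ 4
  fin_cases i
  · change ψ (τ (e 0)) = -x⁻¹
    rw [t0, map_neg, map_inv₀, k0]
  · change ψ (τ (e 1)) = -y⁻¹
    rw [t1, map_neg, map_inv₀, k1]
  · change ψ (τ (e 2)) = algebraMap ℂ N Complex.I * s / (x * y)
    rw [t2, map_div₀, map_mul, map_mul, AlgHom.commutes, k0, k1, k3]
  · change ψ (τ (e 3)) = algebraMap ℂ N Complex.I * r / (x * y)
    rw [t3, map_div₀, map_mul, map_mul, AlgHom.commutes, k0, k1, k2]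
  · change ψ (τ (e 4)) = algebraMap ℂ N Complex.I * v / (x * y)
    rw [t4, map_div₀, map_mul, map_mul, AlgHom.commutes, k0, k1, k4]

end

section

variable {N : Type} [Field N] [Algebra ℂ N] {p : Fin 8 → ℂ}

/-- generic points from the equations -/
theorem gp_mk {x y r s v : N} (hind : AlgebraicIndependent ℂ ![x, y])
    (h : OnX (amp N p) x y r s v) : GP p ![x, y, r, s, v] := ⟨hind, h⟩

theorem gp_on {x y r s v : N} (h : GP p ![x, y, r, s, v]) : OnX (amp N p) x y r s v := h.on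

theorem gp_ind {x y r s v : N} (h : GP p ![x, y, r, s, v]) : AlgebraicIndependent ℂ ![x, y] := h.ind

theorem ind_ne {x y : N} (h : AlgebraicIndependent ℂ ![x, y]) : x ≠ 0 ∧ y ≠ 0 := by
  constructor
  · rintro rfl
    exact h.transcendental 0 (by simp [isAlgebraic_zero])
  · rintro rfl
    exact h.transcendental 1 (by simp [isAlgebraic_zero])

theorem ind_neg {x y : N} (h : AlgebraicIndependent ℂ ![x, y]) :
    AlgebraicIndependent ℂ ![-x, -y] := by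
  rw [pair_iff'] at h ⊢
  obtain ⟨h1, h2⟩ := h
  have h3 : IntermediateField.adjoin ℂ {-x} = IntermediateField.adjoin ℂ {x} := by
    apply le_antisymm
    · rw [IntermediateField.adjoin_simple_le_iff]
      exact neg_mem (IntermediateField.mem_adjoin_simple_self ℂ x)
    · rw [IntermediateField.adjoin_simple_le_iff]
      have h4 := neg_mem (IntermediateField.mem_adjoin_simple_self ℂ (-x))
      rwa [neg_neg] at h4
  refine ⟨fun h4 => h1 ?_, ?_⟩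
  · have h5 := h4.neg
    rwa [neg_neg] at h5
  · rw [h3]
    intro h4
    apply h2
    have h5 := h4.neg
    rwa [neg_neg] at h5

theorem ind_inv {x y : N} (h : AlgebraicIndependent ℂ ![x, y]) :
    AlgebraicIndependent ℂ ![x⁻¹, y⁻¹] := by
  rw [pair_iff'] at h ⊢
  obtain ⟨h1, h2⟩ := h
  have h3 : IntermediateField.adjoin ℂ {x⁻¹} = IntermediateField.adjoin ℂ {x} := by
    apply le_antisymm
    · rw [IntermediateField.adjoin_simple_le_iff]
      exact inv_mem (IntermediateField.mem_adjoin_simple_self ℂ x)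
    · rw [IntermediateField.adjoin_simple_le_iff]
      have h4 := inv_mem (IntermediateField.mem_adjoin_simple_self ℂ (x⁻¹))
      rwa [inv_inv] at h4
  refine ⟨fun h4 => h1 ?_, ?_⟩
  · have h5 := h4.inv
    rwa [inv_inv] at h5
  · rw [h3]
    intro h4
    apply h2
    have h5 := h4.inv
    rwa [inv_inv] at h5

theorem eT_neg (q : Fin 8 → N) (x y : N) : eT q (-x) (-y) = eT q x y := by
  unfold eT; ring

theorem eM_neg (q : Fin 8 → N) (x y : N) : eM q (-x) (-y) = eM q x y := by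
  unfold eM; ring

theorem eA_neg (q : Fin 8 → N) (x y : N) : eA q (-x) (-y) = eA q x y := by
  unfold eA; ring

theorem onX_neg_v {q : Fin 8 → N} {x y r s v : N} (h : OnX q x y r s v) :
    OnX q x y r s (-v) := ⟨h.er, h.es, by rw [neg_sq]; exact h.ev⟩

theorem onX_neg_rs {q : Fin 8 → N} {x y r s v : N} (h : OnX q x y r s v) :
    OnX q x y (-r) (-s) v :=
  ⟨by rw [neg_sq]; exact h.er, by rw [neg_sq]; exact h.es, by rw [neg_mul_neg]; exact h.ev⟩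

theorem onX_neg_xy {q : Fin 8 → N} {x y r s v : N} (h : OnX q x y r s v) :
    OnX q (-x) (-y) r s v :=
  ⟨by rw [eT_neg, eA_neg]; exact h.er, by rw [eT_neg, eA_neg]; exact h.es,
    by rw [eM_neg]; exact h.ev⟩

theorem gp_neg_v {x y r s v : N} (h : GP p ![x, y, r, s, v]) : GP p ![x, y, r, s, -v] :=
  gp_mk h.ind (onX_neg_v h.on)

theorem gp_neg_rs {x y r s v : N} (h : GP p ![x, y, r, s, v]) : GP p ![x, y, -r, -s, v] :=
  gp_mk h.ind (onX_neg_rs h.on)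

theorem gp_neg_xy {x y r s v : N} (h : GP p ![x, y, r, s, v]) : GP p ![-x, -y, r, s, v] :=
  gp_mk (ind_neg h.ind) (onX_neg_xy h.on)

theorem I_sq : algebraMap ℂ N Complex.I ^ 2 = -1 := by
  rw [← map_pow, Complex.I_sq, map_neg, map_one]

theorem gp_a {x y r s v : N} (h : GP p ![x, y, r, s, v]) :
    GP p ![-x⁻¹, -y⁻¹, algebraMap ℂ N Complex.I * s / (x * y),
      algebraMap ℂ N Complex.I * r / (x * y), algebraMap ℂ N Complex.I * v / (x * y)] := by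
  obtain ⟨hx, hy⟩ := ind_ne h.ind
  change x ≠ 0 at hx
  change y ≠ 0 at hy
  have e1 : r ^ 2 = eT (amp N p) x y + eA (amp N p) x y := h.on.er
  have e2 : s ^ 2 = eT (amp N p) x y - eA (amp N p) x y := h.on.es
  have e3 : v ^ 2 = eM (amp N p) x y + 2 * amp N p 4 * (r * s) := h.on.ev
  have hI := I_sq (N := N)
  generalize algebraMap ℂ N Complex.I = I at hI
  have hT : eT (amp N p) (-x⁻¹) (-y⁻¹) = -(eT (amp N p) x y) / (x * y) ^ 2 := by
    unfold eT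
    field_simp
    ring
  have hM : eM (amp N p) (-x⁻¹) (-y⁻¹) = -(eM (amp N p) x y) / (x * y) ^ 2 := by
    unfold eM
    field_simp
    ring
  have hA : eA (amp N p) (-x⁻¹) (-y⁻¹) = eA (amp N p) x y / (x * y) ^ 2 := by
    unfold eA
    field_simp
    ring
  refine gp_mk ?_ ⟨?_, ?_, ?_⟩
  · exact ind_neg (ind_inv h.ind)
  · rw [hT, hA, div_pow, mul_pow, hI, e2]
    ring
  · rw [hT, hA, div_pow, mul_pow, hI, e1]
    ring
  · rw [hM, div_pow, mul_pow, hI, e3]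
    have h1 : I * s / (x * y) * (I * r / (x * y)) = I ^ 2 * (r * s) / (x * y) ^ 2 := by ring
    rw [h1, hI]
    ring

end

end Vale.Agent.P297.Z42
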