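import Vale.Agent.P297.H600.Z42Poly

/-!
Degrees of the invariants, the discriminant.
-/

open Polynomial

namespace Vale.Agent.P297.Z42

open Vale.Agent.P297.G4

section

variable (c1 c2 a b g : ℂ)

/-- the quartic over the polynomials -/
noncomputable abbrev zPX : Fin 5 → ℂ[X] := zP (C c1) (C c2) (C a) (C b) (C g) X

noncomputable abbrev zpX : ℂ[X] := zp (C c1) (C c2) (C a) (C b) (C g) X

noncomputable abbrev zqX : ℂ[X] := zq (C c1) (C c2) (C a) (C b) (C g) X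

noncomputable abbrev zEX : ℂ[X] := zE (C c1) (C c2) (C a) (C b) (C g) X

noncomputable abbrev zRX : ℂ[X] := zR (C c1) (C c2) (C a) (C b) (C g) X

theorem natDegree_zpX : (zpX c1 c2 a b g).natDegree ≤ 4 := by
  unfold zpX zp zQ1 zQ2 zW zA
  compute_degree

theorem natDegree_zqX : (zqX c1 c2 a b g).natDegree ≤ 6 := by
  unfold zqX zq zQ1 zQ2 zW zA
  compute_degree

theorem natDegree_zEX : (zEX c1 c2 a b g).natDegree ≤ 4 := by
  unfold zEX zE zA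
  compute_degree

theorem natDegree_zRX : (zRX c1 c2 a b g).natDegree ≤ 2 := by
  unfold zRX zR zA
  compute_degree

theorem coeff_four (e₄ e₃ e₂ e₁ e₀ : ℂ) :
    (C e₄ * X ^ 4 + (C e₃ * X ^ 3 + C e₂ * X ^ 2 + C e₁ * X + C e₀) : ℂ[X]).coeff 4 = e₄ := by
  simp only [coeff_add, coeff_C_mul, coeff_X_pow, coeff_X, coeff_C]
  norm_num

theorem coeff_zEX : (zEX c1 c2 a b g).coeff 4 = (c1 ^ 2 - a ^ 2) ^ 2 := by
  have h : zEX c1 c2 a b g = C ((c1 ^ 2 - a ^ 2) ^ 2) * X ^ 4 +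
      (C (2 * (c1 ^ 2 + a ^ 2) * (2 * a * (b - 2 * a) - 4 * c1 ^ 2) +
        16 * c1 ^ 2 * a ^ 2 - 8 * c1 ^ 2 * a * (b - 2 * a)) * X ^ 3 +
      C ((2 * a * (b - 2 * a) - 4 * c1 ^ 2) ^ 2 +
        2 * (c1 ^ 2 + a ^ 2) * (4 * c2 ^ 2 - 4 * g ^ 2 + (b - 2 * a) ^ 2) -
        4 * c1 ^ 2 * (b - 2 * a) ^ 2 + 32 * c1 ^ 2 * a * (b - 2 * a)) * X ^ 2 +
      C (2 * (2 * a * (b - 2 * a) - 4 * c1 ^ 2) * (4 * c2 ^ 2 - 4 * g ^ 2 + (b - 2 * a) ^ 2) +
        16 * c1 ^ 2 * (b - 2 * a) ^ 2) * X +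
      C ((4 * c2 ^ 2 - 4 * g ^ 2 + (b - 2 * a) ^ 2) ^ 2)) := by
    unfold zEX zE zA
    simp only [C_add, C_sub, C_mul, C_pow]
    simp only [map_ofNat]
    ring
  rw [h]
  exact coeff_four _ _ _ _ _

theorem zEX_ne (h : c1 ^ 2 ≠ a ^ 2) : zEX c1 c2 a b g ≠ 0 := by
  intro h0
  have h1 := coeff_zEX c1 c2 a b g
  rw [h0, coeff_zero] at h1
  exact h (sub_eq_zero.1 (pow_eq_zero_iff (two_ne_zero)|>.1 h1.symm))

theorem le_natDegree_zEX (h : c1 ^ 2 ≠ a ^ 2) : 4 ≤ (zEX c1 c2 a b g).natDegree := by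
  apply le_natDegree_of_ne_zero
  rw [coeff_zEX]
  exact pow_ne_zero 2 (sub_ne_zero.2 h)

theorem disc_zPX : 4 * zpX c1 c2 a b g ^ 3 - zqX c1 c2 a b g ^ 2 =
    C 1769472 * (zEX c1 c2 a b g * zRX c1 c2 a b g ^ 2) := by
  have h1 := disc_zP (C c1) (C c2) (C a) (C b) (C g) (X : ℂ[X])
  rw [show (C 1769472 : ℂ[X]) = 1769472 from map_ofNat C 1769472]
  exact h1

theorem hdisc (h : c1 ^ 2 ≠ a ^ 2) (hR : zRX c1 c2 a b g ≠ 0) :
    4 * zpX c1 c2 a b g ^ 3 ≠ zqX c1 c2 a b g ^ 2 := by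
  intro h0
  have h1 := disc_zPX c1 c2 a b g
  rw [h0, sub_self] at h1
  have h2 := mul_eq_zero.1 h1.symm
  rcases h2 with h2 | h2
  · rw [C_eq_zero] at h2
    norm_num at h2
  · rcases mul_eq_zero.1 h2 with h3 | h3
    · exact zEX_ne c1 c2 a b g h h3
    · exact hR (pow_eq_zero_iff two_ne_zero |>.1 h3)

theorem hnt (h : c1 ^ 2 ≠ a ^ 2) (hR : zRX c1 c2 a b g ≠ 0) (A B u v : ℂ) :
    ¬ (zpX c1 c2 a b g = C A * (C u * X + C v) ^ 4 ∧
      zqX c1 c2 a b g = C B * (C u * X + C v) ^ 6) := by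
  rintro ⟨h1, h2⟩
  have h3 := disc_zPX c1 c2 a b g
  have hE := zEX_ne c1 c2 a b g h
  have h4 : 4 * zpX c1 c2 a b g ^ 3 - zqX c1 c2 a b g ^ 2 =
      C (4 * A ^ 3 - B ^ 2) * (C u * X + C v) ^ 12 := by
    rw [h1, h2]
    simp only [C_sub, C_mul, C_pow]
    rw [show (C 4 : ℂ[X]) = 4 from map_ofNat C 4]
    ring
  rw [h4] at h3
  have hdeg : (C 1769472 * (zEX c1 c2 a b g * zRX c1 c2 a b g ^ 2)).natDegree =
      (zEX c1 c2 a b g).natDegree + 2 * (zRX c1 c2 a b g).natDegree := by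
    rw [natDegree_C_mul (by norm_num), natDegree_mul hE (pow_ne_zero 2 hR), natDegree_pow]
  have hlow := le_natDegree_zEX c1 c2 a b g h
  have hE4 := natDegree_zEX c1 c2 a b g
  have hR2 := natDegree_zRX c1 c2 a b g
  rw [← h3] at hdeg
  by_cases hu : u = 0
  · subst hu
    have h5 : (C (4 * A ^ 3 - B ^ 2) * (C (0 : ℂ) * X + C v) ^ 12).natDegree = 0 := by
      have h6 : C (4 * A ^ 3 - B ^ 2) * (C (0 : ℂ) * X + C v) ^ 12 =
          C ((4 * A ^ 3 - B ^ 2) * v ^ 12) := by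
        simp only [C_mul, C_pow, C_0, zero_mul, zero_add]
      rw [h6, natDegree_C]
    omega
  · have h5 : 4 * A ^ 3 - B ^ 2 ≠ 0 := by
      intro h6
      rw [h6, C_0, zero_mul] at h3
      have h7 := mul_eq_zero.1 h3.symm
      rcases h7 with h7 | h7
      · rw [C_eq_zero] at h7
        norm_num at h7
      · rcases mul_eq_zero.1 h7 with h8 | h8
        · exact hE h8
        · exact hR (pow_eq_zero_iff two_ne_zero |>.1 h8)
    rw [natDegree_C_mul h5, natDegree_pow, natDegree_linear hu] at hdeg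
    omega

end

end Vale.Agent.P297.Z42
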