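import Vale.Agent.P297.H600.Z42Aut
import Vale.Agent.P297.H600.Z42Cond

/-!
The final theorem, with explicit conditions on the parameters.
-/

set_option linter.unusedSectionVars false

open IntermediateField Polynomial CategoryTheory AlgebraicGeometry

namespace Vale.Agent.P297.Z42

open Vale.Agent.P297 Vale.Agent.P297.H839 Vale.Agent.P297.H600 Vale.Agent.P297.H729
open Vale.Agent.P297.Gen Vale.Agent.P297.H72

/-- The conditions on the parameters `(c₁, c₂, m₁, m₂, n, α, β, γ)`. -/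
structure Good (p : Fin 8 → ℂ) : Prop where
  cm : p 0 * p 3 ≠ p 1 * p 2
  n : p 4 ≠ 0
  ca : p 0 ≠ 0 ∨ p 5 ≠ 0
  cg : p 1 ≠ 0 ∨ p 7 ≠ 0
  s : p 6 = 0 → ¬ (p 0 ^ 2 = p 5 ^ 2 ∧ p 1 ^ 2 = p 7 ^ 2) ∧ ¬ (p 0 ^ 2 = p 1 ^ 2 ∧
    p 5 ^ 2 = p 7 ^ 2) ∧ ¬ (p 0 ^ 2 - p 1 ^ 2 = p 5 ^ 2 - p 7 ^ 2 ∧ p 0 * p 2 = p 1 * p 3 ∧
    p 2 ^ 2 - p 3 ^ 2 = 4 * p 4 ^ 2 * (p 1 ^ 2 - p 0 ^ 2))

section

variable {E : Type} [Field E] [Algebra ℂ E] {p : Fin 8 → ℂ} {e : Fin 5 → E}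

theorem IsE.eA_ne (h : IsE p e) (hc : p 0 ≠ 0 ∨ p 1 ≠ 0) : p 5 ≠ 0 ∨ p 6 ≠ 0 ∨ p 7 ≠ 0 := by
  by_contra hcon
  push Not at hcon
  obtain ⟨h5, h6, h7⟩ := hcon
  set N := AlgebraicClosure E
  have hc0 : CharZero N := charZero_of_injective_algebraMap (algebraMap ℂ N).injective
  let j : E →ₐ[ℂ] N := IsScalarTower.toAlgHom ℂ E N
  have hG := gp_of_emb h j
  obtain ⟨w, hw⟩ := IsAlgClosed.exists_pow_nat_eq
    (eM (amp N p) (j (e 0)) (j (e 1)) - 2 * amp N p 4 * (j (e 2) * j (e 3))) (n := 2) (by norm_num)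
  have hG' : GP p ![j (e 0), j (e 1), j (e 2), -j (e 3), w] := by
    refine gp_mk hG.ind ⟨hG.on.er, ?_, ?_⟩
    · rw [neg_sq]
      exact hG.on.es
    · rw [hw]
      ring
  obtain ⟨ψ, hψ⟩ := h.exists_emb hG'
  have h2 : ψ (e 2) = j (e 2) := hψ 2
  have h3 : ψ (e 3) = -j (e 3) := hψ 3
  have hA : eA (amp E p) (e 0) (e 1) = 0 := by
    unfold eA amp
    rw [h5, h6, h7, map_zero]
    ring
  have h4 : (e 2 - e 3) * (e 2 + e 3) = 0 := by
    have h8 := h.gp.on.er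
    have h9 := h.gp.on.es
    rw [hA] at h8 h9
    linear_combination h8 - h9
  have hs0 : j (e 3) ≠ 0 := by
    intro h0
    have h8 := hG.on.es
    change j (e 3) ^ 2 = eT (amp N p) (j (e 0)) (j (e 1)) - eA (amp N p) (j (e 0)) (j (e 1)) at h8
    have h9 : eA (amp N p) (j (e 0)) (j (e 1)) = 0 := by
      unfold eA amp
      rw [h5, h6, h7, map_zero]
      ring
    rw [h0, h9] at h8
    unfold eT at h8
    have hm : ∀ i, amp N p i ∈ cl0 (∅ : Set N) := fun i => amp_mem _ _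
    obtain ⟨a0, -, a2, -, -⟩ := rel_zero (gp_ind hG)
      (a₀₀ := amp N p 0) (a₁₁ := 0) (a₂₀ := amp N p 1) (a₀₂ := -amp N p 1)
      (a₂₂ := -amp N p 0) (hm 0) (zero_mem _) (hm 1) (neg_mem (hm 1)) (neg_mem (hm 0))
      (by linear_combination -h8)
    rcases hc with hc | hc
    · exact amp_ne hc a0
    · exact amp_ne hc a2
  rcases mul_eq_zero.1 h4 with h8 | h8
  · have h9 : e 2 = e 3 := sub_eq_zero.1 h8
    rw [h9, h3] at h2
    apply hs0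
    linear_combination -h2 / 2
  · have h9 : e 2 = -e 3 := eq_neg_of_add_eq_zero_left h8
    rw [h9, map_neg, map_neg, h3] at h2
    apply hs0
    linear_combination h2 / 2

/-- **Bloch's conjecture for the numerical Campedelli surfaces with fundamental group
`ℤ/4 × ℤ/2`.** -/
theorem bloch_good (hp : Good p) {x y r s v : E} (h1 : OnX (amp E p) x y r s v)
    (h2 : AlgebraicIndependent ℂ ![x, y])
    (h3 : IntermediateField.adjoin ℂ {x, y, r, s, v} = ⊤)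
    (h4 : Module.finrank (IntermediateField.adjoin ℂ {x, y}) E = 8) :
    ∃ z b a : E ≃ₐ[ℂ] E, Acts x y r s v z b a ∧
      H839.PointsEquivalent (IntermediateField.fixedField (Subgroup.closure {z, b, a})) := by
  have cm : p 0 * p 3 - p 1 * p 2 ≠ 0 := sub_ne_zero.2 hp.cm
  have c12 : p 0 ≠ 0 ∨ p 1 ≠ 0 := by
    by_contra hcon
    push Not at hcon
    apply cm
    rw [hcon.1, hcon.2]
    ring
  have hA := (isE_mk h1 h2 h3 h4).eA_ne c12
  refine bloch ⟨cm, hp.n, hA, exists_nD p cm hp.n fun h => (hp.s h.1).2.2 h.2⟩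
    ⟨zEX_ne' _ _ _ _ _ hp.ca,
      zRX_ne _ _ _ _ _ c12 hp.ca hp.cg hA fun h => (hp.s h.1).2.1 h.2,
      one_le_natDegree_zEX _ _ _ _ _ hp.ca fun h => (hp.s h.1).1 h.2⟩ h1 h2 h3 h4

end

end Vale.Agent.P297.Z42
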