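import Vale.Agent.P297.H600.Z42Clo

/-!
The elliptic curves on the cover: translation by a point of order two.
-/

set_option linter.unusedSectionVars false

open IntermediateField Polynomial

namespace Vale.Agent.P297.Z42

open Vale.Agent.P297 Vale.Agent.P297.H839 Vale.Agent.P297.H600 Vale.Agent.P297.H729
open Vale.Agent.P297.Gen Vale.Agent.P297.H72

section

variable {R : Type} [CommRing R]

/-- the coefficients of the curve `μ⁴ (T + A) - μ² M + n² (T - A) = 0` -/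
def n00 (p : Fin 8 → R) (μ : R) : R :=
  μ ^ 4 * (p 0 + p 5) - μ ^ 2 * p 2 + p 4 ^ 2 * (p 0 - p 5)

/-- the coefficient of `x² y²` -/
def n22 (p : Fin 8 → R) (μ : R) : R :=
  μ ^ 4 * (p 5 - p 0) + μ ^ 2 * p 2 - p 4 ^ 2 * (p 0 + p 5)

/-- the coefficient of `x y` -/
def n11 (p : Fin 8 → R) (μ : R) : R := (μ ^ 4 - p 4 ^ 2) * p 6

/-- the coefficient of `x²` -/
def n20 (p : Fin 8 → R) (μ : R) : R :=
  μ ^ 4 * (p 7 + p 1) - μ ^ 2 * p 3 + p 4 ^ 2 * (p 1 - p 7)

/-- the coefficient of `y²` -/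
def n02 (p : Fin 8 → R) (μ : R) : R :=
  μ ^ 4 * (p 7 - p 1) + μ ^ 2 * p 3 - p 4 ^ 2 * (p 1 + p 7)

theorem n_eq (p : Fin 8 → R) (μ x y : R) :
    n00 p μ + n11 p μ * (x * y) + n20 p μ * x ^ 2 + n02 p μ * y ^ 2 +
      n22 p μ * (x ^ 2 * y ^ 2) =
    μ ^ 4 * (eT p x y + eA p x y) - μ ^ 2 * eM p x y + p 4 ^ 2 * (eT p x y - eA p x y) := by
  unfold n00 n11 n20 n02 n22 eT eA eM
  ring

end

section

variable {K E N : Type} [Field K] [Algebra ℂ K] [Field E] [Algebra ℂ E] [Field N] [Algebra ℂ N]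
  {p : Fin 8 → ℂ} {e : Fin 5 → E} {ι : K →ₐ[ℂ] E}

/-- A point of the curve with parameter `μ`, and the square roots. -/
structure HE (p : Fin 8 → ℂ) (μ x y r s : N) : Prop where
  mu : μ ≠ 0
  ind : AlgebraicIndependent ℂ ![x, y]
  er : r ^ 2 = eT (amp N p) x y + eA (amp N p) x y
  es : s ^ 2 = eT (amp N p) x y - eA (amp N p) x y
  on : μ ^ 4 * (eT (amp N p) x y + eA (amp N p) x y) - μ ^ 2 * eM (amp N p) x y +
    amp N p 4 ^ 2 * (eT (amp N p) x y - eA (amp N p) x y) = 0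

theorem HE.gp1 {μ x y r s : N} (h : HE p μ x y r s) :
    GP p ![x, y, r, s, μ * r + amp N p 4 * s / μ] := by
  refine gp_mk h.ind ⟨h.er, h.es, ?_⟩
  have hμ := h.mu
  have h1 := h.on
  rw [← h.er, ← h.es] at h1
  have h2 : μ ^ 2 * eM (amp N p) x y = μ ^ 4 * r ^ 2 + amp N p 4 ^ 2 * s ^ 2 := by
    linear_combination -h1
  have h3 : eM (amp N p) x y = (μ ^ 4 * r ^ 2 + amp N p 4 ^ 2 * s ^ 2) / μ ^ 2 := by
    rw [eq_div_iff (pow_ne_zero 2 hμ)]
    linear_combination h2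
  rw [h3]
  field_simp
  ring

theorem HE.neg_r {μ x y r s : N} (h : HE p μ x y r s) : HE p μ x y (-r) s :=
  ⟨h.mu, h.ind, by rw [neg_sq]; exact h.er, h.es, h.on⟩

theorem HE.neg_s {μ x y r s : N} (h : HE p μ x y r s) : HE p μ x y r (-s) :=
  ⟨h.mu, h.ind, h.er, by rw [neg_sq]; exact h.es, h.on⟩

theorem HE.neg_xy {μ x y r s : N} (h : HE p μ x y r s) : HE p μ (-x) (-y) r s :=
  ⟨h.mu, ind_neg h.ind, by rw [eT_neg, eA_neg]; exact h.er, by rw [eT_neg, eA_neg]; exact h.es,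
    by rw [eT_neg, eA_neg, eM_neg]; exact h.on⟩

theorem HE.gp2 {μ x y r s : N} (h : HE p μ x y r s) :
    GP p ![x, y, -r, s, -(μ * r) + amp N p 4 * s / μ] := by
  have h1 := h.neg_r.gp1
  rw [mul_neg] at h1
  exact h1

theorem HE.map {μ x y r s : N} (h : HE p μ x y r s) (g : N ≃ₐ[ℂ] N) :
    HE p (g μ) (g x) (g y) (g r) (g s) := by
  have hT := map_eT (p := p) g.toAlgHom x y
  have hM := map_eM (p := p) g.toAlgHom x y
  have hA := map_eA (p := p) g.toAlgHom x y
  change g (eT (amp N p) x y) = eT (amp N p) (g x) (g y) at hT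
  change g (eM (amp N p) x y) = eM (amp N p) (g x) (g y) at hM
  change g (eA (amp N p) x y) = eA (amp N p) (g x) (g y) at hA
  have hn : g (amp N p 4) = amp N p 4 := g.commutes _
  refine ⟨?_, ?_, ?_, ?_, ?_⟩
  · rw [Ne, EmbeddingLike.map_eq_zero_iff]
    exact h.mu
  · exact (h.gp1.map g.toAlgHom).ind
  · rw [← map_pow, h.er, map_add, hT, hA]
  · rw [← map_pow, h.es, map_sub, hT, hA]
  · have h1 := congrArg g h.on
    rw [map_add, map_sub, map_mul, map_mul, map_mul, map_add, map_sub, map_pow, map_pow, map_pow,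
      map_zero, hT, hM, hA, hn] at h1
    exact h1

/-- The two points of the surface over a point of the curve. -/
noncomputable def Th (p : Fin 8 → ℂ) (e : Fin 5 → E) (ι : K →ₐ[ℂ] E) (μ x y r s : N) :
    (K →ₐ[ℂ] N) →₀ ℤ :=
  ptK e ι ![x, y, r, s, μ * r + amp N p 4 * s / μ] +
    ptK e ι ![x, y, -r, s, -(μ * r) + amp N p 4 * s / μ]

theorem Th_neg_r (μ x y r s : N) : Th p e ι μ x y (-r) s = Th p e ι μ x y r s := by
  unfold Th
  rw [mul_neg, neg_neg, neg_neg, add_comm]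

variable [IsAlgClosed N]

theorem Th_neg_both (h : IsE p e) (hs : Sym e ι) {μ x y r s : N} (hE : HE p μ x y r s) :
    Th p e ι μ x y (-r) (-s) = Th p e ι μ x y r s := by
  unfold Th
  have h1 := hs.pz h hE.gp1
  have h2 := hs.pz h hE.gp2
  have e1 : μ * -r + amp N p 4 * -s / μ = -(μ * r + amp N p 4 * s / μ) := by ring
  have e2 : -(μ * -r) + amp N p 4 * -s / μ = -(-(μ * r) + amp N p 4 * s / μ) := by ring
  rw [e1, e2, h1, h2]

theorem Th_neg_s (h : IsE p e) (hs : Sym e ι) {μ x y r s : N} (hE : HE p μ x y r s) :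
    Th p e ι μ x y r (-s) = Th p e ι μ x y r s := by
  rw [← Th_neg_r, Th_neg_both h hs hE]

/-- the cycle does not depend on the square roots -/
theorem Th_indep (h : IsE p e) (hs : Sym e ι) {μ x y r s r' s' : N} (hE : HE p μ x y r s)
    (hE' : HE p μ x y r' s') : Th p e ι μ x y r' s' = Th p e ι μ x y r s := by
  have h1 : (r' - r) * (r' + r) = 0 := by linear_combination hE'.er - hE.er
  have h2 : (s' - s) * (s' + s) = 0 := by linear_combination hE'.es - hE.es
  rcases mul_eq_zero.1 h1 with h3 | h3 <;> rcases mul_eq_zero.1 h2 with h4 | h4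
  · rw [sub_eq_zero.1 h3, sub_eq_zero.1 h4]
  · rw [sub_eq_zero.1 h3, eq_neg_of_add_eq_zero_left h4, Th_neg_s h hs hE]
  · rw [eq_neg_of_add_eq_zero_left h3, sub_eq_zero.1 h4, Th_neg_r]
  · rw [eq_neg_of_add_eq_zero_left h3, eq_neg_of_add_eq_zero_left h4, Th_neg_both h hs hE]

theorem act_Th (h : IsE p e) (g : N ≃ₐ[ℂ] N) (μ x y r s : N) :
    act g.toAlgHom (Th p e ι μ x y r s) = Th p e ι (g μ) (g x) (g y) (g r) (g s) := by
  unfold Th
  rw [map_add, act_ptK h, act_ptK h]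
  congr 2
  · funext i
    fin_cases i
    · rfl
    · rfl
    · rfl
    · rfl
    · change g (μ * r + amp N p 4 * s / μ) = _
      rw [map_add, map_mul, map_div₀, map_mul]
      have hn : g (amp N p 4) = amp N p 4 := g.commutes _
      rw [hn]
      rfl
  · funext i
    fin_cases i
    · rfl
    · rfl
    · exact map_neg g r
    · rfl
    · change g (-(μ * r) + amp N p 4 * s / μ) = _
      rw [map_add, map_neg, map_mul, map_div₀, map_mul]
      have hn : g (amp N p 4) = amp N p 4 := g.commutes _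
      rw [hn]
      rfl

/-- the other lift: the involution -/
theorem Th_neg_xy (h : IsE p e) (hs : Sym e ι) {μ x y r s : N} (hE : HE p μ x y r s) :
    Th p e ι μ (-x) (-y) r s =
      ptK e ι ![x, y, r, s, -(μ * r + amp N p 4 * s / μ)] +
        ptK e ι ![x, y, -r, s, -(-(μ * r) + amp N p 4 * s / μ)] := by
  unfold Th
  have h1 := hs.pb h (gp_neg_rs hE.gp1)
  have h2 := hs.pb h (gp_neg_rs hE.gp2)
  rw [neg_neg, neg_neg] at h1
  rw [neg_neg, neg_neg] at h2
  have h3 := hs.pz h (gp_neg_v hE.gp1)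
  have h4 := hs.pz h (gp_neg_v hE.gp2)
  rw [neg_neg] at h3
  rw [neg_neg (-(μ * r) + amp N p 4 * s / μ)] at h4
  rw [h1, h3, ← h4, ← h2]

end

end Vale.Agent.P297.Z42
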