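import Vale.Agent.P297.H600.Z42Flow

/-!
The homotopy along a conic, and the difference of a point and its translate by a point of order
two.
-/

set_option linter.unusedSectionVars false

open IntermediateField Polynomial

namespace Vale.Agent.P297.Z42

open Vale.Agent.P297 Vale.Agent.P297.H839 Vale.Agent.P297.H600 Vale.Agent.P297.H729
open Vale.Agent.P297.Gen Vale.Agent.P297.H72

section

variable {N : Type} [Field N] [Algebra ℂ N] {p : Fin 8 → ℂ}

theorem amp_mem (M : IntermediateField ℂ N) (i : Fin 8) : amp N p i ∈ M := M.algebraMap_mem _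

theorem n00_mem {M : IntermediateField ℂ N} {μ : N} (h : μ ∈ M) : n00 (amp N p) μ ∈ M := by
  unfold n00
  exact add_mem (sub_mem (mul_mem (pow_mem h 4) (add_mem (amp_mem M 0) (amp_mem M 5)))
    (mul_mem (pow_mem h 2) (amp_mem M 2))) (mul_mem (pow_mem (amp_mem M 4) 2)
    (sub_mem (amp_mem M 0) (amp_mem M 5)))

theorem n22_mem {M : IntermediateField ℂ N} {μ : N} (h : μ ∈ M) : n22 (amp N p) μ ∈ M := by
  unfold n22
  exact sub_mem (add_mem (mul_mem (pow_mem h 4) (sub_mem (amp_mem M 5) (amp_mem M 0)))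
    (mul_mem (pow_mem h 2) (amp_mem M 2))) (mul_mem (pow_mem (amp_mem M 4) 2)
    (add_mem (amp_mem M 0) (amp_mem M 5)))

theorem n11_mem {M : IntermediateField ℂ N} {μ : N} (h : μ ∈ M) : n11 (amp N p) μ ∈ M := by
  unfold n11
  exact mul_mem (sub_mem (pow_mem h 4) (pow_mem (amp_mem M 4) 2)) (amp_mem M 6)

theorem n20_mem {M : IntermediateField ℂ N} {μ : N} (h : μ ∈ M) : n20 (amp N p) μ ∈ M := by
  unfold n20
  exact add_mem (sub_mem (mul_mem (pow_mem h 4) (add_mem (amp_mem M 7) (amp_mem M 1)))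
    (mul_mem (pow_mem h 2) (amp_mem M 3))) (mul_mem (pow_mem (amp_mem M 4) 2)
    (sub_mem (amp_mem M 1) (amp_mem M 7)))

theorem n02_mem {M : IntermediateField ℂ N} {μ : N} (h : μ ∈ M) : n02 (amp N p) μ ∈ M := by
  unfold n02
  exact sub_mem (add_mem (mul_mem (pow_mem h 4) (sub_mem (amp_mem M 7) (amp_mem M 1)))
    (mul_mem (pow_mem h 2) (amp_mem M 3))) (mul_mem (pow_mem (amp_mem M 4) 2)
    (add_mem (amp_mem M 1) (amp_mem M 7)))

theorem map_n20 (g : N ≃ₐ[ℂ] N) (μ : N) : g (n20 (amp N p) μ) = n20 (amp N p) (g μ) := by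
  unfold n20 amp
  simp only [map_add, map_sub, map_mul, map_pow, AlgEquiv.commutes]

theorem HE.eqn {μ x y r s : N} (h : HE p μ x y r s) :
    n00 (amp N p) μ + n11 (amp N p) μ * (x * y) + n20 (amp N p) μ * x ^ 2 +
      n02 (amp N p) μ * y ^ 2 + n22 (amp N p) μ * (x ^ 2 * y ^ 2) = 0 := by
  rw [n_eq]
  exact h.on

end

section

variable {K E N : Type} [Field K] [Algebra ℂ K] [Field E] [Algebra ℂ E] [Field N] [Algebra ℂ N]
  {p : Fin 8 → ℂ} {e : Fin 5 → E} {ι : K →ₐ[ℂ] E} [IsAlgClosed N]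

theorem HE.scale {μ x y r s ε : N} (h : HE p μ x y r s) (hε : ε = 1 ∨ ε = -1) :
    HE p μ (ε * x) (ε * y) r s := by
  rcases hε with rfl | rfl
  · rw [one_mul, one_mul]
    exact h
  · rw [neg_one_mul, neg_one_mul]
    exact h.neg_xy

/-- **The homotopy.** -/
theorem flow1 (h : IsE p e) (hs : Sym e ι) (h2 : Algebra.trdeg ℂ N = 2)
    {μ x y r s r₃ s₃ ρ k₀ k₁ : N} (hE : HE p μ x y r s) (hE₃ : HE p μ (ρ * y) (x / ρ) r₃ s₃)
    (hρ0 : ρ ≠ 0) (hρ : ρ ^ 2 * n20 (amp N p) μ = n02 (amp N p) μ) (hρF : ρ ∈ cl0 {μ})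
    (hk₀ : k₀ ∈ cl0 {μ}) (hk₁ : k₁ ∈ cl0 {μ})
    (hsum : n22 (amp N p) μ * (k₀ + k₁) = -(n11 (amp N p) μ - 2 * ρ * n20 (amp N p) μ))
    (hprod : n22 (amp N p) μ * (k₀ * k₁) = n00 (amp N p) μ) (hne : k₀ ≠ k₁)
    (h20 : n20 (amp N p) μ ≠ 0) (h22 : n22 (amp N p) μ ≠ 0) {m : ℤ} :
    (Th p e ι μ x y r s + Th p e ι μ (ρ * y) (x / ρ) r₃ s₃) -
      (Th p e ι μ (-x) (-y) r s + Th p e ι μ (-(ρ * y)) (-(x / ρ)) r₃ s₃) ∈ Rel m K N := by
  set F : IntermediateField ℂ N := cl0 {μ} with hF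
  have hFc : Cd F := cd_cl0 _
  have hμF : μ ∈ F := subset_cl0 _ rfl
  obtain ⟨hx0, hy0⟩ := ind_ne hE.ind
  have hn20F : n20 (amp N p) μ ∈ F := n20_mem hμF
  have hn22F : n22 (amp N p) μ ∈ F := n22_mem hμF
  have heq := hE.eqn
  set a₂₀ := n20 (amp N p) μ with ha20
  set a₀₂ := n02 (amp N p) μ with ha02
  set a₂₂ := n22 (amp N p) μ with ha22
  set a₁₁ := n11 (amp N p) μ with ha11
  set a₀₀ := n00 (amp N p) μ with ha00
  obtain ⟨k, hk⟩ : ∃ k, k = x * y := ⟨_, rfl⟩
  obtain ⟨f, hf⟩ : ∃ f, f = x + ρ * y := ⟨_, rfl⟩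
  have hcon : a₂₀ * f ^ 2 + a₂₂ * ((k - k₀) * (k - k₁)) = 0 := by
    rw [hk, hf]
    linear_combination heq + y ^ 2 * hρ - (x * y) * hsum + hprod
  -- `k` and `f` are not both in `F`
  have hxy : ∀ M : IntermediateField ℂ N, Cd M → F ≤ M → k ∈ M → f ∈ M → x ∈ M ∧ y ∈ M := by
    intro M hM hFM h3 h4
    have hxM : x ∈ M := by
      refine quad_mem hM (neg_mem h4) (mul_mem (hFM hρF) h3) ?_
      rw [hf, hk]
      ring
    refine ⟨hxM, ?_⟩
    have h5 : y = k * x⁻¹ := by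
      rw [hk]
      field_simp
    rw [h5]
    exact mul_mem h3 (inv_mem hxM)
  have hcontra : k ∈ F → f ∈ F → False := by
    intro h3 h4
    obtain ⟨h5, h6⟩ := hxy F hFc le_rfl h3 h4
    exact not_both hE.ind h5 h6
  have hkk : k - k₀ ≠ 0 := by
    intro h3
    have h4 : k ∈ F := by
      rw [sub_eq_zero.1 h3]
      exact hk₀
    apply hcontra h4
    have h5 : a₂₀ * f ^ 2 = 0 := by
      rw [h3] at hcon
      linear_combination hcon
    have h6 : f = 0 := by
      rcases mul_eq_zero.1 h5 with h7 | h7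
      · exact absurd h7 h20
      · exact pow_eq_zero_iff two_ne_zero |>.1 h7
    rw [h6]
    exact zero_mem F
  obtain ⟨t, ht⟩ : ∃ t, t = f / (k - k₀) := ⟨_, rfl⟩
  have ht1 : t * (k - k₀) = f := by
    rw [ht, div_mul_cancel₀ _ hkk]
  have ht2 : a₂₀ * t ^ 2 * (k - k₀) + a₂₂ * (k - k₁) = 0 := by
    apply mul_left_cancel₀ hkk
    rw [mul_zero]
    rw [← ht1] at hcon
    linear_combination hcon
  have hD : a₂₀ * t ^ 2 + a₂₂ ≠ 0 := by
    intro h0
    have h3 : a₂₂ * (k₀ - k₁) = 0 := by linear_combination ht2 - (k - k₀) * h0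
    rcases mul_eq_zero.1 h3 with h4 | h4
    · exact h22 h4
    · exact hne (sub_eq_zero.1 h4)
  have hkform : k = (a₂₀ * t ^ 2 * k₀ + a₂₂ * k₁) / (a₂₀ * t ^ 2 + a₂₂) := by
    rw [eq_div_iff hD]
    linear_combination ht2
  have hkf : ∀ M : IntermediateField ℂ N, F ≤ M → t ∈ M → k ∈ M ∧ f ∈ M := by
    intro M hFM htM
    have h3 : k ∈ M := by
      rw [hkform]
      exact div_mem (add_mem (mul_mem (mul_mem (hFM hn20F) (pow_mem htM 2)) (hFM hk₀))
        (mul_mem (hFM hn22F) (hFM hk₁)))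
        (add_mem (mul_mem (hFM hn20F) (pow_mem htM 2)) (hFM hn22F))
    refine ⟨h3, ?_⟩
    rw [← ht1]
    exact mul_mem htM (sub_mem h3 (hFM hk₀))
  have htF : t ∉ F := by
    intro h3
    obtain ⟨h4, h5⟩ := hkf F le_rfl h3
    exact hcontra h4 h5
  have htt : Transcendental F t := fun h3 => htF (hFc t h3)
  have htt' : Transcendental F (-t) := by
    intro h3
    apply htF
    have h4 := neg_mem (hFc _ h3)
    rwa [neg_neg] at h4
  have hall : ∀ t' : N, t ∈ clo F {t'} → ∀ z : N,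
      IsAlgebraic (IntermediateField.adjoin F {t'}) z := by
    intro t' ht' z
    rw [← mem_clo]
    obtain ⟨h4, h5⟩ := hkf _ (le_clo F {t'}) ht'
    obtain ⟨h6, h7⟩ := hxy _ (cd_clo _ _) (le_clo F {t'}) h4 h5
    refine cl0_le (cd_clo _ _) ?_ (all2 h2 hE.ind z)
    rintro w (rfl | rfl)
    · exact h6
    · exact h7
  have hall1 := hall t (subset_clo _ _ rfl)
  have hall2 := hall (-t) (by
    have h4 := neg_mem (subset_clo F {-t} rfl)
    rwa [neg_neg] at h4)
  -- the action of automorphisms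
  have key : ∀ ε : N, (ε = 1 ∨ ε = -1) → ∀ g : N ≃ₐ[ℂ] N, (∀ z ∈ F, g z = z) → g t = ε * t →
      act g.toAlgHom (Th p e ι μ x y r s + Th p e ι μ (ρ * y) (x / ρ) r₃ s₃) =
        Th p e ι μ (ε * x) (ε * y) r s + Th p e ι μ (ε * (ρ * y)) (ε * (x / ρ)) r₃ s₃ := by
    intro ε hε g hg hgt
    have hε2 : ε ^ 2 = 1 := by
      rcases hε with rfl | rfl
      · ring
      · ring
    have hgk : g k = k := by
      have h3 := congrArg g ht2
      rw [map_add, map_mul, map_mul, map_mul, map_pow, map_sub, map_sub, map_zero, hg _ hn20F,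
        hg _ hn22F, hg _ hk₀, hg _ hk₁, hgt, mul_pow, hε2, one_mul] at h3
      have h4 : (a₂₀ * t ^ 2 + a₂₂) * (g k - k) = 0 := by linear_combination h3 - ht2
      rcases mul_eq_zero.1 h4 with h5 | h5
      · exact absurd h5 hD
      · exact sub_eq_zero.1 h5
    have hgf : g f = ε * f := by
      rw [← ht1, map_mul, map_sub, hgt, hgk, hg _ hk₀]
      ring
    have hgρ : g ρ = ρ := hg _ hρF
    have hgμ : g μ = μ := hg _ hμF
    have hgk' : g x * g y = x * y := by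
      rw [← map_mul, ← hk, hgk]
    have hgf' : g x + ρ * g y = ε * (x + ρ * y) := by
      have h3 := hgf
      rw [hf, map_add, map_mul, hgρ] at h3
      exact h3
    have h5 : (g x - ε * x) * (g x - ε * (ρ * y)) = 0 := by
      linear_combination (g x) * hgf' - ρ * hgk' + (ρ * x * y) * hε2
    rw [map_add, act_Th h, act_Th h]
    have m1 := hE.map g
    have m3 := hE₃.map g
    rw [hgμ] at m1 m3 ⊢
    rcases mul_eq_zero.1 h5 with h6 | h6
    · have h7 : g x = ε * x := sub_eq_zero.1 h6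
      have h8 : g y = ε * y := by
        apply mul_left_cancel₀ hρ0
        linear_combination hgf' - h7
      have h9 : g (ρ * y) = ε * (ρ * y) := by
        rw [map_mul, hgρ, h8]
        ring
      have h10 : g (x / ρ) = ε * (x / ρ) := by
        rw [map_div₀, hgρ, h7]
        ring
      rw [h7, h8] at m1 ⊢
      rw [h9, h10] at m3 ⊢
      rw [Th_indep h hs (hE.scale hε) m1, Th_indep h hs (hE₃.scale hε) m3]
    · have h7 : g x = ε * (ρ * y) := sub_eq_zero.1 h6
      have h8 : g y = ε * (x / ρ) := by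
        apply mul_left_cancel₀ hρ0
        have h9 : ρ * (ε * (x / ρ)) = ε * x := by
          field_simp
        rw [h9]
        linear_combination hgf' - h7
      have h9 : g (ρ * y) = ε * x := by
        rw [map_mul, hgρ, h8]
        field_simp
      have h10 : g (x / ρ) = ε * y := by
        rw [map_div₀, hgρ, h7]
        field_simp
      rw [h7, h8] at m1 ⊢
      rw [h9, h10] at m3 ⊢
      rw [Th_indep h hs (hE₃.scale hε) m1, Th_indep h hs (hE.scale hε) m3, add_comm]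
  obtain ⟨g₀, hg₀⟩ := exists_move F htt htt' hall1 hall2
  have hom := H521.homotopy F htt ⟨hall1⟩
    (Th p e ι μ x y r s + Th p e ι μ (ρ * y) (x / ρ) r₃ s₃) (by
      intro g hg hgt
      have h3 := key 1 (Or.inl rfl) g hg (by rw [hgt, one_mul])
      rw [one_mul, one_mul, one_mul, one_mul] at h3
      exact h3) (AlgHom.id ℂ N) (g₀.restrictScalars ℂ).toAlgHom (by
      intro z hz
      exact (g₀.commutes ⟨z, hz⟩).symm) (m := m)
  have h3 := key (-1) (Or.inr rfl) (g₀.restrictScalars ℂ) (fun z hz => g₀.commutes ⟨z, hz⟩) (by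
    rw [neg_one_mul]
    exact hg₀)
  rw [neg_one_mul, neg_one_mul, neg_one_mul, neg_one_mul] at h3
  have h4 : Finsupp.mapDomain (fun φ : K →ₐ[ℂ] N => (AlgHom.id ℂ N).comp φ)
      (Th p e ι μ x y r s + Th p e ι μ (ρ * y) (x / ρ) r₃ s₃) =
      Th p e ι μ x y r s + Th p e ι μ (ρ * y) (x / ρ) r₃ s₃ := Finsupp.mapDomain_id
  rw [h4] at hom
  rw [← h3]
  exact hom

end

end Vale.Agent.P297.Z42
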