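import Vale.Agent.P297.H600.Z42B
import Vale.Agent.P297.H2.Integral

/-!
Bloch's conjecture for the quotients: all points are rationally equivalent.
-/

set_option linter.unusedSectionVars false

open IntermediateField Polynomial CategoryTheory AlgebraicGeometry

namespace Vale.Agent.P297.Z42

open Vale.Agent.P297 Vale.Agent.P297.H839 Vale.Agent.P297.H600 Vale.Agent.P297.H729
open Vale.Agent.P297.Gen Vale.Agent.P297.H72 Vale.Agent.P297.G4

section

variable {K E : Type} [Field K] [Algebra ℂ K] [Field E] [Algebra ℂ E]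
  {p : Fin 8 → ℂ} {e : Fin 5 → E} {ι : K →ₐ[ℂ] E}

theorem alg_E (h : IsE p e) (z : E) : IsAlgebraic (IntermediateField.adjoin ℂ {e 0, e 1}) z := by
  have h1 : Set.range ![e 0, e 1] = {e 0, e 1} := H600.range_pair _ _
  have h2 := h.fin
  rw [h1] at h2
  have : FiniteDimensional (IntermediateField.adjoin ℂ {e 0, e 1}) E :=
    FiniteDimensional.of_finrank_pos (by rw [h2]; norm_num)
  exact Algebra.IsAlgebraic.isAlgebraic z

theorem trdeg_E (h : IsE p e) : Algebra.trdeg ℂ E = 2 := by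
  have h1 := (basis_pair (a := e 0) (b := e 1) h.gp.ind (alg_E h)).cardinalMk_eq_trdeg
  rw [← h1, Cardinal.mk_fin]
  rfl

theorem trdeg_closure (h : IsE p e) : Algebra.trdeg ℂ (AlgebraicClosure E) = 2 := by
  have h1 := _root_.trdeg_add_eq ℂ E (A := AlgebraicClosure E)
  rw [trdeg_E h, _root_.trdeg_eq_zero, add_zero] at h1
  exact h1.symm

theorem gp_of_emb (h : IsE p e) {N : Type} [Field N] [Algebra ℂ N] (ψ : E →ₐ[ℂ] N) :
    GP p ![ψ (e 0), ψ (e 1), ψ (e 2), ψ (e 3), ψ (e 4)] := by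
  have h1 := h.gp.map ψ
  exact gp_mk h1.ind h1.on

/-- **Thirty-two times a point is a relation.** -/
theorem rel32 (hp : ParA p) (hq : ParB p) (h : IsE p e) (hs : Sym e ι) :
    Finsupp.single ((IsScalarTower.toAlgHom ℂ E (BigField E 2)).comp ι) (32 : ℤ) ∈
      Rel 0 K (BigField E 2) := by
  have h1 := trdeg_closure h
  let j₀ : E →ₐ[ℂ] AlgebraicClosure E := IsScalarTower.toAlgHom ℂ E (AlgebraicClosure E)
  let j₁ : AlgebraicClosure E →ₐ[E] BigField E 2 := IsAlgClosed.lift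
  let j : AlgebraicClosure E →ₐ[ℂ] BigField E 2 := j₁.restrictScalars ℂ
  let ψ : E →ₐ[ℂ] BigField E 2 := IsScalarTower.toAlgHom ℂ E (BigField E 2)
  have hj : ∀ z : E, j (j₀ z) = ψ z := fun z => j₁.commutes z
  -- the first part
  have hG₀ := gp_of_emb h j₀
  have a1 := Rel.map j (partA hp h hs h1 hG₀ (m := 0))
  have hvec : ∀ (ε : Fin 5 → AlgebraicClosure E) (ε' : Fin 5 → BigField E 2),
      (∀ i, j (ε i) = ε' i) → GP p ε →
      Finsupp.mapDomain (fun φ : K →ₐ[ℂ] AlgebraicClosure E => j.comp φ) (ptK e ι ε) =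
        ptK e ι ε' := by
    intro ε ε' hε hG
    rw [map_ptK h j hG]
    congr 1
    funext i
    exact hε i
  have b1 := hvec ![j₀ (e 0), j₀ (e 1), j₀ (e 2), j₀ (e 3), j₀ (e 4)]
    ![ψ (e 0), ψ (e 1), ψ (e 2), ψ (e 3), ψ (e 4)] (by
      intro i
      fin_cases i
      · exact hj _
      · exact hj _
      · exact hj _
      · exact hj _
      · exact hj _) hG₀
  have b2 := hvec ![j₀ (e 0), j₀ (e 1), j₀ (e 2), j₀ (e 3), -j₀ (e 4)]
    ![ψ (e 0), ψ (e 1), ψ (e 2), ψ (e 3), -ψ (e 4)] (by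
      intro i
      fin_cases i
      · exact hj _
      · exact hj _
      · exact hj _
      · exact hj _
      · change j (-j₀ (e 4)) = -ψ (e 4)
        rw [map_neg, hj]) (gp_neg_v hG₀)
  have hmd : (Finsupp.mapDomain (fun φ : K →ₐ[ℂ] AlgebraicClosure E => j.comp φ) :
      ((K →ₐ[ℂ] AlgebraicClosure E) →₀ ℤ) → ((K →ₐ[ℂ] BigField E 2) →₀ ℤ)) =
      Finsupp.mapDomain.addMonoidHom (fun φ : K →ₐ[ℂ] AlgebraicClosure E => j.comp φ)
        (M := ℤ) := rfl
  rw [hmd, map_zsmul, map_sub, ← hmd, b1, b2] at a1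
  -- the second part
  obtain ⟨c1, c2, c3⟩ := exists_field (Ω := BigField E 2) (e 0) (e 1) h.gp.ind (alg_E h)
    (bigVar E 2) (bigVar_basis E 2)
  have hG := gp_of_emb h ψ
  have a2 : (16 : ℤ) • (ptK e ι ![ψ (e 0), ψ (e 1), ψ (e 2), ψ (e 3), ψ (e 4)] +
      ptK e ι ![ψ (e 0), ψ (e 1), ψ (e 2), ψ (e 3), -ψ (e 4)]) ∈ Rel 0 K (BigField E 2) :=
    Rel.of_stable (partB hp hq h hs c3 hG c1 c2)
  have a3 := AddSubgroup.add_mem _ (AddSubgroup.zsmul_mem _ a1 4) a2
  have e1 : ptK e ι ![ψ (e 0), ψ (e 1), ψ (e 2), ψ (e 3), ψ (e 4)] =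
      Finsupp.single (ψ.comp ι) (1 : ℤ) := by
    refine ptK_eq h ψ fun i => ?_
    fin_cases i <;> rfl
  generalize ptK e ι ![ψ (e 0), ψ (e 1), ψ (e 2), ψ (e 3), -ψ (e 4)] = P' at a3
  generalize ptK e ι ![ψ (e 0), ψ (e 1), ψ (e 2), ψ (e 3), ψ (e 4)] = P at a3 e1
  have e2 : (4 : ℤ) • (4 : ℤ) • (P - P') + (16 : ℤ) • (P + P') = (32 : ℤ) • P := by
    rw [← mul_smul, show (4 : ℤ) * 4 = 16 by norm_num, ← smul_add,
      show (32 : ℤ) = 16 * 2 by norm_num, mul_smul, two_smul ℤ P]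
    congr 1
    abel
  rw [e2, e1, Finsupp.smul_single, smul_eq_mul, mul_one] at a3
  exact a3

/-- **All points are rationally equivalent.** -/
theorem pointsEquivalent (hp : ParA p) (hq : ParB p) (h : IsE p e) (hs : Sym e ι) :
    H839.PointsEquivalent K := by
  intro S _ f _ hS x y
  exact H2.ratEquiv_of_nsmul f (n := 32) (by norm_num)
    (fun u v => Rel.criterion_zero _ 32 (rel32 hp hq h hs) f hS u v) x y

end

end Vale.Agent.P297.Z42
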