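import Vale.Agent.P297.H424.G4.Defs

/-!
The quartics of the quotient of a numerical Campedelli surface with fundamental group `ℤ/4 × ℤ/2`
by its involution: `l (l - 4) U² - V²` with quadratic polynomials `U`, `V`.
-/

open Polynomial

namespace Vale.Agent.P297.Z42

open Vale.Agent.P297.G4

section

variable {R : Type} [CommRing R]

/-- `a' = α l - 2 α + β` -/
def zA (a b l : R) : R := a * l - 2 * a + b

/-- `Q₁` -/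
def zQ1 (c1 a b g l : R) : R := c1 ^ 2 * (l * (l - 4)) - (zA a b l + 2 * g) ^ 2

/-- `Q₂` -/
def zQ2 (c1 a b g l : R) : R := c1 ^ 2 * (l * (l - 4)) - (zA a b l - 2 * g) ^ 2

/-- `W` -/
def zW (c1 c2 a b g l : R) : R :=
  16 * c2 ^ 2 - 2 * c1 ^ 2 * (l * (l - 4)) + 2 * zA a b l ^ 2 - 8 * g ^ 2

/-- The quartic `l (l - 4) (c₁ D + 4 c₂ X)² - (a' D + 2 γ (l + (l - 4) X²))²`,
`D = l - (l - 4) X²`. -/
def zP (c1 c2 a b g l : R) : Fin 5 → R :=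
  ![l ^ 2 * zQ1 c1 a b g l, 8 * c1 * c2 * (l ^ 2 * (l - 4)), l * (l - 4) * zW c1 c2 a b g l,
    -(8 * c1 * c2 * (l * (l - 4) ^ 2)), (l - 4) ^ 2 * zQ2 c1 a b g l]

theorem qv_zP (c1 c2 a b g l X : R) :
    qv (zP c1 c2 a b g l) X = l * (l - 4) * (c1 * (l - (l - 4) * X ^ 2) + 4 * c2 * X) ^ 2 -
      (zA a b l * (l - (l - 4) * X ^ 2) + 2 * g * (l + (l - 4) * X ^ 2)) ^ 2 := by
  change l ^ 2 * zQ1 c1 a b g l + 8 * c1 * c2 * (l ^ 2 * (l - 4)) * X +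
    l * (l - 4) * zW c1 c2 a b g l * X ^ 2 + -(8 * c1 * c2 * (l * (l - 4) ^ 2)) * X ^ 3 +
    (l - 4) ^ 2 * zQ2 c1 a b g l * X ^ 4 = _
  unfold zQ1 zW zQ2
  ring

/-- `p` -/
def zp (c1 c2 a b g l : R) : R :=
  12 * (zQ1 c1 a b g l * zQ2 c1 a b g l) + 192 * c1 ^ 2 * c2 ^ 2 * (l * (l - 4)) +
    zW c1 c2 a b g l ^ 2

/-- `q` -/
def zq (c1 c2 a b g l : R) : R :=
  72 * (zQ1 c1 a b g l * zQ2 c1 a b g l * zW c1 c2 a b g l) -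
    576 * c1 ^ 2 * c2 ^ 2 * (l * (l - 4) * zW c1 c2 a b g l) -
    1728 * c1 ^ 2 * c2 ^ 2 * (l * (l - 4) * (zQ1 c1 a b g l + zQ2 c1 a b g l)) -
    2 * zW c1 c2 a b g l ^ 3

theorem qI_zP (c1 c2 a b g l : R) :
    qI (zP c1 c2 a b g l) = (l * (l - 4)) ^ 2 * zp c1 c2 a b g l := by
  unfold zp
  change 12 * ((l - 4) ^ 2 * zQ2 c1 a b g l * (l ^ 2 * zQ1 c1 a b g l)) -
    3 * (-(8 * c1 * c2 * (l * (l - 4) ^ 2)) * (8 * c1 * c2 * (l ^ 2 * (l - 4)))) +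
    (l * (l - 4) * zW c1 c2 a b g l) ^ 2 = _
  generalize zQ1 c1 a b g l = q1
  generalize zQ2 c1 a b g l = q2
  generalize zW c1 c2 a b g l = w
  ring

theorem qJ_zP (c1 c2 a b g l : R) :
    qJ (zP c1 c2 a b g l) = (l * (l - 4)) ^ 3 * zq c1 c2 a b g l := by
  unfold zq
  change 72 * ((l - 4) ^ 2 * zQ2 c1 a b g l * (l * (l - 4) * zW c1 c2 a b g l) *
      (l ^ 2 * zQ1 c1 a b g l)) +
    9 * (-(8 * c1 * c2 * (l * (l - 4) ^ 2)) * (l * (l - 4) * zW c1 c2 a b g l) *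
      (8 * c1 * c2 * (l ^ 2 * (l - 4)))) -
    27 * ((l - 4) ^ 2 * zQ2 c1 a b g l * (8 * c1 * c2 * (l ^ 2 * (l - 4))) ^ 2) -
    27 * ((-(8 * c1 * c2 * (l * (l - 4) ^ 2))) ^ 2 * (l ^ 2 * zQ1 c1 a b g l)) -
    2 * (l * (l - 4) * zW c1 c2 a b g l) ^ 3 = _
  generalize zQ1 c1 a b g l = q1
  generalize zQ2 c1 a b g l = q2
  generalize zW c1 c2 a b g l = w
  ring

/-- `E₁` -/
def zE (c1 c2 a b g l : R) : R :=
  (4 * c2 ^ 2 - 4 * g ^ 2 + l * (l - 4) * c1 ^ 2 + zA a b l ^ 2) ^ 2 -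
    4 * (l * (l - 4)) * c1 ^ 2 * zA a b l ^ 2

/-- `R₁` -/
def zR (c1 c2 a b g l : R) : R :=
  c1 ^ 2 * g ^ 2 * (l * (l - 4)) - c2 ^ 2 * (zA a b l ^ 2 - 4 * g ^ 2)

theorem disc_zP (c1 c2 a b g l : R) :
    4 * zp c1 c2 a b g l ^ 3 - zq c1 c2 a b g l ^ 2 =
      1769472 * (zE c1 c2 a b g l * zR c1 c2 a b g l ^ 2) := by
  unfold zp zq zE zR zQ1 zQ2 zW
  generalize zA a b l = t
  generalize l * (l - 4) = L
  ring

end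

end Vale.Agent.P297.Z42
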