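import Vale.Agent.P297.H600.ZUHom

/-!
A point and its image under the involution: four times the difference is a relation.
-/

set_option linter.unusedSectionVars false

open IntermediateField Polynomial

namespace Vale.Agent.P297.ZU

open Vale.Agent.P297 Vale.Agent.P297.H839 Vale.Agent.P297.H600 Vale.Agent.P297.H729
open Vale.Agent.P297.Gen Vale.Agent.P297.H72
open Vale.Agent.P297.Z42 (Cd quad_mem sq_mem quad_zero cd_cl0 cd_clo all2 ind2 notMem_cl0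
  notMem_cl0' cl0_empty_le notMem_empty not_both mul_ne)

/-- the degenerate curves -/
def nD {R : Type} [CommRing R] (p : Fin 9 → R) (μ ν : R) : R :=
  (k1 p μ ν ^ 2 - 4 * (k0 p μ ν * k2 p μ ν) + 16 * p 8 * (l1 p μ ν * l2 p μ ν)) ^ 2 -
    64 * (l1 p μ ν * l2 p μ ν) * (k2 p μ ν - p 8 * k0 p μ ν) ^ 2

/-- The conditions on the parameters for the first part. -/
structure ParA (p : Fin 9 → ℂ) : Prop where
  cm : p 0 * p 3 - p 1 * p 2 ≠ 0
  A : p 5 ≠ 0 ∨ p 6 ≠ 0 ∨ p 7 ≠ 0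
  gen : ∀ (N : Type) [Field N] [Algebra ℂ N] [IsAlgClosed N] (μ ν : N),
    μ * ν = amp N p 4 → (μ ∉ cl0 (∅ : Set N) ∨ ν ∉ cl0 (∅ : Set N)) →
      l1 (amp N p) μ ν ≠ 0 ∧ l2 (amp N p) μ ν ≠ 0 ∧ nD (amp N p) μ ν ≠ 0

section

variable {N : Type} [Field N] [Algebra ℂ N] {p : Fin 9 → ℂ}

theorem amp_ne {i : Fin 9} (h : p i ≠ 0) : amp N p i ≠ 0 := by
  intro h0
  exact h ((map_eq_zero_iff _ (algebraMap ℂ N).injective).1 h0)

theorem cm_amp (hp : p 0 * p 3 - p 1 * p 2 ≠ 0) :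
    amp N p 0 * amp N p 3 - amp N p 1 * amp N p 2 ≠ 0 := by
  intro h0
  apply hp
  apply (algebraMap ℂ N).injective
  rw [map_sub, map_mul, map_mul, map_zero]
  exact h0

variable [IsAlgClosed N]

/-- a relation between two independent elements -/
theorem rel_zero {x y q a₀ a₁ a₂ b₁ b₂ : N} (h : AlgebraicIndependent ℂ ![x, q])
    (hxy : x * y = 1 - amp N p 8 * q ^ 2)
    (m0 : a₀ ∈ cl0 (∅ : Set N)) (m1 : a₁ ∈ cl0 (∅ : Set N)) (m2 : a₂ ∈ cl0 (∅ : Set N))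
    (n1 : b₁ ∈ cl0 (∅ : Set N)) (n2 : b₂ ∈ cl0 (∅ : Set N))
    (heq : a₀ + a₁ * q + a₂ * q ^ 2 + b₁ * x ^ 2 + b₂ * y ^ 2 = 0) :
    a₀ = 0 ∧ a₁ = 0 ∧ a₂ = 0 ∧ b₁ = 0 ∧ b₂ = 0 := by
  have hD := eD_ne (p := p) h
  have hq : q ∈ cl0 ({q} : Set N) := subset_cl0 _ rfl
  have hle := cl0_empty_le _ (cd_cl0 ({q} : Set N))
  have hx2 : x ^ 2 ∉ cl0 ({q} : Set N) := fun h1 => notMem_cl0' h (sq_mem (cd_cl0 _) h1)
  have mD : (1 - amp N p 8 * q ^ 2) ∈ cl0 ({q} : Set N) :=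
    sub_mem (one_mem _) (mul_mem (amp_mem _ 8) (pow_mem hq 2))
  obtain ⟨e1, e2, e3⟩ := quad_zero (cd_cl0 _) hx2
    (a := b₁) (b := a₀ + a₁ * q + a₂ * q ^ 2) (c := b₂ * (1 - amp N p 8 * q ^ 2) ^ 2)
    (hle n1) (add_mem (add_mem (hle m0) (mul_mem (hle m1) hq)) (mul_mem (hle m2) (pow_mem hq 2)))
    (mul_mem (hle n2) (pow_mem mD 2)) (by
      rw [← hxy]
      linear_combination x ^ 2 * heq)
  have e4 : b₂ = 0 := (mul_eq_zero.1 e3).resolve_right (pow_ne_zero 2 hD)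
  obtain ⟨f1, f2, f3⟩ := quad_zero (cd_cl0 _) (notMem_empty h).2 m2 m1 m0
    (by linear_combination e2)
  exact ⟨f3, f2, f1, e1, e4⟩

/-- the parameters are not constants -/
theorem mu_tr (hp : ParA p) {μ ν x y q r s : N} (hE : HE p μ ν x y q r s) :
    μ ∉ cl0 (∅ : Set N) ∨ ν ∉ cl0 (∅ : Set N) := by
  have : CharZero N := charZero_of_injective_algebraMap (algebraMap ℂ N).injective
  by_contra hcon
  push Not at hcon
  obtain ⟨hμ, hν⟩ := hcon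
  obtain ⟨e0, e1, e2, f1, f2⟩ := rel_zero hE.ind hE.eq (k0_mem hμ hν) (k1_mem hμ hν)
    (k2_mem hμ hν) (l1_mem hμ hν) (l2_mem hμ hν) hE.eqn
  have hcm := cm_amp (N := N) hp.cm
  have hA : amp N p 5 ≠ 0 ∨ amp N p 6 ≠ 0 ∨ amp N p 7 ≠ 0 := by
    rcases hp.A with h | h | h
    · exact Or.inl (amp_ne h)
    · exact Or.inr (Or.inl (amp_ne h))
    · exact Or.inr (Or.inr (amp_ne h))
  unfold k0 at e0
  unfold k1 at e1
  unfold k2 at e2
  unfold l1 at f1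
  unfold l2 at f2
  have h2 : (μ ^ 2 - ν ^ 2) * amp N p 7 = 0 := by linear_combination (1 / 2) * f1 + (1 / 2) * f2
  have h3 : μ ^ 2 - ν ^ 2 = 0 := by
    rcases hA with h | h | h
    · exact (mul_eq_zero.1 e0).resolve_right h
    · exact (mul_eq_zero.1 e2).resolve_right h
    · exact (mul_eq_zero.1 h2).resolve_right h
  apply hcm
  rw [h3] at f1
  linear_combination amp N p 1 * e1 - amp N p 0 * f1

/-- one parameter generates -/
theorem exists_kappa {μ ν n : N} (hn : n ∈ cl0 (∅ : Set N)) (h : μ * ν = n)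
    (h0 : μ ∉ cl0 (∅ : Set N) ∨ ν ∉ cl0 (∅ : Set N)) :
    ∃ κ : N, μ ∈ cl0 {κ} ∧ ν ∈ cl0 {κ} ∧ (κ = μ ∨ κ = ν) ∧ κ ∉ cl0 (∅ : Set N) := by
  rcases h0 with h0 | h0
  · refine ⟨μ, subset_cl0 _ rfl, ?_, Or.inl rfl, h0⟩
    have hμ0 : μ ≠ 0 := by
      rintro rfl
      exact h0 (zero_mem _)
    have h1 : ν = n * μ⁻¹ := by
      rw [← h]
      field_simp
    rw [h1]
    exact mul_mem (cl0_empty_le _ (cd_cl0 _) hn) (inv_mem (subset_cl0 _ rfl))
  · refine ⟨ν, ?_, subset_cl0 _ rfl, Or.inr rfl, h0⟩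
    have hν0 : ν ≠ 0 := by
      rintro rfl
      exact h0 (zero_mem _)
    have h1 : μ = n * ν⁻¹ := by
      rw [← h]
      field_simp
    rw [h1]
    exact mul_mem (cl0_empty_le _ (cd_cl0 _) hn) (inv_mem (subset_cl0 _ rfl))

/-- two of the curves have no common generic point -/
theorem coprime (cm : p 0 * p 3 - p 1 * p 2 ≠ 0) {x y q : N} {σ : ℂ} (hσ : σ ≠ 0)
    (hq : Transcendental ℂ q) (hxy : x * y = 1 - amp N p 8 * q ^ 2)
    (hT : eT (amp N p) x y q + algebraMap ℂ N σ * eA (amp N p) x y q = 0)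
    (hM : eM (amp N p) x y q = 0) : False := by
  unfold eT eA at hT
  unfold eM at hM
  have h1 : amp N p 3 * (amp N p 0 * q + algebraMap ℂ N σ * (amp N p 5 + amp N p 6 * q ^ 2)) -
      amp N p 1 * amp N p 2 * q = -(amp N p 3 * algebraMap ℂ N σ * amp N p 7 *
        (x ^ 2 + y ^ 2)) := by
    linear_combination amp N p 3 * hT - amp N p 1 * hM
  -- the square
  have h2 : (amp N p 3 * (amp N p 0 * q + algebraMap ℂ N σ * (amp N p 5 + amp N p 6 * q ^ 2)) -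
      amp N p 1 * amp N p 2 * q) ^ 2 =
      algebraMap ℂ N σ ^ 2 * amp N p 7 ^ 2 * (amp N p 2 ^ 2 * q ^ 2 +
        4 * amp N p 3 ^ 2 * (1 - amp N p 8 * q ^ 2) ^ 2) := by
    rw [h1, ← hxy]
    linear_combination (algebraMap ℂ N σ ^ 2 * amp N p 7 ^ 2) *
      (amp N p 3 * (x ^ 2 - y ^ 2) - amp N p 2 * q) * hM
  set P : ℂ[X] := (C (p 3) * (C (p 0) * X + C σ * (C (p 5) + C (p 6) * X ^ 2)) -
      C (p 1) * C (p 2) * X) ^ 2 - C σ ^ 2 * C (p 7) ^ 2 * (C (p 2) ^ 2 * X ^ 2 +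
        4 * C (p 3) ^ 2 * (1 - C (p 8) * X ^ 2) ^ 2) with hP
  have h3 : aeval q P = 0 := by
    rw [hP]
    simp only [map_sub, map_add, map_mul, map_pow, aeval_C, aeval_X, map_one, map_ofNat]
    exact sub_eq_zero.2 h2
  have h4 : P = 0 := transcendental_iff.1 hq P h3
  have h5 : ∀ t : ℂ, (p 3 * (p 0 * t + σ * (p 5 + p 6 * t ^ 2)) - p 1 * p 2 * t) ^ 2 -
      σ ^ 2 * p 7 ^ 2 * (p 2 ^ 2 * t ^ 2 + 4 * p 3 ^ 2 * (1 - p 8 * t ^ 2) ^ 2) = 0 := by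
    intro t
    have h6 := congrArg (fun f : ℂ[X] => f.eval t) h4
    rw [hP] at h6
    simpa only [eval_sub, eval_add, eval_mul, eval_pow, eval_C, eval_X, eval_one, eval_ofNat,
      eval_zero] using h6
  have f0 := h5 0
  have f1 := h5 1
  have f2 := h5 (-1)
  have f3 := h5 2
  have f4 := h5 (-2)
  have g1 : (p 0 * p 3 - p 1 * p 2) * (p 3 * σ * (p 5 + p 6)) = 0 := by
    linear_combination (f1 - f2) / 4
  have g2 : (p 0 * p 3 - p 1 * p 2) * (p 3 * σ * (p 5 + 4 * p 6)) = 0 := by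
    linear_combination (f3 - f4) / 8
  have g1' := (mul_eq_zero.1 g1).resolve_left cm
  have g2' := (mul_eq_zero.1 g2).resolve_left cm
  have g3 : p 3 * σ * p 5 = 0 := by linear_combination (4 * g1' - g2') / 3
  have g4 : p 3 * σ * p 6 = 0 := by linear_combination (g2' - g1') / 3
  have g5 : (p 3 * σ * p 7) ^ 2 = 0 := by
    linear_combination (-f0 + (p 3 * σ * p 5) * g3) / 4
  have g6 : p 3 * σ * p 7 = 0 := pow_eq_zero_iff two_ne_zero |>.1 g5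
  have g7 : (p 0 * p 3 - p 1 * p 2) ^ 2 = σ ^ 2 * p 7 ^ 2 * p 2 ^ 2 := by
    linear_combination f1 - (2 * (p 0 * p 3 - p 1 * p 2) + p 3 * σ * (p 5 + p 6)) * (g3 + g4) +
      4 * (p 3 * σ * p 7) * (1 - p 8) ^ 2 * g6
  by_cases h3' : p 3 = 0
  · -- then `q` is zero
    have h6 : amp N p 3 = 0 := by
      change algebraMap ℂ N (p 3) = 0
      rw [h3', map_zero]
    rw [h6, zero_mul, add_zero] at hM
    have h7 : q ≠ 0 := by
      rintro rfl
      exact hq (isAlgebraic_zero)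
    have h8 : amp N p 2 = 0 := (mul_eq_zero.1 hM).resolve_right h7
    have h9 : p 2 = 0 := (map_eq_zero_iff _ (algebraMap ℂ N).injective).1 h8
    apply cm
    rw [h3', h9]
    ring
  · have h6 : p 7 = 0 := by
      rcases mul_eq_zero.1 g6 with h | h
      · rcases mul_eq_zero.1 h with h' | h'
        · exact absurd h' h3'
        · exact absurd h' hσ
      · exact h
    rw [h6] at g7
    apply cm
    exact pow_eq_zero_iff two_ne_zero |>.1 (by rw [g7]; ring)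

/-- a point of order two on the conic -/
theorem exists_root {μ ν ρ κ : N} (hμF : μ ∈ cl0 {κ}) (hνF : ν ∈ cl0 {κ})
    (hρ : ρ ^ 2 * l1 (amp N p) μ ν = l2 (amp N p) μ ν) (hρF : ρ ∈ cl0 {κ})
    (hD : nD (amp N p) μ ν ≠ 0) :
    ∃ t₀ : N, t₀ ∈ cl0 {κ} ∧
      (k2 (amp N p) μ ν + 2 * ρ * amp N p 8 * l1 (amp N p) μ ν) * t₀ ^ 2 +
        k1 (amp N p) μ ν * t₀ + (k0 (amp N p) μ ν - 2 * ρ * l1 (amp N p) μ ν) = 0 ∧
      2 * (k2 (amp N p) μ ν + 2 * ρ * amp N p 8 * l1 (amp N p) μ ν) * t₀ +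
        k1 (amp N p) μ ν ≠ 0 := by
  have : CharZero N := charZero_of_injective_algebraMap (algebraMap ℂ N).injective
  have ml1 : l1 (amp N p) μ ν ∈ cl0 ({κ} : Set N) := l1_mem hμF hνF
  have mk0 : k0 (amp N p) μ ν ∈ cl0 ({κ} : Set N) := k0_mem hμF hνF
  have mk1 : k1 (amp N p) μ ν ∈ cl0 ({κ} : Set N) := k1_mem hμF hνF
  have mk2 : k2 (amp N p) μ ν ∈ cl0 ({κ} : Set N) := k2_mem hμF hνF
  have mε : amp N p 8 ∈ cl0 ({κ} : Set N) := amp_mem _ 8
  unfold nD at hD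
  generalize l1 (amp N p) μ ν = L₁ at *
  generalize l2 (amp N p) μ ν = L₂ at *
  generalize k0 (amp N p) μ ν = K₀ at *
  generalize k1 (amp N p) μ ν = K₁ at *
  generalize k2 (amp N p) μ ν = K₂ at *
  generalize amp N p 8 = ε at *
  have m2 : (2 : N) ∈ cl0 ({κ} : Set N) := by
    rw [show (2 : N) = 1 + 1 by norm_num]
    exact add_mem (one_mem _) (one_mem _)
  have m4 : (4 : N) ∈ cl0 ({κ} : Set N) := by
    rw [show (4 : N) = 2 * 2 by norm_num]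
    exact mul_mem m2 m2
  obtain ⟨a, ha⟩ : ∃ a, a = K₂ + 2 * ρ * ε * L₁ := ⟨_, rfl⟩
  obtain ⟨c, hc⟩ : ∃ c, c = K₀ - 2 * ρ * L₁ := ⟨_, rfl⟩
  have ma : a ∈ cl0 ({κ} : Set N) := by
    rw [ha]
    exact add_mem mk2 (mul_mem (mul_mem (mul_mem m2 hρF) mε) ml1)
  have mc : c ∈ cl0 ({κ} : Set N) := by
    rw [hc]
    exact sub_mem mk0 (mul_mem (mul_mem m2 hρF) ml1)
  have hdisc : K₁ ^ 2 - 4 * a * c ≠ 0 := by
    intro h0
    apply hD
    rw [ha, hc] at h0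
    have h3 : K₁ ^ 2 - 4 * (K₀ * K₂) + 16 * ε * (L₁ * L₂) = -(8 * ρ * L₁ * (K₂ - ε * K₀)) := by
      linear_combination h0 - 16 * ε * L₁ * hρ
    rw [h3]
    linear_combination 64 * L₁ * (K₂ - ε * K₀) ^ 2 * hρ
  rw [← ha, ← hc]
  by_cases ha0 : a = 0
  · have hK : K₁ ≠ 0 := by
      rintro rfl
      apply hdisc
      rw [ha0]
      ring
    refine ⟨-c / K₁, div_mem (neg_mem mc) mk1, ?_, ?_⟩
    · rw [ha0]
      field_simp
      ring
    · rw [ha0]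
      simpa using hK
  · obtain ⟨δ, hδ⟩ := IsAlgClosed.exists_pow_nat_eq (K₁ ^ 2 - 4 * a * c) (n := 2) (by norm_num)
    have mδ : δ ∈ cl0 ({κ} : Set N) := by
      refine sq_mem (cd_cl0 _) ?_
      rw [hδ]
      exact sub_mem (pow_mem mk1 2) (mul_mem (mul_mem m4 ma) mc)
    refine ⟨(-K₁ + δ) / (2 * a), div_mem (add_mem (neg_mem mk1) mδ) (mul_mem m2 ma), ?_, ?_⟩
    · field_simp
      linear_combination hδ
    · have h3 : 2 * a * ((-K₁ + δ) / (2 * a)) + K₁ = δ := by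
        field_simp
        ring
      rw [h3]
      rintro rfl
      apply hdisc
      rw [← hδ]
      ring

/-- the conjugate point of the curve -/
theorem exists_conj (hp : ParA p) (h2 : Algebra.trdeg ℂ N = 2) {κ μ ν x y q r s ρ : N}
    (hE : HE p μ ν x y q r s) (hκ : κ = μ ∨ κ = ν) (hκ0 : κ ∉ cl0 (∅ : Set N)) (hρ0 : ρ ≠ 0)
    (hρ : ρ ^ 2 * l1 (amp N p) μ ν = l2 (amp N p) μ ν) (hρF : ρ ∈ cl0 {κ}) :
    ∃ r₃ s₃ : N, HE p μ ν (ρ * y) (x / ρ) q r₃ s₃ := by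
  have : CharZero N := charZero_of_injective_algebraMap (algebraMap ℂ N).injective
  obtain ⟨r₃, hr₃⟩ := IsAlgClosed.exists_pow_nat_eq
    (eT (amp N p) (ρ * y) (x / ρ) q + eA (amp N p) (ρ * y) (x / ρ) q) (n := 2) (by norm_num)
  obtain ⟨s₃, hs₃⟩ := IsAlgClosed.exists_pow_nat_eq
    (eT (amp N p) (ρ * y) (x / ρ) q - eA (amp N p) (ρ * y) (x / ρ) q) (n := 2) (by norm_num)
  have hxy' : ρ * y * (x / ρ) = 1 - amp N p 8 * q ^ 2 := by
    rw [← hE.eq]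
    field_simp
  have hon : μ ^ 2 * (eT (amp N p) (ρ * y) (x / ρ) q + eA (amp N p) (ρ * y) (x / ρ) q) +
      ν ^ 2 * (eT (amp N p) (ρ * y) (x / ρ) q - eA (amp N p) (ρ * y) (x / ρ) q) -
      eM (amp N p) (ρ * y) (x / ρ) q = 0 := by
    rw [← n_eq]
    have h1 := hE.eqn
    have h5 : l2 (amp N p) μ ν * (x / ρ) ^ 2 = l1 (amp N p) μ ν * x ^ 2 := by
      rw [← hρ]
      field_simp
    rw [h5]
    linear_combination h1 + y ^ 2 * hρ
  refine ⟨r₃, s₃, hE.mn, ?_, hxy', hr₃, hs₃, hon⟩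
  apply ind2 h2
  set M : IntermediateField ℂ N := cl0 {ρ * y, q} with hM
  have hyρ : y ≠ 0 := (ind_y hE.ind hE.eq).1
  have hρy : ρ * y ≠ 0 := mul_ne_zero hρ0 hyρ
  have ma : ρ * y ∈ M := subset_cl0 _ (Or.inl rfl)
  have mq : q ∈ M := subset_cl0 _ (Or.inr rfl)
  have mD : 1 - amp N p 8 * q ^ 2 ∈ M := sub_mem (one_mem _) (mul_mem (amp_mem _ _) (pow_mem mq 2))
  have mb : x / ρ ∈ M := by
    have h3 : x / ρ = (1 - amp N p 8 * q ^ 2) / (ρ * y) := by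
      rw [← hxy']
      field_simp
    rw [h3]
    exact div_mem mD ma
  have mT : eT (amp N p) (ρ * y) (x / ρ) q ∈ M := add_mem (mul_mem (amp_mem _ _) mq)
    (mul_mem (amp_mem _ _) (sub_mem (pow_mem ma 2) (pow_mem mb 2)))
  have mM : eM (amp N p) (ρ * y) (x / ρ) q ∈ M := add_mem (mul_mem (amp_mem _ _) mq)
    (mul_mem (amp_mem _ _) (sub_mem (pow_mem ma 2) (pow_mem mb 2)))
  have mA : eA (amp N p) (ρ * y) (x / ρ) q ∈ M := add_mem (add_mem (amp_mem _ _)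
    (mul_mem (amp_mem _ _) (pow_mem mq 2))) (mul_mem (amp_mem _ _)
    (add_mem (pow_mem ma 2) (pow_mem mb 2)))
  have hqt : Transcendental ℂ q := hE.ind.transcendental 1
  have mκ : κ ∈ M := by
    by_contra h0
    have h3 : κ ^ 2 ∉ M := fun h => h0 (sq_mem (cd_cl0 _) h)
    rcases hκ with rfl | rfl
    · obtain ⟨e1, e2, -⟩ := quad_zero (cd_cl0 _) h3 (add_mem mT mA) (neg_mem mM)
        (mul_mem (pow_mem (amp_mem M 4) 2) (sub_mem mT mA)) (by
          rw [← hE.mn]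
          linear_combination κ ^ 2 * hon)
      refine coprime hp.cm (σ := 1) one_ne_zero hqt hxy' ?_ (neg_eq_zero.1 e2)
      rw [map_one, one_mul]
      exact e1
    · obtain ⟨e1, e2, -⟩ := quad_zero (cd_cl0 _) h3 (sub_mem mT mA) (neg_mem mM)
        (mul_mem (pow_mem (amp_mem M 4) 2) (add_mem mT mA)) (by
          rw [← hE.mn]
          linear_combination κ ^ 2 * hon)
      refine coprime hp.cm (σ := -1) (neg_ne_zero.2 one_ne_zero) hqt hxy' ?_ (neg_eq_zero.1 e2)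
      rw [map_neg, map_one, neg_one_mul, ← sub_eq_add_neg]
      exact e1
  have mρ : ρ ∈ M := by
    have h3 : cl0 ({κ} : Set N) ≤ M := by
      refine cl0_le (cd_cl0 _) ?_
      rintro _ rfl
      exact mκ
    exact h3 hρF
  have mx : x ∈ M := by
    have h3 : x = x / ρ * ρ := by field_simp
    rw [h3]
    exact mul_mem mb mρ
  intro z
  refine cl0_le (cd_cl0 _) ?_ (all2 h2 hE.ind z)
  rintro w (rfl | rfl)
  · exact mx
  · exact mq

end

section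

variable {K E N : Type} [Field K] [Algebra ℂ K] [Field E] [Algebra ℂ E] [Field N] [Algebra ℂ N]
  {p : Fin 9 → ℂ} {e : Fin 6 → E} {ι : K →ₐ[ℂ] E} [IsAlgClosed N]

/-- **Translation by a point of order two.** -/
theorem flow (hp : ParA p) (h : IsE p e) (hs : Sym e ι) (h2 : Algebra.trdeg ℂ N = 2)
    {μ ν x y q r s : N} (hE : HE p μ ν x y q r s) {m : ℤ} :
    (2 : ℤ) • (Th e ι μ ν x y q r s - Th e ι μ ν (-x) (-y) q r s) ∈ Rel m K N := by
  have hμ := mu_tr hp hE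
  obtain ⟨h20, h02, hD⟩ := hp.gen N μ ν hE.mn hμ
  obtain ⟨κ, hμF, hνF, hκ, hκ0⟩ := exists_kappa (amp_mem _ 4) hE.mn hμ
  obtain ⟨ρ, hρ'⟩ := IsAlgClosed.exists_pow_nat_eq (l2 (amp N p) μ ν / l1 (amp N p) μ ν)
    (n := 2) (by norm_num)
  have hρ : ρ ^ 2 * l1 (amp N p) μ ν = l2 (amp N p) μ ν := by
    rw [hρ', div_mul_cancel₀ _ h20]
  have hρ0 : ρ ≠ 0 := by
    rintro rfl
    apply h02
    rw [← hρ]
    ring
  have hρF : ρ ∈ cl0 {κ} := by
    refine sq_mem (cd_cl0 _) ?_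
    rw [hρ']
    exact div_mem (l2_mem hμF hνF) (l1_mem hμF hνF)
  obtain ⟨r₃, s₃, hE₃⟩ := exists_conj hp h2 hE hκ hκ0 hρ0 hρ hρF
  obtain ⟨t₀, ht₀, hroot, hd⟩ := exists_root hμF hνF hρ hρF hD
  have hρn : (-ρ) ^ 2 * l1 (amp N p) μ ν = l2 (amp N p) μ ν := by rw [neg_sq]; exact hρ
  obtain ⟨t₁, ht₁, hroot', hd'⟩ := exists_root hμF hνF hρn (neg_mem hρF) hD
  have f1 := flow1 h hs h2 hE hE₃ hμF hνF hρ0 hρ hρF ht₀ hroot hd h20 (m := m)
  have hE₃' : HE p μ ν (-ρ * y) (x / -ρ) q r₃ s₃ := by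
    rw [neg_mul, div_neg]
    exact hE₃.neg_xy
  have f2 := flow1 h hs h2 hE hE₃' hμF hνF (neg_ne_zero.2 hρ0) hρn (neg_mem hρF) ht₁ hroot'
    hd' h20 (m := m)
  rw [neg_mul, div_neg, neg_neg, neg_neg] at f2
  have f3 := add_mem f1 f2
  have e1 : (Th e ι μ ν x y q r s + Th e ι μ ν (ρ * y) (x / ρ) q r₃ s₃) -
      (Th e ι μ ν (-x) (-y) q r s + Th e ι μ ν (-(ρ * y)) (-(x / ρ)) q r₃ s₃) +
      ((Th e ι μ ν x y q r s + Th e ι μ ν (-(ρ * y)) (-(x / ρ)) q r₃ s₃) -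
      (Th e ι μ ν (-x) (-y) q r s + Th e ι μ ν (ρ * y) (x / ρ) q r₃ s₃)) =
      (2 : ℤ) • (Th e ι μ ν x y q r s - Th e ι μ ν (-x) (-y) q r s) := by
    rw [two_smul]
    abel
  rw [e1] at f3
  exact f3

/-- the square roots do not vanish -/
theorem rs_ne (cm : p 0 * p 3 - p 1 * p 2 ≠ 0) {x y q r s v : N}
    (hG : GP p ![x, y, q, r, s, v]) : r ≠ 0 ∧ s ≠ 0 := by
  have : CharZero N := charZero_of_injective_algebraMap (algebraMap ℂ N).injective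
  have e0 : x * y = 1 - amp N p 8 * q ^ 2 := hG.on.eq
  have e1 : r ^ 2 = eT (amp N p) x y q + eA (amp N p) x y q := hG.on.er
  have e2 : s ^ 2 = eT (amp N p) x y q - eA (amp N p) x y q := hG.on.es
  have hc : ∀ i, amp N p i ∈ cl0 (∅ : Set N) := fun i => amp_mem _ _
  constructor
  · rintro rfl
    unfold eT eA at e1
    obtain ⟨-, a1, -, b1, b2⟩ := rel_zero (gp_ind hG) e0
      (a₀ := amp N p 5) (a₁ := amp N p 0) (a₂ := amp N p 6) (b₁ := amp N p 1 + amp N p 7)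
      (b₂ := amp N p 7 - amp N p 1) (hc 5) (hc 0) (hc 6) (add_mem (hc 1) (hc 7))
      (sub_mem (hc 7) (hc 1)) (by linear_combination -e1)
    have b0 : amp N p 1 = 0 := by linear_combination (1 / 2) * b1 - (1 / 2) * b2
    apply cm_amp (N := N) cm
    rw [a1, b0]
    ring
  · rintro rfl
    unfold eT eA at e2
    obtain ⟨-, a1, -, b1, b2⟩ := rel_zero (gp_ind hG) e0
      (a₀ := -amp N p 5) (a₁ := amp N p 0) (a₂ := -amp N p 6) (b₁ := amp N p 1 - amp N p 7)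
      (b₂ := -amp N p 7 - amp N p 1) (neg_mem (hc 5)) (hc 0) (neg_mem (hc 6))
      (sub_mem (hc 1) (hc 7)) (sub_mem (neg_mem (hc 7)) (hc 1)) (by linear_combination -e2)
    have b0 : amp N p 1 = 0 := by linear_combination (1 / 2) * b1 - (1 / 2) * b2
    apply cm_amp (N := N) cm
    rw [a1, b0]
    ring

/-- a point lies on a curve -/
theorem he_of_gp {x y q r s v μ ν : N}
    (hG : GP p ![x, y, q, r, s, v]) (hn : μ * ν = amp N p 4) (hv : μ * r + ν * s = v) :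
    HE p μ ν x y q r s := by
  have e0 : x * y = 1 - amp N p 8 * q ^ 2 := hG.on.eq
  have e1 : r ^ 2 = eT (amp N p) x y q + eA (amp N p) x y q := hG.on.er
  have e2 : s ^ 2 = eT (amp N p) x y q - eA (amp N p) x y q := hG.on.es
  have e3 : v ^ 2 = eM (amp N p) x y q + 2 * amp N p 4 * (r * s) := hG.on.ev
  refine ⟨hn, gp_ind hG, e0, e1, e2, ?_⟩
  rw [← e1, ← e2]
  rw [← hv, ← hn] at e3
  linear_combination e3

/-- **The involution.** -/
theorem partA (hp : ParA p) (h : IsE p e) (hs : Sym e ι) (h2 : Algebra.trdeg ℂ N = 2)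
    {x y q r s v : N} (hG : GP p ![x, y, q, r, s, v]) {m : ℤ} :
    (4 : ℤ) • (ptK e ι ![x, y, q, r, s, v] - ptK e ι ![x, y, q, r, s, -v]) ∈ Rel m K N := by
  have : CharZero N := charZero_of_injective_algebraMap (algebraMap ℂ N).injective
  obtain ⟨hr, hs0⟩ := rs_ne hp.cm hG
  obtain ⟨δ, hδ⟩ := IsAlgClosed.exists_pow_nat_eq (v ^ 2 - 4 * r * (amp N p 4 * s))
    (n := 2) (by norm_num)
  obtain ⟨μ, hμ⟩ : ∃ μ : N, r * μ ^ 2 - v * μ + amp N p 4 * s = 0 := by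
    refine ⟨(v + δ) / (2 * r), ?_⟩
    field_simp
    linear_combination hδ
  obtain ⟨ν, hν⟩ : ∃ ν : N, ν * s = v - μ * r := ⟨(v - μ * r) / s, by field_simp⟩
  have hmn : μ * ν = amp N p 4 := by
    apply mul_right_cancel₀ hs0
    linear_combination μ * hν - hμ
  have hv : μ * r + ν * s = v := by linear_combination hν
  obtain ⟨μ', hμ'⟩ : ∃ μ' : N, μ' * r = ν * s := ⟨ν * s / r, by field_simp⟩
  obtain ⟨ν', hν'⟩ : ∃ ν' : N, ν' * s = μ * r := ⟨μ * r / s, by field_simp⟩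
  have hmn' : μ' * ν' = amp N p 4 := by
    apply mul_right_cancel₀ (mul_ne_zero hr hs0)
    linear_combination (ν' * s) * hμ' + (ν * s) * hν' + (r * s) * hmn
  have hv' : μ' * r + ν' * s = v := by linear_combination hμ' + hν' + hv
  have hE := he_of_gp hG hmn hv
  have hE' := he_of_gp hG hmn' hv'
  have f1 := flow hp h hs h2 hE (m := m)
  have f2 := flow hp h hs h2 hE' (m := m)
  rw [Th_neg_xy h hs hE] at f1
  rw [Th_neg_xy h hs hE'] at f2
  unfold Th at f1 f2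
  have e4 : -(μ' * r) + ν' * s = -(-(μ * r) + ν * s) := by
    rw [hμ', hν']
    ring
  rw [hv', e4, neg_neg (-(μ * r) + ν * s)] at f2
  rw [hv] at f1
  have f3 := add_mem f1 f2
  generalize ptK e ι ![x, y, q, -r, s, -(μ * r) + ν * s] = P₁ at f3
  generalize ptK e ι ![x, y, q, -r, s, -(-(μ * r) + ν * s)] = P₂ at f3
  generalize ptK e ι ![x, y, q, r, s, v] = P at f3 ⊢
  generalize ptK e ι ![x, y, q, r, s, -v] = P' at f3 ⊢
  have e5 : (2 : ℤ) • (P + P₁ - (P' + P₂)) + (2 : ℤ) • (P + P₂ - (P' + P₁)) =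
      (4 : ℤ) • (P - P') := by
    rw [← smul_add, show (4 : ℤ) = 2 * 2 by norm_num, mul_smul, two_smul ℤ (P - P')]
    congr 1
    abel
  rw [e5] at f3
  exact f3

end

end Vale.Agent.P297.ZU
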