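import Vale.Agent.P297.H600.ZUPts

/-!
The cycles on the surface attached to the points of its universal cover.
-/

set_option linter.unusedSectionVars false

open IntermediateField Polynomial

namespace Vale.Agent.P297.ZU

open Vale.Agent.P297 Vale.Agent.P297.H839 Vale.Agent.P297.H600 Vale.Agent.P297.H729
open Vale.Agent.P297.Gen

section

variable {K E N N' : Type} [Field K] [Algebra ℂ K] [Field E] [Algebra ℂ E] [Field N] [Algebra ℂ N]
  [Field N'] [Algebra ℂ N'] {p : Fin 9 → ℂ} {e : Fin 6 → E} {ι : K →ₐ[ℂ] E}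

open Classical in
/-- The point of the quotient that is given by a point of the cover. -/
noncomputable def ptK (e : Fin 6 → E) (ι : K →ₐ[ℂ] E) (ξ : Fin 6 → N) : (K →ₐ[ℂ] N) →₀ ℤ :=
  if h : ∃ ψ : E →ₐ[ℂ] N, ∀ i, ψ (e i) = ξ i then
    Finsupp.single ((Classical.choose h).comp ι) (1 : ℤ) else 0

theorem ptK_eq (h : IsE p e) {ξ : Fin 6 → N} (ψ : E →ₐ[ℂ] N) (hψ : ∀ i, ψ (e i) = ξ i) :
    ptK e ι ξ = Finsupp.single (ψ.comp ι) (1 : ℤ) := by
  have h0 : ∃ ψ : E →ₐ[ℂ] N, ∀ i, ψ (e i) = ξ i := ⟨ψ, hψ⟩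
  unfold ptK
  rw [dif_pos h0]
  have h1 : Classical.choose h0 = ψ := h.ext fun i => (Classical.choose_spec h0 i).trans (hψ i).symm
  rw [h1]

theorem ptK_zero {ξ : Fin 6 → N} (h0 : ¬ ∃ ψ : E →ₐ[ℂ] N, ∀ i, ψ (e i) = ξ i) :
    ptK e ι ξ = 0 := by
  unfold ptK
  rw [dif_neg h0]

theorem act_ptK (h : IsE p e) (g : N ≃ₐ[ℂ] N) (ξ : Fin 6 → N) :
    act g.toAlgHom (ptK e ι ξ) = ptK e ι (fun i => g (ξ i)) := by
  by_cases h0 : ∃ ψ : E →ₐ[ℂ] N, ∀ i, ψ (e i) = ξ i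
  · obtain ⟨ψ, hψ⟩ := h0
    rw [ptK_eq h ψ hψ, act_single, ptK_eq h (g.toAlgHom.comp ψ) (fun i => by
      change g (ψ (e i)) = g (ξ i)
      rw [hψ])]
    rfl
  · rw [ptK_zero h0, map_zero, ptK_zero]
    rintro ⟨ψ, hψ⟩
    apply h0
    refine ⟨g.symm.toAlgHom.comp ψ, fun i => ?_⟩
    change g.symm (ψ (e i)) = ξ i
    rw [hψ, AlgEquiv.symm_apply_apply]

theorem map_ptK [IsAlgClosed N] (h : IsE p e) (μ : N →ₐ[ℂ] N') {ξ : Fin 6 → N} (hξ : GP p ξ) :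
    Finsupp.mapDomain (fun φ : K →ₐ[ℂ] N => μ.comp φ) (ptK e ι ξ) =
      ptK e ι (fun i => μ (ξ i)) := by
  obtain ⟨ψ, hψ⟩ := h.exists_emb hξ
  rw [ptK_eq h ψ hψ, Finsupp.mapDomain_single, ptK_eq h (μ.comp ψ) (fun i => by
    change μ (ψ (e i)) = μ (ξ i)
    rw [hψ])]
  rfl

/-- an endomorphism of the cover over the surface -/
theorem ptK_sym [IsAlgClosed N] (h : IsE p e) (τ : E →ₐ[ℂ] E) (hτ : τ.comp ι = ι)
    {ξ ξ' : Fin 6 → N} (hξ : GP p ξ)
    (hv : ∀ ψ : E →ₐ[ℂ] N, (∀ i, ψ (e i) = ξ i) → ∀ i, ψ (τ (e i)) = ξ' i) :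
    ptK e ι ξ' = ptK e ι ξ := by
  obtain ⟨ψ, hψ⟩ := h.exists_emb hξ
  rw [ptK_eq h ψ hψ, ptK_eq h (ψ.comp τ) (hv ψ hψ), AlgHom.comp_assoc, hτ]

/-- The group acts on the cover, and the surface is a quotient of the cover by a group that contains
it. -/
structure Sym (e : Fin 6 → E) (ι : K →ₐ[ℂ] E) : Prop where
  z : ∃ τ : E →ₐ[ℂ] E, τ.comp ι = ι ∧ τ (e 0) = e 0 ∧ τ (e 1) = e 1 ∧ τ (e 2) = e 2 ∧
    τ (e 3) = -e 3 ∧ τ (e 4) = -e 4 ∧ τ (e 5) = -e 5
  b : ∃ τ : E →ₐ[ℂ] E, τ.comp ι = ι ∧ τ (e 0) = -e 0 ∧ τ (e 1) = -e 1 ∧ τ (e 2) = e 2 ∧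
    τ (e 3) = -e 3 ∧ τ (e 4) = -e 4 ∧ τ (e 5) = e 5
  a : ∃ τ : E →ₐ[ℂ] E, τ.comp ι = ι ∧ τ (e 0) = e 1 ∧ τ (e 1) = e 0 ∧ τ (e 2) = -e 2 ∧
    τ (e 3) = algebraMap ℂ E Complex.I * e 4 ∧ τ (e 4) = algebraMap ℂ E Complex.I * e 3 ∧
    τ (e 5) = algebraMap ℂ E Complex.I * e 5

variable [IsAlgClosed N]

theorem Sym.pz (hs : Sym e ι) (h : IsE p e) {x y q r s v : N} (hG : GP p ![x, y, q, r, s, v]) :
    ptK e ι ![x, y, q, -r, -s, -v] = ptK e ι ![x, y, q, r, s, v] := by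
  obtain ⟨τ, h1, t0, t1, t2, t3, t4, t5⟩ := hs.z
  refine ptK_sym h τ h1 hG fun ψ hψ i => ?_
  fin_cases i
  · change ψ (τ (e 0)) = x
    rw [t0]
    exact hψ 0
  · change ψ (τ (e 1)) = y
    rw [t1]
    exact hψ 1
  · change ψ (τ (e 2)) = q
    rw [t2]
    exact hψ 2
  · change ψ (τ (e 3)) = -r
    rw [t3, map_neg, hψ 3]
    rfl
  · change ψ (τ (e 4)) = -s
    rw [t4, map_neg, hψ 4]
    rfl
  · change ψ (τ (e 5)) = -v
    rw [t5, map_neg, hψ 5]
    rfl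

theorem Sym.pb (hs : Sym e ι) (h : IsE p e) {x y q r s v : N} (hG : GP p ![x, y, q, r, s, v]) :
    ptK e ι ![-x, -y, q, -r, -s, v] = ptK e ι ![x, y, q, r, s, v] := by
  obtain ⟨τ, h1, t0, t1, t2, t3, t4, t5⟩ := hs.b
  refine ptK_sym h τ h1 hG fun ψ hψ i => ?_
  fin_cases i
  · change ψ (τ (e 0)) = -x
    rw [t0, map_neg, hψ 0]
    rfl
  · change ψ (τ (e 1)) = -y
    rw [t1, map_neg, hψ 1]
    rfl
  · change ψ (τ (e 2)) = q
    rw [t2]
    exact hψ 2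
  · change ψ (τ (e 3)) = -r
    rw [t3, map_neg, hψ 3]
    rfl
  · change ψ (τ (e 4)) = -s
    rw [t4, map_neg, hψ 4]
    rfl
  · change ψ (τ (e 5)) = v
    rw [t5]
    exact hψ 5

theorem Sym.pa (hs : Sym e ι) (h : IsE p e) {x y q r s v : N} (hG : GP p ![x, y, q, r, s, v]) :
    ptK e ι ![y, x, -q, algebraMap ℂ N Complex.I * s, algebraMap ℂ N Complex.I * r,
      algebraMap ℂ N Complex.I * v] = ptK e ι ![x, y, q, r, s, v] := by
  obtain ⟨τ, h1, t0, t1, t2, t3, t4, t5⟩ := hs.a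
  refine ptK_sym h τ h1 hG fun ψ hψ i => ?_
  fin_cases i
  · change ψ (τ (e 0)) = y
    rw [t0]
    exact hψ 1
  · change ψ (τ (e 1)) = x
    rw [t1]
    exact hψ 0
  · change ψ (τ (e 2)) = -q
    rw [t2, map_neg, hψ 2]
    rfl
  · change ψ (τ (e 3)) = algebraMap ℂ N Complex.I * s
    rw [t3, map_mul, AlgHom.commutes, hψ 4]
    rfl
  · change ψ (τ (e 4)) = algebraMap ℂ N Complex.I * r
    rw [t4, map_mul, AlgHom.commutes, hψ 3]
    rfl
  · change ψ (τ (e 5)) = algebraMap ℂ N Complex.I * v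
    rw [t5, map_mul, AlgHom.commutes, hψ 5]
    rfl

end

section

variable {N : Type} [Field N] [Algebra ℂ N] {p : Fin 9 → ℂ}

/-- generic points from the equations -/
theorem gp_mk {x y q r s v : N} (hind : AlgebraicIndependent ℂ ![x, q])
    (h : OnX (amp N p) x y q r s v) : GP p ![x, y, q, r, s, v] := ⟨hind, h⟩

theorem gp_on {x y q r s v : N} (h : GP p ![x, y, q, r, s, v]) :
    OnX (amp N p) x y q r s v := h.on

theorem gp_ind {x y q r s v : N} (h : GP p ![x, y, q, r, s, v]) :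
    AlgebraicIndependent ℂ ![x, q] := h.ind

theorem ind_neg1 {x q : N} (h : AlgebraicIndependent ℂ ![x, q]) :
    AlgebraicIndependent ℂ ![-x, q] := by
  rw [pair_iff'] at h ⊢
  obtain ⟨h1, h2⟩ := h
  have h3 : IntermediateField.adjoin ℂ {-x} = IntermediateField.adjoin ℂ {x} := by
    apply le_antisymm
    · rw [IntermediateField.adjoin_simple_le_iff]
      exact neg_mem (IntermediateField.mem_adjoin_simple_self ℂ x)
    · rw [IntermediateField.adjoin_simple_le_iff]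
      have h4 := neg_mem (IntermediateField.mem_adjoin_simple_self ℂ (-x))
      rwa [neg_neg] at h4
  refine ⟨fun h4 => h1 ?_, ?_⟩
  · have h5 := h4.neg
    rwa [neg_neg] at h5
  · rw [h3]
    exact h2

theorem ind_neg2 {x q : N} (h : AlgebraicIndependent ℂ ![x, q]) :
    AlgebraicIndependent ℂ ![x, -q] := by
  rw [pair_iff'] at h ⊢
  obtain ⟨h1, h2⟩ := h
  refine ⟨h1, fun h4 => h2 ?_⟩
  have h5 := h4.neg
  rwa [neg_neg] at h5

theorem eT_neg (q : Fin 9 → N) (x y z : N) : eT q (-x) (-y) z = eT q x y z := by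
  unfold eT; ring

theorem eM_neg (q : Fin 9 → N) (x y z : N) : eM q (-x) (-y) z = eM q x y z := by
  unfold eM; ring

theorem eA_neg (q : Fin 9 → N) (x y z : N) : eA q (-x) (-y) z = eA q x y z := by
  unfold eA; ring

theorem eT_swap (q : Fin 9 → N) (x y z : N) : eT q y x (-z) = -eT q x y z := by
  unfold eT; ring

theorem eM_swap (q : Fin 9 → N) (x y z : N) : eM q y x (-z) = -eM q x y z := by
  unfold eM; ring

theorem eA_swap (q : Fin 9 → N) (x y z : N) : eA q y x (-z) = eA q x y z := by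
  unfold eA; ring

theorem onX_neg_v {P : Fin 9 → N} {x y q r s v : N} (h : OnX P x y q r s v) :
    OnX P x y q r s (-v) := ⟨h.eq, h.er, h.es, by rw [neg_sq]; exact h.ev⟩

theorem onX_neg_rs {P : Fin 9 → N} {x y q r s v : N} (h : OnX P x y q r s v) :
    OnX P x y q (-r) (-s) v :=
  ⟨h.eq, by rw [neg_sq]; exact h.er, by rw [neg_sq]; exact h.es, by rw [neg_mul_neg]; exact h.ev⟩

theorem onX_neg_xy {P : Fin 9 → N} {x y q r s v : N} (h : OnX P x y q r s v) :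
    OnX P (-x) (-y) q r s v :=
  ⟨by rw [neg_mul_neg]; exact h.eq, by rw [eT_neg, eA_neg]; exact h.er,
    by rw [eT_neg, eA_neg]; exact h.es, by rw [eM_neg]; exact h.ev⟩

theorem gp_neg_v {x y q r s v : N} (h : GP p ![x, y, q, r, s, v]) :
    GP p ![x, y, q, r, s, -v] := gp_mk h.ind (onX_neg_v h.on)

theorem gp_neg_rs {x y q r s v : N} (h : GP p ![x, y, q, r, s, v]) :
    GP p ![x, y, q, -r, -s, v] := gp_mk h.ind (onX_neg_rs h.on)

theorem gp_neg_xy {x y q r s v : N} (h : GP p ![x, y, q, r, s, v]) :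
    GP p ![-x, -y, q, r, s, v] := gp_mk (ind_neg1 h.ind) (onX_neg_xy h.on)

theorem I_sq : algebraMap ℂ N Complex.I ^ 2 = -1 := by
  rw [← map_pow, Complex.I_sq, map_neg, map_one]

theorem transc_of {c q : N} {P : ℂ[X]} (hq : Transcendental ℂ q) (hP : P ≠ 0)
    (h : aeval q P = c) : c ≠ 0 := by
  rintro rfl
  exact hP (transcendental_iff.1 hq P h)

/-- `1 - ε q²` is not zero -/
theorem eD_ne {x q : N} (h : AlgebraicIndependent ℂ ![x, q]) : 1 - amp N p 8 * q ^ 2 ≠ 0 := by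
  refine transc_of (P := 1 - C (p 8) * X ^ 2) (h.transcendental 1) ?_ ?_
  · intro h0
    have h1 := congrArg (fun f : ℂ[X] => f.eval 0) h0
    simp at h1
  · simp only [map_sub, map_one, map_mul, aeval_C, map_pow, aeval_X]
    rfl

theorem ind_y {x y q : N} (h : AlgebraicIndependent ℂ ![x, q])
    (h1 : x * y = 1 - amp N p 8 * q ^ 2) : y ≠ 0 ∧ AlgebraicIndependent ℂ ![y, q] := by
  have hD := eD_ne (p := p) h
  have hy : y ≠ 0 := by
    rintro rfl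
    apply hD
    rw [← h1, mul_zero]
  refine ⟨hy, ?_⟩
  have hx := (ind_ne h).1
  apply pair_swap
  have h2 := pair_swap h
  rw [pair_iff'] at h2 ⊢
  refine ⟨h2.1, fun h3 => h2.2 ?_⟩
  have h4 : x = algebraMap (IntermediateField.adjoin ℂ {q}) N
      ⟨1 - amp N p 8 * q ^ 2, sub_mem (one_mem _) (mul_mem (_root_.algebraMap_mem _ _)
        (pow_mem (IntermediateField.mem_adjoin_simple_self ℂ q) 2))⟩ * y⁻¹ := by
    change x = (1 - amp N p 8 * q ^ 2) * y⁻¹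
    rw [← h1]
    field_simp
  rw [h4]
  exact (isAlgebraic_algebraMap _).mul h3.inv

theorem gp_a {x y q r s v : N} (h : GP p ![x, y, q, r, s, v]) :
    GP p ![y, x, -q, algebraMap ℂ N Complex.I * s, algebraMap ℂ N Complex.I * r,
      algebraMap ℂ N Complex.I * v] := by
  have e0 : x * y = 1 - amp N p 8 * q ^ 2 := h.on.eq
  have e1 : r ^ 2 = eT (amp N p) x y q + eA (amp N p) x y q := h.on.er
  have e2 : s ^ 2 = eT (amp N p) x y q - eA (amp N p) x y q := h.on.es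
  have e3 : v ^ 2 = eM (amp N p) x y q + 2 * amp N p 4 * (r * s) := h.on.ev
  have hI := I_sq (N := N)
  generalize algebraMap ℂ N Complex.I = I at hI
  refine gp_mk (ind_neg2 (ind_y h.ind e0).2) ⟨?_, ?_, ?_, ?_⟩
  · rw [mul_comm, e0, neg_sq]
  · rw [eT_swap, eA_swap, mul_pow, hI, e2]
    ring
  · rw [eT_swap, eA_swap, mul_pow, hI, e1]
    ring
  · rw [eM_swap, mul_pow, hI, e3]
    have h1 : I * s * (I * r) = I ^ 2 * (r * s) := by ring
    rw [h1, hI]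
    ring

end

end Vale.Agent.P297.ZU
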