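import Vale.Agent.P297.H600.Z42Deg2

/-!
The quartics of the uniform model, the degrees of the invariants, the discriminant.
-/

open Polynomial

namespace Vale.Agent.P297.ZU

open Vale.Agent.P297.G4
open Vale.Agent.P297.Z42 (zA zQ1 zQ2 zW zP zp zq zE zR disc_zP)

section

variable (c1 c2 α β g ε : ℂ)

/-- `(1 - ε) l + 4 ε` -/
noncomputable def uD : ℂ[X] := C (1 - ε) * X + C (4 * ε)

/-- the quartic over the polynomials -/
noncomputable def uPX : Fin 5 → ℂ[X] :=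
  zP (C c1) (C c2 * uD ε) (C (α + β)) (C (2 * α - 2 * β)) (C g * uD ε) X

noncomputable def upX : ℂ[X] :=
  zp (C c1) (C c2 * uD ε) (C (α + β)) (C (2 * α - 2 * β)) (C g * uD ε) X

noncomputable def uqX : ℂ[X] :=
  zq (C c1) (C c2 * uD ε) (C (α + β)) (C (2 * α - 2 * β)) (C g * uD ε) X

noncomputable def uEX : ℂ[X] :=
  zE (C c1) (C c2 * uD ε) (C (α + β)) (C (2 * α - 2 * β)) (C g * uD ε) X

noncomputable def uRX : ℂ[X] :=
  C (c1 ^ 2 * g ^ 2) * (X * (X - 4)) - C (c2 ^ 2) * (C (α + β) * X - C (4 * β)) ^ 2 +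
    C (4 * c2 ^ 2 * g ^ 2) * uD ε ^ 2

theorem natDegree_upX : (upX c1 c2 α β g ε).natDegree ≤ 4 := by
  unfold upX zp zQ1 zQ2 zW zA uD
  compute_degree

theorem natDegree_uqX : (uqX c1 c2 α β g ε).natDegree ≤ 6 := by
  unfold uqX zq zQ1 zQ2 zW zA uD
  compute_degree

theorem natDegree_uEX : (uEX c1 c2 α β g ε).natDegree ≤ 4 := by
  unfold uEX zE zA uD
  compute_degree

theorem uRX_eq : uRX c1 c2 α β g ε =
    C (c1 ^ 2 * g ^ 2 - c2 ^ 2 * (α + β) ^ 2 + 4 * c2 ^ 2 * g ^ 2 * (1 - ε) ^ 2) * X ^ 2 +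
      C (-4 * c1 ^ 2 * g ^ 2 + 8 * c2 ^ 2 * (α + β) * β +
        32 * c2 ^ 2 * g ^ 2 * (1 - ε) * ε) * X +
      C (-16 * c2 ^ 2 * β ^ 2 + 64 * c2 ^ 2 * g ^ 2 * ε ^ 2) := by
  unfold uRX uD
  simp only [C_add, C_sub, C_mul, C_pow, C_neg, C_1]
  simp only [map_ofNat]
  ring

theorem natDegree_uRX : (uRX c1 c2 α β g ε).natDegree ≤ 2 := by
  rw [uRX_eq]
  compute_degree

theorem disc_uPX : 4 * upX c1 c2 α β g ε ^ 3 - uqX c1 c2 α β g ε ^ 2 =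
    C 1769472 * (uEX c1 c2 α β g ε * (uD ε ^ 2 * uRX c1 c2 α β g ε) ^ 2) := by
  have h1 := disc_zP (C c1) (C c2 * uD ε) (C (α + β)) (C (2 * α - 2 * β)) (C g * uD ε) (X : ℂ[X])
  rw [show (C 1769472 : ℂ[X]) = 1769472 from map_ofNat C 1769472]
  have h2 : zR (C c1) (C c2 * uD ε) (C (α + β)) (C (2 * α - 2 * β)) (C g * uD ε) (X : ℂ[X]) =
      uD ε ^ 2 * uRX c1 c2 α β g ε := by
    unfold zR zA uRX
    simp only [C_add, C_sub, C_mul, C_pow]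
    simp only [map_ofNat]
    ring
  rw [← h2]
  exact h1

theorem uD_ne : uD ε ≠ 0 := by
  intro h
  unfold uD at h
  have h0 := congrArg (Polynomial.eval 0) h
  have h1 := congrArg (Polynomial.eval 1) h
  simp at h0 h1
  rw [h0] at h1
  norm_num at h1

/-- `E` as a function of `l` -/
theorem eval_uEX (l : ℂ) : (uEX c1 c2 α β g ε).eval l =
    ((4 * c2 ^ 2 - 4 * g ^ 2) * ((1 - ε) * l + 4 * ε) ^ 2 + l * (l - 4) * c1 ^ 2 +
      (α * l + β * (l - 4)) ^ 2) ^ 2 - 4 * (l * (l - 4)) * c1 ^ 2 *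
      (α * l + β * (l - 4)) ^ 2 := by
  unfold uEX zE zA uD
  simp only [eval_sub, eval_add, eval_mul, eval_pow, eval_C, eval_X, eval_ofNat]
  ring

theorem eval_uRX (l : ℂ) : (uRX c1 c2 α β g ε).eval l =
    c1 ^ 2 * g ^ 2 * (l * (l - 4)) - c2 ^ 2 * (α * l + β * (l - 4)) ^ 2 +
      4 * c2 ^ 2 * g ^ 2 * ((1 - ε) * l + 4 * ε) ^ 2 := by
  unfold uRX uD
  simp only [eval_sub, eval_add, eval_mul, eval_pow, eval_C, eval_X, eval_ofNat]
  ring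

end

end Vale.Agent.P297.ZU
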