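import Vale.Agent.P297.H600.ZUCyc
import Vale.Agent.P297.H600.Z42Clo

/-!
The curves `v = μ r + ν s`, `μ ν = n`, on the universal cover.
-/

set_option linter.unusedSectionVars false

open IntermediateField Polynomial

namespace Vale.Agent.P297.ZU

open Vale.Agent.P297 Vale.Agent.P297.H839 Vale.Agent.P297.H600 Vale.Agent.P297.H729
open Vale.Agent.P297.Gen Vale.Agent.P297.H72

section

variable {R : Type} [CommRing R]

/-- the coefficients of the curve `μ² (T + A) + ν² (T - A) - M = 0` -/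
def k0 (p : Fin 9 → R) (μ ν : R) : R := (μ ^ 2 - ν ^ 2) * p 5

/-- the coefficient of `q` -/
def k1 (p : Fin 9 → R) (μ ν : R) : R := (μ ^ 2 + ν ^ 2) * p 0 - p 2

/-- the coefficient of `q²` -/
def k2 (p : Fin 9 → R) (μ ν : R) : R := (μ ^ 2 - ν ^ 2) * p 6

/-- the coefficient of `x²` -/
def l1 (p : Fin 9 → R) (μ ν : R) : R := (μ ^ 2 + ν ^ 2) * p 1 - p 3 + (μ ^ 2 - ν ^ 2) * p 7

/-- the coefficient of `y²` -/
def l2 (p : Fin 9 → R) (μ ν : R) : R := -((μ ^ 2 + ν ^ 2) * p 1 - p 3) + (μ ^ 2 - ν ^ 2) * p 7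

theorem n_eq (p : Fin 9 → R) (μ ν x y q : R) :
    k0 p μ ν + k1 p μ ν * q + k2 p μ ν * q ^ 2 + l1 p μ ν * x ^ 2 + l2 p μ ν * y ^ 2 =
    μ ^ 2 * (eT p x y q + eA p x y q) + ν ^ 2 * (eT p x y q - eA p x y q) - eM p x y q := by
  unfold k0 k1 k2 l1 l2 eT eA eM
  ring

end

section

variable {K E N : Type} [Field K] [Algebra ℂ K] [Field E] [Algebra ℂ E] [Field N] [Algebra ℂ N]
  {p : Fin 9 → ℂ} {e : Fin 6 → E} {ι : K →ₐ[ℂ] E}

/-- A point of the curve with parameters `μ`, `ν`, and the square roots. -/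
structure HE (p : Fin 9 → ℂ) (μ ν x y q r s : N) : Prop where
  mn : μ * ν = amp N p 4
  ind : AlgebraicIndependent ℂ ![x, q]
  eq : x * y = 1 - amp N p 8 * q ^ 2
  er : r ^ 2 = eT (amp N p) x y q + eA (amp N p) x y q
  es : s ^ 2 = eT (amp N p) x y q - eA (amp N p) x y q
  on : μ ^ 2 * (eT (amp N p) x y q + eA (amp N p) x y q) +
    ν ^ 2 * (eT (amp N p) x y q - eA (amp N p) x y q) - eM (amp N p) x y q = 0

theorem HE.gp1 {μ ν x y q r s : N} (h : HE p μ ν x y q r s) :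
    GP p ![x, y, q, r, s, μ * r + ν * s] := by
  refine gp_mk h.ind ⟨h.eq, h.er, h.es, ?_⟩
  have h1 := h.on
  rw [← h.er, ← h.es] at h1
  linear_combination h1 + 2 * (r * s) * h.mn

theorem HE.neg_r {μ ν x y q r s : N} (h : HE p μ ν x y q r s) : HE p μ ν x y q (-r) s :=
  ⟨h.mn, h.ind, h.eq, by rw [neg_sq]; exact h.er, h.es, h.on⟩

theorem HE.neg_s {μ ν x y q r s : N} (h : HE p μ ν x y q r s) : HE p μ ν x y q r (-s) :=
  ⟨h.mn, h.ind, h.eq, h.er, by rw [neg_sq]; exact h.es, h.on⟩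

theorem HE.neg_xy {μ ν x y q r s : N} (h : HE p μ ν x y q r s) : HE p μ ν (-x) (-y) q r s :=
  ⟨h.mn, ind_neg1 h.ind, by rw [neg_mul_neg]; exact h.eq, by rw [eT_neg, eA_neg]; exact h.er,
    by rw [eT_neg, eA_neg]; exact h.es, by rw [eT_neg, eA_neg, eM_neg]; exact h.on⟩

theorem HE.gp2 {μ ν x y q r s : N} (h : HE p μ ν x y q r s) :
    GP p ![x, y, q, -r, s, -(μ * r) + ν * s] := by
  have h1 := h.neg_r.gp1
  rw [mul_neg] at h1
  exact h1

theorem HE.map {μ ν x y q r s : N} (h : HE p μ ν x y q r s) (g : N ≃ₐ[ℂ] N) :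
    HE p (g μ) (g ν) (g x) (g y) (g q) (g r) (g s) := by
  have hT := map_eT (p := p) g.toAlgHom x y q
  have hM := map_eM (p := p) g.toAlgHom x y q
  have hA := map_eA (p := p) g.toAlgHom x y q
  change g (eT (amp N p) x y q) = eT (amp N p) (g x) (g y) (g q) at hT
  change g (eM (amp N p) x y q) = eM (amp N p) (g x) (g y) (g q) at hM
  change g (eA (amp N p) x y q) = eA (amp N p) (g x) (g y) (g q) at hA
  have h8 := (h.gp1.map g.toAlgHom).on.eq
  refine ⟨?_, (h.gp1.map g.toAlgHom).ind, h8, ?_, ?_, ?_⟩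
  · rw [← map_mul, h.mn]
    exact g.commutes _
  · rw [← map_pow, h.er, map_add, hT, hA]
  · rw [← map_pow, h.es, map_sub, hT, hA]
  · have h1 := congrArg g h.on
    rw [map_sub, map_add, map_mul, map_mul, map_add, map_sub, map_pow, map_pow, map_zero, hT, hM,
      hA] at h1
    exact h1

/-- The two points of the surface over a point of the curve. -/
noncomputable def Th (e : Fin 6 → E) (ι : K →ₐ[ℂ] E) (μ ν x y q r s : N) :
    (K →ₐ[ℂ] N) →₀ ℤ :=
  ptK e ι ![x, y, q, r, s, μ * r + ν * s] + ptK e ι ![x, y, q, -r, s, -(μ * r) + ν * s]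

theorem Th_neg_r (μ ν x y q r s : N) : Th e ι μ ν x y q (-r) s = Th e ι μ ν x y q r s := by
  unfold Th
  rw [mul_neg, neg_neg, neg_neg, add_comm]

variable [IsAlgClosed N]

theorem Th_neg_both (h : IsE p e) (hs : Sym e ι) {μ ν x y q r s : N}
    (hE : HE p μ ν x y q r s) : Th e ι μ ν x y q (-r) (-s) = Th e ι μ ν x y q r s := by
  unfold Th
  have h1 := hs.pz h hE.gp1
  have h2 := hs.pz h hE.gp2
  have e1 : μ * -r + ν * -s = -(μ * r + ν * s) := by ring
  have e2 : -(μ * -r) + ν * -s = -(-(μ * r) + ν * s) := by ring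
  rw [e1, e2, h1, h2]

theorem Th_neg_s (h : IsE p e) (hs : Sym e ι) {μ ν x y q r s : N} (hE : HE p μ ν x y q r s) :
    Th e ι μ ν x y q r (-s) = Th e ι μ ν x y q r s := by
  rw [← Th_neg_r, Th_neg_both h hs hE]

/-- the cycle does not depend on the square roots -/
theorem Th_indep (h : IsE p e) (hs : Sym e ι) {μ ν x y q r s r' s' : N}
    (hE : HE p μ ν x y q r s) (hE' : HE p μ ν x y q r' s') :
    Th e ι μ ν x y q r' s' = Th e ι μ ν x y q r s := by
  have h1 : (r' - r) * (r' + r) = 0 := by linear_combination hE'.er - hE.er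
  have h2 : (s' - s) * (s' + s) = 0 := by linear_combination hE'.es - hE.es
  rcases mul_eq_zero.1 h1 with h3 | h3 <;> rcases mul_eq_zero.1 h2 with h4 | h4
  · rw [sub_eq_zero.1 h3, sub_eq_zero.1 h4]
  · rw [sub_eq_zero.1 h3, eq_neg_of_add_eq_zero_left h4, Th_neg_s h hs hE]
  · rw [eq_neg_of_add_eq_zero_left h3, sub_eq_zero.1 h4, Th_neg_r]
  · rw [eq_neg_of_add_eq_zero_left h3, eq_neg_of_add_eq_zero_left h4, Th_neg_both h hs hE]

theorem act_Th (h : IsE p e) (g : N ≃ₐ[ℂ] N) (μ ν x y q r s : N) :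
    act g.toAlgHom (Th e ι μ ν x y q r s) = Th e ι (g μ) (g ν) (g x) (g y) (g q) (g r) (g s) := by
  unfold Th
  rw [map_add, act_ptK h, act_ptK h]
  congr 2
  · funext i
    fin_cases i
    · rfl
    · rfl
    · rfl
    · rfl
    · rfl
    · change g (μ * r + ν * s) = _
      rw [map_add, map_mul, map_mul]
      rfl
  · funext i
    fin_cases i
    · rfl
    · rfl
    · rfl
    · exact map_neg g r
    · rfl
    · change g (-(μ * r) + ν * s) = _
      rw [map_add, map_neg, map_mul, map_mul]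
      rfl

/-- the other lift: the involution -/
theorem Th_neg_xy (h : IsE p e) (hs : Sym e ι) {μ ν x y q r s : N} (hE : HE p μ ν x y q r s) :
    Th e ι μ ν (-x) (-y) q r s =
      ptK e ι ![x, y, q, r, s, -(μ * r + ν * s)] +
        ptK e ι ![x, y, q, -r, s, -(-(μ * r) + ν * s)] := by
  unfold Th
  have h1 := hs.pb h (gp_neg_rs hE.gp1)
  have h2 := hs.pb h (gp_neg_rs hE.gp2)
  rw [neg_neg, neg_neg] at h1
  rw [neg_neg, neg_neg] at h2
  have h3 := hs.pz h (gp_neg_v hE.gp1)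
  have h4 := hs.pz h (gp_neg_v hE.gp2)
  rw [neg_neg] at h3
  rw [neg_neg (-(μ * r) + ν * s)] at h4
  rw [h1, h3, ← h4, ← h2]

end

end Vale.Agent.P297.ZU
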