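import Vale.Agent.P297.H600.ZUA

/-!
The general curve `v = μ r + ν s` is not degenerate, under explicit conditions on the parameters.
-/

set_option linter.unusedSectionVars false

open IntermediateField Polynomial

namespace Vale.Agent.P297.ZU

open Vale.Agent.P297 Vale.Agent.P297.H839 Vale.Agent.P297.H600 Vale.Agent.P297.H729
open Vale.Agent.P297.Gen Vale.Agent.P297.H72
open Vale.Agent.P297.Z42 (Cd quad_mem sq_mem quad_zero cd_cl0 cd_clo all2 ind2 notMem_cl0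
  notMem_cl0' cl0_empty_le notMem_empty not_both mul_ne)

section

variable {c1 c2 m1 m2 n a b g ε : ℂ}

/-- the discriminant is not identically zero, `n ≠ 0` -/
theorem disc_aux (cm : c1 * m2 - c2 * m1 ≠ 0) (hn : n ≠ 0)
    (h : b = ε * a → ¬ (c1 ^ 2 - 16 * ε * c2 ^ 2 = 4 * ε * (a ^ 2 - 4 * g ^ 2) ∧
      c1 * m1 = 16 * ε * (c2 * m2) ∧
      m1 ^ 2 - 16 * ε * m2 ^ 2 = -4 * n ^ 2 * (c1 ^ 2 - 16 * ε * c2 ^ 2)))
    (hF : ∀ w : ℂ, ((c1 * (w ^ 2 + n ^ 2) - m1 * w) ^ 2 -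
      16 * ε * (c2 * (w ^ 2 + n ^ 2) - m2 * w) ^ 2 +
      (16 * ε * g ^ 2 - 4 * a * b) * (w ^ 2 - n ^ 2) ^ 2) ^ 2 +
      64 * (b - ε * a) ^ 2 * (w ^ 2 - n ^ 2) ^ 2 * ((c2 * (w ^ 2 + n ^ 2) - m2 * w) ^ 2 -
      g ^ 2 * (w ^ 2 - n ^ 2) ^ 2) = 0) : False := by
  have h1 : (2 * n * c1 - m1) ^ 2 = 16 * ε * (2 * n * c2 - m2) ^ 2 := by
    have h2 := hF n
    have h3 : n ^ 4 * ((2 * n * c1 - m1) ^ 2 - 16 * ε * (2 * n * c2 - m2) ^ 2) ^ 2 = 0 := by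
      linear_combination h2
    exact sub_eq_zero.1 (pow_eq_zero_iff two_ne_zero |>.1
      ((mul_eq_zero.1 h3).resolve_left (pow_ne_zero 4 hn)))
  have h1' : (2 * n * c1 + m1) ^ 2 = 16 * ε * (2 * n * c2 + m2) ^ 2 := by
    have h2 := hF (-n)
    have h3 : n ^ 4 * ((2 * n * c1 + m1) ^ 2 - 16 * ε * (2 * n * c2 + m2) ^ 2) ^ 2 = 0 := by
      linear_combination h2
    exact sub_eq_zero.1 (pow_eq_zero_iff two_ne_zero |>.1
      ((mul_eq_zero.1 h3).resolve_left (pow_ne_zero 4 hn)))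
  have H1 : c1 * m1 = 16 * ε * (c2 * m2) := by
    have h3 : n * (c1 * m1 - 16 * ε * (c2 * m2)) = 0 := by linear_combination (h1' - h1) / 8
    exact sub_eq_zero.1 ((mul_eq_zero.1 h3).resolve_left hn)
  have H2 : m1 ^ 2 - 16 * ε * m2 ^ 2 = -4 * n ^ 2 * (c1 ^ 2 - 16 * ε * c2 ^ 2) := by
    linear_combination (h1' + h1) / 2
  set D := c1 ^ 2 - 16 * ε * c2 ^ 2 with hD
  set k := 16 * ε * g ^ 2 - 4 * a * b with hk
  set θ := b - ε * a with hθ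
  have K0 : (D + k) ^ 2 = -64 * θ ^ 2 * (c2 ^ 2 - g ^ 2) := by
    have h2 := hF 0
    have h3 : n ^ 8 * ((D + k) ^ 2 + 64 * θ ^ 2 * (c2 ^ 2 - g ^ 2)) = 0 := by
      rw [hD]
      linear_combination h2
    linear_combination (mul_eq_zero.1 h3).resolve_left (pow_ne_zero 8 hn)
  have K2 : θ ^ 2 * ((c2 * n - m2) * (4 * c2 * n - m2)) = 0 := by
    have h2 := hF (2 * n)
    have hP : (c1 * ((2 * n) ^ 2 + n ^ 2) - m1 * (2 * n)) ^ 2 =
        16 * ε * (c2 * ((2 * n) ^ 2 + n ^ 2) - m2 * (2 * n)) ^ 2 + 9 * n ^ 4 * D := by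
      rw [hD]
      linear_combination 4 * n ^ 2 * H2 - 20 * n ^ 3 * H1
    rw [hP] at h2
    have h3 : n ^ 6 * (θ ^ 2 * ((c2 * n - m2) * (4 * c2 * n - m2))) = 0 := by
      linear_combination (h2 - 81 * n ^ 8 * K0) / 2304
    exact (mul_eq_zero.1 h3).resolve_left (pow_ne_zero 6 hn)
  have K3 : θ ^ 2 * ((2 * c2 * n - 3 * m2) * (6 * c2 * n - m2)) = 0 := by
    have h2 := hF (3 * n)
    have hP : (c1 * ((3 * n) ^ 2 + n ^ 2) - m1 * (3 * n)) ^ 2 =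
        16 * ε * (c2 * ((3 * n) ^ 2 + n ^ 2) - m2 * (3 * n)) ^ 2 + 64 * n ^ 4 * D := by
      rw [hD]
      linear_combination 9 * n ^ 2 * H2 - 60 * n ^ 3 * H1
    rw [hP] at h2
    have h3 : n ^ 6 * (θ ^ 2 * ((2 * c2 * n - 3 * m2) * (6 * c2 * n - m2))) = 0 := by
      linear_combination (h2 - 4096 * n ^ 8 * K0) / 12288
    exact (mul_eq_zero.1 h3).resolve_left (pow_ne_zero 6 hn)
  by_cases hb : θ = 0
  · rw [hb] at K0
    have h3 : (D + k) ^ 2 = 0 := by linear_combination K0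
    have h4 := pow_eq_zero_iff two_ne_zero |>.1 h3
    have h5 : b = ε * a := by linear_combination hb
    refine h h5 ⟨?_, H1, H2⟩
    rw [hk, h5] at h4
    linear_combination h4
  · have hb2 := pow_ne_zero 2 hb
    have K2' := (mul_eq_zero.1 K2).resolve_left hb2
    have K3' := (mul_eq_zero.1 K3).resolve_left hb2
    have hc : c2 = 0 ∧ m2 = 0 := by
      rcases mul_eq_zero.1 K2' with h5 | h5
      · have h6 : m2 = c2 * n := by linear_combination -h5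
        rw [h6] at K3'
        have h7 : (c2 * n) ^ 2 = 0 := by linear_combination -K3' / 5
        have h8 := (mul_eq_zero.1 (pow_eq_zero_iff two_ne_zero |>.1 h7)).resolve_right hn
        exact ⟨h8, by rw [h6, h8, zero_mul]⟩
      · have h6 : m2 = 4 * (c2 * n) := by linear_combination -h5
        rw [h6] at K3'
        have h7 : (c2 * n) ^ 2 = 0 := by linear_combination -K3' / 20
        have h8 := (mul_eq_zero.1 (pow_eq_zero_iff two_ne_zero |>.1 h7)).resolve_right hn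
        exact ⟨h8, by rw [h6, h8, zero_mul, mul_zero]⟩
    apply cm
    rw [hc.1, hc.2]
    ring

/-- the discriminant is not identically zero, `n = 0` -/
theorem disc_aux0 (cm : c1 * m2 - c2 * m1 ≠ 0) (h3 : b = -(ε * a) → ε ≠ 0)
    (h : ¬ (g = 0 ∧ b = -(ε * a) ∧ m1 ^ 2 = 16 * ε * m2 ^ 2 ∧
      (c1 ^ 2 + 16 * ε * c2 ^ 2 + 4 * ε * a ^ 2) * m2 = 2 * c1 * c2 * m1))
    (hF : ∀ w : ℂ, ((c1 * (w ^ 2 + 0 ^ 2) - m1 * w) ^ 2 -
      16 * ε * (c2 * (w ^ 2 + 0 ^ 2) - m2 * w) ^ 2 +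
      (16 * ε * g ^ 2 - 4 * a * b) * (w ^ 2 - 0 ^ 2) ^ 2) ^ 2 +
      64 * (b - ε * a) ^ 2 * (w ^ 2 - 0 ^ 2) ^ 2 * ((c2 * (w ^ 2 + 0 ^ 2) - m2 * w) ^ 2 -
      g ^ 2 * (w ^ 2 - 0 ^ 2) ^ 2) = 0) : False := by
  have hG : ∀ w : ℂ, w ≠ 0 → ((c1 * w - m1) ^ 2 - 16 * ε * (c2 * w - m2) ^ 2 +
      (16 * ε * g ^ 2 - 4 * a * b) * w ^ 2) ^ 2 +
      64 * (b - ε * a) ^ 2 * w ^ 2 * ((c2 * w - m2) ^ 2 - g ^ 2 * w ^ 2) = 0 := by
    intro w hw
    apply (mul_eq_zero.1 (?_ : w ^ 4 * _ = 0)).resolve_left (pow_ne_zero 4 hw)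
    linear_combination hF w
  obtain ⟨a0, ha0⟩ : ∃ a0, a0 = m1 ^ 2 - 16 * ε * m2 ^ 2 := ⟨_, rfl⟩
  obtain ⟨a1, ha1⟩ : ∃ a1, a1 = -2 * (c1 * m1 - 16 * ε * (c2 * m2)) := ⟨_, rfl⟩
  obtain ⟨a2, ha2⟩ : ∃ a2, a2 = c1 ^ 2 - 16 * ε * c2 ^ 2 + (16 * ε * g ^ 2 - 4 * a * b) :=
    ⟨_, rfl⟩
  have hz : a0 = 0 := by
    have h4 : a0 ^ 2 = 0 := by
      rw [ha0]
      linear_combination hG 1 one_ne_zero + hG (-1) (neg_ne_zero.2 one_ne_zero) / 2 -
        hG 2 two_ne_zero / 2 - hG (-2) (neg_ne_zero.2 two_ne_zero) / 10 +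
        hG 3 three_ne_zero / 10
    exact pow_eq_zero_iff two_ne_zero |>.1 h4
  rw [ha0] at hz
  obtain ⟨θ, hθ⟩ : ∃ θ, θ = b - ε * a := ⟨_, rfl⟩
  have hH : ∀ w : ℂ, w ≠ 0 → (a2 * w + a1) ^ 2 +
      64 * θ ^ 2 * ((c2 * w - m2) ^ 2 - g ^ 2 * w ^ 2) = 0 := by
    intro w hw
    apply (mul_eq_zero.1 (?_ : w ^ 2 * _ = 0)).resolve_left (pow_ne_zero 2 hw)
    rw [ha2, ha1, hθ]
    linear_combination hG w hw - ((c1 * w - m1) ^ 2 - 16 * ε * (c2 * w - m2) ^ 2 +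
      (16 * ε * g ^ 2 - 4 * a * b) * w ^ 2 + (c1 ^ 2 - 16 * ε * c2 ^ 2 +
      (16 * ε * g ^ 2 - 4 * a * b)) * w ^ 2 - 2 * (c1 * m1 - 16 * ε * (c2 * m2)) * w) * hz
  have f1 := hH 1 one_ne_zero
  have f2 := hH (-1) (neg_ne_zero.2 one_ne_zero)
  have f3 := hH 2 two_ne_zero
  have e1 : a1 * a2 = 64 * θ ^ 2 * (c2 * m2) := by linear_combination (f1 - f2) / 4
  have e2 : a2 ^ 2 = -64 * θ ^ 2 * (c2 ^ 2 - g ^ 2) := by
    linear_combination (f3 - (f1 - f2) - (f1 + f2) / 2) / 3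
  have e0 : a1 ^ 2 = -64 * θ ^ 2 * m2 ^ 2 := by
    linear_combination (f1 + f2) / 2 - (f3 - (f1 - f2) - (f1 + f2) / 2) / 3
  have hm2 : m2 ≠ 0 := by
    rintro rfl
    apply cm
    have h4 : m1 = 0 := pow_eq_zero_iff two_ne_zero |>.1 (by linear_combination hz)
    rw [h4]
    ring
  by_cases ht : θ = 0
  · rw [ht] at e0
    have h4 : a1 = 0 := pow_eq_zero_iff two_ne_zero |>.1 (by linear_combination e0)
    rw [ha1] at h4
    have h5 : m1 * (c1 * m2 - c2 * m1) = 0 := by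
      linear_combination -(m2 / 2) * h4 - c2 * hz
    have h6 : m1 = 0 := (mul_eq_zero.1 h5).resolve_right cm
    rw [h6] at hz
    have h7 : ε * m2 ^ 2 = 0 := by linear_combination -hz / 16
    have h8 : ε = 0 := (mul_eq_zero.1 h7).resolve_right (pow_ne_zero 2 hm2)
    refine h3 ?_ h8
    rw [h8]
    rw [ht, h8] at hθ
    linear_combination -hθ
  · have hg : g = 0 := by
      have h4 : (θ ^ 2 * m2 * g) ^ 2 = 0 := by
        linear_combination -((a1 * a2 + 64 * θ ^ 2 * (c2 * m2)) * e1 - a2 ^ 2 * e0 +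
          64 * θ ^ 2 * m2 ^ 2 * e2) / 4096
      have h5 := pow_eq_zero_iff two_ne_zero |>.1 h4
      exact (mul_eq_zero.1 h5).resolve_left (mul_ne_zero (pow_ne_zero 2 ht) hm2)
    have ha1' : a1 ≠ 0 := by
      rintro rfl
      have h4 : (θ * m2) ^ 2 = 0 := by linear_combination e0 / 64
      exact (mul_ne_zero ht hm2) (pow_eq_zero_iff two_ne_zero |>.1 h4)
    have h5 : a2 * m2 = -a1 * c2 := by
      apply mul_left_cancel₀ ha1'
      linear_combination m2 * e1 + c2 * e0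
    rw [ha2, ha1, hg] at h5
    have h6 : (c1 ^ 2 + 16 * ε * c2 ^ 2 - 4 * a * b) * m2 = 2 * c1 * c2 * m1 := by
      linear_combination h5
    have h7 : (c1 * m2 - c2 * m1) ^ 2 = 4 * a * b * m2 ^ 2 := by
      linear_combination m2 * h6 + c2 ^ 2 * hz
    rw [ha1] at e0
    have h8 : m2 ^ 4 * (b + ε * a) ^ 2 = 0 := by
      rw [hθ] at e0
      linear_combination m2 ^ 2 / 64 * e0 - c2 * ((c1 * m1 - 16 * ε * (c2 * m2)) * m2 +
        m1 * (c1 * m2 - c2 * m1)) / 16 * hz - m1 ^ 2 / 16 * h7 - a * b * m2 ^ 2 / 4 * hz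
    have h9 : b = -(ε * a) := by
      have h10 := (mul_eq_zero.1 h8).resolve_left (pow_ne_zero 4 hm2)
      exact eq_neg_of_add_eq_zero_left (pow_eq_zero_iff two_ne_zero |>.1 h10)
    refine h ⟨hg, h9, by linear_combination hz, ?_⟩
    rw [h9] at h6
    linear_combination h6

end

end Vale.Agent.P297.ZU
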