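import Vale.Agent.P297.H600.ZUFlow

/-!
The homotopy along a conic, and the difference of a point and its translate by a point of order
two.
-/

set_option linter.unusedSectionVars false

open IntermediateField Polynomial

namespace Vale.Agent.P297.ZU

open Vale.Agent.P297 Vale.Agent.P297.H839 Vale.Agent.P297.H600 Vale.Agent.P297.H729
open Vale.Agent.P297.Gen Vale.Agent.P297.H72
open Vale.Agent.P297.Z42 (Cd quad_mem sq_mem quad_zero cd_cl0 cd_clo all2 ind2 notMem_cl0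
  notMem_cl0' cl0_empty_le notMem_empty not_both mul_ne)

section

variable {N : Type} [Field N] [Algebra ℂ N] {p : Fin 9 → ℂ}

theorem amp_mem (M : IntermediateField ℂ N) (i : Fin 9) : amp N p i ∈ M := M.algebraMap_mem _

theorem k0_mem {M : IntermediateField ℂ N} {μ ν : N} (h : μ ∈ M) (h' : ν ∈ M) :
    k0 (amp N p) μ ν ∈ M := mul_mem (sub_mem (pow_mem h 2) (pow_mem h' 2)) (amp_mem M 5)

theorem k1_mem {M : IntermediateField ℂ N} {μ ν : N} (h : μ ∈ M) (h' : ν ∈ M) :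
    k1 (amp N p) μ ν ∈ M :=
  sub_mem (mul_mem (add_mem (pow_mem h 2) (pow_mem h' 2)) (amp_mem M 0)) (amp_mem M 2)

theorem k2_mem {M : IntermediateField ℂ N} {μ ν : N} (h : μ ∈ M) (h' : ν ∈ M) :
    k2 (amp N p) μ ν ∈ M := mul_mem (sub_mem (pow_mem h 2) (pow_mem h' 2)) (amp_mem M 6)

theorem l1_mem {M : IntermediateField ℂ N} {μ ν : N} (h : μ ∈ M) (h' : ν ∈ M) :
    l1 (amp N p) μ ν ∈ M :=
  add_mem (sub_mem (mul_mem (add_mem (pow_mem h 2) (pow_mem h' 2)) (amp_mem M 1)) (amp_mem M 3))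
    (mul_mem (sub_mem (pow_mem h 2) (pow_mem h' 2)) (amp_mem M 7))

theorem l2_mem {M : IntermediateField ℂ N} {μ ν : N} (h : μ ∈ M) (h' : ν ∈ M) :
    l2 (amp N p) μ ν ∈ M :=
  add_mem (neg_mem (sub_mem (mul_mem (add_mem (pow_mem h 2) (pow_mem h' 2)) (amp_mem M 1))
    (amp_mem M 3))) (mul_mem (sub_mem (pow_mem h 2) (pow_mem h' 2)) (amp_mem M 7))

theorem HE.eqn {μ ν x y q r s : N} (h : HE p μ ν x y q r s) :
    k0 (amp N p) μ ν + k1 (amp N p) μ ν * q + k2 (amp N p) μ ν * q ^ 2 +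
      l1 (amp N p) μ ν * x ^ 2 + l2 (amp N p) μ ν * y ^ 2 = 0 := by
  rw [n_eq]
  exact h.on

end

section

variable {K E N : Type} [Field K] [Algebra ℂ K] [Field E] [Algebra ℂ E] [Field N] [Algebra ℂ N]
  {p : Fin 9 → ℂ} {e : Fin 6 → E} {ι : K →ₐ[ℂ] E} [IsAlgClosed N]

theorem HE.scale {μ ν x y q r s ε : N} (h : HE p μ ν x y q r s) (hε : ε = 1 ∨ ε = -1) :
    HE p μ ν (ε * x) (ε * y) q r s := by
  rcases hε with rfl | rfl
  · rw [one_mul, one_mul]
    exact h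
  · rw [neg_one_mul, neg_one_mul]
    exact h.neg_xy

/-- **The homotopy.** -/
theorem flow1 (h : IsE p e) (hs : Sym e ι) (h2 : Algebra.trdeg ℂ N = 2)
    {κ μ ν x y q r s r₃ s₃ ρ t₀ : N} (hE : HE p μ ν x y q r s)
    (hE₃ : HE p μ ν (ρ * y) (x / ρ) q r₃ s₃)
    (hμF : μ ∈ cl0 {κ}) (hνF : ν ∈ cl0 {κ})
    (hρ0 : ρ ≠ 0) (hρ : ρ ^ 2 * l1 (amp N p) μ ν = l2 (amp N p) μ ν) (hρF : ρ ∈ cl0 {κ})
    (ht₀ : t₀ ∈ cl0 {κ})
    (hroot : (k2 (amp N p) μ ν + 2 * ρ * amp N p 8 * l1 (amp N p) μ ν) * t₀ ^ 2 +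
      k1 (amp N p) μ ν * t₀ + (k0 (amp N p) μ ν - 2 * ρ * l1 (amp N p) μ ν) = 0)
    (hd : 2 * (k2 (amp N p) μ ν + 2 * ρ * amp N p 8 * l1 (amp N p) μ ν) * t₀ +
      k1 (amp N p) μ ν ≠ 0)
    (h20 : l1 (amp N p) μ ν ≠ 0) {m : ℤ} :
    (Th e ι μ ν x y q r s + Th e ι μ ν (ρ * y) (x / ρ) q r₃ s₃) -
      (Th e ι μ ν (-x) (-y) q r s + Th e ι μ ν (-(ρ * y)) (-(x / ρ)) q r₃ s₃) ∈ Rel m K N := by
  set F : IntermediateField ℂ N := cl0 {κ} with hF
  have hFc : Cd F := cd_cl0 _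
  have hx0 : x ≠ 0 := (ind_ne hE.ind).1
  have ml1 : l1 (amp N p) μ ν ∈ F := l1_mem hμF hνF
  have mk1 : k1 (amp N p) μ ν ∈ F := k1_mem hμF hνF
  have mk2 : k2 (amp N p) μ ν ∈ F := k2_mem hμF hνF
  have mε : amp N p 8 ∈ F := amp_mem F 8
  have heq := hE.eqn
  have hxy1 := hE.eq
  set L₁ := l1 (amp N p) μ ν with hL1
  set L₂ := l2 (amp N p) μ ν with hL2
  set K₀ := k0 (amp N p) μ ν with hK0
  set K₁ := k1 (amp N p) μ ν with hK1
  set K₂ := k2 (amp N p) μ ν with hK2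
  have m2 : (2 : N) ∈ F := by
    rw [show (2 : N) = 1 + 1 by norm_num]
    exact add_mem (one_mem _) (one_mem _)
  obtain ⟨a, ha⟩ : ∃ a, a = K₂ + 2 * ρ * amp N p 8 * L₁ := ⟨_, rfl⟩
  obtain ⟨d, hdd⟩ : ∃ d, d = 2 * a * t₀ + K₁ := ⟨_, rfl⟩
  rw [← ha] at hroot hd
  rw [← hdd] at hd
  have ma : a ∈ F := by
    rw [ha]
    exact add_mem mk2 (mul_mem (mul_mem (mul_mem m2 hρF) mε) ml1)
  have md : d ∈ F := by
    rw [hdd]
    exact add_mem (mul_mem (mul_mem m2 ma) ht₀) mk1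
  obtain ⟨f, hf⟩ : ∃ f, f = x + ρ * y := ⟨_, rfl⟩
  have hcon : L₁ * f ^ 2 + (q - t₀) * (a * (q - t₀) + d) = 0 := by
    rw [hf, hdd]
    linear_combination heq + y ^ 2 * hρ + 2 * ρ * L₁ * hxy1 - hroot + (q ^ 2) * ha
  -- `q` and `f` are not both in `F`
  have hxy : ∀ M : IntermediateField ℂ N, Cd M → F ≤ M → q ∈ M → f ∈ M → x ∈ M := by
    intro M hM hFM h3 h4
    refine quad_mem hM (neg_mem h4) (mul_mem (hFM hρF)
      (sub_mem (one_mem _) (mul_mem (hFM mε) (pow_mem h3 2)))) ?_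
    rw [hf]
    linear_combination ρ * (-hxy1)
  have hcontra : q ∈ F → f ∈ F → False := by
    intro h3 h4
    exact not_both hE.ind (hxy F hFc le_rfl h3 h4) h3
  have hkk : q - t₀ ≠ 0 := by
    intro h3
    have h4 : q ∈ F := by
      rw [sub_eq_zero.1 h3]
      exact ht₀
    apply hcontra h4
    have h5 : L₁ * f ^ 2 = 0 := by
      rw [h3] at hcon
      linear_combination hcon
    have h6 : f = 0 := by
      rcases mul_eq_zero.1 h5 with h7 | h7
      · exact absurd h7 h20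
      · exact pow_eq_zero_iff two_ne_zero |>.1 h7
    rw [h6]
    exact zero_mem F
  obtain ⟨t, ht⟩ : ∃ t, t = f / (q - t₀) := ⟨_, rfl⟩
  have ht1 : t * (q - t₀) = f := by
    rw [ht, div_mul_cancel₀ _ hkk]
  have ht2 : (q - t₀) * (L₁ * t ^ 2 + a) = -d := by
    apply mul_left_cancel₀ hkk
    rw [← ht1] at hcon
    linear_combination hcon
  have hD : L₁ * t ^ 2 + a ≠ 0 := by
    intro h0
    rw [h0, mul_zero] at ht2
    exact hd (neg_eq_zero.1 ht2.symm)
  have hkform : q = t₀ + -d / (L₁ * t ^ 2 + a) := by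
    rw [← ht2, mul_div_assoc, div_self hD]
    ring
  have hkf : ∀ M : IntermediateField ℂ N, F ≤ M → t ∈ M → q ∈ M ∧ f ∈ M := by
    intro M hFM htM
    have h3 : q ∈ M := by
      rw [hkform]
      exact add_mem (hFM ht₀) (div_mem (neg_mem (hFM md))
        (add_mem (mul_mem (hFM ml1) (pow_mem htM 2)) (hFM ma)))
    refine ⟨h3, ?_⟩
    rw [← ht1]
    exact mul_mem htM (sub_mem h3 (hFM ht₀))
  have htF : t ∉ F := by
    intro h3
    obtain ⟨h4, h5⟩ := hkf F le_rfl h3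
    exact hcontra h4 h5
  have htt : Transcendental F t := fun h3 => htF (hFc t h3)
  have htt' : Transcendental F (-t) := by
    intro h3
    apply htF
    have h4 := neg_mem (hFc _ h3)
    rwa [neg_neg] at h4
  have hall : ∀ t' : N, t ∈ clo F {t'} → ∀ z : N,
      IsAlgebraic (IntermediateField.adjoin F {t'}) z := by
    intro t' ht' z
    rw [← mem_clo]
    obtain ⟨h4, h5⟩ := hkf _ (le_clo F {t'}) ht'
    have h6 := hxy _ (cd_clo _ _) (le_clo F {t'}) h4 h5
    refine cl0_le (cd_clo _ _) ?_ (all2 h2 hE.ind z)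
    rintro w (rfl | rfl)
    · exact h6
    · exact h4
  have hall1 := hall t (subset_clo _ _ rfl)
  have hall2 := hall (-t) (by
    have h4 := neg_mem (subset_clo F {-t} rfl)
    rwa [neg_neg] at h4)
  -- the action of automorphisms
  have key : ∀ ε : N, (ε = 1 ∨ ε = -1) → ∀ g : N ≃ₐ[ℂ] N, (∀ z ∈ F, g z = z) → g t = ε * t →
      act g.toAlgHom (Th e ι μ ν x y q r s + Th e ι μ ν (ρ * y) (x / ρ) q r₃ s₃) =
        Th e ι μ ν (ε * x) (ε * y) q r s +
          Th e ι μ ν (ε * (ρ * y)) (ε * (x / ρ)) q r₃ s₃ := by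
    intro ε hε g hg hgt
    have hε2 : ε ^ 2 = 1 := by
      rcases hε with rfl | rfl
      · ring
      · ring
    have hgq : g q = q := by
      have h3 := congrArg g ht2
      rw [map_mul, map_sub, map_add, map_mul, map_pow, map_neg, hg _ ml1, hg _ ma, hg _ ht₀,
        hg _ md, hgt, mul_pow, hε2, one_mul] at h3
      have h4 : (g q - q) * (L₁ * t ^ 2 + a) = 0 := by linear_combination h3 - ht2
      exact sub_eq_zero.1 ((mul_eq_zero.1 h4).resolve_right hD)
    have hgf : g f = ε * f := by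
      rw [← ht1, map_mul, map_sub, hgt, hgq, hg _ ht₀]
      ring
    have hgρ : g ρ = ρ := hg _ hρF
    have hgμ : g μ = μ := hg _ hμF
    have hgν : g ν = ν := hg _ hνF
    have hgk' : g x * g y = x * y := by
      have h3 := congrArg g hxy1
      rw [map_mul, map_sub, map_mul, map_pow, map_one, hg _ mε, hgq] at h3
      rw [h3, hxy1]
    have hgf' : g x + ρ * g y = ε * (x + ρ * y) := by
      have h3 := hgf
      rw [hf, map_add, map_mul, hgρ] at h3
      exact h3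
    have h5 : (g x - ε * x) * (g x - ε * (ρ * y)) = 0 := by
      linear_combination (g x) * hgf' - ρ * hgk' + (ρ * x * y) * hε2
    rw [map_add, act_Th h, act_Th h]
    have m1 := hE.map g
    have m3 := hE₃.map g
    rw [hgμ, hgν, hgq] at m1 m3 ⊢
    rcases mul_eq_zero.1 h5 with h6 | h6
    · have h7 : g x = ε * x := sub_eq_zero.1 h6
      have h8 : g y = ε * y := by
        apply mul_left_cancel₀ hρ0
        linear_combination hgf' - h7
      have h9 : g (ρ * y) = ε * (ρ * y) := by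
        rw [map_mul, hgρ, h8]
        ring
      have h10 : g (x / ρ) = ε * (x / ρ) := by
        rw [map_div₀, hgρ, h7]
        ring
      rw [h7, h8] at m1 ⊢
      rw [h9, h10] at m3 ⊢
      rw [Th_indep h hs (hE.scale hε) m1, Th_indep h hs (hE₃.scale hε) m3]
    · have h7 : g x = ε * (ρ * y) := sub_eq_zero.1 h6
      have h8 : g y = ε * (x / ρ) := by
        apply mul_left_cancel₀ hρ0
        have h9 : ρ * (ε * (x / ρ)) = ε * x := by
          field_simp
        rw [h9]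
        linear_combination hgf' - h7
      have h9 : g (ρ * y) = ε * x := by
        rw [map_mul, hgρ, h8]
        field_simp
      have h10 : g (x / ρ) = ε * y := by
        rw [map_div₀, hgρ, h7]
        field_simp
      rw [h7, h8] at m1 ⊢
      rw [h9, h10] at m3 ⊢
      rw [Th_indep h hs (hE₃.scale hε) m1, Th_indep h hs (hE.scale hε) m3, add_comm]
  obtain ⟨g₀, hg₀⟩ := exists_move F htt htt' hall1 hall2
  have hom := H521.homotopy F htt ⟨hall1⟩
    (Th e ι μ ν x y q r s + Th e ι μ ν (ρ * y) (x / ρ) q r₃ s₃) (by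
      intro g hg hgt
      have h3 := key 1 (Or.inl rfl) g hg (by rw [hgt, one_mul])
      rw [one_mul, one_mul, one_mul, one_mul] at h3
      exact h3) (AlgHom.id ℂ N) (g₀.restrictScalars ℂ).toAlgHom (by
      intro z hz
      exact (g₀.commutes ⟨z, hz⟩).symm) (m := m)
  have h3 := key (-1) (Or.inr rfl) (g₀.restrictScalars ℂ) (fun z hz => g₀.commutes ⟨z, hz⟩) (by
    rw [neg_one_mul]
    exact hg₀)
  rw [neg_one_mul, neg_one_mul, neg_one_mul, neg_one_mul] at h3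
  have h4 : Finsupp.mapDomain (fun φ : K →ₐ[ℂ] N => (AlgHom.id ℂ N).comp φ)
      (Th e ι μ ν x y q r s + Th e ι μ ν (ρ * y) (x / ρ) q r₃ s₃) =
      Th e ι μ ν x y q r s + Th e ι μ ν (ρ * y) (x / ρ) q r₃ s₃ := Finsupp.mapDomain_id
  rw [h4] at hom
  rw [← h3]
  exact hom

end

end Vale.Agent.P297.ZU
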