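import Vale.Agent.P297.H521.Homot
import Vale.Agent.P297.H637.T8Poly
import Vale.Agent.P297.H600.Z42Deg

/-!
Points of the universal cover of a numerical Campedelli surface with fundamental group
`ℤ/4 × ℤ/2` (uniform model) with values in a field, and the embeddings of the function field.
-/

set_option linter.unusedSectionVars false

open IntermediateField Polynomial

namespace Vale.Agent.P297.ZU

open Vale.Agent.P297 Vale.Agent.P297.H839 Vale.Agent.P297.H600 Vale.Agent.P297.H729
open Vale.Agent.P297.Gen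

section

variable {R : Type} [CommRing R]

/-- `T = c₁ q + c₂ (x² - y²)`; parameters `(c₁, c₂, m₁, m₂, n, α, β, γ, ε)` -/
def eT (p : Fin 9 → R) (x y q : R) : R := p 0 * q + p 1 * (x ^ 2 - y ^ 2)

/-- `M` -/
def eM (p : Fin 9 → R) (x y q : R) : R := p 2 * q + p 3 * (x ^ 2 - y ^ 2)

/-- `A` -/
def eA (p : Fin 9 → R) (x y q : R) : R := p 5 + p 6 * q ^ 2 + p 7 * (x ^ 2 + y ^ 2)

/-- the equations `x y = 1 - ε q²`, `r² = T + A`, `s² = T - A`, `v² = M + 2 n r s` -/
structure OnX (p : Fin 9 → R) (x y q r s v : R) : Prop where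
  eq : x * y = 1 - p 8 * q ^ 2
  er : r ^ 2 = eT p x y q + eA p x y q
  es : s ^ 2 = eT p x y q - eA p x y q
  ev : v ^ 2 = eM p x y q + 2 * p 4 * (r * s)

end

section

variable {E N : Type} [Field E] [Algebra ℂ E] [Field N] [Algebra ℂ N] {p : Fin 9 → ℂ}

/-- the parameters in a field -/
abbrev amp (N : Type) [Field N] [Algebra ℂ N] (p : Fin 9 → ℂ) : Fin 9 → N :=
  fun i => algebraMap ℂ N (p i)

/-- generic points -/
structure GP (p : Fin 9 → ℂ) (ξ : Fin 6 → N) : Prop where
  ind : AlgebraicIndependent ℂ ![ξ 0, ξ 2]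
  on : OnX (amp N p) (ξ 0) (ξ 1) (ξ 2) (ξ 3) (ξ 4) (ξ 5)

/-- the function field of the surface -/
structure IsE (p : Fin 9 → ℂ) (e : Fin 6 → E) : Prop where
  gp : GP p e
  top : IntermediateField.adjoin ℂ (Set.range e) = ⊤
  fin : Module.finrank (IntermediateField.adjoin ℂ (Set.range ![e 0, e 2])) E = 8

theorem map_eT (g : E →ₐ[ℂ] N) (x y q : E) :
    g (eT (amp E p) x y q) = eT (amp N p) (g x) (g y) (g q) := by
  simp only [eT, amp, map_add, map_sub, map_mul, map_pow, AlgHom.commutes]

theorem map_eM (g : E →ₐ[ℂ] N) (x y q : E) :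
    g (eM (amp E p) x y q) = eM (amp N p) (g x) (g y) (g q) := by
  simp only [eM, amp, map_add, map_sub, map_mul, map_pow, AlgHom.commutes]

theorem map_eA (g : E →ₐ[ℂ] N) (x y q : E) :
    g (eA (amp E p) x y q) = eA (amp N p) (g x) (g y) (g q) := by
  simp only [eA, amp, map_add, map_mul, map_pow, AlgHom.commutes]

theorem OnX.map {x y q r s v : E} (h : OnX (amp E p) x y q r s v) (g : E →ₐ[ℂ] N) :
    OnX (amp N p) (g x) (g y) (g q) (g r) (g s) (g v) := by
  refine ⟨?_, ?_, ?_, ?_⟩
  · rw [← map_mul, h.eq, map_sub, map_mul, map_pow, map_one]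
    simp only [amp, AlgHom.commutes]
  · rw [← map_pow, h.er, map_add, map_eT, map_eA]
  · rw [← map_pow, h.es, map_sub, map_eT, map_eA]
  · rw [← map_pow, h.ev, map_add, map_eM, map_mul, map_mul, map_mul, map_ofNat]
    simp only [amp, AlgHom.commutes]

theorem GP.map {ξ : Fin 6 → E} (h : GP p ξ) (g : E →ₐ[ℂ] N) : GP p (fun i => g (ξ i)) := by
  refine ⟨?_, h.on.map g⟩
  have h1 : ![g (ξ 0), g (ξ 2)] = g ∘ ![ξ 0, ξ 2] := by
    funext i
    fin_cases i <;> rfl
  rw [h1]
  exact h.ind.map' g.toRingHom.injective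

theorem ind_ne {x y : N} (h : AlgebraicIndependent ℂ ![x, y]) : x ≠ 0 ∧ y ≠ 0 := by
  constructor
  · rintro rfl
    exact h.transcendental 0 (by simp [isAlgebraic_zero])
  · rintro rfl
    exact h.transcendental 1 (by simp [isAlgebraic_zero])

/-- an embedding is determined by the values on the generators -/
theorem IsE.ext {e : Fin 6 → E} (h : IsE p e) {ψ ψ' : E →ₐ[ℂ] N}
    (hv : ∀ i, ψ (e i) = ψ' (e i)) : ψ = ψ' := by
  apply AlgHom.ext
  intro z
  have h2 : z ∈ IntermediateField.adjoin ℂ (Set.range e) := by rw [h.top]; trivial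
  induction h2 using IntermediateField.adjoin_induction with
  | mem x hx =>
    obtain ⟨i, rfl⟩ := hx
    exact hv i
  | algebraMap r => rw [AlgHom.commutes, AlgHom.commutes]
  | add x y _ _ h1 h2 => rw [map_add, map_add, h1, h2]
  | mul x y _ _ h1 h2 => rw [map_mul, map_mul, h1, h2]
  | inv x _ h1 => rw [map_inv₀, map_inv₀, h1]

/-- **Embeddings and points.** -/
theorem IsE.exists_emb [IsAlgClosed N] {e : Fin 6 → E} (h : IsE p e) {ξ : Fin 6 → N}
    (hξ : GP p ξ) : ∃ ψ : E →ₐ[ℂ] N, ∀ i, ψ (e i) = ξ i := by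
  classical
  have hc0 : CharZero N := charZero_of_injective_algebraMap (algebraMap ℂ N).injective
  set F : IntermediateField ℂ E := IntermediateField.adjoin ℂ (Set.range ![e 0, e 2]) with hF
  have : FiniteDimensional F E := FiniteDimensional.of_finrank_pos (by rw [h.fin]; norm_num)
  obtain ⟨φ, hφ, -⟩ := exists_hom_of_indep ![e 0, e 2] h.gp.ind ![ξ 0, ξ 2] hξ.ind
  -- an embedding with the right values at the first two generators
  obtain ⟨Θ, hΘ⟩ : ∃ Θ : E →ₐ[ℂ] N, Θ.comp F.val = φ := by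
    refine exists_extension F.val (fun y => ?_) φ
    have h1 : IsAlgebraic F y := Algebra.IsAlgebraic.isAlgebraic y
    obtain ⟨q, hq0, hq⟩ := h1
    refine isAlgebraic_of_coeff (p := q.map (algebraMap F E)) ?_ ?_ ?_
    · intro n
      rw [coeff_map]
      exact ⟨q.coeff n, rfl⟩
    · exact (Polynomial.map_ne_zero_iff (algebraMap F E).injective).2 hq0
    · rw [Polynomial.eval_map]
      exact hq
  have hval : ∀ (k : E) (hk : k ∈ F), Θ k = φ ⟨k, hk⟩ := fun k hk =>
    DFunLike.congr_fun hΘ ⟨k, hk⟩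
  have hm0 : e 0 ∈ F := IntermediateField.subset_adjoin _ _ ⟨0, rfl⟩
  have hm2 : e 2 ∈ F := IntermediateField.subset_adjoin _ _ ⟨1, rfl⟩
  have hΘ0 : Θ (e 0) = ξ 0 := (hval _ hm0).trans (hφ 0)
  have hΘ2 : Θ (e 2) = ξ 2 := (hval _ hm2).trans (hφ 1)
  obtain ⟨σ, hσinj, hσF, -⟩ := exists_extensions F h.fin (by norm_num) Θ
  have hσ0 : ∀ i, σ i (e 0) = ξ 0 := fun i => (hσF i _ hm0).trans hΘ0
  have hσ2 : ∀ i, σ i (e 2) = ξ 2 := fun i => (hσF i _ hm2).trans hΘ2
  have hx0 : ξ 0 ≠ 0 := (ind_ne hξ.ind).1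
  have hσ1 : ∀ i, σ i (e 1) = ξ 1 := by
    intro i
    have h1 := (h.gp.on.map (σ i)).eq
    rw [hσ0, hσ2, ← hξ.on.eq] at h1
    exact mul_left_cancel₀ hx0 h1
  obtain ⟨w, hw⟩ := IsAlgClosed.exists_pow_nat_eq
    (eM (amp N p) (ξ 0) (ξ 1) (ξ 2) - 2 * amp N p 4 * (ξ 3 * ξ 4)) (n := 2) (by norm_num)
  let sg : Bool → N := fun b => if b then 1 else -1
  let f : Bool × Bool × Bool → N × N × N := fun t =>
    (sg t.1 * ξ 3, sg t.2.1 * ξ 4, sg t.2.2 * (if t.1 = t.2.1 then ξ 5 else w))
  let τ : Fin 8 → N × N × N := fun i => (σ i (e 3), σ i (e 4), σ i (e 5))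
  have hτinj : Function.Injective τ := by
    intro i j hij
    simp only [τ, Prod.mk.injEq] at hij
    apply hσinj
    apply h.ext
    intro k
    fin_cases k
    · exact (hσ0 i).trans (hσ0 j).symm
    · exact (hσ1 i).trans (hσ1 j).symm
    · exact (hσ2 i).trans (hσ2 j).symm
    · exact hij.1
    · exact hij.2.1
    · exact hij.2.2
  have hsub : (Finset.univ.image τ) ⊆ (Finset.univ.image f) := by
    intro t ht
    obtain ⟨i, -, rfl⟩ := Finset.mem_image.1 ht
    have h1 := h.gp.on.map (σ i)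
    rw [hσ0, hσ1, hσ2] at h1
    have h2 : ∃ b : Bool, σ i (e 3) = sg b * ξ 3 := by
      have h3 : (σ i (e 3) - ξ 3) * (σ i (e 3) + ξ 3) = 0 := by
        linear_combination h1.er - hξ.on.er
      rcases mul_eq_zero.1 h3 with h4 | h4
      · exact ⟨true, by simp only [sg, if_true]; linear_combination h4⟩
      · exact ⟨false, by
          simp only [sg, Bool.false_eq_true, if_false]
          linear_combination h4⟩
    have h2' : ∃ b : Bool, σ i (e 4) = sg b * ξ 4 := by
      have h3 : (σ i (e 4) - ξ 4) * (σ i (e 4) + ξ 4) = 0 := by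
        linear_combination h1.es - hξ.on.es
      rcases mul_eq_zero.1 h3 with h4 | h4
      · exact ⟨true, by simp only [sg, if_true]; linear_combination h4⟩
      · exact ⟨false, by
          simp only [sg, Bool.false_eq_true, if_false]
          linear_combination h4⟩
    obtain ⟨b, hb⟩ := h2
    obtain ⟨b', hb'⟩ := h2'
    have h5 : ∃ b'' : Bool, σ i (e 5) = sg b'' * (if b = b' then ξ 5 else w) := by
      have h3 : (σ i (e 5) - (if b = b' then ξ 5 else w)) *
          (σ i (e 5) + (if b = b' then ξ 5 else w)) = 0 := by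
        have h4 := h1.ev
        rw [hb, hb'] at h4
        have h5 := hξ.on.ev
        cases b <;> cases b' <;> simp only [sg, Bool.false_eq_true, if_false, if_true,
          reduceCtorEq] at h4 ⊢
        · linear_combination h4 - h5
        · linear_combination h4 - hw
        · linear_combination h4 - hw
        · linear_combination h4 - h5
      rcases mul_eq_zero.1 h3 with h4 | h4
      · exact ⟨true, by simp only [sg, if_true]; linear_combination h4⟩
      · exact ⟨false, by
          simp only [sg, Bool.false_eq_true, if_false]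
          linear_combination h4⟩
    obtain ⟨b'', hb''⟩ := h5
    rw [Finset.mem_image]
    exact ⟨(b, b', b''), Finset.mem_univ _, by simp only [f, τ, hb, hb', hb'']⟩
  have hcard : (Finset.univ.image f).card ≤ (Finset.univ.image τ).card := by
    rw [Finset.card_image_of_injective _ hτinj, Finset.card_univ, Fintype.card_fin]
    refine Finset.card_image_le.trans ?_
    rw [Finset.card_univ]
    decide
  have heq := Finset.eq_of_subset_of_card_le hsub hcard
  have hmem : (ξ 3, ξ 4, ξ 5) ∈ Finset.univ.image τ := by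
    rw [heq, Finset.mem_image]
    exact ⟨(true, true, true), Finset.mem_univ _, by simp only [f, sg, if_true, one_mul]⟩
  obtain ⟨i, -, hi⟩ := Finset.mem_image.1 hmem
  simp only [τ, Prod.mk.injEq] at hi
  refine ⟨σ i, fun k => ?_⟩
  fin_cases k
  · exact hσ0 i
  · exact hσ1 i
  · exact hσ2 i
  · exact hi.1
  · exact hi.2.1
  · exact hi.2.2

end

end Vale.Agent.P297.ZU
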